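import Vale.Agent.P022K.QT.If
import Vale.Agent.P022K.F0.Aut

/-!
# P022K, block QT: cofinal forms of the Galois axioms, base change, weights and types (statements)
-/

set_option autoImplicit false

open scoped MatrixGroups TensorProduct

noncomputable section

namespace Vale.Agent.P022K.Sh

open Vale.Agent.P022 Vale.Agent.P022.H218.L3

variable {G0 G : Type} [Group G0] [Group G]

namespace Tw

variable {T : Tw G0 G}

namespace Ax

variable (A : T.Ax) (p : ℕ)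

/-- the Galois action on the classes modulo `p ^ k`; existence only for a cofinal set of levels -/
structure GC {H : Type} [Group H] [TopologicalSpace H] (th : H → (G → Mer) → G → Mer) :
    Prop where
  ex : ∀ U ∈ T.Nl, ∃ U' ∈ T.Nl, U' ≤ U ∧ ∀ k, ∀ a ∈ A.Ne (p ^ k) U',
    (∀ s, ∃ a', T.Ga (th s) (p ^ k) U' a a') ∧
    ∃ V : Subgroup H, IsOpen (V : Set H) ∧ ∀ s ∈ V, T.Ga (th s) (p ^ k) U' a a
  uq : ∀ U ∈ T.Nl, ∀ k s a a' a'', T.Ga (th s) (p ^ k) U a a' → T.Ga (th s) (p ^ k) U a a'' →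
    a' = a''
  add : ∀ U ∈ T.Nl, ∀ k s a a' b b', T.Ga (th s) (p ^ k) U a a' → T.Ga (th s) (p ^ k) U b b' →
    T.Ga (th s) (p ^ k) U (a + b) (a' + b')
  mul : ∀ U ∈ T.Nl, ∀ k s s' a a' a'', T.Ga (th s) (p ^ k) U a a' →
    T.Ga (th s') (p ^ k) U a' a'' → T.Ga (th (s' * s)) (p ^ k) U a a''
  cor : ∀ U ∈ T.Nl, ∀ U' ∈ T.Nl, ∀ Q (c : Cor U' Q U) k s a a', T.Ga (th s) (p ^ k) U a a' →
    T.Ga (th s) (p ^ k) U' (T.hN (p ^ k) c a) (T.hN (p ^ k) c a')
  up : ∀ U ∈ T.Nl, ∀ k s a a' b b' (l : ZMod (p ^ k) →+ ZMod (p ^ (k + 1))), l 1 = p →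
    T.IsCo U l a b → T.IsCo U l a' b' → T.Ga (th s) (p ^ k) U a a' →
    T.Ga (th s) (p ^ (k + 1)) U b b'

variable {A p} in
theorem GR.gc {H : Type} [Group H] [TopologicalSpace H] {th : H → (G → Mer) → G → Mer}
    (h : A.GR p th) : A.GC p th :=
  ⟨fun U hU => ⟨U, hU, le_rfl, fun k a ha => ⟨fun s => h.ex U hU k s a ha, h.opn U hU k a ha⟩⟩,
    h.uq, h.add, h.mul, h.cor, h.up⟩

variable {A p} in
theorem GC.comp {H H' : Type} [Group H] [TopologicalSpace H] [Group H'] [TopologicalSpace H']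
    {th : H → (G → Mer) → G → Mer} (h : A.GC p th) (f : H' →* H) (hf : Continuous f) :
    A.GC p fun s => th (f s) where
  ex U hU := by
    obtain ⟨U', h1, h2, h3⟩ := h.ex U hU
    refine ⟨U', h1, h2, fun k a ha => ⟨fun s => (h3 k a ha).1 _, ?_⟩⟩
    obtain ⟨V, h4, h5⟩ := (h3 k a ha).2
    exact ⟨V.comap f, h4.preimage hf, fun s hs => h5 _ hs⟩
  uq U hU k s := h.uq U hU k _
  add U hU k s := h.add U hU k _
  mul U hU k s s' := by simpa only [map_mul] using h.mul U hU k (f s) (f s')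
  cor U hU U' hU' Q c k s := h.cor U hU U' hU' Q c k _
  up U hU k s := h.up U hU k _

variable {O K : Type} [CommRing O] [IsDomain O] [IsDiscreteValuationRing O] [Field K]
  [Algebra O K] (w : T.Lc O K) (θ : (G → Mer) → G → Mer)

/-- unramified at `w`, cofinal form -/
def UnC : Prop := ∀ U ∈ T.Nl, w.At (KK O K) U → ∃ U' ∈ T.Nl, U' ≤ U ∧
  ∀ k, ∀ a ∈ A.Ne (p ^ k) U', T.Ga θ (p ^ k) U' a a

/-- Eichler-Shimura at `w`, cofinal form -/
def EsC : Prop := ∀ U ∈ T.Nl, w.At (KK O K) U → ∃ U' ∈ T.Nl, U' ≤ U ∧ w.At (KK O K) U' ∧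
  ∀ (c : Cor U' (w.To U') U') k, ∀ a ∈ A.Ne (p ^ k) U', ∃ a₁ a₂, T.Ga θ (p ^ k) U' a a₁ ∧
    T.Ga θ (p ^ k) U' a₁ a₂ ∧ a₂ - T.hN (p ^ k) c a₁ + qq O • a = 0

/-- inertia at level `Iw1`, cofinal form -/
def TwC (c : Oˣ) : Prop := ∀ U ∈ T.Nl, w.At (Iw1 O K) U → (∃ U₀ ∈ w.L0, T.Neat U₀ ∧ U ≤ U₀) →
  ∃ U' ∈ T.Nl, U' ≤ U ∧ ∀ (d : Cor U' (dc U' (w.ι (dO K c)) U') U')
    (d' : Cor U' (dc U' (w.ι (dO K c⁻¹)) U') U') k, w.At (Iw1 O K) U' ∧ ∀ a ∈ A.Ne (p ^ k) U',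
    ∃ a₁ a₂, T.Ga θ (p ^ k) U' a a₁ ∧ T.Ga θ (p ^ k) U' a₁ a₂ ∧
      a₂ - (T.hN (p ^ k) d a₁ + T.hN (p ^ k) d' a₁) + a = 0

end Ax

/-- the Hecke operator as an element of the group ring -/
def Lc.Tg {O K : Type} [CommRing O] [IsDomain O] [IsDiscreteValuationRing O] [Field K]
    [Algebra O K] (w : T.Lc O K) (Λ : Type) [CommRing Λ] : G →₀ Λ :=
  haveI := w.fin
  haveI := Fintype.ofFinite (IsLocalRing.ResidueField O)
  ∑ i, Finsupp.single (w.ι (w.tr i)) 1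

end Tw

/-- base change of a representation -/
def bc (O : Type) [CommRing O] {Γ M : Type} [Monoid Γ] [AddCommGroup M]
    (a : Representation ℤ Γ M) : Representation O Γ (O ⊗[ℤ] M) :=
  (Module.End.baseChangeHom ℤ O M).toMonoidHom.comp a

theorem bc_tmul (O : Type) [CommRing O] {Γ M : Type} [Monoid Γ] [AddCommGroup M]
    (a : Representation ℤ Γ M) (x : Γ) (o : O) (v : M) : bc O a x (o ⊗ₜ v) = o ⊗ₜ a x v := rfl

section

variable {J : Type} [Fintype J] [DecidableEq J]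

/-- the representation given by matrices -/
def mr {R Γ : Type} [CommRing R] [Group Γ] (ρ : Γ →* Matrix J J R) : Representation R Γ (J → R) :=
  (Matrix.toLinAlgEquiv' (R := R)).toMonoidHom.comp ρ

theorem wt_eq {R ι Γ : Type} [CommRing R] [Fintype ι] [DecidableEq ι] [Group Γ] (m : ℕ)
    (s : ι → Γ →* GL (Fin 2) R) : wt m s = mr (wm m s) := rfl

variable {O M : Type} [CommRing O] [AddCommGroup M] [Module O M] (a : Representation O G M)

/-- the operator `∑ F(g) ⊗ g` -/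
def opM (F : G →₀ Matrix J J O) (φ : J → M) : J → M :=
  fun j => F.sum fun g B => ∑ i, B j i • a g (φ i)

/-- the vectors of weight `τ` and level `U` -/
def Av (U : Subgroup G) (τ : G → Matrix J J O) : Submodule O (J → M) where
  carrier := {φ | ∀ u ∈ U, ∀ j, ∑ i, τ u j i • a u (φ i) = φ j}
  add_mem' {φ ψ} h h' u hu j := by
    simp only [Pi.add_apply, map_add, smul_add, Finset.sum_add_distrib, h u hu j, h' u hu j]
  zero_mem' u _ j := by simp
  smul_mem' c φ h u hu j := by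
    simp only [Pi.smul_apply, map_smul]
    rw [← h u hu j, Finset.smul_sum]
    exact Finset.sum_congr rfl fun i _ => smul_comm _ _ _

/-- **a weight with a system of operators**: `σ` extends the local system `ρ` to the adelic group,
`τ` is an integral form of `σ` on the level `U`, `F ω` is an integral form of the operator `f ω` -/
structure Tw.Ax.Wd {T : Tw G0 G} (A : T.Ax) (p : ℕ) {C Ω : Type} [Field C] (ι : Qb →+* C)
    (ψ : O →+* C) (ρ : G0 →* Matrix J J Qb) (σ : G →* Matrix J J C) (U : Subgroup G)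
    (τ : G → Matrix J J O) (f : Ω → G →₀ Qb) (F : Ω → G →₀ Matrix J J O) (c : Ω → O) : Prop where
  inj : Function.Injective ψ
  lev : U ∈ T.Lev
  rat : ∃ P Q : Matrix J J C, P * Q = 1 ∧ ∀ γ, σ (T.j γ) = P * (ρ γ).map ι * Q
  int : ∀ u ∈ U, (τ u).map ψ = σ u
  con : ∀ k : ℕ, ∃ U' ∈ T.Lev, ∀ u ∈ U, u ∈ U' → ∀ i j, (p : O) ^ k ∣ (τ u - 1) i j
  aw : ∀ᶠ i in A.F, ∀ g, σ ((A.w i).ι g) = 1
  opi : ∀ ω g, (F ω g).map ψ = ι (f ω g) • σ g
  inv : ∀ ω (φ : G → Qb), Inv U φ → Inv U (op (f ω) φ)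
  nE : ∃ᶠ i in A.F, ∃ ω, f ω = (A.w i).Tg Qb ∧ IsUnit (c ω ^ 2 - ((A.l i : ℕ) + 1 : O) ^ 2)

/-- the system `c` occurs in `M` with unbounded exponent -/
def Occ {Ω : Type} (U : Subgroup G) (τ : G → Matrix J J O) (F : Ω → G →₀ Matrix J J O)
    (c : Ω → O) : Prop :=
  ∀ o : O, o ≠ 0 → ∃ φ ∈ Av a U τ, (∀ ω, opM a (F ω) φ = c ω • φ) ∧ o • φ ≠ 0

/-- the system `c` occurs in the cohomology with coefficients in `ρ` -/
def Tw.Cls (T : Tw G0 G) {C Ω : Type} [Field C] (ι : Qb →+* C) (ψ : O →+* C)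
    (ρ : G0 →* Matrix J J Qb) (U : Subgroup G) (f : Ω → G →₀ Qb) (c : Ω → O) : Prop :=
  ∃ z ∈ T.Z1 (mr ρ) U, z ∉ T.B1 (mr ρ) U ∧
    ∀ ω, ∃ c₀, ι c₀ = ψ (c ω) ∧ T.Eig (mr ρ) U z (op (f ω)) c₀

end

/-- **CCY**: existence of the module -/
def CCY : Prop := ∀ (G0 G : Type) [Group G0] [Group G] (T : Tw G0 G) (A : T.Ax) (p : ℕ)
  [Fact p.Prime] (H : Type) [Group H] [TopologicalSpace H] [IsTopologicalGroup H]
  (th : H → (G → Mer) → G → Mer), T.Ok0 → A.Ok → A.Tk p → A.GC p th →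
  ∃ (M : Type) (_ : AddCommGroup M) (a : Representation ℤ G M) (g : Representation ℤ H M)
    (im : ∀ k U, T.Hn (p ^ k) U →+ M), T.CC p a g ∧ A.Lk p a g th im

/-- **LOCC**: the local properties pass from finite level to the module -/
def LOCC : Prop := ∀ (G0 G : Type) [Group G0] [Group G] (T : Tw G0 G) (A : T.Ax) (p : ℕ)
  (H : Type) [Group H] [TopologicalSpace H] (th : H → (G → Mer) → G → Mer)
  (M : Type) [AddCommGroup M] (a : Representation ℤ G M) (g : Representation ℤ H M)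
  (im : ∀ k U, T.Hn (p ^ k) U →+ M), T.Ok0 → T.CC p a g → A.Lk p a g th im →
  T.AllL fun {_ _} _ _ _ _ _ w => (∃ U ∈ w.L0, T.Neat U) → ∀ s,
    (A.UnC p w (th s) → w.UnM a (g s)) ∧ (A.EsC p w (th s) → w.EsM a (g s)) ∧
      ∀ c, A.TwC p w (th s) c → w.TwM a (g s) c

/-- **LTC**: the forms for all levels give the cofinal forms -/
def LTC : Prop := ∀ (G0 G : Type) [Group G0] [Group G] (T : Tw G0 G) (A : T.Ax) (p : ℕ)
  [Fact p.Prime] (H : Type) [Group H] [TopologicalSpace H] (th : H → (G → Mer) → G → Mer),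
  T.Ok0 → A.Ok → A.Tk p → A.GR p th → T.AllL fun {_ _} _ _ _ _ _ w => ∀ s,
    (A.UnL p w (th s) → A.UnC p w (th s)) ∧ (A.EsL p w (th s) → A.EsC p w (th s)) ∧
      ∀ c, A.TwL p w (th s) c → A.TwC p w (th s) c

/-- **BC**: base change -/
def BC : Prop := ∀ (G0 G : Type) [Group G0] [Group G] (T : Tw G0 G) (p : ℕ) [Fact p.Prime]
  (H : Type) [Group H] [TopologicalSpace H] (M : Type) [AddCommGroup M]
  (a : Representation ℤ G M) (g : Representation ℤ H M) (O : Type) [CommRing O],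
  (p : O) ∈ nonZeroDivisors O → Finite (O ⧸ Ideal.span {(p : O)}) → T.Ok0 → T.CC p a g →
  T.CC p (bc O a) (bc O g) ∧
  (∃ (d : ℕ) (e : Fin d → O), Function.Bijective fun v : Fin d → M => ∑ i, e i ⊗ₜ[ℤ] v i) ∧
  T.AllL fun {_ _} _ _ _ _ _ w => ∀ s, (w.UnM a (g s) → w.UnM (bc O a) (bc O g s)) ∧
    (w.EsM a (g s) → w.EsM (bc O a) (bc O g s)) ∧
    ∀ c, w.TwM a (g s) c → w.TwM (bc O a) (bc O g s) c

/-- **BET**: classes with coefficients and vectors in the module -/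
def BET : Prop := ∀ (G0 G : Type) [Group G0] [Group G] (T : Tw G0 G) (A : T.Ax) (p : ℕ)
  [Fact p.Prime] (H : Type) [Group H] [TopologicalSpace H] (th : H → (G → Mer) → G → Mer)
  (M : Type) [AddCommGroup M] (a : Representation ℤ G M) (g : Representation ℤ H M)
  (im : ∀ k U, T.Hn (p ^ k) U →+ M) (O : Type) [CommRing O] [IsDomain O]
  [IsDiscreteValuationRing O] [IsAdicComplete (IsLocalRing.maximalIdeal O) O]
  [Finite (IsLocalRing.ResidueField O)] (J : Type) [Fintype J] [DecidableEq J] (C Ω : Type)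
  [Field C] (ι : Qb →+* C) (ψ : O →+* C) (ρ : G0 →* Matrix J J Qb) (σ : G →* Matrix J J C)
  (U : Subgroup G) (τ : G → Matrix J J O) (f : Ω → G →₀ Qb) (F : Ω → G →₀ Matrix J J O)
  (c : Ω → O), T.Ok0 → A.Ok → A.Tk p → T.CC p a g → A.Lk p a g th im →
  (p : O) ∈ IsLocalRing.maximalIdeal O → A.Wd p ι ψ ρ σ U τ f F c →
  (T.Cls ι ψ ρ U f c ↔ Occ (bc O a) U τ F c)

theorem ccx_of (h : CCY) : CCX := fun G0 G _ _ T A p _ H _ _ _ th h0 h1 h2 h3 =>
  h G0 G T A p H th h0 h1 h2 h3.gc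

end Vale.Agent.P022K.Sh
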