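import Vale.Agent.P022K.QT.Defs
import Vale.Agent.P022K.QT.If2
import Vale.Agent.P022K.CH.StB
import Vale.Agent.P027M.M.Defs

/-!
# P022K, block QT: the rows for the modular tower (statements)
-/

set_option autoImplicit false

open scoped MatrixGroups

noncomputable section

namespace Vale.Agent.P022K.QT

open Vale.Agent.P022 Vale.Agent.P022K.Sh Vale.Agent.P022.H218.L3
open Vale.Agent.P022.H443 (inP)
open Vale.Agent.P022E.GW (Ov Fb)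
open Vale.Agent.P027M.M (Mdl FS cv mkF)

/-- the cyclotomic character at `p` -/
def chi (p : Pr) : GQ →* ℤ_[p]ˣ where
  toFun s := cyclotomicCharacter Qb p s.toRingEquiv
  map_one' := map_one (cyclotomicCharacter Qb p)
  map_mul' s t := map_mul (cyclotomicCharacter Qb p) s.toRingEquiv t.toRingEquiv

theorem dO_mem {p : Pr} (c : ℤ_[p]ˣ) : dO ℚ_[p] c ∈ Kl p :=
  ⟨⟨!![(c : ℤ_[p]), 0; 0, 1], !![((c⁻¹ : ℤ_[p]ˣ) : ℤ_[p]), 0; 0, 1],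
    by simp [Matrix.one_fin_two], by simp [Matrix.one_fin_two]⟩, Units.ext (by
    ext i k
    fin_cases i <;> fin_cases k <;> simp [dO, dg_val])⟩

/-- `diag (c, 1)` for a family of local units -/
def dU (c : ∀ p : Pr, ℤ_[p]ˣ) : G := ⟨fun p => dO ℚ_[p] (c p),
  show ∀ᶠ p : Pr in Filter.cofinite, dO ℚ_[p] (c p) ∈ Kl p from
    Filter.Eventually.of_forall fun p => dO_mem (c p)⟩

theorem ev_dU (c : ∀ p : Pr, ℤ_[p]ˣ) (p : Pr) : ev p (dU c) = dO ℚ_[p] (c p) := rfl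

/-- `diag (χ(s)⁻¹, 1)` -/
def dl (s : GQ) : G := dU fun p => (chi p s)⁻¹

/-- all values are modular functions with algebraic expansions -/
def FV (φ : G → Mer) : Prop := ∀ x, φ x ∈ FS

open Classical in
/-- **the Galois action on the functions of the modular tower** -/
def th (X : Mdl) (s : GQ) (φ : G → Mer) : G → Mer :=
  if h : FV φ then fun x => cv (X.gal s (mkF (φ (dl s * x)) (h _))) else 0

/-- parabolic cocycles -/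
def Par {B : Type} [Zero B] (U : Subgroup G) (z : G0 → G → B) : Prop :=
  ∀ x, ∀ γ ∈ TQ.Gam U x, (γ.1.val.trace) ^ 2 = 4 * γ.1.val.det → z γ x = 0

/-- parabolic classes modulo `n` -/
def ParC (n : ℕ) (U : Subgroup G) (a : TQ.Hn n U) : Prop :=
  ∃ z : TQ.Z1 (Representation.trivial (ZMod n) G0 (ZMod n)) U,
    Submodule.Quotient.mk z = a ∧ Par U z.1

/-- the principal level `N` with `Iw1` at `l` -/
def UI (N : ℕ) (l : Pr) : Subgroup G := (lc l).set (Iw1 ℤ_[l] ℚ_[l]) (UN N)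

/-- **OKQ** -/
def OKQ : Prop := TQ.Ok0

/-- **AXQ** -/
def AXQ : Prop := AQ.Ok ∧ FQ.NeBot

/-- **NEQ**: neat levels -/
def NEQ : Prop := ∀ U ∈ TQ.Lev, ∀ (p : Pr) (m : ℕ), 3 ≤ p.1 ^ m → (∀ u ∈ U, ev p u ∈ U1 p m) →
  TQ.Neat U

/-- **TKQ** -/
def TKQ : Prop := ∀ p : ℕ, p.Prime → AQ.Tk p

/-- **COF**: cofinal levels -/
def COF : Prop := ∀ U ∈ TQ.Lev, (∃ N, 0 < N ∧ 4 ∣ N ∧ UN N ≤ U) ∧ ∀ l : Pr, l.1 ≠ 2 →
  ((lc l).At (Kl l) U → ∃ N, 0 < N ∧ 4 ∣ N ∧ ¬ l.1 ∣ N ∧ UN N ≤ U ∧ (lc l).At (Kl l) (UN N)) ∧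
  ((lc l).At (Iw1 ℤ_[l] ℚ_[l]) U → ∃ N, 0 < N ∧ 4 ∣ N ∧ ¬ l.1 ∣ N ∧ UI N l ≤ U ∧
    UI N l ∈ TQ.Nl ∧ (lc l).At (Iw1 ℤ_[l] ℚ_[l]) (UI N l))

/-- **PARQ**: the non Eisenstein part is parabolic -/
def PARQ : Prop := ∀ U ∈ TQ.Lev, ∀ n : ℕ, 0 < n → ∀ a ∈ AQ.Ne n U, ParC n U a

/-- **THM**: formal properties of `th` -/
def THM (X : Mdl) : Prop := ∀ U ∈ TQ.Lev,
  (∀ s, ∀ φ ∈ TQ.RU U, FV φ → th X s φ ∈ TQ.RU U ∧ FV (th X s φ)) ∧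
  ∀ n : ℕ, 0 < n → ∀ ψ ∈ TQ.RU U, FV (ψ ^ n) → FV ψ

/-- **FOR**: formal properties of the relation `Ga` (all levels, all `n`) -/
def FOR (X : Mdl) : Prop := ∀ n : ℕ, 0 < n → ∀ U ∈ TQ.Lev,
  (∀ s a a' a'', TQ.Ga (th X s) n U a a' → TQ.Ga (th X s) n U a a'' → a' = a'') ∧
  (∀ s a a' b b', TQ.Ga (th X s) n U a a' → TQ.Ga (th X s) n U b b' →
    TQ.Ga (th X s) n U (a + b) (a' + b')) ∧
  (∀ s s' a a' a'', TQ.Ga (th X s) n U a a' → TQ.Ga (th X s') n U a' a'' →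
    TQ.Ga (th X (s' * s)) n U a a'') ∧
  (∀ U' ∈ TQ.Lev, ∀ Q (c : Cor U' Q U) s a a', TQ.Ga (th X s) n U a a' →
    TQ.Ga (th X s) n U' (TQ.hN n c a) (TQ.hN n c a')) ∧
  ∀ (n' d : ℕ), n' = d * n → 0 < d → ∀ s a a' b b' (l : ZMod n →+ ZMod n'), l 1 = d →
    TQ.IsCo U l a b → TQ.IsCo U l a' b' → TQ.Ga (th X s) n U a a' → TQ.Ga (th X s) n' U b b'

/-- **EXQ**: the action on the parabolic classes of principal level -/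
def EXQ (X : Mdl) : Prop := ∀ N n : ℕ, 0 < N → 4 ∣ N → 0 < n → ∀ a, ParC n (UN N) a →
  (∀ s, ∃ a', TQ.Ga (th X s) n (UN N) a a' ∧ ParC n (UN N) a') ∧
  ∃ V : Subgroup GQ, IsOpen (V : Set GQ) ∧ ∀ s ∈ V, TQ.Ga (th X s) n (UN N) a a

/-- **UEQ**: good reduction -/
def UEQ (X : Mdl) : Prop := ∀ (N n : ℕ) (l : Pr) P, 0 < N → 4 ∣ N → 0 < n → ¬ l.1 ∣ N →
  ¬ l.1 ∣ n → Ov l P → ∀ a, ParC n (UN N) a →
  (∀ s ∈ inP P, TQ.Ga (th X s) n (UN N) a a) ∧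
  ∀ φ, Fb l P φ → ∀ (c : Cor (UN N) ((lc l).To (UN N)) (UN N)) a₁ a₂,
    TQ.Ga (th X φ) n (UN N) a a₁ → TQ.Ga (th X φ) n (UN N) a₁ a₂ →
    a₂ - TQ.hN n c a₁ + l.1 • a = 0

/-- **TWQ**: inertia at level `Iw1` -/
def TWQ (X : Mdl) : Prop := ∀ (N n : ℕ) (l : Pr) P, 0 < N → 4 ∣ N → 0 < n → ¬ l.1 ∣ N →
  ¬ l.1 ∣ n → Ov l P → ∀ s ∈ inP P,
  ∀ (d : Cor (UI N l) (dc (UI N l) (io l (dO ℚ_[l] (chi l s))) (UI N l)) (UI N l))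
    (d' : Cor (UI N l) (dc (UI N l) (io l (dO ℚ_[l] (chi l s)⁻¹)) (UI N l)) (UI N l)),
  ∀ a, ParC n (UI N l) a → ∃ a₁ a₂, TQ.Ga (th X s) n (UI N l) a a₁ ∧
    TQ.Ga (th X s) n (UI N l) a₁ a₂ ∧ a₂ - (TQ.hN n d a₁ + TQ.hN n d' a₁) + a = 0

/-- **GALQ**: the Galois side of the modular tower -/
def GALQ : Prop := ∃ th : GQ → (G → Mer) → G → Mer, ∀ p : ℕ, p.Prime → AQ.GC p th ∧
  ∀ (l : Pr) P, l.1 ≠ 2 → l.1 ≠ p → Ov l P →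
    (∀ s ∈ inP P, AQ.UnC p (lc l) (th s) ∧ AQ.TwC p (lc l) (th s) (chi l s)) ∧
    ∀ φ, Fb l P φ → AQ.EsC p (lc l) (th φ)

theorem galq_of (X : Mdl) (ne : NEQ) (cof : COF) (par : PARQ) (fo : FOR X) (ex : EXQ X)
    (ue : UEQ X) (tw : TWQ X) : GALQ := by
  have nl : ∀ N, 0 < N → 4 ∣ N → UN N ∈ TQ.Nl := fun N h0 h4 =>
    ⟨UN_mem h0, ne _ (UN_mem h0) ⟨2, Nat.prime_two⟩ 2 (by norm_num) fun u hu =>
      U1_anti _ ((Nat.prime_two.pow_dvd_iff_le_factorization h0.ne').1 h4) (mem_PU.1 hu _)⟩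
  refine ⟨th X, fun p hp => ?_⟩
  have p0 : ∀ k, 0 < p ^ k := pow_pos hp.pos
  refine ⟨⟨fun U hU => ?_, fun U hU k => (fo _ (p0 k) U hU.1).1,
    fun U hU k => (fo _ (p0 k) U hU.1).2.1, fun U hU k => (fo _ (p0 k) U hU.1).2.2.1,
    fun U hU U' hU' Q c k => (fo _ (p0 k) U hU.1).2.2.2.1 U' hU'.1 Q c,
    fun U hU k => (fo _ (p0 k) U hU.1).2.2.2.2 _ p (pow_succ' p k) hp.pos⟩,
    fun l P h2 hl hP => ?_⟩
  · obtain ⟨N, h0, h4, le⟩ := (cof U hU.1).1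
    refine ⟨UN N, nl N h0 h4, le, fun k a ha => ?_⟩
    obtain ⟨h1, h2⟩ := ex N _ h0 h4 (p0 k) a (par _ (UN_mem h0) _ (p0 k) a ha)
    exact ⟨fun s => (h1 s).imp fun _ h => h.1, h2⟩
  · have nd : ∀ k, ¬ l.1 ∣ p ^ k := fun k h =>
      hl ((Nat.prime_dvd_prime_iff_eq l.2 hp).1 (l.2.dvd_of_dvd_pow h))
    refine ⟨fun s hs => ⟨fun U hU h => ?_, fun U hU h _ => ?_⟩, fun φ hφ U hU h => ?_⟩
    · obtain ⟨N, h0, h4, hN, le, -⟩ := ((cof U hU.1).2 l h2).1 h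
      exact ⟨UN N, nl N h0 h4, le, fun k a ha => (ue N _ l P h0 h4 (p0 k) hN (nd k) hP a
        (par _ (UN_mem h0) _ (p0 k) a ha)).1 s hs⟩
    · obtain ⟨N, h0, h4, hN, le, h5, h6⟩ := ((cof U hU.1).2 l h2).2 h
      exact ⟨UI N l, h5, le, fun d d' k => ⟨h6, fun a ha =>
        tw N _ l P h0 h4 (p0 k) hN (nd k) hP s hs d d' a (par _ h5.1 _ (p0 k) a ha)⟩⟩
    · obtain ⟨N, h0, h4, hN, le, h5⟩ := ((cof U hU.1).2 l h2).1 h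
      refine ⟨UN N, nl N h0 h4, le, h5, fun c k a ha => ?_⟩
      have h6 := par _ (UN_mem h0) _ (p0 k) a ha
      obtain ⟨a₁, h7, h8⟩ := (ex N _ h0 h4 (p0 k) a h6).1 φ
      obtain ⟨a₂, h9, -⟩ := (ex N _ h0 h4 (p0 k) a₁ h8).1 φ
      refine ⟨a₁, a₂, h7, h9, ?_⟩
      rw [qq_eq]
      exact (ue N _ l P h0 h4 (p0 k) hN (nd k) hP a h6).2 φ hφ c a₁ a₂ h7 h9

/-- **CLBQ**, **MONQ**, **CONQ** -/
def CLBQ : Prop := ∀ A : CH.Thy, A.AutQ = AutQ → A.CLB ∧ A.MONO ∧ A.CONG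

/-- the level `c ≡ 0`, `a ≡ d` modulo `p ^ m` -/
def Kh (p : Pr) (m : ℕ) : Subgroup (Gl p) where
  carrier := {g | g ∈ Kl p ∧ ‖g 1 0‖ ≤ (p : ℝ) ^ (-m : ℤ) ∧ ‖g 0 0 - g 1 1‖ ≤ (p : ℝ) ^ (-m : ℤ)}
  mul_mem' {a b} ha hb := by
    obtain ⟨a1, a2, a3⟩ := ha
    obtain ⟨b1, b2, b3⟩ := hb
    have a4 := (mem_Kl.1 a1).1
    have b4 := (mem_Kl.1 b1).1
    have l : ∀ {x y : ℚ_[p]} {t : ℝ}, ‖x‖ ≤ 1 → ‖y‖ ≤ t → ‖x * y‖ ≤ t := fun h h' => by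
      rw [norm_mul]
      exact (mul_le_of_le_one_left (norm_nonneg _) h).trans h'
    have r : ∀ {x y : ℚ_[p]} {t : ℝ}, ‖x‖ ≤ t → ‖y‖ ≤ 1 → ‖x * y‖ ≤ t := fun h h' =>
      mul_comm (G := ℚ_[p]) _ _ ▸ l h' h
    have s : ∀ {x y : ℚ_[p]} {t : ℝ}, ‖x‖ ≤ t → ‖y‖ ≤ t → ‖x + y‖ ≤ t := fun h h' =>
      (Padic.nonarchimedean _ _).trans (max_le h h')
    refine ⟨mul_mem a1 b1, ?_, ?_⟩
    · rw [Units.val_mul, Matrix.mul_apply, Fin.sum_univ_two]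
      exact s (r a2 (b4 0 0)) (l (a4 1 1) b2)
    · rw [show (a * b).val 0 0 - (a * b).val 1 1 = a.val 0 0 * (b.val 0 0 - b.val 1 1) +
        (a.val 0 0 - a.val 1 1) * b.val 1 1 + a.val 0 1 * b.val 1 0 + a.val 1 0 * -b.val 0 1 by
          simp only [Units.val_mul, Matrix.mul_apply, Fin.sum_univ_two]
          ring]
      exact s (s (s (l (a4 0 0) b3) (r a3 (b4 1 1))) (l (a4 0 1) b2))
        (r a2 (by simpa using b4 0 1))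
  one_mem' := ⟨one_mem _, by simp, by simp⟩
  inv_mem' {a} ha := by
    obtain ⟨a1, a2, a3⟩ := ha
    have a4 := (mem_Kl.1 a1).2
    have d : ‖(a⁻¹).val.det‖ ≤ 1 := by
      rw [Matrix.det_fin_two, sub_eq_add_neg]
      refine (Padic.nonarchimedean _ _).trans (max_le ?_ ?_) <;>
        simpa using mul_le_one₀ (a4 _ _) (norm_nonneg _) (a4 _ _)
    have e : (a⁻¹).val = (a⁻¹).val.det • a.val.adjugate := by
      rw [Matrix.coe_units_inv, Matrix.det_nonsing_inv, Matrix.inv_def]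
    have l : ∀ {y : ℚ_[p]} {t : ℝ}, ‖y‖ ≤ t → ‖(a⁻¹).val.det * y‖ ≤ t := fun h' => by
      rw [norm_mul]
      exact (mul_le_of_le_one_left (norm_nonneg _) d).trans h'
    refine ⟨inv_mem a1, ?_, ?_⟩
    · rw [e]
      simpa [Matrix.adjugate_fin_two] using l a2
    · rw [e]
      rw [norm_sub_rev] at a3
      have := l a3
      simpa [Matrix.adjugate_fin_two, mul_sub] using this

/-- the global level `c ≡ 0`, `a ≡ d` modulo `N` (with the centre) -/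
def UH (N : ℕ) : Subgroup G := PU fun p => Kh p (N.factorization p) ⊔ Zl ℚ_[p]

/-- **ESQ**: eigenclasses come from modular forms, up to the twist by a character `ψ` -/
def ESQ (m : ℕ) : Prop := ∀ (N : ℕ) [NeZero N] (S : Finset ℕ) (a : ℕ → Qb) (φ : Qb →+* ℂ),
  ∀ z ∈ TQ.Z1 (rw Qb m) (UH N), z ∉ TQ.B1 (rw Qb m) (UH N) →
  (∀ l : Pr, l.1 ∉ S → ¬ l.1 ∣ N →
    TQ.Eig (rw Qb m) (UH N) z (hk ((lc l).To (UH N)) (UH N)) (a l)) →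
  (∃ᶠ l in FQ, a l.1 ^ 2 ≠ ((l.1 : Qb) + 1) ^ 2) →
  ∃ (f : St.M N (2 * m + 2)) (ψ : (ZMod N)ˣ →* Qbˣ), f ≠ 0 ∧ ∀ (l : St.Pr N) (u : (ZMod N)ˣ),
    l.1 ∉ S → (u : ZMod N) = l.1 →
    St.hecke (2 * m + 2) l f = φ (ψ u * ((l.1 : Qb) ^ m * a l.1)) • f ∧
      St.dia (2 * m + 2) l f = φ (ψ u ^ 2) • f

end Vale.Agent.P022K.QT
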