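import Vale.Agent.P022K.QT.Okq
import Vale.Agent.P022K.QT.St

/-!
# P022K, block QT: parabolic classes; the non Eisenstein part is parabolic
-/

set_option autoImplicit false

open scoped MatrixGroups

noncomputable section

namespace Vale.Agent.P022K.Sh

variable {G0 G : Type} [Group G0] [Group G]

theorem Rep.conj {V : Subgroup G} {g : G} {I : Type} {s : Finset I} {a : I → G}
    (h : Rep (dc V g V) V s a) {k : G} (hk : k ∈ V) :
    Rep (dc V g V) V s fun i => k⁻¹ * a i * k := by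
  have lf : ∀ v ∈ V, ∀ y ∈ dc V g V, v * y ∈ dc V g V := by
    rintro v hv _ ⟨a, ha, b, hb, rfl⟩
    exact ⟨v * a, mul_mem hv ha, b, hb, by simp only [mul_assoc]⟩
  refine ⟨h.right, fun i hi => h.right _ (lf _ (inv_mem hk) _ (h.mem i hi)) _ hk,
    fun i hi j hj e => h.inj i hi j hj ?_, fun y hy => ?_⟩
  · simpa [mul_assoc] using mul_mem (mul_mem hk e) (inv_mem hk)
  · obtain ⟨i, hi, e⟩ := h.sur _ (lf _ hk _ hy)
    exact ⟨i, hi, by simpa [mul_assoc] using mul_mem (inv_mem hk) e⟩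

namespace Tw

variable {T : Tw G0 G} {O K : Type} [CommRing O] [IsDomain O] [IsDiscreteValuationRing O]
  [Field K] [Algebra O K] {w : T.Lc O K} {U : Subgroup G}

theorem Lc.io_conj (w : T.Lc O K) (x : G) (a : GL (Fin 2) K) :
    x * w.ι ((w.π x)⁻¹ * a * w.π x) = w.ι a * x := by
  have c := (w.com a (x * (w.ι (w.π x))⁻¹) (by rw [map_mul, map_inv, w.πι, mul_inv_cancel])).eq
  rw [map_mul, map_mul, map_inv, ← mul_assoc, ← mul_assoc, ← c, mul_assoc, inv_mul_cancel_right]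

/-- the Hecke operator with representatives on the left -/
theorem Lc.At.hk_left (h : w.At (KK O K) U) (hU : U ∈ T.Lev)
    [Fintype (IsLocalRing.ResidueField O)] {x : G} (hx : w.π x ∈ KK O K ⊔ Zl K)
    {a : Option (IsLocalRing.ResidueField O) → GL (Fin 2) K}
    (ha : ∀ i, (w.tr i)⁻¹ * a i ∈ KK O K ⊔ Zl K) {B : Type} [AddCommMonoid B] {f : G → B}
    (hf : Inv U f) : hk (w.To U) U f x = ∑ i, f (w.ι (a i) * x) := by
  rw [Lc.To, (h.rep hU ((w.rep_loc.congr fun i _ => ha i).conj hx)).hk hf]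
  simp only [Lc.io_conj]

variable {Λ B : Type} [CommRing Λ] [AddCommGroup B] [Module Λ B] {z : G0 → G → B}

theorem coc_mul (hz : z ∈ T.Z1 (Representation.trivial Λ G0 B) U) {γ : G0} {x : G}
    (h : γ ∈ T.Gam U x) (δ : G0) : z (γ * δ) x = z γ x + z δ x := by
  rw [coc_pt hz, ← hz.1 δ ((T.j γ)⁻¹ * x) _ (T.mem_Gam.1 h)]
  simp [mul_assoc]

theorem coc_pow (hz : z ∈ T.Z1 (Representation.trivial Λ G0 B) U) {γ : G0} {x : G}
    (h : γ ∈ T.Gam U x) (m : ℕ) : z (γ ^ m) x = m • z γ x := by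
  induction m with
  | zero => rw [pow_zero, hz.2.2 1 (one_mem _), zero_smul, Pi.zero_apply]
  | succ m ih => rw [pow_succ', coc_mul hz h, ih, succ_nsmul']

theorem gam_conj {γ δ : G0} {x : G} : δ * γ * δ⁻¹ ∈ T.Gam U (T.j δ * x) ↔ γ ∈ T.Gam U x := by
  simp [mem_Gam, mul_assoc]

theorem coc_conj (hz : z ∈ T.Z1 (Representation.trivial Λ G0 B) U) {γ : G0} {x : G}
    (h : γ ∈ T.Gam U x) (δ : G0) : z (δ * γ * δ⁻¹) (T.j δ * x) = z γ x := by
  have e := coc_mul hz ((gam_conj (δ := δ)).2 h) δ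
  rw [inv_mul_cancel_right, coc_pt hz, inv_mul_cancel_left, add_comm] at e
  exact (add_right_cancel e).symm

end Tw

end Vale.Agent.P022K.Sh

namespace Vale.Agent.P022K.QT

open Vale.Agent.P022K.Sh Matrix

/-- parabolic or scalar -/
def Pb (γ : G0) : Prop := γ.1.val.trace ^ 2 = 4 * γ.1.val.det

/-- parabolic cocycles -/
def ParZ (n : ℕ) (U : Subgroup G) :
    Submodule (ZMod n) (TQ.Z1 (Representation.trivial (ZMod n) G0 (ZMod n)) U) where
  carrier := {z | ∀ γ x, γ ∈ TQ.Gam U x → Pb γ → z.1 γ x = 0}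
  add_mem' {z z'} h h' γ x h1 h2 := by
    change z.1 γ x + z'.1 γ x = 0
    rw [h γ x h1 h2, h' γ x h1 h2, add_zero]
  zero_mem' _ _ _ _ := rfl
  smul_mem' c z h γ x h1 h2 := by
    change c • z.1 γ x = 0
    rw [h γ x h1 h2, smul_zero]

/-- parabolic classes -/
def ParS (n : ℕ) (U : Subgroup G) : Submodule (ZMod n) (TQ.Hn n U) :=
  (ParZ n U).map (Submodule.mkQ _)

theorem mk_mem_Par {n : ℕ} {U : Subgroup G}
    {z : TQ.Z1 (Representation.trivial (ZMod n) G0 (ZMod n)) U} :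
    Submodule.Quotient.mk z ∈ ParS n U ↔ z ∈ ParZ n U := by
  refine ⟨fun ⟨z', h, e⟩ γ x h1 h2 => ?_, fun h => ⟨z, h, rfl⟩⟩
  obtain ⟨f, hf, e'⟩ := (Submodule.Quotient.eq _).1 e
  have e2 : z'.1 γ x - z.1 γ x = f ((TQ.j γ)⁻¹ * x) - f x := congrFun (e' γ) x
  rw [h γ x h1 h2, ← hf _ _ (TQ.mem_Gam.1 h1)] at e2
  simpa [mul_assoc] using e2

theorem mem_ParS {n : ℕ} {U : Subgroup G} {a : TQ.Hn n U} : a ∈ ParS n U ↔ ParC n U a :=
  ⟨fun ⟨z, h, e⟩ => ⟨z, e, fun x γ => h γ x⟩, fun ⟨z, e, h⟩ => ⟨z, fun γ x => h x γ, e⟩⟩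

/-- unipotent rational matrices -/
def nq (h : ℚ) : G0 := ⟨Tq.eU h, mem_G0.2 (by simp [Tq.det_eU])⟩

theorem nq_add (a b : ℚ) : nq (a + b) = nq a * nq b :=
  Subtype.ext (Units.ext (by simp [nq, Tq.eU, add_comm]))

theorem nq_pow (a : ℚ) (m : ℕ) : nq a ^ m = nq (m * a) := by
  induction m with
  | zero => exact Subtype.ext (Units.ext (by simp [nq, Tq.eU, Matrix.one_fin_two]))
  | succ m ih => rw [pow_succ, ih, ← nq_add, Nat.cast_succ, add_mul, one_mul]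

theorem pb_nq (h : ℚ) : Pb (nq h) := by
  simp [Pb, nq, Tq.eU, Matrix.trace_fin_two, Matrix.det_fin_two]
  norm_num

theorem Pb.conj {γ : G0} (h : Pb γ) (δ : G0) : Pb (δ⁻¹ * γ * δ) := by
  simpa only [Pb, Subgroup.coe_mul, Subgroup.coe_inv, Units.val_mul, Matrix.trace_units_conj',
    Matrix.det_units_conj'] using h

theorem Pb.ex_SL {γ : G0} (h : Pb γ) :
    ∃ g : SL(2, ℤ), ∃ t, ∃ ζ ∈ TQ.Z0, (iZ g)⁻¹ * γ * iZ g = nq t * ζ := by
  obtain ⟨g, hg⟩ : ∃ g : SL(2, ℤ), ((iZ g)⁻¹ * γ * iZ g).1.val 1 0 = 0 := by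
    by_cases c0 : γ.1.val 1 0 = 0
    · exact ⟨1, by simpa using c0⟩
    obtain ⟨t, ht⟩ : ∃ t, t = (γ.1.val 0 0 - γ.1.val 1 1) / (2 * γ.1.val 1 0) := ⟨_, rfl⟩
    obtain ⟨g, h0, h1⟩ := (Rat.isCoprime_num_den t).exists_SL2_col 0
    refine ⟨g, ?_⟩
    rw [eq_div_iff (mul_ne_zero two_ne_zero c0)] at ht
    rw [Pb, Matrix.trace_fin_two, Matrix.det_fin_two] at h
    have e := Rat.mul_den_eq_num t
    rw [← map_inv]
    simp only [Subgroup.coe_mul, Units.val_mul, Matrix.mul_apply, Fin.sum_univ_two, iZ_apply,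
      Matrix.SpecialLinearGroup.coe_inv, Matrix.adjugate_fin_two, h0, h1]
    have e0 : ((t.num : ℤ) : ℚ) = t * t.den := e.symm
    simp only [Matrix.of_apply, Matrix.cons_val', Matrix.cons_val_zero, Matrix.cons_val_one,
      Matrix.cons_val_fin_one, Int.cast_neg, Int.cast_natCast, e0]
    refine mul_left_cancel₀ (mul_ne_zero four_ne_zero c0) ?_
    linear_combination (-(t.den : ℚ) ^ 2) * h +
      (t.den : ℚ) ^ 2 * (2 * t * γ.1.val 1 0 - γ.1.val 0 0 + γ.1.val 1 1) * ht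
  have h' := h.conj (iZ g)
  refine ⟨g, ?_⟩
  generalize (iZ g)⁻¹ * γ * iZ g = β at hg h'
  have d0 : 0 < β.1.val.det := mem_G0.1 β.2
  rw [Pb, Matrix.trace_fin_two, Matrix.det_fin_two, hg] at h'
  have e : β.1.val 1 1 = β.1.val 0 0 :=
    sub_eq_zero.1 (pow_eq_zero_iff two_ne_zero |>.1 (by linear_combination h'))
  have a0 : β.1.val 0 0 ≠ 0 := fun a0 => by simp [Matrix.det_fin_two, a0, hg] at d0
  refine ⟨β.1.val 0 1 / β.1.val 0 0, (nq _)⁻¹ * β, mem_Z0.2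
    (GeneralLinearGroup.mem_center_iff_val_mem_range_scalar.2 ⟨β.1.val 0 0, ?_⟩),
    (mul_inv_cancel_left _ _).symm⟩
  ext i k
  fin_cases i <;> fin_cases k <;> simp [nq, Tq.eU, Matrix.mul_apply, Fin.sum_univ_two, hg, e, a0]

theorem Pb.red {γ : G0} (h : Pb γ) (x : G) : ∃ δ t, ∃ ζ ∈ TQ.Z0, γ = δ * (nq t * ζ) * δ⁻¹ ∧
    (TQ.j δ)⁻¹ * x ∈ KN 1 := by
  obtain ⟨δ, hδ⟩ := gen x
  obtain ⟨g, t, ζ, h1, h2⟩ := (h.conj δ).ex_SL
  refine ⟨δ * iZ g, t, ζ, h1, by rw [← h2]; group, ?_⟩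
  rw [map_mul, _root_.mul_inv_rev, mul_assoc]
  exact mul_mem (inv_mem (j_K1.2 ⟨g, rfl⟩)) hδ

theorem z0_le {U : Subgroup G} (hU : U ∈ TQ.Lev) (x : G) : TQ.Z0 ≤ TQ.Gam U x := fun _ h => by
  rw [Tw.mem_Gam, conj_Z ((ok_z0 _).1 h)]
  exact Z_le hU ((ok_z0 _).1 h)

variable {Λ B : Type} [CommRing Λ] [AddCommGroup B] [Module Λ B] {U : Subgroup G}

/-- reduction of a statement on boundary values to the cusp `∞` -/
theorem bd_red (hU : U ∈ TQ.Lev) (y : G) {z z' : G0 → G → B}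
    (hz : z ∈ TQ.Z1 (Representation.trivial Λ G0 B) U)
    (hz' : z' ∈ TQ.Z1 (Representation.trivial Λ G0 B) U)
    (h : ∀ t x, x * y ∈ KN 1 → nq t ∈ TQ.Gam U x → z (nq t) x = z' (nq t) x) {γ : G0} {x : G}
    (h1 : γ ∈ TQ.Gam U x) (h2 : Pb γ) : z γ x = z' γ x := by
  obtain ⟨δ, t, ζ, h3, rfl, h4⟩ := h2.red (x * y)
  rw [← mul_inv_cancel_left (TQ.j δ) x] at h1 ⊢
  rw [Tw.gam_conj] at h1
  rw [Tw.coc_conj hz h1, Tw.coc_conj hz' h1, Tw.coc_z0 hz _ h3, Tw.coc_z0 hz' _ h3]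
  exact h t _ (by rwa [mul_assoc]) ((Subgroup.mul_mem_cancel_right _ (z0_le hU _ h3)).1 h1)

/-- upper triangular rational matrices -/
def bq (a b d : ℤ) (h : 0 < a * d) : G0 :=
  ⟨GeneralLinearGroup.mkOfDetNeZero !![(a : ℚ), b; 0, d] (by
    simpa [Matrix.det_fin_two] using mul_ne_zero_iff.1 h.ne'), mem_G0.2 (by
    simpa [Matrix.det_fin_two] using (by exact_mod_cast h : (0 : ℚ) < a * d))⟩

theorem bq_val (a b d : ℤ) (h : 0 < a * d) : (bq a b d h).1.val = !![(a : ℚ), b; 0, d] := rfl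

theorem bq_conj (a b d : ℤ) (h : 0 < a * d) (t : ℚ) :
    bq a b d h * nq (d * t) * (bq a b d h)⁻¹ = nq (a * t) := by
  rw [mul_inv_eq_iff_eq_mul]
  refine Subtype.ext (Units.ext ?_)
  simp [bq_val, nq, Tq.eU]
  ring

/-- an integral matrix of determinant `l` away from `l` -/
theorem away_KN (l : Pr) {N : ℕ} {γ : G0} (A : Matrix (Fin 2) (Fin 2) ℤ)
    (e : ∀ i k, γ.1.val i k = A i k) (hd : A.det = l) (hA : ∀ i k, (N : ℤ) ∣ (A - 1) i k) :
    (io l (jl l γ.1))⁻¹ * TQ.j γ ∈ KN N := mem_PU.2 fun q => by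
  rw [map_mul, map_inv]
  by_cases h : q = l
  · subst h
    rw [ev_io]
    exact (inv_mul_cancel (jl q γ.1)).symm ▸ one_mem _
  rw [ev_io_ne h, inv_one, one_mul]
  have u : IsUnit ((Int.castRingHom ℤ_[q]).mapMatrix A) := by
    rw [Matrix.isUnit_iff_isUnit_det, ← RingHom.map_det, hd, PadicInt.isUnit_iff, eq_intCast,
      Int.cast_natCast, PadicInt.norm_natCast_eq_one_iff]
    exact (Nat.coprime_primes q.2 l.2).2 fun e => h (Subtype.ext e)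
  have e1 : ∀ i k, (ev q (TQ.j γ)).val i k = (A i k : ℚ_[q]) := fun i k => by
    change algebraMap ℚ ℚ_[q] (γ.1.val i k) = _
    rw [e, map_intCast]
  refine mem_Km.2 ⟨⟨u.unit, Units.ext (Matrix.ext fun i k => (e1 i k).symm ▸ by simp)⟩,
    fun i k => ?_⟩
  have e2 : ((ev q (TQ.j γ)).val - 1) i k = ((A - 1) i k : ℤ) := by
    rw [Matrix.sub_apply, e1, Matrix.sub_apply, Matrix.one_apply, Matrix.one_apply]
    split <;> simp
  rw [e2, Padic.norm_int_le_pow_iff_dvd]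
  exact (by exact_mod_cast Nat.ordProj_dvd N q : ((q : ℕ) : ℤ) ^ N.factorization q ∣ N).trans (hA i k)

theorem ex_res (l : Pr) (a : ℤ_[l]) :
    ∃ j : ℤ, ((l : ℕ) - 1 : ℤ) ∣ j ∧ (j : ℤ_[l]) - a ∈ IsLocalRing.maximalIdeal ℤ_[l] := by
  refine ⟨((l : ℕ) - 1 : ℤ) * -a.zmodRepr, dvd_mul_right _ _, ?_⟩
  have h1 : ((l : ℕ) : ℤ_[l]) ∈ IsLocalRing.maximalIdeal ℤ_[l] := by
    rw [PadicInt.maximalIdeal_eq_span_p]
    exact Ideal.mem_span_singleton_self _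
  have := neg_mem (add_mem (PadicInt.sub_zmodRepr_mem a) (Ideal.mul_mem_right (a.zmodRepr : ℤ_[l]) _ h1))
  convert this using 1
  push_cast
  ring

theorem tr_some (l : Pr) (a : IsLocalRing.ResidueField ℤ_[l]) {j : ℤ}
    (hj : (j : ℤ_[l]) - a.out ∈ IsLocalRing.maximalIdeal ℤ_[l]) (h : (0 : ℤ) < (l : ℕ) * 1) :
    ((lc l).tr (some a))⁻¹ * jl l (bq (l : ℕ) j 1 h).1 ∈ Kl l ⊔ Zl ℚ_[l] := by
  have e : jl l (bq (l : ℕ) j 1 h).1 = gK ℚ_[l] (nO (j : ℤ_[l])) * dg (lc l).ϖ := by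
    ext i k
    fin_cases i <;> fin_cases k <;>
      simp [bq_val, nO, dg_val, lc, Matrix.mul_apply, Fin.sum_univ_two]
  rw [e, Tw.Lc.tr, _root_.mul_inv_rev, mul_assoc, ← mul_assoc _ (gK _ _), ← map_inv, ← map_mul,
    ← mul_assoc]
  refine (conj_mem (lc l).inj PadicInt.irreducible_p rfl _).2 ?_
  simpa [pO, nO, Matrix.mul_apply, Fin.sum_univ_two, sub_eq_add_neg] using hj

theorem tr_none (l : Pr) (h : (0 : ℤ) < 1 * (l : ℕ)) :
    ((lc l).tr none)⁻¹ * jl l (bq 1 0 (l : ℕ) h).1 ∈ Kl l ⊔ Zl ℚ_[l] := by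
  refine Subgroup.mem_sup_left ⟨sO⁻¹, ?_⟩
  rw [eq_inv_mul_iff_mul_eq, map_inv, mul_inv_eq_iff_eq_mul]
  ext i k
  fin_cases i <;> fin_cases k <;>
    simp [Tw.Lc.tr, pO, bq_val, sO, dg_val, lc, Matrix.mul_apply, Fin.sum_univ_two]

/-- **the boundary values of `T_l z`** -/
theorem bd_hk (hU : U ∈ TQ.Lev) (l : Pr) (hl : (lc l).At (Kl l) U) {y : G} {N : ℕ} (hN : 0 < N)
    (hy : ∀ k ∈ KN N, y * k * y⁻¹ ∈ U) (h1 : N ∣ l.1 - 1) (h2 : ev l y ∈ Kl l ⊔ Zl ℚ_[l])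
    {z : G0 → G → B} (hz : z ∈ TQ.Z1 (Representation.trivial Λ G0 B) U) {t : ℚ} {x : G}
    (hx : x * y ∈ KN 1) (ht : nq t ∈ TQ.Gam U x) :
    hk ((lc l).To U) U (z (nq ((l : ℕ) * t))) x = ((l : ℕ) + (l : ℕ) ^ 2) • z (nq t) x := by
  have := Fintype.ofFinite (IsLocalRing.ResidueField ℤ_[l])
  have h1' : (N : ℤ) ∣ (l : ℕ) - 1 := by
    have := Int.natCast_dvd_natCast.2 h1
    rwa [Nat.cast_sub l.2.one_le] at this
  choose j hj hj' using fun a : IsLocalRing.ResidueField ℤ_[l] => ex_res l a.out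
  have key : ∀ (γ : G0) (A : Matrix (Fin 2) (Fin 2) ℤ), (∀ i k, γ.1.val i k = A i k) →
      A.det = l → (∀ i k, (N : ℤ) ∣ (A - 1) i k) → ∀ δ,
      z δ (io l (jl l γ.1) * x) = z δ (TQ.j γ * x) := fun γ A e hd hA δ => by
    have := hy _ (conj_KN hx hN (away_KN l A e hd hA))
    rw [← hz.1 δ _ _ this]
    congr 1
    group
  have hx' : ev l x ∈ Kl l ⊔ Zl ℚ_[l] := by
    have := mul_mem (Subgroup.mem_sup_left (mem_K1.1 hx l)) (inv_mem h2)
    rwa [map_mul, mul_inv_cancel_right] at this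
  rw [hl.hk_left hU hx' (a := fun i => i.elim (jl l (bq 1 0 (l : ℕ) (by simpa using l.2.pos)).1)
    fun a => jl l (bq (l : ℕ) (j a) 1 (by simpa using l.2.pos)).1) (fun i => by
      cases i
      exacts [tr_none l _, tr_some l _ (hj' _) _]) (hz.1 _), Fintype.sum_option, add_smul, add_comm]
  congr 1
  · rw [Finset.sum_congr rfl (g := fun _ => z (nq t) x), Finset.sum_const, Finset.card_univ,
      ← Nat.card_eq_fintype_card, ← qq, qq_eq]
    intro a _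
    refine (key _ !![(l : ℕ), j a; 0, 1] (fun i k => ?_) (by simp [Matrix.det_fin_two])
      (fun i k => ?_) _).trans ?_
    · fin_cases i <;> fin_cases k <;> simp [bq_val]
    · fin_cases i <;> fin_cases k <;> simp [h1', h1'.trans (hj a)]
    · rw [← Tw.coc_conj hz ht, ← Int.cast_natCast, ← bq_conj (l : ℕ) (j a) 1 (by simpa using l.2.pos),
        Int.cast_one, one_mul]
  · refine (key _ !![1, 0; 0, (l : ℕ)] (fun i k => ?_) (by simp [Matrix.det_fin_two])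
      (fun i k => ?_) _).trans ?_
    · fin_cases i <;> fin_cases k <;> simp [bq_val]
    · fin_cases i <;> fin_cases k <;> simp [h1']
    · have := bq_conj 1 0 (l : ℕ) (by simpa using l.2.pos) ((l : ℕ) * t)
      rw [Int.cast_one, one_mul ((l : ℕ) * t), Int.cast_natCast, ← mul_assoc, ← sq, ← Nat.cast_pow,
        ← nq_pow] at this
      rw [← Tw.coc_pow hz ht, ← Tw.coc_conj hz (pow_mem ht _), this]

theorem ex_lev (hU : U ∈ TQ.Lev) (y : G) : ∃ N, 0 < N ∧ ∀ k ∈ KN N, y * k * y⁻¹ ∈ U := by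
  obtain ⟨⟨N, hN, h⟩, -⟩ := ok_conj U hU y⁻¹
  exact ⟨N, hN, fun k hk => by simpa using mem_cj.1 (h (KN_le N hk))⟩

/-- for `l ≡ 1` the operator `T_l` acts on the boundary values by `2` -/
theorem bd_two (hU : U ∈ TQ.Lev) {n : ℕ} (hn : 0 < n) : ∀ᶠ l : Pr in FQ, ((l : ℕ) : ZMod n) = 1 ∧
    ∀ (c : Cor U ((lc l).To U) U) z γ x, γ ∈ TQ.Gam U x → Pb γ →
      (TQ.hZ (Representation.trivial (ZMod n) G0 (ZMod n)) c z).1 γ x = 2 * z.1 γ x := by
  obtain ⟨N, hN, hy⟩ := ex_lev hU 1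
  filter_upwards [ev_FQ (at_cof hU), mem_FQ.2 ⟨N * n, Nat.mul_pos hN hn, fun l h => h⟩]
    with l hl h1
  have e : ((l : ℕ) : ZMod n) = 1 := by
    rw [← Nat.cast_one, ZMod.natCast_eq_natCast_iff]
    exact ((Nat.modEq_iff_dvd' l.2.one_le).2 ((dvd_mul_left _ _).trans h1)).symm
  refine ⟨e, fun c z γ x h2 h3 => bd_red hU 1 (TQ.hZ _ c z).2 ((2 : ZMod n) • z).2
    (fun t x hx ht => ?_) h2 h3⟩
  have k1 := Tw.coc_pow (TQ.hZ _ c z).2 ht l
  rw [nq_pow, nsmul_eq_mul, e, one_mul] at k1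
  rw [← k1]
  refine (bd_hk hU l hl hN hy ((dvd_mul_right _ _).trans h1) (by simp) z.2 hx ht).trans ?_
  rw [nsmul_eq_mul, Nat.cast_add, Nat.cast_pow, e, one_pow, one_add_one_eq_two]
  rfl

/-- **the non Eisenstein part is parabolic** -/
theorem ne_le_par (hU : U ∈ TQ.Lev) {n : ℕ} (hn : 0 < n) : AQ.Ne n U ≤ ParS n U := by
  refine (iInf₂_le_of_le _ (Filter.eventually_iff.1 (bd_two hU hn))
    (iSup₂_le fun (l : Pr) hl => iSup_le fun h => ?_))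
  refine (iInf_le _ 1).trans ?_
  rintro _ ⟨a, rfl⟩
  obtain ⟨z, rfl⟩ := Submodule.Quotient.mk_surjective _ a
  have c : Cor U ((lc l).To U) U := Tw.Lc.L0.cor _ h
  refine (mk_mem_Par (z := TQ.hZ _ c (TQ.hZ _ c z) - (qq ℤ_[l] + 1) ^ 2 • z)).2
    fun γ x h1 h2 => ?_
  change (TQ.hZ _ c (TQ.hZ _ c z)).1 γ x - (qq ℤ_[l] + 1) ^ 2 • z.1 γ x = 0
  rw [hl.2 c _ γ x h1 h2, hl.2 c _ γ x h1 h2, qq_eq, nsmul_eq_mul, Nat.cast_pow, Nat.cast_succ, hl.1]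
  ring

theorem parq : PARQ := fun _ hU _ hn _ ha => mem_ParS.1 (ne_le_par hU hn ha)

theorem okq_row : OKQ := okq

theorem axq_row : AXQ := ⟨axq, inferInstance⟩

theorem neq_row : NEQ := fun _ hU p _ hm h => neat_U1 hU p hm h

theorem tkq_row : TKQ := fun p hp => haveI : NeZero p := ⟨hp.ne_zero⟩; tkq p

end Vale.Agent.P022K.QT
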