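import Vale.Agent.P022K.QT.Cu0
import Vale.Agent.P027M.G.Ave
import Vale.Agent.P027M.M.All1

/-!
# P022K, block QT: the cusp functional on modular functions

`co ι f r` is the coefficient of `q ^ r` in the logarithm of the unit part of the expansion of `f`,
`lg p ι f r` the slice `i ↦ co ι f (r p ^ i)`.
-/

set_option linter.all false

noncomputable section

open PowerSeries LaurentSeries P025H746
open scoped MatrixGroups

namespace Vale.Agent.P022K.QT.Cu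

open FI WB Vale.Agent.P022 Vale.Agent.P027M.M Vale.Agent.P022.H236.L3
open Vale.Agent.P022.H542.L3 (LS sb)

/-! ## roots of unity -/

theorem ex_E (r : ℚ) : ∃ a : Qb, io a = Complex.exp (2 * Real.pi * Complex.I * r) := by
  refine H116.exists_preimage io (IsAlgebraic.of_pow r.den_pos ?_)
  rw [← Complex.exp_nat_mul, show (r.den : ℂ) * (2 * Real.pi * Complex.I * r) =
    r.num * (2 * Real.pi * Complex.I) by
      rw [show (r.num : ℂ) = r * r.den by exact_mod_cast (Rat.mul_den_eq_num r).symm]; ring,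
    Complex.exp_int_mul_two_pi_mul_I]
  exact isAlgebraic_one

/-- `e(r)` -/
def E (r : ℚ) : Qb := (ex_E r).choose

theorem io_E (r : ℚ) : io (E r) = Complex.exp (2 * Real.pi * Complex.I * r) := (ex_E r).choose_spec

theorem io_inj : Function.Injective io := (io : Qb →+* ℂ).injective

theorem E_add (r s : ℚ) : E (r + s) = E r * E s := io_inj (by
  rw [map_mul, io_E, io_E, io_E, ← Complex.exp_add]
  push_cast
  rw [mul_add])

theorem E_eq_one {r : ℚ} : E r = 1 ↔ ∃ n : ℤ, r = n := by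
  rw [← io_inj.eq_iff, io_E, map_one, Complex.exp_eq_one_iff]
  refine exists_congr fun n => ⟨fun h => ?_, fun h => by rw [h]; push_cast; ring⟩
  have : (r : ℂ) = n := mul_left_cancel₀ Complex.two_pi_I_ne_zero (by rw [h]; ring)
  exact_mod_cast this

theorem E_int (n : ℤ) : E n = 1 := E_eq_one.2 ⟨n, rfl⟩

theorem E_zero : E 0 = 1 := E_int 0

theorem E_ne (r : ℚ) : E r ≠ 0 := fun e => Complex.exp_ne_zero _ (by rw [← io_E, e, map_zero])

theorem E_nat (k : ℕ) (r : ℚ) : E (k * r) = E r ^ k := by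
  induction k with
  | zero => simp [E_zero]
  | succ k ih => rw [Nat.cast_succ, add_mul, one_mul, E_add, ih, pow_succ]

theorem E_den (r : ℚ) : E r ^ r.den = 1 := by
  rw [← E_nat, mul_comm, Rat.mul_den_eq_num, E_int]

theorem io_E_ze (N : ℕ) (b : ℤ) : io (E (b / N)) = ze N b := by
  rw [io_E, ze]
  push_cast
  rw [mul_div_assoc]

/-! ## expansions -/

/-- `x` is the expansion of `f` in `q ^ (1 / N)` -/
def Ex (N : ℕ) (f : FF) (x : Qb⸨X⸩) : Prop := ExM N (ioL x) (cv f)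

theorem ioL_ex {N : ℕ} (hN : 0 < N) (x : Qb⸨X⸩) : ioL (ex N hN x) = sb N hN (ioL x) :=
  mp_ex (io : Qb →+* ℂ) hN x

theorem ioL_rs {ξ : Qb} (h : ξ ≠ 0) {ζ : ℂ} (h' : ζ ≠ 0) (e : io ξ = ζ) (x : Qb⸨X⸩) :
    ioL (rs ξ h x) = H542.L3.rs ζ h' (ioL x) := by
  subst e
  exact mp_rs (io : Qb →+* ℂ) h x

theorem ioL_C (c : Qb) : ioL (algebraMap Qb Qb⸨X⸩ c) = HahnSeries.C (io c) :=
  (mp_C (io : Qb →+* ℂ) c).trans (by rw [← am_C]; exact HahnSeries.ofPowerSeries_C _)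

variable {N : ℕ} {f g : FF} {x y : Qb⸨X⸩}

theorem ex_lev (f : FF) : ∃ N, 0 < N ∧ ∃ x, Ex N f x := by
  obtain ⟨N, hN, -, s, h1, h2⟩ := cv_mem f
  obtain ⟨x, rfl⟩ := alg_iff.1 h2
  exact ⟨N, hN, x, h1⟩

theorem ex_of {s : LS} (hN : 0 < N) (h : ExM N s (cv f)) : ∃ x, ioL x = s ∧ Ex N f x := by
  obtain ⟨x, rfl⟩ := alg_iff.1 (exp.2.2.2.1 N f s hN h).1
  exact ⟨x, rfl, h⟩

theorem Ex.unique (hN : 0 < N) (h : Ex N f x) (h' : Ex N f y) : x = y :=
  ioL.injective (ExM.unique hN.ne' h h')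

theorem Ex.inj (hN : 0 < N) (h : Ex N f x) (h' : Ex N g x) : f = g :=
  cv_inj (exp.1 N _ _ _ hN h h')

theorem Ex.up (hN : 0 < N) (h : Ex N f x) {M : ℕ} (hM : 0 < M) : Ex (N * M) f (ex M hM x) := by
  rw [Ex, ioL_ex]
  exact exM_period hM hN.ne' h

theorem Ex.mul (h : Ex N f x) (h' : Ex N g y) : Ex N (f * g) (x * y) := by
  rw [Ex, map_mul, map_mul]
  exact ExM.mul h h'

theorem Ex.add (h : Ex N f x) (h' : Ex N g y) : Ex N (f + g) (x + y) := by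
  rw [Ex, map_add, map_add]
  exact ExM.add h h'

theorem ex_const (N : ℕ) (c : Qb) : Ex N (algebraMap Qb FF c) (algebraMap Qb Qb⸨X⸩ c) := by
  rw [Ex, ioL_C, cv_alg]
  exact ExM.const N _

theorem Ex.ne (hN : 0 < N) (h : Ex N f x) (h0 : f ≠ 0) : x ≠ 0 := by
  rintro rfl
  exact h0 (h.inj hN (by simpa using ex_const N 0))

theorem ex_two (f g : FF) : ∃ N, 0 < N ∧ ∃ x y, Ex N f x ∧ Ex N g y := by
  obtain ⟨N, hN, x, h⟩ := ex_lev f
  obtain ⟨M, hM, y, h'⟩ := ex_lev g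
  exact ⟨N * M, Nat.mul_pos hN hM, _, _, h.up hN hM, mul_comm M N ▸ h'.up hM hN⟩

theorem Ex.pb (X : Mdl) (hN : 0 < N) (h : Ex N f x) {a d : ℕ} (b : ℤ) (ha : 0 < a) (hd : 0 < d)
    (hA : 0 < (!![(a : ℤ), b; 0, (d : ℤ)] : M2).det) :
    Ex (N * d) (X.pb _ hA f) (ex a ha (rs (E (b / (N * d : ℕ))) (E_ne _) x)) := by
  rw [Ex, ioL_ex, ioL_rs _ (ze_ne _ _) (io_E_ze _ _), X.pb_coe]
  exact exp.2.1 N a d b ha hd hN hA _ _ h

theorem Ex.gal (X : Mdl) (hN : 0 < N) (h : Ex N f x) (s : GQ) :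
    Ex N (X.gal s f) (mp (s : Qb →+* Qb) x) :=
  (x_galx X).1 s f N _ _ hN h fun n => ⟨x.coeff n, rfl, rfl⟩

variable {C : Type} [NontriviallyNormedField C] [IsUltrametricDist C] (ι : Qb →+* C)

theorem norm_E (r : ℚ) : ‖ι (E r)‖ = 1 := by
  have := congrArg (fun z => ‖ι z‖) (E_den r)
  simp only [map_pow, norm_pow, map_one, norm_one] at this
  exact (pow_eq_one_iff_of_nonneg (norm_nonneg _) r.den_ne_zero).1 this

theorem ex_O : ∃ O : ValuationSubring ℂ, ∀ c : Qb, io c ∈ O ↔ ‖ι c‖ ≤ 1 :=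
  P027M.G.oext ((OC C).comap ι)

variable [CompleteSpace C] [IsAlgClosed C]

theorem hf_int {z : C⸨X⸩} (h : ∀ n, ‖z.coeff n‖ ≤ 1) (h1 : ∃ n, z.coeff n = 1) :
    ∃ D, Fac z 1 D := by
  obtain ⟨n, hn⟩ := h1
  have z0 : z ≠ 0 := fun e => by simp [e] at hn
  have le : z.order ≤ n := HahnSeries.order_le_of_coeff_ne_zero (hn ▸ one_ne_zero)
  have i1 : Ig z.powerSeriesPart := fun k => by rw [powerSeriesPart_coeff]; exact h _
  obtain ⟨D, hD, -⟩ := i1.fac' fun e => by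
    have := (rd_eq_zero i1).1 e (n - z.order).toNat
    rw [powerSeriesPart_coeff, Int.toNat_of_nonneg (sub_nonneg.2 le), add_sub_cancel, hn,
      norm_one] at this
    exact lt_irrefl _ this
  have h2 := ((fac_lin (a := (0 : C)) (by simp)).zpow z.order).mul hD
  rw [map_zero, sub_zero, one_zpow, one_mul] at h2
  rw [show am C X = HahnSeries.single 1 1 from HahnSeries.ofPowerSeries_X,
    ← RatFunc.single_zpow] at h2
  exact ⟨_, (single_order_mul_powerSeriesPart z).subst (motive := fun z => Fac z 1 _) h2⟩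

theorem Ex.hf (hN : 0 < N) (h : Ex N f x) (h0 : f ≠ 0) : Hf (mp ι x) := by
  obtain ⟨O, hO⟩ := ex_O ι
  obtain ⟨c, a, b, c0, c1, a0, b0, a1, b1, a2, b2, e⟩ := x_prim f h0 N _ hN h O
  obtain ⟨c, rfl⟩ := H116.exists_preimage io c1
  obtain ⟨a, rfl⟩ := alg_iff.1 fun n => (H116.exists_preimage io (a0 n)).imp fun _ => Eq.symm
  obtain ⟨b, rfl⟩ := alg_iff.1 fun n => (H116.exists_preimage io (b0 n)).imp fun _ => Eq.symm
  have k : ∀ z : Qb⸨X⸩, (∀ n, (ioL z).coeff n ∈ O) → (∃ n, (ioL z).coeff n = 1) →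
      ∃ D, Fac (mp ι z) 1 D := fun z z1 ⟨n, z2⟩ => hf_int (fun n => (hO _).1 (z1 n)) ⟨n, by
    rw [coeff_mp, io_inj (z2.trans (map_one io).symm), map_one]⟩
  obtain ⟨D, hD⟩ := k a a1 a2
  obtain ⟨D', hD'⟩ := k b b1 b2
  rw [← ioL_C, ← map_mul, ← map_mul] at e
  have e1 := congrArg (mp ι) (ioL.injective e)
  rw [map_mul, map_mul, mp_C] at e1
  rw [eq_div_of_mul_eq hD'.ne e1]
  exact hf_iff.2 ⟨_, _, (hD.smul ((_root_.map_ne_zero ι).2 fun e => c0 (by rw [e, map_zero]))).div hD'⟩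

/-- the coefficient of `q ^ r` in the logarithm of the unit part -/
def co (f : FF) (r : ℚ) : C :=
  cT (mp ι (ex_lev f).choose_spec.2.choose) (r * (ex_lev f).choose)

variable [CharZero C]

theorem Ex.co (hN : 0 < N) (h : Ex N f x) (h0 : f ≠ 0) (r : ℚ) :
    co ι f r = cT (mp ι x) (r * N) := by
  have hM := (ex_lev f).choose_spec.1
  have h1 := (ex_lev f).choose_spec.2.choose_spec
  have e := (h1.up hM hN).unique (Nat.mul_pos hM hN) (mul_comm N _ ▸ h.up hN hM)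
  rw [Cu.co, ← cT_ex (h1.hf ι hM h0) hN, ← cT_ex (h.hf ι hN h0) hM, ← mp_ex, ← mp_ex, e,
    mul_right_comm]

theorem co_mul (h : f ≠ 0) (h' : g ≠ 0) (r : ℚ) : co ι (f * g) r = co ι f r + co ι g r := by
  obtain ⟨N, hN, x, y, h1, h2⟩ := ex_two f g
  rw [(h1.mul h2).co ι hN (mul_ne_zero h h'), h1.co ι hN h, h2.co ι hN h', map_mul,
    cT_mul (h1.hf ι hN h) (h2.hf ι hN h')]

theorem co_const {c : Qb} (h : c ≠ 0) (r : ℚ) : co ι (algebraMap Qb FF c) r = 0 := by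
  rw [(ex_const 1 c).co ι one_pos ((_root_.map_ne_zero _).2 h), mp_C]
  exact (up_const ((_root_.map_ne_zero ι).2 h)).cT1 _

theorem co_one (r : ℚ) : co ι 1 r = 0 := by simpa using co_const ι one_ne_zero r

theorem co_pow (h : f ≠ 0) (n : ℕ) (r : ℚ) : co ι (f ^ n) r = n * co ι f r := by
  induction n with
  | zero => rw [pow_zero, co_one, Nat.cast_zero, zero_mul]
  | succ n ih => rw [pow_succ, co_mul ι (pow_ne_zero _ h) h, ih, Nat.cast_succ, add_one_mul]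

theorem Ex.co_eq_zero (hN : 0 < N) (h : Ex N f x) (h0 : f ≠ 0) {r : ℚ} (hr : ∀ k : ℕ, r * N ≠ k) :
    Cu.co ι f r = 0 := by
  rw [h.co ι hN h0, cT_eq_zero _ hr]

/-- **upper triangular matrices** -/
theorem co_pb (X : Mdl) (h0 : f ≠ 0) {a d : ℕ} (b : ℤ) (ha : 0 < a) (hd : 0 < d)
    (hA : 0 < (!![(a : ℤ), b; 0, (d : ℤ)] : M2).det) (r : ℚ) :
    co ι (X.pb _ hA f) r = ι (E (r * b / a)) * co ι f (r * d / a) := by
  obtain ⟨N, hN, x, h⟩ := ex_lev f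
  have a0 : (a : ℚ) ≠ 0 := by exact_mod_cast ha.ne'
  have d0 : (d : ℚ) ≠ 0 := by exact_mod_cast hd.ne'
  have N0 : (N : ℚ) ≠ 0 := by exact_mod_cast hN.ne'
  obtain ⟨u, hu⟩ := h.hf ι hN h0
  rw [(h.pb X hN b ha hd hA).co ι (Nat.mul_pos hN hd) ((_root_.map_ne_zero _).2 h0), h.co ι hN h0,
    mp_ex, mp_rs, show r * (N * d : ℕ) = r * d / a * N * a by push_cast; field_simp,
    cT_ex ⟨_, hu.rs _ (norm_E ι _)⟩]
  by_cases e : ∃ k : ℕ, r * d / a * N = k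
  · obtain ⟨k, hk⟩ := e
    rw [hk, cT_rs ⟨u, hu⟩ _ (norm_E ι _), ← map_pow, ← E_nat, ← hk]
    congr 3
    push_cast
    field_simp
  · rw [cT_eq_zero _ (not_exists.1 e), cT_eq_zero _ (not_exists.1 e), mul_zero]

/-- **the Galois action** -/
theorem co_gal (X : Mdl) (h0 : f ≠ 0) {s : GQ} (σ : C →+* C) (h1 : ∀ a, ‖σ a‖ = ‖a‖)
    (h2 : ∀ a, ι (s a) = σ (ι a)) (r : ℚ) : co ι (X.gal s f) r = σ (co ι f r) := by
  obtain ⟨N, hN, x, h⟩ := ex_lev f
  rw [(h.gal X hN s).co ι hN ((_root_.map_ne_zero _).2 h0), h.co ι hN h0,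
    ← cT_mp (h.hf ι hN h0) σ h1]
  congr 1
  ext n
  exact h2 _

variable (p : ℕ) [hp : Fact p.Prime]

/-- the slice `r` -/
def lg (f : FF) (r : ℚ) : ℤ → C := fun i => co ι f (r * (p : ℚ) ^ i)

theorem lg_apply (f : FF) (r : ℚ) (i : ℤ) : lg ι p f r i = co ι f (r * (p : ℚ) ^ i) := rfl

theorem lg_mul (h : f ≠ 0) (h' : g ≠ 0) (r : ℚ) : lg ι p (f * g) r = lg ι p f r + lg ι p g r :=
  funext fun _ => co_mul ι h h' _

theorem lg_const {c : Qb} (h : c ≠ 0) (r : ℚ) : lg ι p (algebraMap Qb FF c) r = 0 :=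
  funext fun _ => co_const ι h _

theorem lg_pow (h : f ≠ 0) (n : ℕ) (r : ℚ) : lg ι p (f ^ n) r = n • lg ι p f r :=
  funext fun _ => (co_pow ι h n _).trans (nsmul_eq_mul _ _).symm

theorem lg_shift (f : FF) (r : ℚ) (i : ℤ) : lg ι p f (r * p) i = lg ι p f r (i + 1) := by
  rw [lg, lg, zpow_add_one₀ (Nat.cast_ne_zero.2 hp.out.ne_zero), mul_assoc, mul_comm (p : ℚ)]

theorem lg_pb (X : Mdl) (h0 : f ≠ 0) {a d : ℕ} (b : ℤ) (ha : 0 < a) (hd : 0 < d)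
    (hA : 0 < (!![(a : ℤ), b; 0, (d : ℤ)] : M2).det) (r : ℚ) (i : ℤ) :
    lg ι p (X.pb _ hA f) r i = ι (E (r * (p : ℚ) ^ i * b / a)) * lg ι p f (r * d / a) i := by
  rw [lg, co_pb ι X h0 b ha hd hA, lg]
  congr 2
  ring

theorem lg_gal (X : Mdl) (h0 : f ≠ 0) {s : GQ} (σ : C →+* C) (h1 : ∀ a, ‖σ a‖ = ‖a‖)
    (h2 : ∀ a, ι (s a) = σ (ι a)) (r : ℚ) (i : ℤ) :
    lg ι p (X.gal s f) r i = σ (lg ι p f r i) := co_gal ι X h0 σ h1 h2 _

variable {p} in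
theorem Ex.cu (hN : 0 < N) (h : Ex N f x) (h0 : f ≠ 0) {u : C⟦X⟧} (hu : UP (mp ι x) u) {d : ℕ}
    (hd : ¬ p ∣ d) (n : ℕ) {r : ℚ} (e : r * N = d * (p : ℚ) ^ n) : cu p n d u = d • lg ι p f r := by
  funext i
  rw [cT_cu hu n hd, Pi.smul_apply, nsmul_eq_mul, lg, h.co ι hN h0, mul_right_comm, e,
    zpow_add₀ (Nat.cast_ne_zero.2 hp.out.ne_zero), zpow_natCast, mul_assoc, mul_comm ((p : ℚ) ^ n)]

/-- **the slices are ghost vectors** -/
theorem lg_mem (np : ‖(p : C)‖ < 1) (h0 : f ≠ 0) (r : ℚ) : lg ι p f r ∈ BW p C := by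
  obtain ⟨N, hN, x, h⟩ := ex_lev f
  rcases le_or_gt r 0 with hr | hr
  · have : lg ι p f r = 0 := funext fun i => by
      have p0 : (0 : ℚ) < (p : ℚ) ^ i := zpow_pos (by exact_mod_cast hp.out.pos) i
      have h1 : r * (p : ℚ) ^ i * N ≤ 0 :=
        mul_nonpos_of_nonpos_of_nonneg (mul_nonpos_of_nonpos_of_nonneg hr p0.le) N.cast_nonneg
      rw [lg, h.co ι hN h0, cT, Int.toNat_of_nonpos (Rat.num_nonpos.2 h1), Lg_zero, zero_div,
        ite_self, Pi.zero_apply]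
    rw [this]
    exact zero_mem _
  · have hM := Nat.mul_pos hN r.den_pos
    have h1 := h.up hN r.den_pos
    obtain ⟨u, hu⟩ := h1.hf ι hM h0
    have k0 : N * r.num.toNat ≠ 0 := (Nat.mul_pos hN (by have := Rat.num_pos.2 hr; omega)).ne'
    obtain ⟨n, d, hd, e⟩ := Nat.exists_eq_pow_mul_and_not_dvd k0 p hp.out.ne_one
    refine mem_BW_of_mul np hd ?_
    rw [← h1.cu ι hM h0 hu hd n]
    · exact (fcu p C).mem n d u hd hu.1
    · have e1 : (N : ℚ) * (r.num.toNat : ℤ) = p ^ n * d := by exact_mod_cast congrArg (Nat.cast (R := ℚ)) e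
      rw [Int.toNat_of_nonneg (Rat.num_pos.2 hr).le, ← Rat.mul_den_eq_num] at e1
      push_cast
      linear_combination e1

/-! ## the additive character -/

/-- rational numbers with a power of `p` as denominator -/
def Zp (r : ℚ) : Prop := ∃ (k : ℤ) (m : ℕ), r = k / p ^ m

variable {p}

omit hp in
theorem zp_int (k : ℤ) : Zp p k := ⟨k, 0, by simp⟩

theorem Zp.add {r s : ℚ} (h : Zp p r) (h' : Zp p s) : Zp p (r + s) := by
  obtain ⟨k, m, rfl⟩ := h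
  obtain ⟨l, n, rfl⟩ := h'
  have p0 : (p : ℚ) ≠ 0 := Nat.cast_ne_zero.2 hp.out.ne_zero
  exact ⟨k * p ^ n + l * p ^ m, m + n, by push_cast; field_simp; ring⟩

omit hp in
theorem Zp.neg {r : ℚ} (h : Zp p r) : Zp p (-r) := by
  obtain ⟨k, m, rfl⟩ := h
  exact ⟨-k, m, by push_cast; ring⟩

theorem Zp.int {r : ℚ} (h : Zp p r) (h1 : ‖(r : ℚ_[p])‖ ≤ 1) : ∃ n : ℤ, r = n := by
  obtain ⟨k, m, rfl⟩ := h
  have p0 : (p : ℚ) ≠ 0 := Nat.cast_ne_zero.2 hp.out.ne_zero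
  have p1 : (0 : ℝ) < p := by exact_mod_cast hp.out.pos
  obtain ⟨n, rfl⟩ : (p : ℤ) ^ m ∣ k := by
    rw [← Padic.norm_int_le_pow_iff_dvd]
    push_cast at h1
    rw [norm_div, norm_pow, Padic.norm_p, div_le_one (by positivity)] at h1
    simpa using h1
  exact ⟨n, by push_cast; field_simp⟩

theorem ex_zp (b : ℚ_[p]) (m : ℕ) : ∃ r, Zp p r ∧ ‖b - (r : ℚ)‖ ≤ ‖(p : ℚ_[p]) ^ m‖ := by
  have p0 : (p : ℚ_[p]) ≠ 0 := Nat.cast_ne_zero.2 hp.out.ne_zero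
  have p1 : (1 : ℝ) < p := by exact_mod_cast hp.out.one_lt
  obtain ⟨n, hn⟩ := pow_unbounded_of_one_lt ‖b‖ p1
  have h1 : ‖b * p ^ n‖ ≤ 1 := by
    rw [norm_mul, norm_pow, Padic.norm_p, inv_pow, mul_inv_le_iff₀ (by positivity), one_mul]
    exact hn.le
  obtain ⟨z, hz⟩ : ∃ z : ℤ_[p], (z : ℚ_[p]) = b * p ^ n := ⟨⟨_, h1⟩, rfl⟩
  obtain ⟨c, hc⟩ := Ideal.mem_span_singleton'.1 (PadicInt.appr_spec (n + m) z)
  refine ⟨_, ⟨z.appr (n + m), n, rfl⟩, ?_⟩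
  have e := congrArg (fun z : ℤ_[p] => (z : ℚ_[p])) hc
  push_cast at e ⊢
  rw [show b - (z.appr (n + m) : ℚ_[p]) / p ^ n = c * p ^ m by
    field_simp
    rw [← hz, ← e]
    ring, norm_mul]
  exact mul_le_of_le_one_left (norm_nonneg _) c.2

/-- the additive character `b ↦ e(-b)` -/
def psi (b : ℚ_[p]) : C := ι (E (-(ex_zp b 0).choose))

omit [CompleteSpace C] [IsAlgClosed C] [CharZero C] [IsUltrametricDist C] in
theorem psi_eq {b : ℚ_[p]} {r : ℚ} (h : Zp p r) (h1 : ‖b - r‖ ≤ 1) : psi ι b = ι (E (-r)) := by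
  obtain ⟨h2, h3⟩ := (ex_zp b 0).choose_spec
  obtain ⟨n, hn⟩ := (h.add h2.neg).int (by
    replace h3 := h3.trans_eq (by rw [pow_zero, norm_one])
    push_cast
    rw [show (r : ℚ_[p]) + -((ex_zp b 0).choose : ℚ) = b - ((ex_zp b 0).choose : ℚ) + -(b - r) by ring]
    exact (Padic.nonarchimedean _ _).trans (max_le h3 (by rwa [norm_neg])))
  rw [psi, show -(ex_zp b 0).choose = -r + n by rw [← hn]; ring, E_add, E_int, mul_one]

omit [CompleteSpace C] [IsAlgClosed C] [CharZero C] [IsUltrametricDist C] in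
theorem psi_rat {r : ℚ} (h : Zp p r) : psi ι (r : ℚ_[p]) = ι (E (-r)) := psi_eq ι h (by simp)

omit [CompleteSpace C] [IsAlgClosed C] [CharZero C] [IsUltrametricDist C] in
theorem psi_ok : Psi p (psi ι) := by
  have k : ∀ b : ℚ_[p], ∃ r, Zp p r ∧ ‖b - (r : ℚ)‖ ≤ 1 := fun b => by simpa using ex_zp b 0
  refine ⟨fun a b => ?_, fun b => ?_⟩
  · obtain ⟨r, h1, h2⟩ := k a
    obtain ⟨s, h3, h4⟩ := k b
    rw [psi_eq ι h1 h2, psi_eq ι h3 h4, psi_eq ι (h1.add h3), neg_add, E_add, map_mul]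
    push_cast
    rw [add_sub_add_comm]
    exact (Padic.nonarchimedean _ _).trans (max_le h2 h4)
  · obtain ⟨r, h1, h2⟩ := k b
    rw [psi_eq ι h1 h2, map_eq_one_iff ι ι.injective, E_eq_one]
    constructor
    · rintro ⟨n, hn⟩
      rw [← sub_add_cancel b r]
      refine (Padic.nonarchimedean _ _).trans (max_le h2 ?_)
      rw [neg_eq_iff_eq_neg.1 hn]
      push_cast
      rw [norm_neg]
      exact Padic.norm_int_le_one n
    · intro h3
      refine h1.neg.int ?_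
      push_cast
      rw [show -(r : ℚ_[p]) = b - r + -b by ring]
      exact (Padic.nonarchimedean _ _).trans (max_le h2 (by rwa [norm_neg]))

end Vale.Agent.P022K.QT.Cu
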