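import Vale.Agent.P022K.QT.Cu0
import Vale.Agent.P025.R2.H816.J01

/-!
# P022K, block QT: approximation of `p`-th roots over discretely valued fields
-/

set_option autoImplicit false

open PowerSeries
open scoped LaurentSeries IntermediateField

noncomputable section

namespace Vale.Agent.P022K.QT.Cu

open Vale.Agent.P022 FI WB Vale.Agent.P019P

/-- **successive approximation** -/
theorem iter {Ω Γ : Type*} [Field Ω] [LinearOrderedCommGroupWithZero Γ] (v : Valuation Ω Γ) {p : ℕ}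
    (hp : p.Prime) {K M : Subfield Ω} (le : K ≤ M) {l : Ω} (hl : v l ^ (p - 1) = v p)
    (hD : ∀ u ∈ M, ∃ c ∈ K, v c = v u)
    (fin : {g | v l < g ∧ g < 1 ∧ ∃ u ∈ M, v u = g}.Finite)
    (sep : ∀ u ∈ M, v u ≤ 1 → ∀ x ∈ K, v (u ^ p - x) < 1 → ∃ x' ∈ K, v (u - x') < 1)
    {y : Ω} (hy : y ∈ M) (y0 : y ≠ 0) (hf : y ^ p ∈ K) :
    ∃ z ∈ K, v (y * z - 1) < 1 ∧ v (y * z - 1) ≤ v l := by
  by_contra! hc
  have ne : ∀ {c u : Ω}, v c = v u → u ≠ 0 → c ≠ 0 := fun e h => by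
    rwa [← v.ne_zero_iff, e, v.ne_zero_iff]
  have st : ∃ z ∈ K, v (y * z - 1) < 1 := by
    obtain ⟨c, h1, h2⟩ := hD y hy
    have c0 := ne h2 y0
    have h3 : v (y / c) = 1 := by rw [map_div₀, h2, div_self (v.ne_zero_iff.2 y0)]
    obtain ⟨x, h4, h5⟩ := sep _ (div_mem hy (le h1)) h3.le _ (div_mem hf (pow_mem h1 p))
      (by rw [div_pow, sub_self, map_zero]; exact zero_lt_one)
    have h6 : v x = 1 := by
      rw [← sub_sub_cancel (y / c) x, v.map_sub_eq_of_lt_left (h3 ▸ h5), h3]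
    have x0 : x ≠ 0 := v.ne_zero_iff.1 (h6 ▸ one_ne_zero)
    refine ⟨(c * x)⁻¹, inv_mem (mul_mem h1 h4), ?_⟩
    rwa [show y * (c * x)⁻¹ - 1 = (y / c - x) / x by field_simp, map_div₀, h6, div_one]
  have mm : ∀ z ∈ K, y * z - 1 ∈ M := fun z h => sub_mem (mul_mem hy (le h)) (one_mem _)
  obtain ⟨_, ⟨z, ⟨h1, h2⟩, rfl⟩, hm⟩ := Set.exists_min_image
    ((fun z => v (y * z - 1)) '' {z | z ∈ K ∧ v (y * z - 1) < 1}) id
    (fin.subset (by rintro _ ⟨z, ⟨h1, h2⟩, rfl⟩; exact ⟨hc z h1 h2, h2, _, mm z h1, rfl⟩))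
    (st.elim fun z h => ⟨_, z, h, rfl⟩)
  have h3 := hc z h1 h2
  obtain ⟨c, h4, h5⟩ := hD _ (mm z h1)
  have c0 := ne h5 (v.ne_zero_iff.1 (zero_le.trans_lt h3).ne')
  have vc : 0 < v c := zero_lt_iff.2 (v.ne_zero_iff.2 c0)
  obtain ⟨u, hu⟩ : ∃ u, y * z - 1 = c * u := ⟨_, (mul_div_cancel₀ _ c0).symm⟩
  have h6 : v u = 1 := mul_left_cancel₀ vc.ne' (by rw [← map_mul, ← hu, h5, mul_one])
  obtain ⟨r, hr⟩ := exists_add_pow_prime_eq hp (⟨y * z - 1, h2.le⟩ : v.integer) 1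
  have hr' : (y * z) ^ p = (c * u) ^ p + 1 + p * (c * u) * r := by
    simpa [← hu] using congrArg Subtype.val hr
  obtain ⟨x, h7, h8⟩ := sep u (by
      rw [eq_div_of_mul_eq c0 ((mul_comm _ _).trans hu.symm)]
      exact div_mem (mm z h1) (le h4)) h6.le (((y * z) ^ p - 1) / c ^ p)
    (div_mem (sub_mem (mul_pow y z p ▸ mul_mem hf (pow_mem h1 p)) (one_mem _)) (pow_mem h4 p)) (by
      rw [hr', show u ^ p - ((c * u) ^ p + 1 + p * (c * u) * r - 1) / c ^ p =
        -(p * (u * r)) * c / c ^ p by field_simp; ring, map_div₀, map_mul, v.map_neg, map_mul,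
        map_mul, h6, one_mul, map_pow, div_lt_one₀ (pow_pos vc p), ← hl,
        ← Nat.sub_add_cancel hp.one_le, pow_succ, Nat.add_sub_cancel]
      refine mul_lt_mul_of_pos_right ((mul_le_of_le_one_right' r.2).trans_lt ?_) vc
      exact pow_lt_pow_left₀ (h5 ▸ h3) zero_le (Nat.sub_ne_zero_of_lt hp.one_lt))
  have h9 : v (1 + c * x) = 1 := v.map_one_add_of_lt (by
    rw [map_mul, ← sub_sub_cancel u x, v.map_sub_eq_of_lt_left (h6 ▸ h8), h6, mul_one, h5]
    exact h2)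
  have k0 : 1 + c * x ≠ 0 := v.ne_zero_iff.1 (h9 ▸ one_ne_zero)
  have k1 : v (y * (z / (1 + c * x)) - 1) < v (y * z - 1) := by
    rw [show y * (z / (1 + c * x)) - 1 = c * (u - x) / (1 + c * x) by
      field_simp; linear_combination hu, map_div₀, h9, div_one, map_mul, ← h5]
    exact mul_lt_of_lt_one_right vc h8
  exact k1.not_ge (hm _ ⟨_, ⟨div_mem h1 (add_mem (one_mem _) (mul_mem h4 h7)), k1.trans h2⟩, rfl⟩)

/-- roots descend along algebraic extensions of the constants -/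
theorem desc {k κ : Type*} [Field k] [Field κ] [Algebra k κ] {p : ℕ} [hp : Fact p.Prime]
    [CharP κ p] (hk : ∀ a : k, a ≠ 0 → ∃ n > 0, a ^ n = 1) (F : Subfield κ) {s : Set κ}
    (hs : IntermediateField.adjoin k s = ⊤) (h : s ⊆ F) {α : κ} (hα : α ^ p ∈ F) : α ∈ F := by
  have : CharP F p := CharP.subring' κ p F.toSubring
  have : ExpChar F p := ExpChar.prime hp.out
  have h1 : IsSeparable F α := by
    let S := (separableClosure F κ).toSubfield.toIntermediateField (K := k) fun a => by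
      by_cases a0 : a = 0
      · rw [a0, map_zero]
        exact zero_mem _
      obtain ⟨n, h1, h2⟩ := hk a a0
      obtain ⟨i, m, h3, rfl⟩ := Nat.exists_eq_pow_mul_and_not_dvd h1.ne' p hp.out.ne_one
      have : ExpChar κ p := ExpChar.prime hp.out
      refine (Polynomial.X_pow_sub_one_separable_iff.2
        ((CharP.cast_eq_zero_iff F p m).not.2 h3)).of_dvd (minpoly.dvd _ _ ?_)
      rw [map_sub, map_pow, Polynomial.aeval_X, map_one, sub_eq_zero,
        ← ExpChar.pow_prime_pow_mul_eq_one_iff p i, ← map_pow, h2, map_one]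
    exact (IntermediateField.adjoin_le_iff (T := S)).2 (fun x hx => isSeparable_algebraMap
      (⟨x, h hx⟩ : F)) (hs ▸ IntermediateField.mem_top)
  have h2 := IntermediateField.mem_adjoin_simple_self F α
  rw [IntermediateField.adjoin_simple_eq_adjoin_pow_expChar_of_isSeparable F κ h1 p,
    show F⟮α ^ p⟯ = ⊥ from IntermediateField.adjoin_simple_eq_bot_iff.2
      (IntermediateField.mem_bot.2 ⟨⟨_, hα⟩, rfl⟩)] at h2
  obtain ⟨a, rfl⟩ := IntermediateField.mem_bot.1 h2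
  exact a.2

/-- the coefficients of a root -/
theorem root_mem {C : Type*} [Field C] [CharZero C] (k : Subfield C) {p : ℕ} (hp : p ≠ 0) {g : C⟦X⟧}
    (h0 : coeff 0 g ≠ 0) (h1 : coeff 0 g ∈ k) (h : ∀ n, coeff n (g ^ p) ∈ k) (n : ℕ) :
    coeff n g ∈ k := by
  have e : d⁄dX C (g ^ p) * g = PowerSeries.C (p : C) * (g ^ p * d⁄dX C g) := by
    obtain ⟨m, rfl⟩ := Nat.exists_eq_succ_of_ne_zero hp
    rw [Derivation.leibniz_pow, map_natCast]
    simp only [Nat.succ_sub_one, nsmul_eq_mul, smul_eq_mul, pow_succ]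
    ring
  induction n using Nat.strong_induction_on with
  | _ n ih =>
  rcases n with _ | n
  · exact h1
  have e1 := congrArg (coeff n) e
  rw [coeff_C_mul, coeff_mul _ (g ^ p), ← Finset.add_sum_erase _ _
    (show (0, n) ∈ Finset.HasAntidiagonal.antidiagonal n by simp), coeff_derivative, coeff_mul] at e1
  have g0 : coeff 0 (g ^ p) ≠ 0 := by simpa using fun e => absurd (by simpa using e) h0
  have p0 : (p : C) ≠ 0 := Nat.cast_ne_zero.2 hp
  have n0 : (n + 1 : C) ≠ 0 := by exact_mod_cast n.succ_ne_zero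
  rw [eq_div_of_mul_eq n0 (eq_div_of_mul_eq g0 ((mul_comm _ _).trans
    (eq_sub_of_add_eq (eq_div_of_mul_eq p0 ((mul_comm _ _).trans e1.symm)))))]
  refine div_mem (div_mem (sub_mem (div_mem (sum_mem fun x hx => mul_mem ?_ (ih _ ?_))
    (natCast_mem k p)) (sum_mem fun x hx => mul_mem (h _) ?_)) (h 0))
    (add_mem (natCast_mem k n) (one_mem k))
  · rw [coeff_derivative]
    exact mul_mem (h _) (add_mem (natCast_mem k _) (one_mem k))
  · have := Finset.HasAntidiagonal.mem_antidiagonal.1 hx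
    omega
  · obtain ⟨h2, h3⟩ := Finset.mem_erase.1 hx
    have := Finset.HasAntidiagonal.mem_antidiagonal.1 h3
    rw [coeff_derivative]
    refine mul_mem (ih _ ?_) (add_mem (natCast_mem k _) (one_mem k))
    by_contra h4
    exact h2 (Prod.ext (by simp; omega) (by simp; omega))

/-- an integer valued valuation is a multiple of the order at a place -/
theorem dvd_of_val {k K : Type*} [Field k] [Field K] [Algebra k K] [CFF k K] (φ : K → ℤ)
    (mul : ∀ x y, x ≠ 0 → y ≠ 0 → φ (x * y) = φ x + φ y)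
    (add : ∀ x y, x ≠ 0 → y ≠ 0 → x + y ≠ 0 → min (φ x) (φ y) ≤ φ (x + y))
    (cst : ∀ a, φ (algebraMap k K a) = 0) {n : ℤ} {f : K} (h0 : f ≠ 0)
    (h : ∀ P : Plk k K, n ∣ ord P f) : n ∣ φ f := by
  have one : φ 1 = 0 := by simpa using cst 1
  have inv : ∀ x, x ≠ 0 → φ x⁻¹ = -φ x := fun x hx => by
    have := mul x x⁻¹ hx (inv_ne_zero hx)
    rw [mul_inv_cancel₀ hx, one] at this
    omega
  let V : ValuationSubring K :=
    { carrier := {x | x ≠ 0 → 0 ≤ φ x}
      mul_mem' := fun {a b} ha hb e => by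
        have a0 := left_ne_zero_of_mul e
        have b0 := right_ne_zero_of_mul e
        rw [mul a b a0 b0]
        exact add_nonneg (ha a0) (hb b0)
      one_mem' := fun _ => one.ge
      add_mem' := fun {a b} ha hb e => by
        by_cases a0 : a = 0
        · subst a0
          rw [zero_add] at e ⊢
          exact hb e
        by_cases b0 : b = 0
        · subst b0
          rw [add_zero]
          exact ha a0
        exact (le_min (ha a0) (hb b0)).trans (add a b a0 b0 e)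
      zero_mem' := fun e => absurd rfl e
      neg_mem' := fun {a} ha e => by
        have a0 := neg_ne_zero.1 e
        have := cst (-1)
        rw [map_neg, map_one] at this
        rw [← neg_one_mul, mul _ _ (neg_ne_zero.2 one_ne_zero) a0, this, zero_add]
        exact ha a0
      mem_or_inv_mem' := fun x => (le_total 0 (φ x)).imp (fun h _ => h) fun h e => by
        rw [inv x (inv_ne_zero e |> fun e => by simpa using e)]
        omega }
  by_cases e : φ f = 0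
  · rw [e]
    exact dvd_zero n
  let P : Plk k K := ⟨V, fun a _ => (cst a).ge, fun e' => by
    have h1 : 0 ≤ φ f := (e'.ge (ValuationSubring.mem_top f)) h0
    have h2 : 0 ≤ φ f⁻¹ := (e'.ge (ValuationSubring.mem_top f⁻¹)) (inv_ne_zero h0)
    rw [inv f h0] at h2
    omega⟩
  obtain ⟨π, π0, hπ⟩ := exists_unif P
  have pw : ∀ m : ℤ, φ (π ^ m) = m * φ π := fun m => by
    induction m using Int.induction_on with
    | zero => simpa using one
    | succ i ih => rw [zpow_add_one₀ π0, mul _ _ (zpow_ne_zero _ π0) π0, ih]; ring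
    | pred i ih =>
      rw [zpow_sub_one₀ π0, mul _ _ (zpow_ne_zero _ π0) (inv_ne_zero π0), ih, inv π π0]; ring
  have u0 : f * π ^ (-ord P f) ≠ 0 := mul_ne_zero h0 (zpow_ne_zero _ π0)
  have u1 : ord P (f * π ^ (-ord P f)) = 0 := by
    rw [ord_mul P h0 (zpow_ne_zero _ π0), ord_zpow, hπ]; ring
  have a1 : 0 ≤ φ _ := (mem_iff_ord P _).2 (Or.inr u1.ge) u0
  have a2 : 0 ≤ φ _ := (mem_iff_ord P _).2 (Or.inr (by rw [ord_inv, u1, neg_zero])) (inv_ne_zero u0)
  rw [inv _ u0] at a2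
  rw [mul _ _ h0 (zpow_ne_zero _ π0), pw] at a1 a2
  rw [show φ f = ord P f * φ π by linarith]
  exact (h P).mul_right _

variable {C : Type} [NontriviallyNormedField C] [IsUltrametricDist C] [CharZero C] {p : ℕ}
  [hp : Fact p.Prime]

theorem norm_rat (np : ‖(p : C)‖ < 1) {q : ℚ} (h : q ≠ 0) : ∃ k : ℤ, ‖(q : C)‖ = ‖(p : C)‖ ^ k := by
  have key : ∀ m : ℕ, m ≠ 0 → ∃ k : ℕ, ‖(m : C)‖ = ‖(p : C)‖ ^ k := fun m hm => by
    obtain ⟨i, m, h3, rfl⟩ := Nat.exists_eq_pow_mul_and_not_dvd hm p hp.out.ne_one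
    exact ⟨i, by rw [Nat.cast_mul, norm_mul, WB.Cu.norm_nat np h3, mul_one, Nat.cast_pow, norm_pow]⟩
  obtain ⟨a, ha⟩ := key q.num.natAbs (by simpa using h)
  obtain ⟨b, hb⟩ := key q.den q.den_nz
  refine ⟨a - b, ?_⟩
  rw [Rat.cast_def, norm_div, hb, zpow_sub₀ (norm_ne_zero_iff.2 (Nat.cast_ne_zero.2 hp.out.ne_zero)),
    zpow_natCast, zpow_natCast, ← ha, Nat.cast_natAbs]
  rcases abs_choice q.num with e | e <;> simp [e]

/-- **the values of a number field are discrete** -/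
theorem disc (np : ‖(p : C)‖ < 1) (n : ℕ) {r : ℝ} (hr : 0 < r) (B : ℝ) :
    {t | r ≤ t ∧ t ≤ B ∧ ∃ c : C, ‖c‖ = t ∧ ∃ P : Polynomial ℚ, P ≠ 0 ∧ P.natDegree ≤ n ∧
      Polynomial.aeval c P = 0}.Finite := by
  have p0 : 0 < ‖(p : C)‖ := norm_pos_iff.2 (Nat.cast_ne_zero.2 hp.out.ne_zero)
  obtain ⟨a, ha⟩ := exists_pow_lt_of_lt_one (pow_pos hr n.factorial) np
  obtain ⟨b, hb⟩ := pow_unbounded_of_one_lt (B ^ n.factorial) ((one_lt_inv₀ p0).2 np)
  refine Set.Finite.of_finite_image (f := (· ^ n.factorial))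
    (((Set.finite_Icc (-b : ℤ) a).image (‖(p : C)‖ ^ ·)).subset ?_) fun s hs t ht e =>
      (pow_left_inj₀ (hr.le.trans hs.1) (hr.le.trans ht.1) n.factorial_ne_zero).1 e
  rintro _ ⟨_, ⟨h1, h2, c, rfl, P, h3, h4, h5⟩, rfl⟩
  have c0 : 0 < ‖c‖ := hr.trans_le h1
  obtain ⟨k, hk⟩ : ∃ k : ℤ, ‖c‖ ^ n.factorial = ‖(p : C)‖ ^ k := by
    obtain ⟨i, hi, hm⟩ := P.support.exists_max_image (fun i => ‖(P.coeff i : C) * c ^ i‖)
      (Polynomial.support_nonempty.2 h3)
    have nz : ∀ i ∈ P.support, (P.coeff i : C) * c ^ i ≠ 0 := fun i hi => mul_ne_zero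
      (Rat.cast_ne_zero.2 (Polynomial.mem_support_iff.1 hi)) (pow_ne_zero _ (norm_pos_iff.1 c0))
    rw [Polynomial.aeval_def, Polynomial.eval₂_eq_sum, Polynomial.sum_def,
      ← Finset.add_sum_erase _ _ hi, add_eq_zero_iff_eq_neg] at h5
    obtain ⟨j, hj, h6⟩ := IsUltrametricDist.exists_norm_finsetSum_le_of_nonempty
      (t := P.support.erase i) (Finset.nonempty_iff_ne_empty.2 fun e => nz i hi (by
        rw [e, Finset.sum_empty, neg_zero] at h5
        exact h5)) fun j => algebraMap ℚ C (P.coeff j) * c ^ j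
    obtain ⟨h7, h8⟩ := Finset.mem_erase.1 hj
    rw [← norm_neg, ← h5] at h6
    have e : ‖(P.coeff i : C) * c ^ i‖ = ‖(P.coeff j : C) * c ^ j‖ := le_antisymm h6 (hm j h8)
    obtain ⟨x, hx⟩ := norm_rat np (Polynomial.mem_support_iff.1 hi)
    obtain ⟨y, hy⟩ := norm_rat np (Polynomial.mem_support_iff.1 h8)
    have b1 := (Polynomial.le_natDegree_of_mem_supp i hi).trans h4
    have b2 := (Polynomial.le_natDegree_of_mem_supp j h8).trans h4
    obtain ⟨d, hd⟩ : ((i : ℤ) - j) ∣ n.factorial := Int.natAbs_dvd.1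
      (Int.natCast_dvd_natCast.2 (Nat.dvd_factorial (by omega) (by omega)))
    rw [norm_mul, norm_mul, hx, hy, norm_pow, norm_pow] at e
    refine ⟨(y - x) * d, ?_⟩
    rw [← zpow_natCast, hd, zpow_mul, zpow_mul, zpow_sub₀ c0.ne', zpow_sub₀ p0.ne', zpow_natCast,
      zpow_natCast, (div_eq_div_iff (pow_pos c0 j).ne' (zpow_pos p0 x).ne').2 ((mul_comm _ _).trans e)]
  refine ⟨k, ⟨?_, ?_⟩, hk.symm⟩
  · rw [← zpow_le_zpow_iff_right_of_lt_one₀ p0 np, ← hk, zpow_neg, zpow_natCast, ← inv_pow]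
    exact (pow_le_pow_left₀ c0.le h2 _).trans hb.le
  · rw [← zpow_le_zpow_iff_right_of_lt_one₀ p0 np, ← hk, zpow_natCast]
    exact ha.le.trans (pow_le_pow_left₀ hr.le h1 _)

omit [CharZero C] in
/-- a root of a bounded series is bounded -/
theorem bdd_root [CompleteSpace C] [IsAlgClosed C] {G : C⟦X⟧} {c : C} {D : C →₀ ℤ}
    (h : Fac (am C G) c D) {B : ℝ} (hB : ∀ n, ‖coeff n (G ^ p)‖ ≤ B) (n : ℕ) : ‖coeff n G‖ ≤ ‖c‖ := by
  obtain ⟨b, hb⟩ := NormedField.exists_lt_norm C B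
  have b0 : 0 < ‖b‖ := ((norm_nonneg _).trans (hB 0)).trans_lt hb
  have h1 : Ig (PowerSeries.C b⁻¹ * G ^ p) := fun n => by
    rw [coeff_C_mul, norm_mul, norm_inv, inv_mul_le_one₀ b0]
    exact (hB n).trans hb.le
  have h2 := (h.pow p).smul (inv_ne_zero (norm_pos_iff.1 b0))
  rw [← map_pow, ← am_C, ← map_mul] at h2
  have h3 : pp (-D) = 1 := by
    rw [pp_neg]
    refine Finset.prod_eq_one fun a ha => ?_
    obtain ⟨r, a1, a2, a3, -⟩ := exists_r (h.2.1 a ha) (h.2.1 a ha)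
    have := od_am_nonneg a1 a3 (h1.cv a1 a2)
    rw [h2.od a1 a2 a3, Finsupp.smul_apply, nsmul_eq_mul] at this
    beta_reduce
    rw [Int.toNat_of_nonpos (neg_nonpos.2 (nonneg_of_mul_nonneg_right this
      (by exact_mod_cast hp.out.pos))), pow_zero]
  obtain ⟨u, hu, e⟩ := h.quot
  rw [h3, map_one, mul_one, ← am_C, ← map_mul] at e
  rw [am_inj e, coeff_C_mul, norm_mul]
  exact mul_le_of_le_one_right (norm_nonneg _) (hu.1.mul (ig_pp h.2.1) n)

end Vale.Agent.P022K.QT.Cu
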