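import Vale.Agent.P022K.F0.Wt
import Vale.Agent.P022.H227.EichD

/-!
# P022K, block QT, row CLB: vector valued Eichler integrals
-/

set_option autoImplicit false

open UpperHalfPlane Polynomial Filter
open scoped MatrixGroups ModularForm Manifold

noncomputable section

namespace Vale.Agent.P022K.QT.Cl

open Vale.Agent.P022 Vale.Agent.P022K.Sh

/-- `A' = g` -/
def Dv (A g : ℍ → ℂ) : Prop := ∀ τ : ℍ, HasDerivAt (A ∘ ofComplex) (g τ) (τ : ℂ)

theorem Dv.uniq {A B g : ℍ → ℂ} (hA : Dv A g) (hB : Dv B g) (h : A I = B I) : A = B := by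
  obtain ⟨c, hc⟩ := H227.eqConst_of_deriv (G := fun τ => A τ - B τ) fun τ => by
    simpa [Function.comp_def] using (hA τ).fun_sub (hB τ)
  funext τ
  have := (hc τ).trans (hc I).symm
  rwa [h, sub_self, sub_eq_zero] at this

theorem Dv.sum {ι : Type} (s : Finset ι) {A g : ι → ℍ → ℂ} (c : ι → ℂ) (d : ℂ)
    (h : ∀ i, Dv (A i) (g i)) :
    Dv (fun τ => d + ∑ i ∈ s, c i * A i τ) fun τ => ∑ i ∈ s, c i * g i τ := fun τ =>
  (HasDerivAt.fun_sum fun i _ => (h i τ).const_mul (c i)).const_add d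

theorem Dv.comp {A g : ℍ → ℂ} (h : Dv A g) (α : GL (Fin 2) ℝ) (hα : 0 < α.val.det) :
    Dv (fun τ => A (α • τ)) fun τ => g (α • τ) * (α.val.det / denom α τ ^ 2) := fun τ => by
  have h4 : HasDerivAt (A ∘ ofComplex) (g (α • τ))
      ((fun z : ℂ => ((α • ofComplex z : ℍ) : ℂ)) (τ : ℂ)) := by
    simpa [ofComplex_apply] using h (α • τ)
  refine (h4.comp (τ : ℂ) (hasStrictDerivAt_smul hα τ).hasDerivAt).congr_of_eventuallyEq
    (Eventually.of_forall fun z => ?_)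
  simp [Function.comp_def, ofComplex_apply]

/-- the primitive that vanishes at `i` -/
def pr (g : ℍ → ℂ) : ℍ → ℂ := Classical.epsilon fun A => Dv A g ∧ A I = 0

theorem pr_spec {g : ℍ → ℂ} (hg : MDiff g) : Dv (pr g) g ∧ pr g I = 0 := by
  obtain ⟨A, hA⟩ := H227.exists_prim g hg
  exact Classical.epsilon_spec (p := fun A => Dv A g ∧ A I = 0)
    ⟨fun τ => A τ - A I, fun τ => (hA τ).sub_const (A I), sub_self _⟩

theorem md_pow {g : ℍ → ℂ} (hg : MDiff g) (j : ℕ) : MDiff fun τ : ℍ => (τ : ℂ) ^ j * g τ :=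
  (mdifferentiable_coe.pow j).mul hg

/-- the vector of the primitives of `τ ^ k g` -/
def pf (w : ℕ) (g : ℍ → ℂ) (τ : ℍ) (k : Fin (w + 1)) : ℂ :=
  pr (fun s : ℍ => (s : ℂ) ^ (k : ℕ) * g s) τ

theorem pf_I (w : ℕ) {g : ℍ → ℂ} (hg : MDiff g) : pf w g I = 0 :=
  funext fun k => (pr_spec (md_pow hg k)).2

theorem pf_dv (w : ℕ) {g : ℍ → ℂ} (hg : MDiff g) (k : Fin (w + 1)) :
    Dv (fun τ => pf w g τ k) fun s => (s : ℂ) ^ (k : ℕ) * g s := (pr_spec (md_pow hg k)).1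

theorem pf_lin (w : ℕ) {ι : Type} (s : Finset ι) {g : ι → ℍ → ℂ} (hg : ∀ i, MDiff (g i))
    {f : ℍ → ℂ} (hf : MDiff f) {c : ℂ} (e : ∑ i ∈ s, g i = c • f) (τ : ℍ) :
    ∑ i ∈ s, pf w (g i) τ = c • pf w f τ := by
  funext k
  have h1 := Dv.sum s (fun _ => 1) 0 fun i => pf_dv w (hg i) k
  have h2 := Dv.sum {()} (fun _ => c) 0 fun _ => pf_dv w hf k
  have h3 := congrFun (h1.uniq (by
    convert h2 using 2 with σ
    have := congrFun e σ
    simp only [Finset.sum_apply, Pi.smul_apply, smul_eq_mul] at this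
    simp only [one_mul, ← Finset.mul_sum, this, Finset.sum_singleton]
    ring) (by simp [pf_I, hg, hf])) τ
  simpa using h3

/-- a real matrix as a complex one -/
abbrev cx (α : GL (Fin 2) ℝ) : Matrix (Fin 2) (Fin 2) ℂ := α.val.map Complex.ofReal

/-- the transformation law -/
theorem pf_act (w : ℕ) {g g' : ℍ → ℂ} (hg : MDiff g) (hg' : MDiff g') (α : GL (Fin 2) ℝ)
    (hα : 0 < α.val.det) {c : ℂ}
    (e : ∀ τ, c * g' τ * denom α τ ^ (w + 2) = α.val.det * g (α • τ)) (τ : ℍ) :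
    pf w g (α • τ) = pf w g (α • I) + (c • sy w (cx α)).mulVec (pf w g' τ) := by
  funext j
  have h2 := Dv.sum Finset.univ (fun k => c * sy w (cx α) j k) (pf w g (α • I) j)
    fun k => pf_dv w hg' k
  refine congrFun (((pf_dv w hg j).comp α hα).uniq (B := fun τ => pf w g (α • I) j +
    ∑ k, c * sy w (cx α) j k * pf w g' τ k) ?_ (by simp [pf_I, hg'])) τ
  convert h2 using 2 with σ
  have h3 := sum_mon (S := ℂ) w (cx α) j σ 1
  have h4 := H227.coe_smul' α hα σ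
  have d0 := denom_ne_zero α σ
  have hd : denom α σ = (α 1 0 : ℝ) * (σ : ℂ) + (α 1 1 : ℝ) := rfl
  simp only [one_pow, mul_one, Algebra.algebraMap_self, RingHom.id_apply, Matrix.map_apply] at h3
  rw [← h4, ← hd, mul_pow, mul_assoc, ← pow_add, Nat.add_sub_cancel' (Nat.lt_succ_iff.1 j.2)] at h3
  have h5 : ∑ k, c * sy w (cx α) j k * ((σ : ℂ) ^ (k : ℕ) * g' σ) =
      c * g' σ * ∑ k : Fin (w + 1), (mon w (cx α) j).coeff k * (σ : ℂ) ^ (k : ℕ) := by
    rw [Finset.mul_sum]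
    exact Finset.sum_congr rfl fun k _ => by rw [sy_apply]; ring
  rw [h5, h3]
  field_simp
  linear_combination (-((α • σ : ℍ) : ℂ) ^ (j : ℕ)) * e σ

/-- the row `X - t` -/
abbrev bm (t : ℂ) : Matrix (Fin 2) (Fin 2) ℂ := !![0, 0; 1, -t]

theorem sy_bm (w : ℕ) (t : ℂ) (k : Fin (w + 1)) :
    sy w (bm t) 0 k = ((X - C t) ^ w).coeff k := by
  simp [sy_apply, mon, sub_eq_add_neg]

/-- **injectivity** -/
theorem inj (Γ : Subgroup SL(2, ℤ)) [Γ.FiniteIndex] {w : ℕ} {f : ℍ → ℂ} (hm : MDiff f)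
    (hf : ∀ δ : SL(2, ℤ), IsBoundedAtImInfty (f ∣[((w : ℤ) + 2)] δ))
    (hi : ∀ γ ∈ Γ, f ∣[((w : ℤ) + 2)] γ = f) (v : Fin (w + 1) → ℂ)
    (h : ∀ γ ∈ Γ, pf w f (γ • I) = (sy w (cx γ)).mulVec v - v) : f = 0 := by
  let A : ℕ → ℍ → ℂ := fun i τ => if h : i < w + 1 then (pf w f τ + v) ⟨i, h⟩ else 0
  have hF : H227.Eich w f fun τ => (sy w (bm τ)).mulVec (pf w f τ + v) 0 := by
    refine ⟨A, fun j hj τ => ?_, fun τ => ?_⟩
    · simp only [A, dif_pos (Nat.lt_succ_iff.2 hj)]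
      exact (pf_dv w hm ⟨j, Nat.lt_succ_iff.2 hj⟩ τ).add_const _
    · refine Eq.trans ?_ (Fin.sum_univ_eq_sum_range
        (fun i => ((X - C (τ : ℂ)) ^ w).coeff i * A i τ) (w + 1))
      change ∑ k, sy w (bm τ) 0 k * (pf w f τ + v) k = _
      exact Finset.sum_congr rfl fun k _ => by simp only [sy_bm, A, dif_pos k.2]
  refine H227.eich_eq_zero Γ hf hF fun γ hγ => funext fun τ => ?_
  have hd : (γ : GL (Fin 2) ℝ).val.det = 1 :=
    congrArg Units.val (Matrix.SpecialLinearGroup.det_mapGL (S := ℝ) γ)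
  have hp : 0 < (γ : GL (Fin 2) ℝ).val.det := hd ▸ one_pos
  have d0 := denom_ne_zero (γ : GL (Fin 2) ℝ)
  have h1 := pf_act w hm hm γ hp (c := 1) (fun σ => by
    have := congrFun (hi γ hγ) σ
    rw [ModularForm.SL_slash_apply, show -((w : ℤ) + 2) = -((w + 2 : ℕ) : ℤ) by push_cast; ring,
      zpow_neg, zpow_natCast, mul_inv_eq_iff_eq_mul₀ (pow_ne_zero _ (d0 σ))] at this
    rw [hd, one_mul, Complex.ofReal_one, one_mul]
    exact this.symm) τ
  have h2 : pf w f (γ • τ) + v = (sy w (cx γ)).mulVec (pf w f τ + v) := by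
    rw [Matrix.mulVec_add]
    refine (congrArg (· + v) h1).trans ?_
    rw [one_smul, show ((γ : GL (Fin 2) ℝ) • I) = γ • I from rfl, h γ hγ]
    abel
  rw [ModularForm.SL_slash_apply, neg_neg, zpow_natCast, h2, Matrix.mulVec_mulVec, ← map_mul]
  simp only [Matrix.mulVec, dotProduct, Finset.sum_mul]
  refine Finset.sum_congr rfl fun k _ => ?_
  have h3 : ((γ • τ : ℍ) : ℂ) * _ = _ := H227.coe_smul' _ hp τ
  have h4 : denom (γ : GL (Fin 2) ℝ) τ =
      ((γ : GL (Fin 2) ℝ) 1 0 : ℝ) * (τ : ℂ) + ((γ : GL (Fin 2) ℝ) 1 1 : ℝ) := rfl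
  have h5 := congrArg Complex.ofReal hd
  rw [Matrix.det_fin_two] at h5
  push_cast at h5
  have h6 : C (denom (γ : GL (Fin 2) ℝ) τ ^ w) * mon w (bm (γ • τ : ℍ) * cx γ) 0 =
      (X - C (τ : ℂ)) ^ w := by
    have e1 : denom (γ : GL (Fin 2) ℝ) τ * (bm (γ • τ : ℍ) * cx γ) 1 0 = 1 := by
      simp only [Matrix.mul_apply, Fin.sum_univ_two, Matrix.map_apply]
      simp only [Matrix.of_apply, Matrix.cons_val', Matrix.cons_val_zero, Matrix.cons_val_one,
        Matrix.cons_val_fin_one]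
      linear_combination h5 - ((γ : GL (Fin 2) ℝ) 1 0 : ℝ) * h3 + ((γ : GL (Fin 2) ℝ) 0 0 : ℝ) * h4
    have e2 : denom (γ : GL (Fin 2) ℝ) τ * (bm (γ • τ : ℍ) * cx γ) 1 1 = -τ := by
      simp only [Matrix.mul_apply, Fin.sum_univ_two, Matrix.map_apply]
      simp only [Matrix.of_apply, Matrix.cons_val', Matrix.cons_val_zero, Matrix.cons_val_one,
        Matrix.cons_val_fin_one]
      linear_combination (-(τ : ℂ)) * h5 - ((γ : GL (Fin 2) ℝ) 1 1 : ℝ) * h3 +
        ((γ : GL (Fin 2) ℝ) 0 1 : ℝ) * h4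
    rw [mon, pow_zero, one_mul, Nat.sub_zero, C_pow, ← mul_pow, mul_add, ← mul_assoc, ← C_mul,
      ← C_mul, e1, e2, C_1, one_mul, C_neg, sub_eq_add_neg]
  rw [sy_bm, ← h6, coeff_C_mul, sy_apply]
  simp only [Fin.val_zero]
  ring

/-- solvability of a linear system over a field extension -/
theorem desc {K L ι κ : Type} [Field K] [Field L] (φ : K →+* L) [Fintype κ] (r : ι → κ → K)
    (c : ι → L) (h : ∀ l : L →+ K, (∀ a y, l (φ a * y) = a * l y) →
      ∃ v : κ → K, ∀ i, l (c i) = ∑ j, r i j * v j) :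
    ∃ v : κ → L, ∀ i, c i = ∑ j, φ (r i j) * v j := by
  classical
  let _ := φ.toAlgebra
  have hk : LinearMap.ker (Finsupp.linearCombination K r) ≤
      LinearMap.ker (Finsupp.linearCombination K c) := fun t ht => by
    refine (Module.forall_dual_apply_eq_zero_iff K _).1 fun l => ?_
    obtain ⟨v, hv⟩ := h l.toAddMonoidHom fun a y => l.map_smul a y
    have e : l ∘ₗ Finsupp.linearCombination K c =
        (dotProductBilin K K).flip v ∘ₗ Finsupp.linearCombination K r := by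
      ext i
      simpa [dotProduct] using hv i
    have := DFunLike.congr_fun e t
    rwa [LinearMap.comp_apply, LinearMap.comp_apply, LinearMap.mem_ker.1 ht, map_zero] at this
  obtain ⟨ψ, hψ⟩ := LinearMap.exists_extend (((LinearMap.ker _).liftQ _ hk).comp
    (Finsupp.linearCombination K r).quotKerEquivRange.symm.toLinearMap)
  refine ⟨fun j => ψ (Pi.single j 1), fun i => ?_⟩
  have h1 := DFunLike.congr_fun hψ ⟨_, LinearMap.mem_range_self _ (Finsupp.single i 1)⟩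
  rw [LinearMap.comp_apply, LinearMap.comp_apply, LinearEquiv.coe_coe,
    LinearMap.quotKerEquivRange_symm_apply_image] at h1
  simp only [Submodule.subtype_apply, Finsupp.linearCombination_single, one_smul,
    Submodule.mkQ_apply, Submodule.liftQ_apply] at h1
  rw [← h1, LinearMap.pi_apply_eq_sum_univ]
  exact Finset.sum_congr rfl fun j _ => by
    rw [Algebra.smul_def]
    congr 2
    funext k
    simp [Pi.single_apply, eq_comm]

end Vale.Agent.P022K.QT.Cl
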