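import Mathlib.GroupTheory.CoprodI
import Mathlib.LinearAlgebra.Matrix.FixedDetMatrices
import Mathlib.NumberTheory.Modular

/-!
# P022K, block QT: the modular group is the free product of cyclic groups of orders two and three
-/

set_option autoImplicit false

open UpperHalfPlane ModularGroup
open scoped MatrixGroups Pointwise

noncomputable section

namespace Vale.Agent.P022K.Sh.Psl

/-- a homomorphism from a cyclic group -/
def cyc {K : Type} [Group K] (n : ℕ) [NeZero n] (g : K) (h : g ^ n = 1) :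
    Multiplicative (ZMod n) →* K where
  toFun x := g ^ x.toAdd.val
  map_one' := by simp
  map_mul' x y := by rw [toAdd_mul, ZMod.val_add, ← pow_eq_pow_mod _ h, pow_add]

/-- the action on the upper half plane -/
abbrev pm : SL(2, ℤ) →* Equiv.Perm ℍ := MulAction.toPermHom SL(2, ℤ) ℍ

theorem pm_neg : pm (-1) = 1 := by
  ext1 τ
  show (-1 : SL(2, ℤ)) • τ = τ
  rw [ModularGroup.SL_neg_smul, one_smul]

theorem S_sq : S ^ 2 = -1 := by decide

theorem R_cube : (S * T) ^ 3 = -1 := by decide

theorem S_re (τ : ℍ) : (S • τ).re = -τ.re / Complex.normSq τ := by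
  rw [modular_S_smul]
  simp [Complex.inv_re, neg_div]

theorem T_re (τ : ℍ) : (T • τ).re = 1 + τ.re := by
  rw [modular_T_smul]
  simp

theorem S_pos {τ : ℍ} : 0 < (S • τ).re ↔ τ.re < 0 := by
  rw [S_re, lt_div_iff₀ (Complex.normSq_pos.2 τ.ne_zero), zero_mul, neg_pos]

theorem S_neg {τ : ℍ} : (S • τ).re < 0 ↔ 0 < τ.re := by
  rw [S_re, div_lt_iff₀ (Complex.normSq_pos.2 τ.ne_zero), zero_mul, neg_lt_zero]

theorem R_sq (τ : ℍ) : T • (S * T) ^ 2 • τ = S • τ := by
  rw [← mul_smul, show T * (S * T) ^ 2 = S by decide]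

theorem gen : Subgroup.closure {S, S * T} = ⊤ := by
  rw [eq_top_iff, ← SpecialLinearGroup.SL2Z_generators, Subgroup.closure_le]
  have h1 : S ∈ Subgroup.closure {S, S * T} := Subgroup.subset_closure (by simp)
  have h2 : S * T ∈ Subgroup.closure {S, S * T} := Subgroup.subset_closure (by simp)
  rintro _ (rfl | rfl)
  · exact h1
  · simpa using mul_mem (inv_mem h1) h2

/-- **the presentation** -/
theorem psl {H : Type} [Group H] (a b : H) (ha : a ^ 2 = 1) (hb : b ^ 3 = 1) :
    ∃ φ : pm.range →* H, φ (pm.rangeRestrict S) = a ∧ φ (pm.rangeRestrict (S * T)) = b := by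
  let mk : ∀ {K : Type} [Group K] (x y : K), x ^ 2 = 1 → y ^ 3 = 1 →
      ∀ i : Fin 2, Multiplicative (ZMod (i.1 + 2)) →* K := fun x y hx hy i =>
    cyc (i.1 + 2) (![x, y] i) (by fin_cases i <;> assumption)
  have e0 : ∀ {K : Type} [Group K] (x y : K) hx hy,
      mk x y hx hy 0 (Multiplicative.ofAdd 1) = x := fun x _ _ _ => pow_one x
  have e1 : ∀ {K : Type} [Group K] (x y : K) hx hy,
      mk x y hx hy 1 (Multiplicative.ofAdd 1) = y := fun _ y _ _ => pow_one y
  have hS : pm S ^ 2 = 1 := by rw [← map_pow, S_sq, pm_neg]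
  have hR : pm (S * T) ^ 3 = 1 := by rw [← map_pow, R_cube, pm_neg]
  have hI : 0 < (T • I).re := by rw [T_re]; simp
  have inj := Monoid.CoprodI.lift_injective_of_ping_pong (mk _ _ hS hR)
    (Or.inr ⟨1, by simp⟩) (α := ℍ) ![{τ | 0 < τ.re}, {τ | τ.re < 0}] (by
      intro i
      fin_cases i
      · exact ⟨T • I, hI⟩
      · exact ⟨S • T • I, S_neg.2 hI⟩) (by
      intro i j hij
      fin_cases i <;> fin_cases j <;> simp at hij <;>
        exact Set.disjoint_left.2 fun τ h h' => lt_asymm (a := τ.re) (b := 0) (by assumption)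
          (by assumption)) (by
      intro i j hij h h1
      fin_cases i <;> fin_cases j <;> simp at hij <;> rintro _ ⟨τ, hτ, rfl⟩
      · obtain rfl : h = Multiplicative.ofAdd 1 := by
          revert h
          decide
        exact (e0 _ _ hS hR).symm ▸ S_pos.2 hτ
      · obtain rfl | rfl : h = Multiplicative.ofAdd 1 ∨ h = Multiplicative.ofAdd 1 ^ 2 := by
          revert h
          decide
        · show ((pm (S * T) ^ 1) τ).re < 0
          rw [pow_one]
          show ((S * T) • τ).re < 0
          rw [mul_smul, S_neg, T_re]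
          exact add_pos one_pos hτ
        · show ((pm (S * T) ^ 2) τ).re < 0
          rw [← map_pow]
          show ((S * T) ^ 2 • τ).re < 0
          have := S_neg.2 hτ
          rw [← R_sq, T_re] at this
          linarith)
  set F := Monoid.CoprodI.lift (mk _ _ hS hR)
  have f0 : F (Monoid.CoprodI.of (i := 0) (Multiplicative.ofAdd 1)) = pm S :=
    (Monoid.CoprodI.lift_of _ _).trans (e0 _ _ hS hR)
  have f1 : F (Monoid.CoprodI.of (i := 1) (Multiplicative.ofAdd 1)) = pm (S * T) :=
    (Monoid.CoprodI.lift_of _ _).trans (e1 _ _ hS hR)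
  have le : pm.range ≤ F.range := by
    rw [MonoidHom.range_eq_map, ← gen, MonoidHom.map_closure, Subgroup.closure_le]
    rintro _ ⟨_, rfl | rfl, rfl⟩
    exacts [⟨_, f0⟩, ⟨_, f1⟩]
  have key : ∀ x g, F x = pm g →
      (MonoidHom.ofInjective inj).symm (Subgroup.inclusion le (pm.rangeRestrict g)) = x :=
    fun x g e => (MulEquiv.symm_apply_eq _).2 (Subtype.ext e.symm)
  refine ⟨(Monoid.CoprodI.lift (mk a b ha hb)).comp ((MonoidHom.ofInjective inj).symm.toMonoidHom.comp
    (Subgroup.inclusion le)), ?_, ?_⟩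
  · exact (congrArg _ (key _ _ f0)).trans ((Monoid.CoprodI.lift_of _ _).trans (e0 a b ha hb))
  · exact (congrArg _ (key _ _ f1)).trans ((Monoid.CoprodI.lift_of _ _).trans (e1 a b ha hb))

theorem fix_S : S • I = I := stabilizer_I.2 (by simp)

theorem fix_R : (S * T) • ρ = ρ := stabilizer_ρ.2 (by simp)

/-- induction over the modular group as a semigroup -/
theorem ind {P : SL(2, ℤ) → Prop} (mul : ∀ g h, P g → P h → P (g * h)) (hS : P S)
    (hR : P (S * T)) (g : SL(2, ℤ)) : P g := by
  have h2 := mul _ _ hS hS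
  have h3 := mul _ _ hR hR
  refine Subgroup.closure_induction'' (p := fun g _ => P g) ?_ ?_ ?_ (fun g h _ _ => mul g h)
    (gen ▸ Subgroup.mem_top g)
  · rintro _ (rfl | rfl) <;> assumption
  · rintro _ (rfl | rfl)
    · exact (show S * S * S = S⁻¹ by decide) ▸ mul _ _ h2 hS
    · exact (show S * S * (S * T * (S * T)) = (S * T)⁻¹ by decide) ▸ mul _ _ h2 h3
  · exact (show S * S * (S * S) = 1 by decide) ▸ mul _ _ h2 h2

/-- cocycles with prescribed values at the generators -/
theorem ex_coc {M : Type} [AddCommGroup M] (L : SL(2, ℤ) →* Module.End ℤ M) (h : L (-1) = 1)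
    (f₁ f₂ : M) : ∃ c : SL(2, ℤ) → M, (∀ g k, c (g * k) = c g + L g (c k)) ∧
      (∀ g k, pm g = pm k → c g = c k) ∧ c S = L S f₁ - f₁ ∧ c (S * T) = L (S * T) f₂ - f₂ := by
  let A : M → SL(2, ℤ) →* Equiv.Perm M := fun f =>
    { toFun := fun g =>
        { toFun := fun m => L g (m + f) - f
          invFun := fun m => L g⁻¹ (m + f) - f
          left_inv := fun m => by simp [← Module.End.mul_apply, ← map_mul]
          right_inv := fun m => by simp [← Module.End.mul_apply, ← map_mul] }
      map_one' := by ext; simp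
      map_mul' := fun g k => by ext; simp }
  have hA : ∀ f, A f (-1) = 1 := fun f => by
    ext m
    show L (-1) (m + f) - f = m
    simp [h]
  obtain ⟨φ, h1, h2⟩ := psl (A f₁ S) (A f₂ (S * T)) (by rw [← map_pow, S_sq, hA])
    (by rw [← map_pow, R_cube, hA])
  have key : ∀ g m, φ (pm.rangeRestrict g) m = φ (pm.rangeRestrict g) 0 + L g m := by
    have a : ∀ f g m, A f g m = A f g 0 + L g m := fun f g m => by
      show L g (m + f) - f = L g (0 + f) - f + L g m
      rw [zero_add, map_add]
      abel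
    refine ind (fun g k hg hk m => ?_) (h1 ▸ a _ _) (h2 ▸ a _ _)
    simp only [map_mul, Equiv.Perm.mul_apply, Module.End.mul_apply]
    rw [hg, hk, hg (φ _ 0), map_add, add_assoc]
  refine ⟨fun g => φ (pm.rangeRestrict g) 0, fun g k => ?_, fun g k e => ?_, ?_, ?_⟩ <;>
    beta_reduce
  · rw [map_mul, map_mul, Equiv.Perm.mul_apply, key]
  · rw [show pm.rangeRestrict g = pm.rangeRestrict k from Subtype.ext e]
  · rw [h1]
    exact congrArg (fun m => L S m - f₁) (zero_add _)
  · rw [h2]
    exact congrArg (fun m => L (S * T) m - f₂) (zero_add _)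

end Vale.Agent.P022K.Sh.Psl
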