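import Vale.Agent.P022K.QT.If
import Vale.Agent.P022K.QT.Psl

/-!
# P022K, block QT: cohomology of a tower whose components are modular curves
-/

set_option autoImplicit false

open UpperHalfPlane
open scoped MatrixGroups

noncomputable section

namespace Vale.Agent.P022K.Sh.Tw

variable {G0 G : Type} [Group G0] [Group G] (T : Tw G0 G)

/-- the components are quotients by subgroups of the modular group -/
structure Mn (K1 : Subgroup G) (i : SL(2, ℤ) →* G0) : Prop where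
  act : ∀ g (τ : ℍ), T.r (i g) • τ = g • τ
  gen : ∀ x, ∃ γ, (T.j γ)⁻¹ * x ∈ K1
  stab : ∀ γ, T.j γ ∈ K1 ↔ γ ∈ i.range ⊔ T.Z0
  lev : K1 ∈ T.Lev
  le : ∀ U ∈ T.Lev, ∃ y, U ≤ cj y K1

variable {T} {Λ B Λ' B' : Type} [CommRing Λ] [AddCommGroup B] [Module Λ B] [CommRing Λ']
  [AddCommGroup B'] [Module Λ' B'] {ρ : Representation Λ G0 B} {ρ' : Representation Λ' G0 B'}
  {U U' K1 : Subgroup G} {i : SL(2, ℤ) →* G0}

theorem z0_conj {ζ : G0} (h : ζ ∈ T.Z0) (δ : G0) : δ⁻¹ * ζ * δ ∈ T.Z0 :=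
  (MonoidHom.normal_ker _).conj_mem' ζ h δ

theorem coc_pt {z : G0 → G → B} (hz : z ∈ T.Z1 ρ U) (γ δ : G0) (x : G) :
    z (γ * δ) x = z γ x + ρ γ (z δ ((T.j γ)⁻¹ * x)) := congrFun (hz.2.1 γ δ) x

theorem coc_z0 {z : G0 → G → B} (hz : z ∈ T.Z1 ρ U) (γ : G0) {ζ : G0} (h : ζ ∈ T.Z0) :
    z (γ * ζ) = z γ := by
  funext x
  rw [coc_pt hz, hz.2.2 ζ h, Pi.zero_apply, map_zero, add_zero]

/-- representatives of the double cosets -/
theorem ex_sec (A : Subgroup G0) (U : Subgroup G) : ∃ (κ : G → G0) (o : G → G),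
    (∀ x, κ x ∈ A) ∧ Inv U κ ∧ (∀ x, (T.j (κ x) * o x)⁻¹ * x ∈ U) ∧
      ∀ a ∈ A, ∀ x, o ((T.j a)⁻¹ * x) = o x := by
  let s : Setoid G := ⟨fun x y => ∃ a ∈ A, (T.j a * x)⁻¹ * y ∈ U,
    fun x => ⟨1, one_mem _, by simp⟩, fun ⟨a, ha, h⟩ => ⟨a⁻¹, inv_mem ha, by
      simpa [mul_assoc] using inv_mem h⟩, fun ⟨a, ha, h⟩ ⟨b, hb, h'⟩ => ⟨b * a, mul_mem hb ha, by
      simpa [mul_assoc] using mul_mem h h'⟩⟩
  let o : G → G := fun x => (Quotient.mk s x).out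
  let P : G → G0 → Prop := fun x a => a ∈ A ∧ (T.j a * o x)⁻¹ * x ∈ U
  have hP : ∀ x, P x (Classical.epsilon (P x)) := fun x =>
    Classical.epsilon_spec (Quotient.mk_out (s := s) x)
  refine ⟨fun x => Classical.epsilon (P x), o, fun x => (hP x).1, fun x u hu => ?_,
    fun x => (hP x).2, fun a ha x => congrArg Quotient.out (Quotient.sound ⟨a, ha, by simp⟩)⟩
  have e : o (x * u) = o x :=
    congrArg Quotient.out (Quotient.sound ⟨1, one_mem _, by simpa using hu⟩)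
  refine congrArg Classical.epsilon (funext fun a => propext ?_)
  simp only [P, e, ← mul_assoc, U.mul_mem_cancel_right hu]

/-- a cocycle of neat level is a coboundary on the stabiliser of a point -/
theorem Neat.cob (h : T.Neat U) (τ : ℍ) {z : G0 → G → B} (hz : z ∈ T.Z1 ρ U) :
    ∃ f, Inv U f ∧ ∀ a, T.r a • τ = τ → z a = T.lt ρ a f - f := by
  obtain ⟨κ, o, h1, h2, h3, h4⟩ := ex_sec (T := T) ((MulAction.stabilizer GP τ).comap T.r) U
  refine ⟨fun x => -z (κ x) x, fun x u hu => by simp only [h2 x u hu, hz.1 _ x u hu],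
    fun a ha => funext fun x => ?_⟩
  have m : (κ x)⁻¹ * (a * κ ((T.j a)⁻¹ * x)) ∈ T.Z0 := by
    refine h (o x) _ (T.mem_Gam.2 ?_) τ (mul_mem (inv_mem (h1 x)) (mul_mem ha (h1 _)))
    have := mul_mem (h3 x) (inv_mem (h3 ((T.j a)⁻¹ * x)))
    rw [h4 a ha] at this
    simpa [mul_assoc] using this
  have e := congrFun (coc_z0 hz (κ x) m) x
  rw [mul_inv_cancel_left, coc_pt hz] at e
  simp only [lt, Pi.sub_apply, map_neg, ← e]
  abel

variable (T ρ) in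
/-- the extension of a cocycle from the modular group -/
def ext (δ : G → G0) (c : G0 → G → B) (γ : G0) (x : G) : B :=
  ρ (δ x) (c ((δ x)⁻¹ * (γ * δ ((T.j γ)⁻¹ * x))) ((T.j (δ x))⁻¹ * x))

theorem ext_coc (δ : G → G0) {z : G0 → G → B} (hz : z ∈ T.Z1 ρ U) (γ : G0) :
    T.ext ρ δ z γ = z γ + (T.lt ρ γ (fun x => z (δ x) x) - fun x => z (δ x) x) := by
  funext x
  have e := coc_pt hz (δ x) ((δ x)⁻¹ * (γ * δ ((T.j γ)⁻¹ * x))) x
  rw [mul_inv_cancel_left, coc_pt hz] at e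
  simp only [ext, lt, Pi.add_apply, Pi.sub_apply, ← add_sub_assoc, e, add_sub_cancel_left]

/-- the choice of the components -/
structure Sct (K1 : Subgroup G) (y : G) (δ : G → G0) : Prop where
  inv : Inv (cj y K1) δ
  mem : ∀ x, (T.j (δ x))⁻¹ * x * y ∈ K1

theorem Mn.sec (h : T.Mn K1 i) (y : G) : ∃ δ, T.Sct K1 y δ := by
  refine ⟨fun x => Classical.epsilon fun γ => (T.j γ)⁻¹ * x * y ∈ K1, fun x u hu => ?_,
    fun x => Classical.epsilon_spec (p := fun γ => (T.j γ)⁻¹ * x * y ∈ K1)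
      (by simpa only [mul_assoc] using h.gen (x * y))⟩
  refine congrArg Classical.epsilon (funext fun a => propext ?_)
  rw [← K1.mul_mem_cancel_right (y := (T.j a)⁻¹ * x * y) (mem_cj.1 hu)]
  simp only [mul_assoc, mul_inv_cancel_left]

theorem Sct.mem' {y : G} {δ : G → G0} (s : T.Sct K1 y δ) (γ : G0) (x : G) :
    T.j ((δ x)⁻¹ * (γ * δ ((T.j γ)⁻¹ * x))) ∈ K1 := by
  simpa [mul_assoc] using mul_mem (s.mem x) (inv_mem (s.mem ((T.j γ)⁻¹ * x)))

theorem Ok0.z_mul (k : T.Ok0) (hU : U ∈ T.Lev) {ζ : G0} (h : ζ ∈ T.Z0) {X : Type} {f : G → X}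
    (hf : Inv U f) (x : G) : f ((T.j ζ)⁻¹ * x) = f x := by
  have m := inv_mem ((k.z0 ζ).1 h)
  rw [← Subgroup.mem_center_iff.1 (k.zc m), hf _ _ ((sInf_le hU : T.Z ≤ U) m)]

theorem Sct.ext_mem (k : T.Ok0) (hU : U ∈ T.Lev) {y : G} {δ : G → G0} (s : T.Sct K1 y δ)
    (le : U ≤ cj y K1) {c : G0 → G → B} (h1 : ∀ γ, Inv U (c γ))
    (h2 : ∀ γ γ' x, T.j γ ∈ K1 → T.j γ' ∈ K1 →
      c (γ * γ') x = c γ x + ρ γ (c γ' ((T.j γ)⁻¹ * x))) (h3 : ∀ ζ ∈ T.Z0, c ζ = 0) :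
    T.ext ρ δ c ∈ T.Z1 ρ U := by
  refine ⟨fun γ x u hu => ?_, fun γ γ' => funext fun x => ?_, fun ζ hζ => funext fun x => ?_⟩
  · simp only [ext, ← mul_assoc, s.inv _ u (le hu), h1 _ _ u hu]
  · have e := h2 _ _ ((T.j (δ x))⁻¹ * x) (s.mem' γ x) (s.mem' γ' ((T.j γ)⁻¹ * x))
    simp only [map_mul, mul_inv_rev, map_inv, inv_inv, mul_assoc, mul_inv_cancel_left,
      Module.End.mul_apply] at e
    simp only [ext, lt, Pi.add_apply, map_mul, mul_inv_rev, mul_assoc, e, map_add]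
    rw [← Module.End.mul_apply, ← map_mul, mul_inv_cancel, map_one, Module.End.one_apply]
  · rw [ext, k.z_mul hU hζ fun x u hu => s.inv x u (le hu), ← mul_assoc, h3 _ (z0_conj hζ _),
      Pi.zero_apply, Pi.zero_apply, map_zero]

theorem Mn.split (h : T.Mn K1 i) {γ : G0} (m : T.j γ ∈ K1) : ∃ g, (i g)⁻¹ * γ ∈ T.Z0 := by
  have : T.Z0.Normal := MonoidHom.normal_ker _
  obtain ⟨_, ⟨g, rfl⟩, z, hz, rfl⟩ := Subgroup.mem_sup_of_normal_right.1 ((h.stab γ).1 m)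
  exact ⟨g, by rwa [inv_mul_cancel_left]⟩

theorem Mn.mem (h : T.Mn K1 i) (g : SL(2, ℤ)) : T.j (i g) ∈ K1 :=
  (h.stab _).2 (Subgroup.mem_sup_left ⟨g, rfl⟩)

theorem Mn.pm_eq (h : T.Mn K1 i) {g k : SL(2, ℤ)} : (i g)⁻¹ * i k ∈ T.Z0 ↔ Psl.pm g = Psl.pm k := by
  rw [← inv_mul_eq_one, ← map_inv, ← map_mul, ← map_inv, ← map_mul]
  exact Eq.congr_left (Equiv.ext fun τ => h.act _ τ)

/-- **lifting of cocycles** along a local surjection of coefficients -/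
theorem Mn.onto (h : T.Mn K1 i) (k : T.Ok0) (hU : U ∈ T.Lev) (hU' : U' ∈ T.Lev) (le : U' ≤ U)
    (nt : T.Neat U) (h0 : ∀ ζ ∈ T.Z0, ρ' ζ = 1) (Φ : (G → B') →+ (G → B))
    (loc : ∀ γ f f' x x', (∀ u ∈ U, f (x * u) = ρ' γ (f' (x' * u))) → Φ f x = ρ γ (Φ f' x'))
    (sur : ∀ f, Inv U f → ∃ f', Inv U' f' ∧ Φ f' = f) {z : G0 → G → B} (hz : z ∈ T.Z1 ρ U) :
    ∃ z' ∈ T.Z1 ρ' U', ∀ γ, Φ (z' γ) = z γ := by
  classical
  have eqv : ∀ γ f, Φ (T.lt ρ' γ f) = T.lt ρ γ (Φ f) := fun γ f => funext fun x =>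
    loc γ _ _ _ _ fun u _ => by simp only [lt, mul_assoc]
  obtain ⟨_, d₁, b₁⟩ := nt.cob I hz
  obtain ⟨_, d₂, b₂⟩ := nt.cob UpperHalfPlane.ρ hz
  obtain ⟨f₁, a₁, rfl⟩ := sur _ d₁
  obtain ⟨f₂, a₂, rfl⟩ := sur _ d₂
  let M : AddSubgroup (G → B') :=
    { carrier := {f | Inv U' f}
      add_mem' := fun a b x u hu => by simp only [Pi.add_apply, a x u hu, b x u hu]
      zero_mem' := fun _ _ _ => rfl
      neg_mem' := fun a x u hu => by simp only [Pi.neg_apply, a x u hu] }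
  let L : G0 →* Module.End ℤ M :=
    { toFun := fun γ => AddMonoidHom.toIntLinearMap (AddMonoidHom.mk'
        (fun f => ⟨T.lt ρ' γ f.1, fun x u hu => by simp only [lt, ← mul_assoc, f.2 _ u hu]⟩)
        fun f g => Subtype.ext (funext fun x => map_add _ _ _))
      map_one' := by
        ext f x
        simp [lt]
      map_mul' := fun γ δ => by
        ext f x
        simp [lt, mul_assoc] }
  have l0 : ∀ ζ ∈ T.Z0, L ζ = 1 := fun ζ hζ => by
    ext f x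
    show ρ' ζ (f.1 _) = f.1 x
    rw [h0 ζ hζ, k.z_mul hU' hζ f.2, Module.End.one_apply]
  obtain ⟨c, c1, c2, c3, c4⟩ := Psl.ex_coc (L.comp i) (l0 _ (by
    simpa using (h.pm_eq (g := 1)).2 ((map_one _).trans Psl.pm_neg.symm))) ⟨f₁, a₁⟩ ⟨f₂, a₂⟩
  have key : ∀ g, Φ (c g).1 = z (i g) := by
    refine Psl.ind (fun g g' hg hg' => ?_) ?_ ?_
    · rw [c1, map_mul, hz.2.1, ← hg, ← hg', ← eqv, ← map_add]
      rfl
    · rw [c3, b₁ _ ((h.act _ _).trans Psl.fix_S), ← eqv, ← map_sub]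
      rfl
    · rw [c4, b₂ _ ((h.act _ _).trans Psl.fix_R), ← eqv, ← map_sub]
      rfl
  let σ : G0 → SL(2, ℤ) := fun γ => Classical.epsilon fun g => (i g)⁻¹ * γ ∈ T.Z0
  have hσ : ∀ γ g, (i g)⁻¹ * γ ∈ T.Z0 → c (σ γ) = c g := fun γ g e => c2 _ _ (h.pm_eq.1 (by
    have e' : (i (σ γ))⁻¹ * γ ∈ T.Z0 :=
      Classical.epsilon_spec (p := fun g => (i g)⁻¹ * γ ∈ T.Z0) ⟨g, e⟩
    simpa [mul_assoc] using mul_mem e' (inv_mem e)))
  obtain ⟨y, hy⟩ := h.le U hU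
  obtain ⟨δ, s⟩ := h.sec y
  have m := s.ext_mem (ρ := ρ') k hU' (le.trans hy) (c := fun γ => (c (σ γ)).1)
    (fun γ => (c _).2) (fun γ γ' x m m' => by
      obtain ⟨g, e⟩ := h.split m
      obtain ⟨g', e'⟩ := h.split m'
      rw [hσ _ _ e, hσ _ _ e', hσ _ (g * g') (by
        simpa [mul_assoc] using mul_mem (z0_conj e (i g')) e'), c1]
      have : L γ = L (i g) := by rw [← mul_inv_cancel_left (i g) γ, map_mul, l0 _ e, mul_one]
      exact congrArg (fun l : Module.End ℤ M => (c g).1 x + (l (c g')).1 x) this.symm)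
    fun ζ hζ => by
      have := c1 1 1
      rw [mul_one, map_one, Module.End.one_apply, left_eq_add] at this
      rw [hσ ζ 1 (by simpa using hζ), this]
      rfl
  obtain ⟨f, a, b⟩ := sur (fun x => z (δ x) x) fun x u hu => by
    simp only [s.inv x u (hy hu), hz.1 _ x u hu]
  have m' : (fun γ => (L γ ⟨f, a⟩ - ⟨f, a⟩ : M).1) ∈ T.Z1 ρ' U' := by
    refine ⟨fun γ => Subtype.property _, fun γ γ' => funext fun x => ?_, fun ζ hζ => ?_⟩
    · simp [L, lt, mul_assoc]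
    · beta_reduce
      rw [l0 ζ hζ, Module.End.one_apply, sub_self]
      rfl
  refine ⟨_, sub_mem m m', fun γ => ?_⟩
  have e : Φ (T.ext ρ' δ (fun γ => (c (σ γ)).1) γ) = T.ext ρ δ z γ := funext fun x => by
    obtain ⟨g, e⟩ := h.split (s.mem' γ x)
    rw [ext, ← mul_inv_cancel_left (i g) (_ * _), coc_z0 hz _ e, ← key, ← hσ _ _ e]
    exact loc _ _ _ _ _ fun u hu => by simp only [ext, ← mul_assoc, s.inv _ u (hy hu)]
  rw [Pi.sub_apply, map_sub, e, ext_coc δ hz, ← b, ← eqv, ← map_sub]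
  exact add_sub_cancel_right _ _

/-- **finiteness** -/
theorem Mn.fin (h : T.Mn K1 i) (k : T.Ok0) (hU : U ∈ T.Lev) [IsNoetherianRing Λ]
    [Module.Finite Λ B] : Module.Finite Λ (T.H1 ρ U) := by
  obtain ⟨y, hy⟩ := h.le U hU
  obtain ⟨δ, s⟩ := h.sec y
  have := Subgroup.index_ne_zero_iff_finite.1 (k.fi U hU _ (k.conj _ h.lev y))
  let ev : T.Z1 ρ U →ₗ[Λ] (Fin 2 × (cj y K1 ⧸ U.subgroupOf (cj y K1)) → B) :=
    { toFun := fun z q => z.1 (i (![ModularGroup.S, ModularGroup.S * ModularGroup.T] q.1))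
        (y⁻¹ * q.2.out)
      map_add' := fun _ _ => rfl
      map_smul' := fun _ _ => rfl }
  have le : LinearMap.ker ev ≤ (T.B1 ρ U).submoduleOf (T.Z1 ρ U) := fun z hz => by
    have a : ∀ n w, w * y ∈ K1 →
        z.1 (i (![ModularGroup.S, ModularGroup.S * ModularGroup.T] n)) w = 0 := fun n w hw => by
      have m : y * w ∈ cj y K1 := mem_cj.2 (by rwa [inv_mul_cancel_left])
      have e := congrFun (LinearMap.mem_ker.1 hz) (n, ((⟨_, m⟩ : cj y K1) : _ ⧸ _))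
      have := (z.2.1 (i (![ModularGroup.S, ModularGroup.S * ModularGroup.T] n))).eq
        (out_mk_mem (U.subgroupOf (cj y K1)) ⟨_, m⟩) y⁻¹
      exact ((congrArg _ (inv_mul_cancel_left y w).symm).trans this).trans e
    have key : ∀ g w, w * y ∈ K1 → z.1 (i g) w = 0 :=
      Psl.ind (fun g g' hg hg' w hw => by
        rw [map_mul, coc_pt z.2, hg w hw, hg' _ (by
          rw [mul_assoc]; exact mul_mem (inv_mem (h.mem g)) hw), map_zero, add_zero]) (a 0) (a 1)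
    refine ⟨fun x => -z.1 (δ x) x, fun x u hu => by
      simp only [s.inv x u (hy hu), z.2.1 _ x u hu], fun γ => funext fun x => ?_⟩
    obtain ⟨g, e⟩ := h.split (s.mem' γ x)
    have e' := congrFun (ext_coc δ z.2 γ) x
    rw [ext, ← mul_inv_cancel_left (i g) (_ * _), coc_z0 z.2 _ e, key _ _ (s.mem x), map_zero,
      eq_comm, Pi.add_apply, add_eq_zero_iff_eq_neg] at e'
    refine e'.trans ?_
    simp only [lt, Pi.sub_apply, map_neg]
    abel
  have : Module.Finite Λ (T.Z1 ρ U ⧸ LinearMap.ker ev) :=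
    Module.Finite.of_injective _ (LinearMap.ker_eq_bot.1 (Submodule.ker_liftQ_eq_bot _ ev le_rfl le_rfl))
  exact Module.Finite.of_surjective (Submodule.factor le) (Submodule.factor_surjective le)

/-- change of coefficients along a surjection -/
theorem Mn.lif (h : T.Mn K1 i) (k : T.Ok0) (hU : U ∈ T.Lev) (nt : T.Neat U)
    (h0 : ∀ ζ ∈ T.Z0, ρ' ζ = 1) (l : B' →+ B) (hl : Function.Surjective l)
    (e : ∀ γ b, l (ρ' γ b) = ρ γ (l b)) {z : G0 → G → B} (hz : z ∈ T.Z1 ρ U) :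
    ∃ z' ∈ T.Z1 ρ' U, ∀ γ x, z γ x = l (z' γ x) := by
  obtain ⟨z', a, b⟩ := h.onto k hU hU le_rfl nt h0 (l.compLeft G) (fun γ f f' x x' m => by
    have := m 1 (one_mem _)
    rw [mul_one, mul_one] at this
    exact (congrArg l this).trans (e _ _)) (fun f hf => ⟨fun x => Function.surjInv hl (f x),
      fun x u hu => by simp only [hf x u hu], funext fun x => Function.surjInv_eq hl _⟩) hz
  exact ⟨z', a, fun γ x => (congrFun (b γ) x).symm⟩

theorem hk_sur (c : Cor U (U : Set G) U') (le : U' ≤ U) {f : G → B} (hf : Inv U f) :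
    ∃ f', Inv U' f' ∧ hk U U' f' = f := by
  classical
  have o : ∀ x, ∀ u ∈ U, ((x * u : G) : G ⧸ U) = x := fun x u hu =>
    QuotientGroup.mk_mul_of_mem x hu
  refine ⟨fun x => if ((x : G ⧸ U).out)⁻¹ * x ∈ U' then f x else 0, fun x u hu => ?_,
    funext fun x => ?_⟩
  · simp only [o x u (le hu), hf x u (le hu), ← mul_assoc, U'.mul_mem_cancel_right hu]
  · have m := out_mk_mem U' (x⁻¹ * (x : G ⧸ U).out)
    have m' := (U.mul_mem_cancel_left (inv_mem (out_mk_mem U x))).1 (le m)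
    rw [hk_eq c, Finset.sum_eq_single_of_mem ((x⁻¹ * (x : G ⧸ U).out : G) : G ⧸ U')
      (c.fin.mem_toFinset.2 m') fun d hd ne => if_neg fun e => ne ?_, o x _ m', hf x _ m',
      if_pos (by simpa [mul_assoc] using m)]
    rw [o x _ (c.fin.mem_toFinset.1 hd)] at e
    exact ((QuotientGroup.eq.2 (by simpa [mul_assoc] using e)).trans (QuotientGroup.out_eq' d)).symm

/-- the trace is onto -/
theorem Mn.tro (h : T.Mn K1 i) (k : T.Ok0) (hU : U ∈ T.Lev) (hU' : U' ∈ T.Lev) (le : U' ≤ U)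
    (nt : T.Neat U) (h0 : ∀ ζ ∈ T.Z0, ρ ζ = 1) (c : Cor U (U : Set G) U') :
    Function.Surjective (T.hZ ρ c) := fun z => by
  obtain ⟨z', a, b⟩ := h.onto k hU hU' le nt h0 (ρ := ρ) (AddMonoidHom.mk' (hk (U : Set G) U') fun f g =>
    funext fun x => by simp only [hk_eq c, Pi.add_apply, Finset.sum_add_distrib])
    (fun γ f f' x x' m => by
      simp only [AddMonoidHom.mk'_apply, hk_eq c, map_sum]
      exact Finset.sum_congr rfl fun d hd => m _ (c.fin.mem_toFinset.1 hd))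
    (fun f hf => hk_sur c le hf) z.2
  exact ⟨⟨z', a⟩, Subtype.ext (funext b)⟩

/-- **the topological properties** -/
theorem Mn.tk (h : T.Mn K1 i) (k : T.Ok0) (A : T.Ax) (p : ℕ) [NeZero p] : A.Tk p where
  fin U hU n := by
    have := h.fin (ρ := Representation.trivial (ZMod (p ^ n)) G0 (ZMod (p ^ n))) k hU.1
    exact Module.finite_of_finite (ZMod (p ^ n))
  lif U hU n b := by
    obtain ⟨z, rfl⟩ := Submodule.Quotient.mk_surjective _ b
    obtain ⟨z', a, e⟩ := h.lif (ρ' := Representation.trivial (ZMod (p ^ (n + 1))) G0 _) k hU.1 hU.2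
      (fun _ _ => rfl) (ZMod.castHom (pow_dvd_pow p n.le_succ) (ZMod (p ^ n))).toAddMonoidHom
      (ZMod.castHom_surjective (pow_dvd_pow p n.le_succ)) (fun _ _ => rfl) z.2
    exact ⟨_, ⟨z', a⟩, z, rfl, rfl, e⟩
  tro U hU U' hU' le _ _ c n b _ := by
    obtain ⟨z, rfl⟩ := Submodule.Quotient.mk_surjective _ b
    obtain ⟨z', rfl⟩ := h.tro k hU.1 hU'.1 le hU.2 (fun _ _ => rfl) c z
    exact ⟨Submodule.Quotient.mk z', rfl⟩

/-- the field `fg` of `Ok0` -/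
theorem Mn.fg (h : T.Mn K1 i) (conj : ∀ U ∈ T.Lev, ∀ x, cj x U ∈ T.Lev)
    (fi : ∀ U ∈ T.Lev, ∀ U' ∈ T.Lev, U.relIndex U' ≠ 0) (z0 : ∀ γ, γ ∈ T.Z0 ↔ T.j γ ∈ T.Z)
    (hU : U ∈ T.Lev) (x : G) : ∃ S : Finset G0, T.Gam U x = Subgroup.closure S ⊔ T.Z0 := by
  classical
  obtain ⟨y, hy⟩ := h.le U hU
  obtain ⟨δ, hδ⟩ := h.gen (x * y)
  let ψ : SL(2, ℤ) →* G0 := (MulAut.conj δ).toMonoidHom.comp i
  let φ : SL(2, ℤ) →* G := (MulAut.conj x⁻¹).toMonoidHom.comp (T.j.comp ψ)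
  have e : ∀ g, φ g ∈ U ↔ ψ g ∈ T.Gam U x := fun g => by simp [φ, mem_Gam]
  have : Group.FG SL(2, ℤ) := Group.fg_iff.2 ⟨_, Psl.gen, Set.toFinite _⟩
  have : (U.comap φ).FiniteIndex := ⟨by
    rw [Subgroup.index_comap]
    refine fun e => fi U hU _ (conj _ h.lev y) (Subgroup.relIndex_eq_zero_of_le_right ?_ e)
    rintro _ ⟨g, rfl⟩
    simpa [mem_cj, φ, ψ, mul_assoc] using mul_mem (mul_mem (inv_mem hδ) (h.mem g)) hδ⟩
  obtain ⟨S, hS⟩ := (Group.fg_iff_subgroup_fg _).1 (Subgroup.fg_of_index_ne_zero (U.comap φ))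
  have z : T.Z0 ≤ T.Gam U x := fun ζ hζ =>
    (sInf_le (conj U hU x) : T.Z ≤ cj x U) ((z0 ζ).1 hζ)
  refine ⟨S.image ψ, le_antisymm (fun γ hγ => ?_) (sup_le ?_ z)⟩
  · obtain ⟨g, m⟩ := h.split (γ := δ⁻¹ * γ * δ) (by
      simpa [mul_assoc] using
        mul_mem (mul_mem hδ (mem_cj.1 (hy (T.mem_Gam.1 hγ)))) (inv_mem hδ))
    have m' : (ψ g)⁻¹ * γ ∈ T.Z0 := by simpa [ψ, mul_assoc] using z0_conj m δ⁻¹
    have a : ψ g ∈ T.Gam U x := by simpa using mul_mem hγ (inv_mem (z m'))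
    rw [← mul_inv_cancel_left (ψ g) γ, Finset.coe_image, ← MonoidHom.map_closure, hS]
    exact Subgroup.mul_mem_sup ⟨g, (e g).2 a, rfl⟩ m'
  · rw [Finset.coe_image, ← MonoidHom.map_closure, hS]
    rintro _ ⟨g, hg, rfl⟩
    exact (e g).1 hg

end Vale.Agent.P022K.Sh.Tw
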