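import Vale.Agent.P022K.QT.If
import Vale.Agent.P022K.F0.Ntw
import Vale.Agent.P022K.TP.Af

/-!
# P022K, block QT: the modular tower `GL₂(ℚ)⁺ \ (ℍ × GL₂(𝔸_f)) / U`
-/

set_option autoImplicit false

open UpperHalfPlane Matrix
open scoped MatrixGroups

noncomputable section

namespace Vale.Agent.P022K.Sh

open TP (Af Zn Zh cA pr mem_Zn mem_Z1 Zn_mul Zn_mul1 Zn_anti)

namespace Tq

/-- the adelic group -/
abbrev GA : Type := GL (Fin 2) Af

/-- rational matrices of positive determinant -/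
def G0Q : Subgroup (GL (Fin 2) ℚ) := GP.comap (GeneralLinearGroup.map (algebraMap ℚ ℝ))

/-- all entries are in `N Zhat` -/
def Mz (N : ℕ) (A : Matrix (Fin 2) (Fin 2) Af) : Prop := ∀ i k, A i k ∈ Zn N

theorem Mz.add {N : ℕ} {A B : Matrix (Fin 2) (Fin 2) Af} (h : Mz N A) (h' : Mz N B) :
    Mz N (A + B) := fun i k => add_mem (h i k) (h' i k)

theorem Mz.sub {N : ℕ} {A B : Matrix (Fin 2) (Fin 2) Af} (h : Mz N A) (h' : Mz N B) :
    Mz N (A - B) := fun i k => sub_mem (h i k) (h' i k)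

theorem Mz.mul {M N : ℕ} {A B : Matrix (Fin 2) (Fin 2) Af} (h : Mz M A) (h' : Mz N B) :
    Mz (M * N) (A * B) := fun i k => by
  rw [Matrix.mul_apply]
  exact sum_mem fun j _ => Zn_mul (h i j) (h' j k)

theorem Mz.anti {M N : ℕ} {A : Matrix (Fin 2) (Fin 2) Af} (h : Mz N A) (d : M ∣ N) : Mz M A :=
  fun i k => Zn_anti d (h i k)

theorem Mz.one : Mz 1 1 := fun i k => by
  rw [Matrix.one_apply]
  split
  exacts [TP.one_mem1, zero_mem _]

theorem Mz.int {N : ℕ} {A : Matrix (Fin 2) (Fin 2) Af} (h : Mz N (A - 1)) : Mz 1 A := by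
  simpa using (h.anti (one_dvd N)).add Mz.one

/-- the principal congruence subgroup -/
def KN (N : ℕ) : Subgroup GA where
  carrier := {x | Mz N (x.val - 1) ∧ Mz N ((x⁻¹).val - 1)}
  mul_mem' {x y} hx hy := by
    have key : ∀ a b : GA, Mz N (a.val - 1) → Mz N (b.val - 1) → Mz N ((a * b).val - 1) :=
      fun a b ha hb => by
        rw [show (a * b).val - 1 = a.val * (b.val - 1) + (a.val - 1) by
          rw [Units.val_mul]; noncomm_ring]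
        exact Mz.add (by simpa using ha.int.mul hb) ha
    exact ⟨key x y hx.1 hy.1, by rw [_root_.mul_inv_rev]; exact key _ _ hy.2 hx.2⟩
  one_mem' := by
    constructor <;> intro i k <;> simp
  inv_mem' {x} hx := ⟨hx.2, by rw [inv_inv]; exact hx.1⟩

/-- the scalar matrices -/
abbrev ZA : Subgroup GA := Subgroup.center GA

/-- the principal level -/
def UN (N : ℕ) : Subgroup GA := KN N ⊔ ZA

/-- the modular tower on the carrier `GL₂(Af)` -/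
def TA : Tw G0Q GA where
  j := (GeneralLinearGroup.map cA).comp G0Q.subtype
  r := (GeneralLinearGroup.map (algebraMap ℚ ℝ)).subgroupComap GP
  Lev := {U | (∃ N, 0 < N ∧ UN N ≤ U) ∧ ∃ y, U ≤ cj y (UN 1)}

/-- `SL₂(ℤ)` in `G0Q` -/
def iZ : SL(2, ℤ) →* G0Q := (SpecialLinearGroup.mapGL ℚ).codRestrict G0Q fun g => by
  change 0 < (GeneralLinearGroup.map (algebraMap ℚ ℝ) (SpecialLinearGroup.mapGL ℚ g)).det.val
  rw [GeneralLinearGroup.map_det, SpecialLinearGroup.det_mapGL]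
  simp

/-- the component at `l` -/
def pi (l : Pr) : GA →* GL (Fin 2) ℚ_[l] := GeneralLinearGroup.map (pr l).toRingHom

theorem pi_apply (l : Pr) (x : GA) (i k : Fin 2) : (pi l x).val i k = pr l (x.val i k) := rfl

theorem ext_pi {x y : GA} (h : ∀ l, pi l x = pi l y) : x = y := by
  ext i k
  exact TP.ext_pr fun l => congrArg (fun g : GL (Fin 2) ℚ_[l] => g.val i k) (h l)

theorem ex_den (l : Pr) (a : ℚ_[l]) : ∃ d : ℕ, 0 < d ∧ ‖(d : ℚ_[l]) * a‖ ≤ 1 := by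
  obtain ⟨n, hn⟩ := pow_unbounded_of_one_lt ‖a‖ (show (1 : ℝ) < (l : ℕ) by exact_mod_cast l.2.one_lt)
  refine ⟨(l : ℕ) ^ n, pow_pos l.2.pos n, ?_⟩
  rw [norm_mul, Nat.cast_pow, norm_pow, Padic.norm_p, inv_pow,
    inv_mul_le_iff₀ (by have := l.2.pos; positivity), mul_one]
  exact hn.le

/-- the adele with component `a` at `l` and `0` elsewhere -/
def sg (l : Pr) (a : ℚ_[l]) : Af := ⟨Pi.single (M := fun r : TP.Pr => ℚ_[r.1]) l a, by
  obtain ⟨d, hd, h⟩ := ex_den l a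
  refine ⟨d, hd, fun r => ?_⟩
  by_cases e : r = l
  · subst e
    rwa [Pi.single_eq_same]
  · rw [Pi.single_eq_of_ne e]
    simp⟩

theorem pr_sg (l : Pr) (a : ℚ_[l]) : pr l (sg l a) = a := Pi.single_eq_same _ _

theorem pr_sg_ne {l r : Pr} (h : r ≠ l) (a : ℚ_[l]) : pr r (sg l a) = 0 :=
  Pi.single_eq_of_ne (M := fun r : TP.Pr => ℚ_[r.1]) h _

theorem ext_mat {A B : Matrix (Fin 2) (Fin 2) Af}
    (h : ∀ l : Pr, (pr l).toRingHom.mapMatrix A = (pr l).toRingHom.mapMatrix B) : A = B := by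
  ext i k
  exact TP.ext_pr fun l => congrFun (congrFun (h l) i) k

theorem map_sg (l : Pr) (g : Matrix (Fin 2) (Fin 2) ℚ_[l]) :
    (pr l).toRingHom.mapMatrix (1 + (g - 1).map (sg l)) = g := by
  rw [map_add, map_one]
  ext i k
  simp [pr_sg]

theorem map_sg_ne {l r : Pr} (h : r ≠ l) (g : Matrix (Fin 2) (Fin 2) ℚ_[l]) :
    (pr r).toRingHom.mapMatrix (1 + (g - 1).map (sg l)) = 1 := by
  rw [map_add, map_one]
  ext i k
  simp [pr_sg_ne h]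

/-- matrices supported at `l` -/
def ioM (l : Pr) : Matrix (Fin 2) (Fin 2) ℚ_[l] →* Matrix (Fin 2) (Fin 2) Af where
  toFun g := 1 + (g - 1).map (sg l)
  map_one' := ext_mat fun r => by
    by_cases e : r = l
    · subst e
      rw [map_sg, map_one]
    · rw [map_sg_ne e, map_one]
  map_mul' g h := ext_mat fun r => by
    by_cases e : r = l
    · subst e
      rw [map_mul, map_sg, map_sg, map_sg]
    · rw [map_mul, map_sg_ne e, map_sg_ne e, map_sg_ne e, mul_one]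

/-- the factor at `l` -/
def io (l : Pr) : GL (Fin 2) ℚ_[l] →* GA := Units.map (ioM l)

theorem pi_io (l : Pr) (g : GL (Fin 2) ℚ_[l]) : pi l (io l g) = g := Units.ext (map_sg l _)

theorem pi_io_ne {l r : Pr} (h : r ≠ l) (g : GL (Fin 2) ℚ_[l]) : pi r (io l g) = 1 :=
  Units.ext (map_sg_ne h _)

/-! ## local description of the levels -/

theorem inj_l (l : Pr) : Function.Injective (algebraMap ℤ_[l] ℚ_[l]) := Subtype.val_injective

theorem mem_range {l : Pr} {a : ℚ_[l]} : a ∈ (algebraMap ℤ_[l] ℚ_[l]).range ↔ ‖a‖ ≤ 1 :=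
  ⟨fun ⟨b, e⟩ => e ▸ b.2, fun h => ⟨⟨a, h⟩, rfl⟩⟩

theorem mem_KK {l : Pr} {g : GL (Fin 2) ℚ_[l]} : g ∈ KK ℤ_[l] ℚ_[l] ↔
    (∀ i k, ‖g.val i k‖ ≤ 1) ∧ ∀ i k, ‖(g⁻¹).val i k‖ ≤ 1 := by
  simp only [LocA.mem_KK (inj_l l), mem_range]

theorem norm_pow_l (l : Pr) (m : ℕ) : ‖((l : ℕ) : ℚ_[l])‖ ^ m = ((l : ℕ) : ℝ) ^ (-(m : ℤ)) := by
  rw [Padic.norm_p, inv_pow, ← zpow_natCast, ← _root_.zpow_neg]

theorem mem_Km {l : Pr} {m : ℕ} {g : GL (Fin 2) ℚ_[l]} : g ∈ Km ℤ_[l] ℚ_[l] m ↔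
    g ∈ KK ℤ_[l] ℚ_[l] ∧ ∀ i k, ‖(g.val - 1) i k‖ ≤ ‖((l : ℕ) : ℚ_[l])‖ ^ m := by
  rw [LocA.mem_Km (inj_l l)]
  refine and_congr_right fun _ => forall₂_congr fun i k => ?_
  rw [PadicInt.maximalIdeal_eq_span_p, Ideal.span_singleton_pow, norm_pow_l]
  constructor
  · rintro ⟨o, ho, e⟩
    rw [← e]
    exact (PadicInt.norm_le_pow_iff_mem_span_pow o m).2 ho
  · intro h
    have h1 : ‖(g.val - 1) i k‖ ≤ 1 := h.trans (by
      rw [← norm_pow_l]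
      exact pow_le_one₀ (norm_nonneg _) (TP.nat_le l _))
    exact ⟨⟨_, h1⟩, (PadicInt.norm_le_pow_iff_mem_span_pow _ m).1 h, rfl⟩

theorem norm_nat (l : Pr) {N : ℕ} (hN : 0 < N) :
    ‖(N : ℚ_[l])‖ = ‖((l : ℕ) : ℚ_[l])‖ ^ padicValNat l N := by
  rw [norm_pow_l, Padic.norm_eq_zpow_neg_valuation (Nat.cast_ne_zero.2 hN.ne'),
    Padic.valuation_natCast]

theorem mem_K1 {x : GA} : x ∈ KN 1 ↔ Mz 1 x.val ∧ Mz 1 (x⁻¹).val :=
  ⟨fun h => ⟨h.1.int, h.2.int⟩, fun h => ⟨h.1.sub Mz.one, h.2.sub Mz.one⟩⟩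

theorem KN_anti {M N : ℕ} (h : M ∣ N) : KN N ≤ KN M := fun _ hx => ⟨hx.1.anti h, hx.2.anti h⟩

theorem UN_anti {M N : ℕ} (h : M ∣ N) : UN N ≤ UN M := sup_le_sup_right (KN_anti h) _

theorem mem_KN {N : ℕ} {x : GA} : x ∈ KN N ↔ x ∈ KN 1 ∧ Mz N (x.val - 1) := by
  refine ⟨fun h => ⟨KN_anti (one_dvd N) h, h.1⟩, fun ⟨h, h'⟩ => ⟨h', ?_⟩⟩
  have := h.2.int.mul h'
  rw [one_mul, mul_sub, Units.inv_mul, mul_one] at this
  intro i k
  simpa using neg_mem (this i k)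

theorem K1_loc {x : GA} : x ∈ KN 1 ↔ ∀ l : Pr, pi l x ∈ KK ℤ_[l] ℚ_[l] := by
  simp only [mem_K1, mem_KK, ← map_inv, pi_apply, Mz, mem_Z1]
  exact ⟨fun h l => ⟨fun i k => h.1 i k l, fun i k => h.2 i k l⟩,
    fun h => ⟨fun i k l => (h l).1 i k, fun i k l => (h l).2 i k⟩⟩

theorem pi_sub (l : Pr) (x : GA) (i k : Fin 2) :
    ((pi l x).val - 1) i k = pr l ((x.val - 1) i k) := by
  rw [Matrix.sub_apply, Matrix.sub_apply, map_sub, pi_apply, Matrix.one_apply, Matrix.one_apply]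
  split <;> simp

theorem KN_loc {N : ℕ} (hN : 0 < N) {x : GA} :
    x ∈ KN N ↔ ∀ l : Pr, pi l x ∈ Km ℤ_[l] ℚ_[l] (padicValNat l N) := by
  simp only [mem_KN (N := N), K1_loc, mem_Km, pi_sub, ← norm_nat _ hN]
  exact ⟨fun h l => ⟨h.1 l, fun i k => h.2 i k l⟩,
    fun h => ⟨fun l => (h l).1, fun i k l => (h l).2 i k⟩⟩

theorem glue (k : ∀ l : Pr, GL (Fin 2) ℚ_[l]) (h : ∀ l : Pr, k l ∈ KK ℤ_[l] ℚ_[l]) :
    ∃ x : GA, ∀ l, pi l x = k l := by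
  choose a ha using h
  have e : ∀ (b : ∀ l : Pr, GL (Fin 2) ℤ_[l]) (l : Pr), (pr l).toRingHom.mapMatrix
      (Matrix.of fun i j => TP.mkZ fun r => (b r).val i j) =
      (GeneralLinearGroup.map (algebraMap ℤ_[l] ℚ_[l]) (b l)).val := fun b l => rfl
  refine ⟨⟨Matrix.of fun i j => TP.mkZ fun r => (a r).val i j,
    Matrix.of fun i j => TP.mkZ fun r => ((a r)⁻¹).val i j, ext_mat fun l => ?_,
    ext_mat fun l => ?_⟩, fun l => (Units.ext (e a l)).trans (ha l)⟩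
  · rw [map_mul, e a, e fun r => (a r)⁻¹, ← Units.val_mul, ← map_mul, mul_inv_cancel, map_one,
      map_one, Units.val_one]
  · rw [map_mul, e a, e fun r => (a r)⁻¹, ← Units.val_mul, ← map_mul, inv_mul_cancel, map_one,
      map_one, Units.val_one]

theorem ZA_loc {x : GA} : x ∈ ZA ↔ ∀ l : Pr, pi l x ∈ Zl ℚ_[l] := by
  simp only [Subgroup.mem_center_iff]
  refine ⟨fun h l g => ?_, fun h y => ext_pi fun l => by rw [map_mul, map_mul, h]⟩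
  rw [← pi_io l g, ← map_mul, h, map_mul]

theorem UN_loc {N : ℕ} (hN : 0 < N) {x : GA} :
    x ∈ UN N ↔ ∀ l : Pr, pi l x ∈ Km ℤ_[l] ℚ_[l] (padicValNat l N) ⊔ Zl ℚ_[l] := by
  constructor
  · intro h l
    obtain ⟨k, hk, z, hz, rfl⟩ := Subgroup.mem_sup_of_normal_right.1 h
    rw [map_mul]
    exact Subgroup.mul_mem_sup ((KN_loc hN).1 hk l) (ZA_loc.1 hz l)
  · intro h
    choose k hk z hz e using fun l => Subgroup.mem_sup_of_normal_right.1 (h l)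
    obtain ⟨y, hy⟩ := glue k fun l => LocA.Km_le _ (hk l)
    refine Subgroup.mem_sup_of_normal_right.2 ⟨y, (KN_loc hN).2 fun l => (hy l).symm ▸ hk l,
      y⁻¹ * x, ZA_loc.2 fun l => ?_, mul_inv_cancel_left _ _⟩
    rw [map_mul, map_inv, hy, ← e, inv_mul_cancel_left]
    exact hz l

theorem U1_loc {x : GA} : x ∈ UN 1 ↔ ∀ l : Pr, pi l x ∈ KK ℤ_[l] ℚ_[l] ⊔ Zl ℚ_[l] := by
  simp only [UN_loc one_pos, padicValNat_one_right, QD.Km_zero]

theorem io_cen (l : Pr) {g : GL (Fin 2) ℚ_[l]} (h : g ∈ Zl ℚ_[l]) : io l g ∈ ZA :=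
  ZA_loc.2 fun r => by
    by_cases e : r = l
    · subst e
      rwa [pi_io]
    · rw [pi_io_ne e]
      exact one_mem _

theorem io_KN {N : ℕ} (hN : 0 < N) (l : Pr) {g : GL (Fin 2) ℚ_[l]}
    (h : g ∈ Km ℤ_[l] ℚ_[l] (padicValNat l N)) : io l g ∈ KN N := (KN_loc hN).2 fun r => by
  by_cases e : r = l
  · subst e
    rwa [pi_io]
  · rw [pi_io_ne e]
    exact one_mem _

/-! ## conjugation, finite index -/

theorem ex_dm (x : GA) : ∃ d : ℕ, 0 < d ∧ Mz 1 ((d : Af) • x.val) ∧ Mz 1 ((d : Af) • (x⁻¹).val) := by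
  obtain ⟨d, hd, h⟩ := TP.exists_den_fin
    fun p : Bool × Fin 2 × Fin 2 => (cond p.1 x x⁻¹).val p.2.1 p.2.2
  exact ⟨d, hd, fun i k => h (true, i, k), fun i k => h (false, i, k)⟩

theorem ex_conj (x : GA) {N : ℕ} (hN : 0 < N) :
    ∃ M, 0 < M ∧ N ∣ M ∧ ∀ k ∈ KN M, x⁻¹ * k * x ∈ KN N := by
  obtain ⟨d, hd, h1, h2⟩ := ex_dm x
  have key : ∀ k : GA, Mz (d * d * N) (k.val - 1) → Mz N ((x⁻¹ * k * x).val - 1) :=
    fun k hk i j => by
      have := (h2.mul hk).mul h1 i j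
      rw [one_mul, mul_one, Matrix.smul_mul, Matrix.smul_mul, Matrix.mul_smul, smul_smul,
        Matrix.smul_apply, smul_eq_mul, ← Nat.cast_mul, TP.mul_mem_iff (Nat.mul_pos hd hd),
        mul_sub, sub_mul, mul_one, Units.inv_mul] at this
      exact this
  refine ⟨d * d * N, by positivity, dvd_mul_left _ _, fun k hk => ⟨key k hk.1, ?_⟩⟩
  rw [show (x⁻¹ * k * x)⁻¹ = x⁻¹ * k⁻¹ * x by group]
  exact key _ hk.2

theorem conj_K1 {x : GA} (hx : x ∈ KN 1) {N : ℕ} {k : GA} (hk : k ∈ KN N) :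
    x⁻¹ * k * x ∈ KN N := by
  refine mem_KN.2 ⟨mul_mem (mul_mem (inv_mem hx) (KN_anti (one_dvd N) hk)) hx, ?_⟩
  have := (hx.2.int.mul hk.1).mul hx.1.int
  rwa [one_mul, mul_one, mul_sub, sub_mul, mul_one, Units.inv_mul] at this

theorem conj_Z {z : GA} (hz : z ∈ ZA) (x : GA) : x⁻¹ * z * x = z := by
  rw [mul_assoc, ← Subgroup.mem_center_iff.1 hz, inv_mul_cancel_left]

theorem ex_cj (x : GA) {N : ℕ} (hN : 0 < N) : ∃ M, 0 < M ∧ N ∣ M ∧ UN M ≤ cj x (UN N) := by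
  obtain ⟨M, hM, d, h⟩ := ex_conj x hN
  refine ⟨M, hM, d, sup_le (fun k hk => mem_cj.2 (Subgroup.mem_sup_left (h k hk))) fun z hz => ?_⟩
  rw [mem_cj, conj_Z hz]
  exact Subgroup.mem_sup_right hz

theorem relIndex_UN {N : ℕ} (hN : 0 < N) : (UN N).relIndex (UN 1) ≠ 0 := by
  refine relIndex_ne_of_finite (Set.finite_univ (α := Fin 2 → Fin 2 → Fin N))
    (fun x r => ∃ k ∈ KN 1, ∃ z ∈ ZA, k * z = x ∧ ∀ i j, k.val i j - ((r i j : ℕ) : Af) ∈ Zn N)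
    (fun x hx => ?_) ?_
  · obtain ⟨k, hk, z, hz, e⟩ := Subgroup.mem_sup_of_normal_right.1 hx
    have : ∀ i j, ∃ r : Fin N, k.val i j - ((r : ℕ) : Af) ∈ Zn N := fun i j => by
      obtain ⟨a, ha⟩ := TP.dens1 (hk.1.int i j) hN
      have h0 : (N : ℤ) ≠ 0 := by exact_mod_cast hN.ne'
      obtain ⟨r, hr⟩ := Int.eq_ofNat_of_zero_le (Int.emod_nonneg a h0)
      refine ⟨⟨r, ?_⟩, ?_⟩
      · have := Int.emod_lt_of_pos a (show (0 : ℤ) < N by exact_mod_cast hN)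
        omega
      · have := add_mem ha ((TP.int_mem_iff hN).2 (Int.dvd_self_sub_emod (x := a) (m := N)))
        rw [hr] at this
        simpa using this
    choose r hr using this
    exact ⟨r, trivial, k, hk, z, hz, e, hr⟩
  · rintro _ _ r ⟨k, hk, z, hz, rfl, h⟩ ⟨k', hk', z', hz', rfl, h'⟩
    have h1 : k⁻¹ * k' ∈ KN N := mem_KN.2 ⟨mul_mem (inv_mem hk) hk', by
      have : Mz N (k'.val - k.val) := fun i j => by simpa using sub_mem (h' i j) (h i j)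
      have := hk.2.int.mul this
      rwa [one_mul, mul_sub, Units.inv_mul] at this⟩
    have := mul_mem (mul_mem (Subgroup.mem_sup_right (inv_mem hz)) (Subgroup.mem_sup_left h1))
      (Subgroup.mem_sup_right (S := KN N) hz')
    simpa [mul_assoc, UN] using this

theorem UN_mem {N : ℕ} (hN : 0 < N) : UN N ∈ TA.Lev :=
  ⟨⟨N, hN, le_rfl⟩, 1, fun x hx => mem_cj.2 (by simpa using UN_anti (one_dvd N) hx)⟩

theorem cj_cj {G : Type} [Group G] (x y : G) (U : Subgroup G) : cj x (cj y U) = cj (x * y) U := by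
  ext z
  simp only [mem_cj, _root_.mul_inv_rev, mul_assoc]

theorem ok_inf : ∀ U ∈ TA.Lev, ∀ U' ∈ TA.Lev, U ⊓ U' ∈ TA.Lev :=
  fun _ ⟨⟨N, hN, h⟩, y, hy⟩ _ ⟨⟨M, hM, h'⟩, _⟩ => ⟨⟨N * M, Nat.mul_pos hN hM,
    le_inf ((UN_anti (dvd_mul_right _ _)).trans h) ((UN_anti (dvd_mul_left _ _)).trans h')⟩,
    y, inf_le_left.trans hy⟩

theorem ok_conj : ∀ U ∈ TA.Lev, ∀ x, cj x U ∈ TA.Lev := fun _ ⟨⟨_, hN, h⟩, y, hy⟩ x => by
  obtain ⟨M, hM, -, h'⟩ := ex_cj x hN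
  exact ⟨⟨M, hM, h'.trans (cj_mono x h)⟩, x * y, cj_cj x y _ ▸ cj_mono x hy⟩

theorem ok_fi : ∀ U ∈ TA.Lev, ∀ U' ∈ TA.Lev, U.relIndex U' ≠ 0 := by
  intro U hU U' ⟨_, y, hy⟩ e
  obtain ⟨⟨M, hM, h⟩, -⟩ := ok_conj U hU y⁻¹
  have := relIndex_UN hM
  rw [← relIndex_cj y] at this
  exact this (Subgroup.relIndex_eq_zero_of_le_left (cj_le_iff.2 h)
    (Subgroup.relIndex_eq_zero_of_le_right hy e))

theorem Z_eq : TA.Z = ZA := by
  refine le_antisymm (fun x hx => Subgroup.mem_center_iff.2 fun y => ?_)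
    (le_sInf fun U ⟨⟨N, _, h⟩, _⟩ => le_sup_right.trans h)
  have key : ∀ N, 0 < N → y⁻¹ * x * y * x⁻¹ ∈ KN N := fun N hN => by
    obtain ⟨M, hM, d, h⟩ := ex_conj y hN
    obtain ⟨k, hk, z, hz, rfl⟩ :=
      Subgroup.mem_sup_of_normal_right.1 (Subgroup.mem_sInf.1 hx _ (UN_mem hM))
    have := mul_mem (h k hk) (inv_mem (KN_anti d hk))
    rwa [show y⁻¹ * (k * z) * y * (k * z)⁻¹ = y⁻¹ * k * y * (y⁻¹ * z * y) * z⁻¹ * k⁻¹ by group,
      conj_Z hz, mul_inv_cancel_right]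
  have : y⁻¹ * x * y * x⁻¹ = 1 := Units.ext (sub_eq_zero.1 (Matrix.ext fun i k =>
    TP.sep fun N hN => (key N hN).1 i k))
  rw [mul_inv_eq_one, mul_assoc, inv_mul_eq_iff_eq_mul] at this
  exact this.symm

theorem ex_fin {G : Type} [Group G] {H K : Subgroup G} (h : H.relIndex K ≠ 0) :
    ∃ S : Finset G, (∀ s ∈ S, s ∈ K) ∧ ∀ x ∈ K, ∃ s ∈ S, s⁻¹ * x ∈ H := by
  have : Finite (K ⧸ H.subgroupOf K) := Nat.finite_of_card_ne_zero h
  refine ⟨(Set.finite_range fun q : K ⧸ H.subgroupOf K => (q.out : G)).toFinset, fun s hs => ?_,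
    fun x hx => ⟨_, (Set.Finite.mem_toFinset _).2 ⟨((⟨x, hx⟩ : K) : K ⧸ H.subgroupOf K), rfl⟩, ?_⟩⟩
  · obtain ⟨q, rfl⟩ := (Set.Finite.mem_toFinset _).1 hs
    exact q.out.2
  · exact (QuotientGroup.eq (s := H.subgroupOf K)).1
      (QuotientGroup.out_eq' ((⟨x, hx⟩ : K) : K ⧸ H.subgroupOf K))

/-! ## the places -/

theorem pi_away {l : Pr} (x : GA) : pi l (x * (io l (pi l x))⁻¹) = 1 := by
  rw [map_mul, map_inv, pi_io, mul_inv_cancel]

theorem pi_away_ne {l r : Pr} (h : r ≠ l) (x : GA) : pi r (x * (io l (pi l x))⁻¹) = pi r x := by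
  rw [map_mul, map_inv, pi_io_ne h, inv_one, mul_one]

theorem set_mem (l : Pr) {U : Subgroup GA} (hU : U ∈ TA.Lev) {V : Subgroup (GL (Fin 2) ℚ_[l])}
    {m : ℕ} (h1 : Km ℤ_[l] ℚ_[l] m ≤ V) (h2 : V ≤ KK ℤ_[l] ℚ_[l] ⊔ Zl ℚ_[l]) :
    (U ⊓ (pi l).ker) ⊔ TA.Z ⊔ V.map (io l) ∈ TA.Lev := by
  obtain ⟨⟨N, hN, h⟩, y, hy⟩ := hU
  have hM : 0 < N * (l : ℕ) ^ m := Nat.mul_pos hN (pow_pos l.2.pos m)
  rw [Z_eq]
  refine ⟨⟨_, hM, sup_le (fun k hk => ?_) (le_sup_of_le_left le_sup_right)⟩,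
    y * (io l (pi l y))⁻¹, sup_le (sup_le ?_ fun z hz => ?_) ?_⟩
  · have h3 := (KN_loc hM).1 hk l
    rw [← inv_mul_cancel_right k (io l (pi l k))]
    refine mul_mem (Subgroup.mem_sup_left (Subgroup.mem_sup_left ⟨h (Subgroup.mem_sup_left
      (KN_anti (dvd_mul_right _ _) (mul_mem hk (inv_mem (io_KN hM l h3))))), pi_away k⟩))
      (Subgroup.mem_sup_right ⟨_, h1 (LocA.Km_anti (inj_l l) ?_ h3), rfl⟩)
    exact (padicValNat_dvd_iff_le hM.ne').1 (dvd_mul_left _ _)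
  · rintro u ⟨hu, hu'⟩
    refine mem_cj.2 (U1_loc.2 fun r => ?_)
    by_cases e : r = l
    · subst e
      rw [map_mul, map_mul, map_inv, pi_away, MonoidHom.mem_ker.1 hu']
      simp
    · rw [map_mul, map_mul, map_inv, pi_away_ne e, ← map_inv, ← map_mul, ← map_mul]
      exact U1_loc.1 (mem_cj.1 (hy hu)) r
  · rw [mem_cj, conj_Z hz]
    exact Subgroup.mem_sup_right hz
  · rintro _ ⟨g, hg, rfl⟩
    refine mem_cj.2 (U1_loc.2 fun r => ?_)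
    by_cases e : r = l
    · subst e
      rw [map_mul, map_mul, map_inv, pi_away, pi_io]
      simpa using h2 hg
    · rw [map_mul, map_mul, map_inv, pi_io_ne e]
      simp

/-- **the place `l`** -/
def Lq (l : Pr) : TA.Lc ℤ_[l] ℚ_[l] where
  fr := inferInstance
  fin := Finite.of_equiv _ (PadicInt.residueField (p := l)).symm.toEquiv
  cpl := inferInstance
  ch := inferInstance
  ϖ := Units.mk0 ((l : ℕ) : ℚ_[l]) (Nat.cast_ne_zero.2 l.2.ne_zero)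
  irr := ⟨(l : ℕ), PadicInt.irreducible_p, by simp⟩
  ι := io l
  π := pi l
  πι := pi_io l
  com g x h := ext_pi fun r => by
    by_cases e : r = l
    · subst e
      rw [map_mul, map_mul, h, mul_one, one_mul]
    · rw [map_mul, map_mul, pi_io_ne e, mul_one, one_mul]
  cen g hg := Z_eq ▸ io_cen l hg
  cen' z hz := ZA_loc.1 (Z_eq ▸ hz) l
  op U := fun ⟨⟨N, hN, h⟩, _⟩ => ⟨_, fun _ hg => h (Subgroup.mem_sup_left (io_KN hN l hg))⟩
  cpt U hU := by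
    obtain ⟨S, -, hS⟩ := ex_fin (ok_fi _ (UN_mem one_pos) U hU)
    refine relIndex_ne_of_finite S.finite_toSet
      (fun g s => (pi l s)⁻¹ * g ∈ KK ℤ_[l] ℚ_[l] ⊔ Zl ℚ_[l]) ?_ fun x y s h h' => ?_
    · rintro _ ⟨u, hu, rfl⟩
      obtain ⟨s, hs, h⟩ := hS u hu
      exact ⟨s, hs, by simpa using U1_loc.1 h l⟩
    · simpa [mul_assoc] using mul_mem (inv_mem h) h'
  lev U hU m := set_mem l hU le_rfl ((LocA.Km_le m).trans le_sup_left)

theorem qq_l (l : Pr) : qq ℤ_[l] = l := by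
  rw [qq, Nat.card_congr (PadicInt.residueField (p := l)).toEquiv, Nat.card_zmod]

theorem Lq_ne {l r : Pr} (h : l ≠ r) : (Lq l).Ne (Lq r) := ⟨pi_io_ne h, pi_io_ne h.symm⟩

theorem at_UN (l : Pr) {N : ℕ} (hN : 0 < N) :
    (Lq l).At (Km ℤ_[l] ℚ_[l] (padicValNat l N)) (UN N) :=
  ⟨fun _ hg => Subgroup.mem_sup_left (io_KN hN l hg), fun _ hu => (UN_loc hN).1 hu l⟩

theorem at_UN' (l : Pr) {N : ℕ} (hN : 0 < N) (h : ¬ (l : ℕ) ∣ N) :
    (Lq l).At (KK ℤ_[l] ℚ_[l]) (UN N) := by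
  simpa only [padicValNat.eq_zero_of_not_dvd h, QD.Km_zero] using at_UN l hN

/-- product levels -/
def PU (V : ∀ l : Pr, Subgroup (GL (Fin 2) ℚ_[l])) : Subgroup GA :=
  ⨅ l, (V l ⊔ Zl ℚ_[l]).comap (pi l)

theorem mem_PU {V : ∀ l : Pr, Subgroup (GL (Fin 2) ℚ_[l])} {x : GA} :
    x ∈ PU V ↔ ∀ l : Pr, pi l x ∈ V l ⊔ Zl ℚ_[l] := Subgroup.mem_iInf

theorem at_PU (V : ∀ l : Pr, Subgroup (GL (Fin 2) ℚ_[l])) (l : Pr) : (Lq l).At (V l) (PU V) := by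
  refine ⟨fun g hg => mem_PU.2 fun r => ?_, fun _ hu => mem_PU.1 hu l⟩
  by_cases e : r = l
  · subst e
    exact (pi_io r g).symm ▸ Subgroup.mem_sup_left hg
  · exact (pi_io_ne e g).symm ▸ one_mem _

theorem PU_mem {V : ∀ l : Pr, Subgroup (GL (Fin 2) ℚ_[l])} {N : ℕ} (hN : 0 < N)
    (h1 : ∀ l : Pr, Km ℤ_[l] ℚ_[l] (padicValNat l N) ≤ V l)
    (h2 : ∀ l : Pr, V l ≤ KK ℤ_[l] ℚ_[l]) :
    PU V ∈ TA.Lev :=
  ⟨⟨N, hN, fun _ hx => mem_PU.2 fun l => sup_le_sup_right (h1 l) _ ((UN_loc hN).1 hx l)⟩, 1,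
    fun _ hx => mem_cj.2 (by
      simpa using U1_loc.2 fun l => sup_le_sup_right (h2 l) _ (mem_PU.1 hx l))⟩

/-- the primes congruent to `1` modulo `N`, `N → ∞` -/
def F1 : Filter Pr where
  sets := {s | ∃ N, 0 < N ∧ ∀ l : Pr, (l : ℕ) ≡ 1 [MOD N] → l ∈ s}
  univ_sets := ⟨1, one_pos, fun _ _ => trivial⟩
  sets_of_superset := fun ⟨N, hN, h⟩ e => ⟨N, hN, fun l hl => e (h l hl)⟩
  inter_sets := fun ⟨N, hN, h⟩ ⟨M, hM, h'⟩ => ⟨N * M, Nat.mul_pos hN hM, fun l hl =>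
    ⟨h l (hl.of_mul_right M), h' l (hl.of_mul_left N)⟩⟩

theorem mem_F1 {s : Set Pr} : s ∈ F1 ↔ ∃ N, 0 < N ∧ ∀ l : Pr, (l : ℕ) ≡ 1 [MOD N] → l ∈ s := Iff.rfl

/-- **the auxiliary places** -/
def AQ : TA.Ax := ⟨Pr, id, Lq, F1⟩

/-! ## strong approximation -/

section

variable {R : Type} [CommRing R]

/-- upper elementary matrices -/
def eU (b : R) : GL (Fin 2) R :=
  ⟨!![1, b; 0, 1], !![1, -b; 0, 1], by simp [← Matrix.one_fin_two], by simp [← Matrix.one_fin_two]⟩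

/-- lower elementary matrices -/
def eL (c : R) : GL (Fin 2) R :=
  ⟨!![1, 0; c, 1], !![1, 0; -c, 1], by simp [← Matrix.one_fin_two], by simp [← Matrix.one_fin_two]⟩

/-- `diag (c, 1)` -/
def dR : Rˣ →* GL (Fin 2) R where
  toFun c := ⟨!![c, 0; 0, 1], !![(c⁻¹ : Rˣ), 0; 0, 1], by simp [← Matrix.one_fin_two],
    by simp [← Matrix.one_fin_two]⟩
  map_one' := Units.ext (by simp [← Matrix.one_fin_two])
  map_mul' a b := Units.ext (by simp)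

theorem det_dR (c : Rˣ) : (dR c).det = c := Units.ext (by simp [dR, Matrix.det_fin_two])

theorem det_eU (b : R) : (eU b).det = 1 := Units.ext (by simp [eU, Matrix.det_fin_two])

theorem det_eL (b : R) : (eL b).det = 1 := Units.ext (by simp [eL, Matrix.det_fin_two])

theorem elem (x : GL (Fin 2) R) (hx : x.det = 1) {t e : R} (h : (x.val 1 0 + t * x.val 0 0) * e = 1) :
    x = eL (-t) * eU ((x.val 0 0 - 1) * e) * eL (x.val 1 0 + t * x.val 0 0) *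
      eU ((x.val 1 1 + t * x.val 0 1 - 1) * e) := by
  have hd : x.val 0 0 * x.val 1 1 - x.val 0 1 * x.val 1 0 = 1 := by
    simpa [Matrix.det_fin_two] using congrArg Units.val hx
  ext i k
  fin_cases i <;> fin_cases k <;> simp [eU, eL, Matrix.mul_apply, Fin.sum_univ_two]
  · linear_combination (1 - x.val 0 0) * h
  · linear_combination (-e) * hd +
      (-x.val 0 1 - (x.val 0 0 - 1) * (x.val 1 1 + t * x.val 0 1 - 1) * e) * h
  · linear_combination t * (x.val 0 0 - 1) * h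
  · linear_combination (t * e) * hd + (t * x.val 0 1 - (x.val 1 1 + t * x.val 0 1 - 1) +
      t * (x.val 0 0 - 1) * (x.val 1 1 + t * x.val 0 1 - 1) * e) * h

end

theorem mem_G0Q {g : GL (Fin 2) ℚ} : g ∈ G0Q ↔ 0 < g.det.val := by
  change 0 < (GeneralLinearGroup.map (algebraMap ℚ ℝ) g).det.val ↔ _
  rw [GeneralLinearGroup.map_det]
  simp

/-- approximation by rational matrices of determinant one -/
def Dn (x : GA) : Prop := ∀ N, 0 < N → ∃ γ : G0Q, γ.1.det = 1 ∧ (TA.j γ)⁻¹ * x ∈ KN N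

theorem Dn.mul {x y : GA} (hx : Dn x) (hy : Dn y) : Dn (x * y) := fun N hN => by
  obtain ⟨δ, d, h⟩ := hy N hN
  obtain ⟨M, hM, -, h'⟩ := ex_conj (TA.j δ) hN
  obtain ⟨γ, d', h''⟩ := hx M hM
  refine ⟨γ * δ, by rw [Subgroup.coe_mul, map_mul, d, d', mul_one], ?_⟩
  simpa [mul_assoc] using mul_mem (h' _ h'') h

theorem mz_of {N : ℕ} {A : Matrix (Fin 2) (Fin 2) Af} (h : A 0 0 ∈ Zn N ∧ A 0 1 ∈ Zn N ∧
    A 1 0 ∈ Zn N ∧ A 1 1 ∈ Zn N) : Mz N A := fun i k => by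
  fin_cases i <;> fin_cases k
  exacts [h.1, h.2.1, h.2.2.1, h.2.2.2]

theorem dn_eU (b : Af) : Dn (eU b) := fun N hN => by
  obtain ⟨q, hq⟩ := TP.dens b hN
  refine ⟨⟨eU q, mem_G0Q.2 (by simp [det_eU])⟩, det_eU q, ?_⟩
  have : (TA.j ⟨eU q, mem_G0Q.2 (by simp [det_eU])⟩)⁻¹ * eU b = eU (b - cA q) := by
    rw [inv_mul_eq_iff_eq_mul]
    ext i k
    fin_cases i <;> fin_cases k <;> simp [TA, eU, Matrix.mul_apply, Fin.sum_univ_two]
  rw [this]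
  exact ⟨mz_of (by simpa [eU] using hq), mz_of (by simpa [eU] using neg_mem hq)⟩

theorem dn_eL (b : Af) : Dn (eL b) := fun N hN => by
  obtain ⟨q, hq⟩ := TP.dens b hN
  refine ⟨⟨eL q, mem_G0Q.2 (by simp [det_eL])⟩, det_eL q, ?_⟩
  have : (TA.j ⟨eL q, mem_G0Q.2 (by simp [det_eL])⟩)⁻¹ * eL b = eL (b - cA q) := by
    rw [inv_mul_eq_iff_eq_mul]
    ext i k
    fin_cases i <;> fin_cases k <;> simp [TA, eL, Matrix.mul_apply, Fin.sum_univ_two]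
  rw [this]
  exact ⟨mz_of (by simpa [eL] using hq), mz_of (by simpa [eL] using neg_mem hq)⟩

/-- stable rank one -/
theorem ex_unit {a b c d : Af} (h : a * d - b * c = 1) : ∃ t e : Af, (c + t * a) * e = 1 := by
  classical
  let t : Af := TP.mkZ fun r => if ‖pr r a‖ ≤ ‖pr r c‖ then 0 else 1
  have h1 : ∀ r, ‖pr r a‖ ≤ ‖pr r (c + t * a)‖ ∧ ‖pr r c‖ ≤ ‖pr r (c + t * a)‖ := fun r => by
    rw [map_add, map_mul, TP.pr_mkZ]
    split
    · simpa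
    · rename_i hr
      rw [not_le] at hr
      rw [PadicInt.coe_one, one_mul, Padic.add_eq_max_of_ne hr.ne]
      exact ⟨le_max_right _ _, le_max_left _ _⟩
  obtain ⟨D, hD, h2⟩ := TP.exists_den_fin fun i : Bool => cond i b d
  have h3 : ∀ r : TP.Pr, ‖(D : ℚ_[r.1])‖ ≤ ‖pr r (c + t * a)‖ := fun r => by
    have e : (D : ℚ_[r.1]) = pr r a * pr r (D * d) + -(pr r c * pr r (D * b)) := by
      rw [← map_natCast (pr r), ← map_mul, ← map_mul, ← map_neg, ← map_add]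
      congr 1
      linear_combination (-(D : Af)) * h
    rw [e]
    refine (Padic.nonarchimedean _ _).trans (max_le ?_ ?_)
    · rw [norm_mul]
      exact (mul_le_of_le_one_right (norm_nonneg _) (mem_Z1.1 (h2 false) r)).trans (h1 r).1
    · rw [norm_neg, norm_mul]
      exact (mul_le_of_le_one_right (norm_nonneg _) (mem_Z1.1 (h2 true) r)).trans (h1 r).2
  have h4 : ∀ r : TP.Pr, 0 < ‖pr r (c + t * a)‖ := fun r =>
    (norm_pos_iff.2 (Nat.cast_ne_zero.2 hD.ne')).trans_le (h3 r)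
  refine ⟨t, TP.mkA (fun r => (pr r (c + t * a))⁻¹) D hD fun r => ?_, TP.ext_pr fun r => ?_⟩
  · rw [norm_mul, norm_inv, mul_inv_le_iff₀ (h4 r), one_mul]
    exact h3 r
  · rw [map_mul, TP.pr_mkA, mul_inv_cancel₀ (norm_pos_iff.1 (h4 r)), map_one]

/-- **strong approximation** -/
theorem dens_SL {x : GA} (hx : x.det = 1) : Dn x := by
  have hd : x.val 0 0 * x.val 1 1 - x.val 0 1 * x.val 1 0 = 1 := by
    simpa [Matrix.det_fin_two] using congrArg Units.val hx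
  obtain ⟨t, e, h⟩ := ex_unit hd
  rw [elem x hx h]
  exact (((dn_eL _).mul (dn_eU _)).mul (dn_eL _)).mul (dn_eU _)

/-- class number one -/
theorem ex_rat (c : Afˣ) : ∃ q : ℚ, 0 < q ∧ cA q * (c⁻¹ : Afˣ) ∈ Zn 1 ∧ cA q⁻¹ * c ∈ Zn 1 := by
  obtain ⟨d, hd, h1⟩ := TP.exists_den (c : Af)
  obtain ⟨e, he, h2⟩ := TP.exists_den ((c⁻¹ : Afˣ) : Af)
  obtain ⟨z, hz⟩ := TP.dens1 h1 (Nat.mul_pos hd he)
  obtain ⟨w, hw, e1⟩ := TP.exists_eq_mul (Nat.mul_pos hd he) hz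
  have g0 : 0 < Int.gcd z (d * e : ℕ) :=
    Int.gcd_pos_of_ne_zero_right _ (by exact_mod_cast (Nat.mul_pos hd he).ne')
  obtain ⟨a, ha⟩ := Int.gcd_dvd_left z (d * e : ℕ)
  obtain ⟨b, hb⟩ := Int.gcd_dvd_right z (d * e : ℕ)
  have hg := Int.gcd_eq_gcd_ab z (d * e : ℕ)
  generalize Int.gcdA z (d * e : ℕ) = u at hg
  generalize Int.gcdB z (d * e : ℕ) = v at hg
  generalize Int.gcd z (d * e : ℕ) = g at *
  have ha' := congrArg (Int.cast : ℤ → Af) ha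
  have hb' := congrArg (Int.cast : ℤ → Af) hb
  have hg' := congrArg (Int.cast : ℤ → Af) hg
  push_cast at ha' hb' hg' e1
  have ci : (c : Af) * (c⁻¹ : Afˣ) = 1 := c.mul_inv
  have d0 : (d : ℚ) ≠ 0 := Nat.cast_ne_zero.2 hd.ne'
  have g0' : (g : ℚ) ≠ 0 := Nat.cast_ne_zero.2 g0.ne'
  refine ⟨g / d, by positivity, (TP.mul_mem_iff hd).1 ?_, (TP.mul_mem_iff g0).1 ?_⟩
  · rw [← mul_assoc, ← map_natCast cA, ← map_mul, mul_div_cancel₀ _ d0, map_natCast,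
      show (g : Af) * (c⁻¹ : Afˣ) = d * (u + (v - u * w) * (e * (c⁻¹ : Afˣ))) by
        linear_combination (c⁻¹ : Afˣ) * hg' - (u * (c⁻¹ : Afˣ)) * e1 + (d * u) * ci]
    exact Zn_mul (TP.nat_mem d) (add_mem (TP.int_mem u)
      (Zn_mul1 (sub_mem (TP.int_mem v) (Zn_mul1 (TP.int_mem u) hw)) h2))
  · rw [← mul_assoc, ← map_natCast cA, ← map_mul, inv_div, mul_div_cancel₀ _ g0', map_natCast,
      show (d : Af) * c = g * (a + b * w) by linear_combination e1 + ha' + w * hb']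
    exact Zn_mul (TP.nat_mem g) (add_mem (TP.int_mem a) (Zn_mul1 (TP.int_mem b) hw))

theorem dR_mem {N : ℕ} {c : Afˣ} (h : (c : Af) - 1 ∈ Zn N) (h' : ((c⁻¹ : Afˣ) : Af) - 1 ∈ Zn N) :
    dR c ∈ KN N := ⟨mz_of (by simpa [dR] using h), mz_of (by simpa [dR] using h')⟩

theorem det_j (γ : G0Q) : (TA.j γ).det = Units.map cA.toMonoidHom γ.1.det :=
  GeneralLinearGroup.map_det _ _

theorem gen (x : GA) : ∃ γ : G0Q, (TA.j γ)⁻¹ * x ∈ KN 1 := by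
  obtain ⟨q, hq, h1, h2⟩ := ex_rat x.det
  let γ : G0Q := ⟨dR (Units.mk0 q hq.ne'), mem_G0Q.2 (by rwa [det_dR])⟩
  have e : (TA.j γ).det = Units.map cA.toMonoidHom (Units.mk0 q hq.ne') := by rw [det_j, det_dR]
  have h3 : dR ((TA.j γ).det⁻¹ * x.det) ∈ KN 1 := by
    rw [e]
    refine dR_mem (sub_mem h2 TP.one_mem1) (sub_mem ?_ TP.one_mem1)
    rw [_root_.mul_inv_rev, inv_inv, mul_comm]
    exact h1
  obtain ⟨δ, -, h⟩ := dens_SL (x := (TA.j γ)⁻¹ * x * (dR ((TA.j γ).det⁻¹ * x.det))⁻¹)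
    (by rw [map_mul, map_mul, map_inv, map_inv, det_dR, mul_inv_cancel]) 1 one_pos
  refine ⟨γ * δ, ?_⟩
  have := mul_mem h h3
  rwa [mul_assoc, inv_mul_cancel_right, ← mul_assoc, ← _root_.mul_inv_rev, ← map_mul] at this

end Tq

end Vale.Agent.P022K.Sh
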