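import Vale.Agent.P022K.QT.Defs
import Vale.Agent.P022K.QT.TQ
import Vale.Agent.P022K.QT.Man
import Mathlib.NumberTheory.PrimesCongruentOne
import Mathlib.NumberTheory.ModularForms.CongruenceSubgroups

/-!
# P022K, block QT: the modular tower satisfies the axioms
-/

set_option autoImplicit false

open UpperHalfPlane
open scoped MatrixGroups

noncomputable section

namespace Vale.Agent.P022K.QT

open Vale.Agent.P022K.Sh Matrix
open TP (Af Zn cA pr mem_Z1)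

/-! ## the bridge to `GL₂(Af)` -/

theorem int_of {p : Pr} {d : ℕ} (h : ¬ (p : ℕ) ∣ d) {a : Af} (ha : (d : Af) * a ∈ Zn 1) :
    ‖pr p a‖ ≤ 1 := by
  have := mem_Z1.1 ha p
  rwa [map_mul, map_natCast, norm_mul, Padic.norm_natCast_eq_one_iff.2
    ((Nat.Prime.coprime_iff_not_dvd p.2).2 h), one_mul] at this

theorem fin_dvd {d : ℕ} (hd : 0 < d) : ∀ᶠ p : Pr in Filter.cofinite, ¬ (p : ℕ) ∣ d :=
  ((Set.finite_le_nat d).preimage Subtype.val_injective.injOn).subset fun _ hp =>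
    Nat.le_of_dvd hd (not_not.1 hp)

/-- the components of an adelic matrix -/
def br : Tq.GA →* G := (MonoidHom.pi Tq.pi).codRestrict GA fun x => by
  obtain ⟨d, hd, h1, h2⟩ := Tq.ex_dm x
  exact (fin_dvd hd).mono fun p hp =>
    mem_Kl.2 ⟨fun i k => int_of hp (h1 i k), fun i k => int_of hp (h2 i k)⟩

theorem ev_br (p : Pr) (x : Tq.GA) : ev p (br x) = Tq.pi p x := rfl

theorem ex_adele (a : ∀ p : Pr, ℚ_[p]) (h : ∀ᶠ p : Pr in Filter.cofinite, ‖a p‖ ≤ 1) :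
    ∃ x : Af, ∀ p : Pr, pr p x = a p := by
  choose d hd h' using fun p => Tq.ex_den p (a p)
  refine ⟨TP.mkA a (∏ p ∈ h.toFinset, d p) (Finset.prod_pos fun p _ => hd p) fun p => ?_,
    fun _ => rfl⟩
  by_cases e : ‖a p‖ ≤ 1
  · rw [norm_mul]
    exact mul_le_one₀ (TP.nat_le p _) (norm_nonneg _) e
  · obtain ⟨c, hc⟩ := Finset.dvd_prod_of_mem d (h.mem_toFinset.2 e)
    rw [hc, mul_comm (d p), Nat.cast_mul, mul_assoc, norm_mul]
    exact mul_le_one₀ (TP.nat_le p _) (norm_nonneg _) (h' p)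

theorem br_inj : Function.Injective br := fun _ _ e => Tq.ext_pi fun p => congrArg (ev p) e

theorem br_sur : Function.Surjective br := fun y => by
  have key : ∀ y : G, ∃ A : Matrix (Fin 2) (Fin 2) Af, ∀ p : Pr,
      (pr p).toRingHom.mapMatrix A = (ev p y).val := fun y => by
    choose A hA using fun i k => ex_adele (fun p => (ev p y).val i k)
      ((ev_int y).mono fun p hp => (mem_Kl.1 hp).1 i k)
    exact ⟨Matrix.of A, fun p => Matrix.ext fun i k => hA i k p⟩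
  obtain ⟨A, hA⟩ := key y
  obtain ⟨B, hB⟩ := key y⁻¹
  refine ⟨⟨A, B, Tq.ext_mat fun p => ?_, Tq.ext_mat fun p => ?_⟩, G_ext fun p => Units.ext (hA p)⟩
  · rw [map_mul, hA, hB, map_inv, Units.mul_inv, map_one]
  · rw [map_mul, hA, hB, map_inv, Units.inv_mul, map_one]

/-- the diagonal embedding into `GL₂(Af)` -/
def jA : G0 →* Tq.GA := Tq.TA.j

theorem br_j (γ : G0) : br (jA γ) = TQ.j γ := G_ext fun p => Units.ext (Matrix.ext fun i k =>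
  (pr p).commutes (γ.1.val i k))

/-- the principal level `N` without the centre -/
def KN (N : ℕ) : Subgroup G := PU fun p => Km ℤ_[p] ℚ_[p] (N.factorization p)

theorem br_KN {N : ℕ} (hN : 0 < N) {x : Tq.GA} : br x ∈ KN N ↔ x ∈ Tq.KN N := by
  rw [KN, mem_PU, Tq.KN_loc hN]
  exact forall_congr' fun p => by rw [Nat.factorization_def _ p.2, ev_br]

theorem br_UN {N : ℕ} (hN : 0 < N) {x : Tq.GA} : br x ∈ UN N ↔ x ∈ Tq.UN N := by
  rw [UN, mem_PU, Tq.UN_loc hN]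
  exact forall_congr' fun p => by rw [Nat.factorization_def _ p.2, ev_br, U1]

theorem br_Z {x : Tq.GA} : br x ∈ TQ.Z ↔ x ∈ Tq.ZA := by
  rw [mem_Z, Tq.ZA_loc]
  rfl

theorem Z_eq : TQ.Z = Subgroup.center G := by
  ext x
  obtain ⟨x, rfl⟩ := br_sur x
  simp only [br_Z, Subgroup.mem_center_iff, br_sur.forall, ← map_mul, br_inj.eq_iff]

theorem KN_le (N : ℕ) : KN N ≤ UN N := PU_mono fun _ => le_sup_left

theorem mem_K1 {x : G} : x ∈ KN 1 ↔ ∀ p, ev p x ∈ Kl p := by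
  simp only [KN, mem_PU, Nat.factorization_one, Finsupp.coe_zero, Pi.zero_apply, Km_zero]

theorem KN_anti {M N : ℕ} (hN : 0 < N) (h : M ∣ N) : KN N ≤ KN M :=
  PU_mono fun p => Km_anti
    ((Nat.factorization_le_iff_dvd (Nat.pos_of_dvd_of_pos h hN).ne' hN.ne').2 h p)

theorem mem_UN {N : ℕ} (hN : 0 < N) {x : G} : x ∈ UN N ↔ ∃ k ∈ KN N, ∃ z ∈ TQ.Z, k * z = x := by
  obtain ⟨x, rfl⟩ := br_sur x
  simp only [br_UN hN, br_sur.exists, br_KN hN, br_Z, ← map_mul, br_inj.eq_iff]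
  exact Subgroup.mem_sup_of_normal_right

theorem conj_KN {x : G} (hx : x ∈ KN 1) {N : ℕ} (hN : 0 < N) {k : G} (hk : k ∈ KN N) :
    x⁻¹ * k * x ∈ KN N := by
  obtain ⟨x, rfl⟩ := br_sur x
  obtain ⟨k, rfl⟩ := br_sur k
  rw [← map_inv, ← map_mul, ← map_mul, br_KN hN]
  exact Tq.conj_K1 ((br_KN one_pos).1 hx) ((br_KN hN).1 hk)

theorem ex_conj (x : G) {N : ℕ} (hN : 0 < N) :
    ∃ M, 0 < M ∧ N ∣ M ∧ ∀ k ∈ KN M, x⁻¹ * k * x ∈ KN N := by
  obtain ⟨x, rfl⟩ := br_sur x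
  obtain ⟨M, hM, d, h⟩ := Tq.ex_conj x hN
  refine ⟨M, hM, d, fun k hk => ?_⟩
  obtain ⟨k, rfl⟩ := br_sur k
  rw [← map_inv, ← map_mul, ← map_mul, br_KN hN]
  exact h k ((br_KN hM).1 hk)

theorem Z_com {z : G} (hz : z ∈ TQ.Z) (x : G) : x * z = z * x :=
  Subgroup.mem_center_iff.1 (Z_eq.le hz) x

theorem conj_Z {z : G} (hz : z ∈ TQ.Z) (x : G) : x⁻¹ * z * x = z := by
  rw [mul_assoc, ← Z_com hz, inv_mul_cancel_left]

theorem Z_le {U : Subgroup G} (hU : U ∈ TQ.Lev) : TQ.Z ≤ U := sInf_le hU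

theorem ex_cjU (x : G) {N : ℕ} (hN : 0 < N) : ∃ M, 0 < M ∧ N ∣ M ∧ UN M ≤ cj x (UN N) := by
  obtain ⟨M, hM, d, h⟩ := ex_conj x hN
  refine ⟨M, hM, d, fun u hu => ?_⟩
  obtain ⟨k, hk, z, hz, rfl⟩ := (mem_UN hM).1 hu
  refine mem_cj.2 ((mem_UN hN).2 ⟨_, h k hk, z, hz, ?_⟩)
  conv_lhs => rw [← conj_Z hz x]
  group

theorem conj_UN {x : G} (hx : x ∈ UN 1) {N : ℕ} (hN : 0 < N) : cj x (UN N) = UN N := by
  have key : ∀ x ∈ UN 1, UN N ≤ cj x (UN N) := fun x hx u hu => by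
    obtain ⟨k, hk, z, hz, rfl⟩ := (mem_UN hN).1 hu
    obtain ⟨a, ha, c, hc, rfl⟩ := (mem_UN one_pos).1 hx
    refine mem_cj.2 ((mem_UN hN).2 ⟨_, conj_KN ha hN hk, z, hz, ?_⟩)
    rw [show (a * c)⁻¹ * (k * z) * (a * c) = (c⁻¹ * (a⁻¹ * k * a * (a⁻¹ * z * a))) * c by group,
      conj_Z hz, mul_assoc c⁻¹, Z_com hc, inv_mul_cancel_left]
  exact le_antisymm (cj_le_iff.2 (key _ (inv_mem hx))) (key x hx)

theorem idx_UN {N : ℕ} (hN : 0 < N) : (UN N).relIndex (UN 1) ≠ 0 := by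
  obtain ⟨S, -, hS⟩ := of_idx (Tq.relIndex_UN hN)
  refine idx_of (S.finite_toSet.image br) fun b hb => ?_
  obtain ⟨b, rfl⟩ := br_sur b
  obtain ⟨s, hs, h⟩ := hS b ((br_UN one_pos).1 hb)
  exact ⟨_, ⟨s, hs, rfl⟩, by rwa [← map_inv, ← map_mul, br_UN hN]⟩

theorem ok_inf : ∀ U ∈ TQ.Lev, ∀ U' ∈ TQ.Lev, U ⊓ U' ∈ TQ.Lev :=
  fun _ ⟨⟨N, hN, h⟩, y, hy⟩ _ ⟨⟨M, hM, h'⟩, _⟩ => ⟨⟨N * M, Nat.mul_pos hN hM,
    le_inf ((UN_anti (Nat.mul_pos hN hM) (dvd_mul_right _ _)).trans h)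
      ((UN_anti (Nat.mul_pos hN hM) (dvd_mul_left _ _)).trans h')⟩, y, inf_le_left.trans hy⟩

theorem ok_conj : ∀ U ∈ TQ.Lev, ∀ x, cj x U ∈ TQ.Lev := fun _ ⟨⟨_, hN, h⟩, y, hy⟩ x => by
  obtain ⟨M, hM, -, h'⟩ := ex_cjU x hN
  exact ⟨⟨M, hM, h'.trans (cj_mono x h)⟩, x * y, cj_cj x y _ ▸ cj_mono x hy⟩

theorem ok_fi : ∀ U ∈ TQ.Lev, ∀ U' ∈ TQ.Lev, U.relIndex U' ≠ 0 := by
  intro U hU U' ⟨_, y, hy⟩ e
  obtain ⟨⟨M, hM, h⟩, -⟩ := ok_conj U hU y⁻¹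
  exact idx_cj (idx_UN hM) y (Subgroup.relIndex_eq_zero_of_le_left (cj_le_iff.2 h)
    (Subgroup.relIndex_eq_zero_of_le_right hy e))

/-! ## strong approximation -/

theorem mem_G0 {g : GL (Fin 2) ℚ} : g ∈ G0 ↔ 0 < g.det.val := Tq.mem_G0Q

/-- class number one -/
theorem gen (x : G) : ∃ γ : G0, (TQ.j γ)⁻¹ * x ∈ KN 1 := by
  obtain ⟨x, rfl⟩ := br_sur x
  obtain ⟨γ, h⟩ : ∃ γ : G0, (jA γ)⁻¹ * x ∈ Tq.KN 1 := Tq.gen x
  exact ⟨γ, by rwa [← br_j, ← map_inv, ← map_mul, br_KN one_pos]⟩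

/-- strong approximation -/
theorem dens {x : G} (hx : ∀ p, (ev p x).det = 1) {N : ℕ} (hN : 0 < N) :
    ∃ γ : G0, γ.1.det = 1 ∧ (TQ.j γ)⁻¹ * x ∈ KN N := by
  obtain ⟨x, rfl⟩ := br_sur x
  obtain ⟨γ, d, h⟩ : ∃ γ : G0, γ.1.det = 1 ∧ (jA γ)⁻¹ * x ∈ Tq.KN N :=
    Tq.dens_SL (x := x) (Units.ext (TP.ext_pr fun p : Pr => by
      have := congrArg Units.val (hx p)
      rw [ev_br, Tq.pi, GeneralLinearGroup.map_det] at this
      simpa using this)) N hN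
  exact ⟨γ, d, by rwa [← br_j, ← map_inv, ← map_mul, br_KN hN]⟩

theorem lc_sa (p : Pr) : (lc p).SA := fun U hU x g hg => by
  obtain ⟨⟨N, hN, h⟩, -⟩ := ok_conj U hU x
  obtain ⟨γ, -, hγ⟩ := dens (x := x * io p g * x⁻¹) (fun q => by
    simp only [map_mul, map_inv]
    by_cases e : q = p
    · subst e
      rw [ev_io, hg, mul_one, mul_inv_cancel]
    · rw [ev_io_ne e, map_one, mul_one, mul_inv_cancel]) hN
  exact ⟨γ, _, mem_cj.1 (h (KN_le N hγ)), by rw [lc_ι]; group⟩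

/-- `SL₂(ℤ)` in `G0` -/
def iZ : SL(2, ℤ) →* G0 := Tq.iZ

theorem iZ_apply (g : SL(2, ℤ)) (i k : Fin 2) : (iZ g).1.val i k = (g i k : ℚ) := rfl

theorem det_iZ (g : SL(2, ℤ)) : (iZ g).1.det = 1 := SpecialLinearGroup.det_mapGL g

theorem r_iZ (g : SL(2, ℤ)) : (TQ.r (iZ g) : GL (Fin 2) ℝ) = SpecialLinearGroup.mapGL ℝ g :=
  Units.ext (Matrix.ext fun i k => by
    change algebraMap ℚ ℝ (g i k : ℚ) = algebraMap ℤ ℝ (g i k)
    simp)

theorem act (g : SL(2, ℤ)) (τ : ℍ) : TQ.r (iZ g) • τ = g • τ :=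
  congrArg (fun A : GL (Fin 2) ℝ => A • τ) (r_iZ g)

theorem j_entry (γ : G0) (i k : Fin 2) : (jA γ).val i k = cA (γ.1.val i k) := rfl

theorem j_K1 {γ : G0} : TQ.j γ ∈ KN 1 ↔ γ ∈ iZ.range := by
  rw [← br_j, br_KN one_pos, Tq.mem_K1]
  constructor
  · rintro ⟨h1, h2⟩
    rw [← map_inv] at h2
    choose A hA using fun i k => TP.rat_int1 (h1 i k)
    choose B hB using fun i k => TP.rat_int1 (h2 i k)
    have eA : γ.1.val = (Int.castRingHom ℚ).mapMatrix (Matrix.of A) := Matrix.ext hA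
    have eB : (γ⁻¹).1.val = (Int.castRingHom ℚ).mapMatrix (Matrix.of B) := Matrix.ext hB
    have e : (Matrix.of A).det * (Matrix.of B).det = 1 := by
      have := congrArg Matrix.det γ.1.mul_inv
      rw [Matrix.det_mul, Matrix.det_one, ← Subgroup.coe_inv, eA, eB, ← RingHom.map_det,
        ← RingHom.map_det, ← map_mul, eq_intCast] at this
      exact_mod_cast this
    have p : 0 < (Matrix.of A).det := by
      have : 0 < γ.1.val.det := mem_G0.1 γ.2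
      rw [eA, ← RingHom.map_det, eq_intCast] at this
      exact_mod_cast this
    exact ⟨⟨Matrix.of A, Int.eq_one_of_mul_eq_one_right p.le e⟩, Subtype.ext (Units.ext eA.symm)⟩
  · rintro ⟨g, rfl⟩
    rw [← map_inv, ← map_inv]
    constructor <;> intro i k <;> rw [j_entry, iZ_apply, map_intCast] <;> exact TP.int_mem _

theorem j_KN {N : ℕ} (hN : 0 < N) {g : SL(2, ℤ)} :
    TQ.j (iZ g) ∈ KN N ↔ g ∈ CongruenceSubgroup.Gamma N := by
  have h1 := j_K1.2 ⟨g, rfl⟩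
  rw [← br_j, br_KN one_pos] at h1
  rw [← br_j, br_KN hN, Tq.mem_KN, and_iff_right h1, CongruenceSubgroup.Gamma_mem]
  have key : ∀ a b : ℤ, cA (a : ℚ) - (b : Af) ∈ Zn N ↔ (a : ZMod N) = b := fun a b => by
    rw [map_intCast, ← Int.cast_sub, TP.int_mem_iff hN, eq_comm, ZMod.intCast_eq_intCast_iff_dvd_sub]
  simp only [Tq.Mz, Fin.forall_fin_two, Matrix.sub_apply, j_entry, iZ_apply, Matrix.one_apply_eq,
    Matrix.one_apply_ne (show (0 : Fin 2) ≠ 1 by decide),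
    Matrix.one_apply_ne (show (1 : Fin 2) ≠ 0 by decide), and_assoc]
  exact and_congr (by simpa using key (g 0 0) 1) (and_congr (by simpa using key (g 0 1) 0)
    (and_congr (by simpa using key (g 1 0) 0) (by simpa using key (g 1 1) 1)))

/-- `SL₂(ℤ)` is dense in `SL₂(Zhat)` -/
theorem dens_Z {x : G} (h1 : x ∈ KN 1) (hx : ∀ p, (ev p x).det = 1) {N : ℕ} (hN : 0 < N) :
    ∃ g : SL(2, ℤ), (TQ.j (iZ g))⁻¹ * x ∈ KN N := by
  obtain ⟨γ, -, h⟩ := dens hx hN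
  obtain ⟨g, rfl⟩ := j_K1.1 (show TQ.j γ ∈ KN 1 by
    simpa using mul_mem h1 (inv_mem (KN_anti hN (one_dvd N) h)))
  exact ⟨g, h⟩

theorem fix_eq {g : GL (Fin 2) ℝ} (hg : 0 < g.det.val) {τ : ℍ} (h : g • τ = τ) :
    g 0 0 - g 1 1 = 2 * g 1 0 * τ.re ∧ g 0 1 = -(g 1 0 * (τ.re ^ 2 + τ.im ^ 2)) := by
  have e := congrArg UpperHalfPlane.coe h
  rw [coe_smul_of_det_pos hg, div_eq_iff (denom_ne_zero g τ)] at e
  have e1 := congrArg Complex.re e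
  have e2 := congrArg Complex.im e
  simp [num, denom] at e1 e2
  have h1 : g 0 0 - g 1 1 = 2 * g 1 0 * τ.re :=
    mul_right_cancel₀ τ.im_pos.ne' (by linear_combination e2)
  exact ⟨h1, by linear_combination e1 - τ.re * h1⟩

theorem r_entry (γ : G0) (i k : Fin 2) : (TQ.r γ : GL (Fin 2) ℝ) i k = (γ.1.val i k : ℝ) := rfl

theorem mem_Z0 {γ : G0} : γ ∈ TQ.Z0 ↔ γ.1 ∈ Zl ℚ := by
  simp only [Tw.Z0, MonoidHom.mem_ker, Equiv.ext_iff]
  constructor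
  · intro h
    have h1 := fix_eq (TQ.r γ).2 (h I)
    have h2 := fix_eq (TQ.r γ).2 (h ⟨2 * Complex.I, by simp⟩)
    simp only [r_entry] at h1 h2
    simp [UpperHalfPlane.im] at h1 h2
    have c0 : (γ.1.val 1 0 : ℝ) = 0 := by linarith [h1.2, h2]
    have b0 : (γ.1.val 0 1 : ℝ) = 0 := by linarith [h1.2]
    have a0 : (γ.1.val 0 0 : ℝ) = γ.1.val 1 1 := by linarith [h1.1]
    refine GeneralLinearGroup.mem_center_iff_val_mem_range_scalar.2 ⟨γ.1.val 0 0, ?_⟩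
    ext i k
    fin_cases i <;> fin_cases k <;> simp
    exacts [by exact_mod_cast b0.symm, by exact_mod_cast c0.symm, by exact_mod_cast a0]
  · intro h τ
    obtain ⟨c, hc⟩ := scalar_of_mem (GeneralLinearGroup.map_center_le (algebraMap ℚ ℝ) h)
    change GeneralLinearGroup.map (algebraMap ℚ ℝ) γ.1 • τ = τ
    rw [hc, glScalar_smul]

theorem ok_z0 (γ : G0) : γ ∈ TQ.Z0 ↔ TQ.j γ ∈ TQ.Z := by
  rw [mem_Z0, mem_Z]
  refine ⟨fun h p => GeneralLinearGroup.map_center_le _ h, fun h => ?_⟩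
  refine Subgroup.mem_center_iff.2 fun g => Units.ext (Matrix.map_injective
    (algebraMap ℚ ℚ_[(⟨2, Nat.prime_two⟩ : Pr)]).injective ?_)
  exact congrArg Units.val ((map_mul (jl _) g γ.1).trans ((Subgroup.mem_center_iff.1
    (h ⟨2, Nat.prime_two⟩) _).trans (map_mul (jl _) γ.1 g).symm))

theorem j_scalar {ζ : G0} {q : ℚˣ} (h : ζ.1 = GeneralLinearGroup.scalar _ q) :
    jA ζ = GeneralLinearGroup.scalar _ (Units.map cA.toMonoidHom q) := by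
  refine Units.ext (Matrix.ext fun i k => ?_)
  rw [j_entry, h]
  change cA (Matrix.diagonal (fun _ => (q : ℚ)) i k) = Matrix.diagonal (fun _ => cA q) i k
  rw [Matrix.diagonal_apply, Matrix.diagonal_apply, apply_ite cA, map_zero]

theorem mz_scalar {u : Afˣ} (hu : (u : Af) ∈ Zn 1) :
    Tq.Mz 1 (GeneralLinearGroup.scalar (Fin 2) u).val := fun i k => by
  change Matrix.diagonal (fun _ => (u : Af)) i k ∈ _
  rw [Matrix.diagonal_apply]
  split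
  exacts [hu, zero_mem _]

theorem scalar_K1 {u : Afˣ} (h : (u : Af) ∈ Zn 1) (h' : ((u⁻¹ : Afˣ) : Af) ∈ Zn 1) :
    GeneralLinearGroup.scalar (Fin 2) u ∈ Tq.KN 1 :=
  Tq.mem_K1.2 ⟨mz_scalar h, by rw [← map_inv]; exact mz_scalar h'⟩

theorem ex_zA (c : Afˣ) : ∃ ζ : G0, ζ.1 ∈ Zl ℚ ∧
    (jA ζ)⁻¹ * GeneralLinearGroup.scalar (Fin 2) c ∈ Tq.KN 1 := by
  obtain ⟨q, hq, h1, h2⟩ := Tq.ex_rat c
  obtain ⟨q, rfl⟩ : ∃ u : ℚˣ, (u : ℚ) = q := ⟨Units.mk0 q hq.ne', rfl⟩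
  have m : GeneralLinearGroup.scalar (Fin 2) q ∈ G0 := mem_G0.2 (by simpa using pow_pos hq 2)
  refine ⟨⟨_, m⟩, scalar_mem _, ?_⟩
  rw [j_scalar (q := q) rfl, ← map_inv (GeneralLinearGroup.scalar (Fin 2)),
    ← map_mul (GeneralLinearGroup.scalar (Fin 2))]
  refine scalar_K1 ?_ ?_
  · rw [← Units.val_inv_eq_inv_val] at h2
    exact h2
  · rw [_root_.mul_inv_rev, inv_inv, mul_comm]
    exact h1

/-- class number one for the centre -/
theorem ex_z0 {z : G} (hz : z ∈ TQ.Z) : ∃ ζ ∈ TQ.Z0, (TQ.j ζ)⁻¹ * z ∈ KN 1 := by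
  obtain ⟨z, rfl⟩ := br_sur z
  obtain ⟨c, hc⟩ := GeneralLinearGroup.center_eq_range_scalar.le (br_Z.1 hz)
  obtain ⟨ζ, h1, h2⟩ := ex_zA c
  refine ⟨ζ, mem_Z0.2 h1, ?_⟩
  rwa [← br_j, ← map_inv, ← map_mul, br_KN one_pos, ← hc]

theorem stab (γ : G0) : TQ.j γ ∈ UN 1 ↔ γ ∈ iZ.range ⊔ TQ.Z0 := by
  constructor
  · intro h
    obtain ⟨k, hk, z, hz, e⟩ := (mem_UN one_pos).1 h
    obtain ⟨ζ, h1, h2⟩ := ex_z0 hz
    rw [← inv_mul_cancel_right γ ζ]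
    refine Subgroup.mul_mem_sup (j_K1.1 ?_) h1
    rw [map_mul, map_inv, ← e, mul_assoc, ← Z_com hz]
    exact mul_mem hk h2
  · exact fun h => (sup_le (fun _ h => KN_le 1 (j_K1.2 h))
      (fun _ h => Z_le (UN_mem one_pos) ((ok_z0 _).1 h)) : _ ≤ (UN 1).comap TQ.j) h

theorem mnq : TQ.Mn (UN 1) iZ :=
  ⟨act, fun x => (gen x).imp fun _ h => KN_le 1 h, stab, UN_mem one_pos, fun _ h => h.2⟩

/-! ## neat levels -/

theorem neat_loc {U : Subgroup G} (hU : U ∈ TQ.Lev) (l : Pr) (h : ∀ u ∈ U, ∀ t : ℕ, t < 4 →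
    IsSquare (ev l u).val.det → (ev l u).val.trace ^ 2 ≠ t * (ev l u).val.det) : TQ.Neat U := by
  intro x γ hγ τ hτ
  by_contra hn
  obtain ⟨y, hy⟩ := hU.2
  obtain ⟨δ, hδ⟩ := gen (x * y)
  have h1 : TQ.j (δ⁻¹ * γ * δ) ∈ UN 1 := by
    have := mul_mem (mul_mem (KN_le 1 hδ) (mem_cj.1 (hy (TQ.mem_Gam.1 hγ)))) (inv_mem (KN_le 1 hδ))
    simpa [mul_assoc] using this
  obtain ⟨g, hg⟩ := mnq.split h1
  obtain ⟨c, hc⟩ := scalar_of_mem (mem_Z0.1 hg)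
  have e : γ.1 = δ.1 * ((iZ g).1 * GeneralLinearGroup.scalar _ c) * δ.1⁻¹ := by
    rw [← hc]
    push_cast
    group
  have hd : γ.1.val.det = c ^ 2 := by
    have := congrArg (fun A : GL (Fin 2) ℚ => A.det.val) e
    simpa [det_iZ] using this
  have ht : γ.1.val.trace = c * (g.1.trace : ℤ) := by
    rw [e, Units.val_mul, Units.val_mul, Matrix.trace_units_conj]
    simp [Matrix.trace_fin_two, iZ_apply]
    ring
  have lt : γ.1.val.trace ^ 2 < 4 * γ.1.val.det := by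
    obtain ⟨h1, h2⟩ := fix_eq (TQ.r γ).2 hτ
    simp only [r_entry] at h1 h2
    have c0 : (γ.1.val 1 0 : ℝ) ≠ 0 := fun c0 => hn (mem_Z0.2 (by
      rw [c0] at h1 h2
      refine GeneralLinearGroup.mem_center_iff_val_mem_range_scalar.2 ⟨γ.1.val 0 0, ?_⟩
      have a0 : (γ.1.val 0 0 : ℝ) = γ.1.val 1 1 := by linarith
      have b0 : (γ.1.val 0 1 : ℝ) = 0 := by linarith
      ext i k
      fin_cases i <;> fin_cases k <;> simp
      exacts [by exact_mod_cast b0.symm, by exact_mod_cast c0.symm, by exact_mod_cast a0]))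
    rw [Matrix.trace_fin_two, Matrix.det_fin_two, ← Rat.cast_lt (K := ℝ)]
    push_cast
    rw [h2, sub_eq_iff_eq_add.1 h1]
    nlinarith [sq_pos_of_ne_zero (mul_ne_zero c0 τ.im_pos.ne')]
  have c0 : (0 : ℚ) < c ^ 2 := sq_pos_of_ne_zero c.ne_zero
  have e1 : (ev l (x⁻¹ * TQ.j γ * x)).val.det = algebraMap ℚ ℚ_[l] γ.1.val.det := by
    rw [map_mul, map_mul, map_inv, Units.val_mul, Units.val_mul, Matrix.det_units_conj',
      RingHom.map_det]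
    rfl
  have e2 : (ev l (x⁻¹ * TQ.j γ * x)).val.trace = algebraMap ℚ ℚ_[l] γ.1.val.trace := by
    rw [map_mul, map_mul, map_inv, Units.val_mul, Units.val_mul, Matrix.trace_units_conj',
      Matrix.trace_fin_two, Matrix.trace_fin_two, map_add]
    rfl
  refine h _ (TQ.mem_Gam.1 hγ) (g.1.trace.natAbs ^ 2) ?_ ?_ ?_
  · rw [ht, hd, mul_pow, mul_comm (4 : ℚ), mul_lt_mul_iff_right₀ c0] at lt
    zify
    rw [sq_abs]
    exact_mod_cast lt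
  · exact ⟨algebraMap ℚ ℚ_[l] c, by rw [e1, hd, sq, map_mul]⟩
  · rw [e1, e2, ht, hd, ← Int.cast_natCast, Int.natCast_pow, Int.natAbs_sq]
    simp only [map_mul, map_pow, map_intCast, Int.cast_pow]
    ring

theorem norm_det {l : Pr} {k : Gl l} (hk : k ∈ Kl l) : ‖k.val.det‖ = 1 := by
  obtain ⟨k, rfl⟩ := hk
  have := PadicInt.norm_units k.det
  rw [PadicInt.norm_def] at this
  rw [← this]
  exact congrArg _ ((algebraMap ℤ_[l] ℚ_[l]).map_det _).symm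

theorem neat_U1 {U : Subgroup G} (hU : U ∈ TQ.Lev) (l : Pr) {m : ℕ} (hm : 3 ≤ (l : ℕ) ^ m)
    (h : ∀ u ∈ U, ev l u ∈ U1 l m) : TQ.Neat U := by
  refine neat_loc hU l fun u hu t ht _ e => ?_
  obtain ⟨k, hk, z, hz, e'⟩ := Subgroup.mem_sup_of_normal_right.1 (h u hu)
  obtain ⟨c, rfl⟩ := scalar_of_mem hz
  obtain ⟨h1, h2⟩ := mem_Km.1 hk
  rw [← e'] at e
  simp [Matrix.trace_fin_two, Matrix.det_fin_two] at e
  have e2 : ((4 - t : ℤ) : ℚ_[l]) * k.val.det = -(((k.val - 1) 0 0 - (k.val - 1) 1 1) ^ 2 +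
      4 * ((k.val - 1) 0 1 * (k.val - 1) 1 0)) := by
    have e0 : (k.val 0 0 + k.val 1 1) ^ 2 = t * (k.val 0 0 * k.val 1 1 - k.val 0 1 * k.val 1 0) :=
      mul_left_cancel₀ (pow_ne_zero 2 c.ne_zero) (by linear_combination e)
    simp [Matrix.det_fin_two]
    linear_combination e0
  have p0 : (0 : ℝ) < l := by exact_mod_cast l.2.pos
  have h3 : ‖((4 - t : ℤ) : ℚ_[l])‖ ≤ (l : ℝ) ^ (-(2 * m : ℕ) : ℤ) := by
    have e3 : (l : ℝ) ^ (-(2 * m : ℕ) : ℤ) = (l : ℝ) ^ (-m : ℤ) * (l : ℝ) ^ (-m : ℤ) := by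
      rw [← zpow_add₀ p0.ne']
      congr 1
      push_cast
      ring
    rw [← mul_one ‖_‖, ← norm_det h1, ← norm_mul, e2, norm_neg, e3]
    refine (Padic.nonarchimedean _ _).trans (max_le ?_ ?_)
    · have : ‖(k.val - 1) 0 0 - (k.val - 1) 1 1‖ ≤ (l : ℝ) ^ (-m : ℤ) := by
        rw [sub_eq_add_neg]
        exact (Padic.nonarchimedean _ _).trans (max_le (h2 0 0) (by rw [norm_neg]; exact h2 1 1))
      rw [sq, norm_mul]
      exact mul_le_mul this this (norm_nonneg _) (by positivity)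
    · rw [norm_mul, norm_mul]
      exact (mul_le_of_le_one_left (by positivity) (by simpa using TP.nat_le l 4)).trans
        (mul_le_mul (h2 0 1) (h2 1 0) (norm_nonneg _) (by positivity))
  have h4 := Int.le_of_dvd (by omega) ((Padic.norm_int_le_pow_iff_dvd _ _).1 h3)
  have h5 : ((l : ℕ) : ℤ) ^ (2 * m) = (((l : ℕ) ^ m : ℕ) : ℤ) ^ 2 := by
    push_cast
    ring
  rw [h5] at h4
  generalize (l : ℕ) ^ m = n at hm h4
  nlinarith

theorem neq {N : ℕ} (hN : 3 ≤ N) : TQ.Neat (UN N) := by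
  obtain ⟨l, hl⟩ : ∃ l : Pr, 3 ≤ (l : ℕ) ^ N.factorization l := by
    rcases Nat.four_dvd_or_exists_odd_prime_and_dvd_of_two_lt hN with h | ⟨p, hp, h, ho⟩
    · refine ⟨⟨2, Nat.prime_two⟩, le_trans (by norm_num) (Nat.pow_le_pow_right two_pos
        ((Nat.prime_two.pow_dvd_iff_le_factorization (k := 2) (by omega)).1 h))⟩
    · refine ⟨⟨p, hp⟩, le_trans ?_ (Nat.pow_le_pow_right hp.pos
        ((hp.dvd_iff_one_le_factorization (by omega)).1 h))⟩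
      have := hp.two_le
      obtain ⟨k, rfl⟩ := ho
      rw [pow_one]
      omega
  exact neat_U1 (UN_mem (by omega)) l hl fun _ hu => mem_PU.1 hu l

/-- the prime `2` -/
def p2 : Pr := ⟨2, Nat.prime_two⟩

/-- levels inside `K₀(4) · centre` at `2` are neat -/
theorem neat_K0 {U : Subgroup G} (hU : U ∈ TQ.Lev) (h : ∀ u ∈ U, ∃ k : GL (Fin 2) ℤ_[p2],
    ∃ z ∈ Zl ℚ_[p2], 4 ∣ k 1 0 ∧ gK ℚ_[p2] k * z = ev p2 u) : TQ.Neat U := by
  refine neat_loc hU p2 fun u hu t ht ⟨s, hs⟩ e => ?_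
  obtain ⟨k, z, hz, ⟨c', hc⟩, e'⟩ := h u hu
  obtain ⟨c, rfl⟩ := scalar_of_mem hz
  rw [← e'] at e hs
  simp [Matrix.trace_fin_two, Matrix.det_fin_two] at e hs
  have h1 : ((k.val.det : ℤ_[p2]) : ℚ_[p2]) = (s / c) ^ 2 := by
    rw [div_pow, eq_div_iff (pow_ne_zero 2 c.ne_zero), Matrix.det_fin_two]
    push_cast
    linear_combination hs
  have h2 : ‖s / c‖ ≤ 1 := by
    have := (k.val.det).2
    rw [h1, norm_pow] at this
    exact (pow_le_one_iff_of_nonneg (norm_nonneg _) two_ne_zero).1 this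
  obtain ⟨r, hr⟩ : ∃ r : ℤ_[p2], (r : ℚ_[p2]) = s / c := ⟨⟨_, h2⟩, rfl⟩
  have h3 : k.val.det = r ^ 2 := Subtype.ext (by rw [h1, ← hr, PadicInt.coe_pow])
  have h4 : (k 0 0 + k 1 1) ^ 2 = t * k.val.det := Subtype.ext (mul_left_cancel₀
    (pow_ne_zero 2 c.ne_zero) (by
      rw [Matrix.det_fin_two]
      push_cast
      linear_combination e))
  let f : ℤ_[p2] →+* ZMod 4 := PadicInt.toZModPow 2
  have h5 : f (k 0 0) * f (k 1 1) = f r ^ 2 := by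
    rw [← map_pow, ← h3, Matrix.det_fin_two, map_sub, map_mul, map_mul, hc, map_mul, map_ofNat,
      show (4 : ZMod 4) = 0 from rfl]
    ring
  have h6 : f r ^ 2 * f (k⁻¹).val.det = 1 := by
    rw [← map_pow, ← h3, ← map_mul, ← Matrix.det_mul, Units.mul_inv, Matrix.det_one, map_one]
  have h7 : (f (k 0 0) + f (k 1 1)) ^ 2 = t * f r ^ 2 := by
    rw [← map_add, ← map_pow, h4, h3, map_mul, map_natCast, map_pow]
  have k1 : ∀ a d r i : ZMod 4, a * d = r ^ 2 → r ^ 2 * i = 1 → a + d ≠ 0 ∧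
      ∀ t : Fin 4, (a + d) ^ 2 = (t : ℕ) * r ^ 2 → t = 0 := by decide
  obtain ⟨k2, k3⟩ := k1 _ _ _ _ h5 h6
  have t0 : t = 0 := congrArg Fin.val (k3 ⟨t, ht⟩ h7)
  rw [t0, Nat.cast_zero, zero_mul, sq_eq_zero_iff] at h4
  exact k2 (by rw [← map_add, h4, map_zero])

theorem okq : TQ.Ok0 where
  inf := ok_inf
  conj := ok_conj
  mid := fun _ ⟨⟨N, hN, h⟩, _⟩ _ ⟨_, y, hy⟩ _ h1 h2 => ⟨⟨N, hN, h.trans h1⟩, y, h2.trans hy⟩
  fi := ok_fi
  neat := ⟨_, UN_mem three_pos, neq le_rfl⟩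
  fin U hU := by
    obtain ⟨S, -, hS⟩ := of_idx (ok_fi U hU _ (UN_mem one_pos))
    refine ⟨S, fun x => ?_⟩
    obtain ⟨γ, hγ⟩ := gen x
    obtain ⟨s, hs, h⟩ := hS _ (KN_le 1 hγ)
    exact ⟨s, hs, γ, _, h, by group⟩
  fg _ hU x := mnq.fg ok_conj ok_fi ok_z0 hU x
  z0 := ok_z0
  zc := Z_eq.le

theorem tkq (p : ℕ) [NeZero p] : AQ.Tk p := mnq.tk okq AQ p

theorem mem_FQ {s : Set Pr} : s ∈ FQ ↔ ∃ N, 0 < N ∧ ∀ l : Pr, N ∣ l.1 - 1 → l ∈ s := by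
  rw [FQ, Filter.mem_iInf_of_directed]
  · exact ⟨fun ⟨N, h⟩ => ⟨N, N.2, h⟩, fun ⟨N, hN, h⟩ => ⟨⟨N, hN⟩, h⟩⟩
  · exact fun a b => ⟨a * b, Filter.principal_mono.2 fun _ h => (dvd_mul_right _ _).trans h,
      Filter.principal_mono.2 fun _ h => (dvd_mul_left _ _).trans h⟩

theorem ev_FQ {s : Set Pr} (h : s ∈ Filter.cofinite) : s ∈ FQ := by
  refine mem_FQ.2 ⟨∏ p ∈ h.toFinset, p.1, Finset.prod_pos fun p _ => p.2.pos, fun l hl => ?_⟩
  by_contra e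
  have := (Finset.dvd_prod_of_mem _ (h.mem_toFinset.2 e)).trans hl
  have h1 := l.2.one_lt
  have := Nat.le_of_dvd (by omega) this
  omega

instance : FQ.NeBot := ⟨fun e => by
  obtain ⟨N, hN, h⟩ := mem_FQ.1 (Filter.empty_mem_iff_bot.2 e)
  obtain ⟨p, hp, -, h'⟩ := Nat.exists_prime_gt_modEq_one 0 hN.ne'
  exact h ⟨p, hp⟩ ((Nat.modEq_iff_dvd' hp.one_le).1 h'.symm)⟩

theorem at_PU (V : ∀ p, Subgroup (Gl p)) (p : Pr) {W : Subgroup (Gl p)} (h : V p = W ⊔ Zl ℚ_[p]) :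
    (lc p).At W (PU V) := by
  refine ⟨fun g hg => mem_PU.2 fun q => ?_, fun _ hu => h ▸ mem_PU.1 hu p⟩
  by_cases e : q = p
  · subst e
    exact (ev_io q g).symm ▸ h ▸ Subgroup.mem_sup_left hg
  · exact (ev_io_ne e g).symm ▸ one_mem _

theorem at_UN (p : Pr) {N : ℕ} (h : ¬ (p : ℕ) ∣ N) : (lc p).At (Kl p) (UN N) :=
  at_PU _ p (by rw [Nat.factorization_eq_zero_of_not_dvd h, U1_zero])

theorem at_cof {U : Subgroup G} (hU : U ∈ TQ.Lev) :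
    ∀ᶠ p : Pr in Filter.cofinite, (lc p).At (Kl p) U := by
  obtain ⟨⟨N, hN, h⟩, y, hy⟩ := hU
  filter_upwards [fin_dvd hN, ev_int y] with p h1 h2
  refine ⟨fun g hg => h ((at_UN p h1).1 g hg), fun u hu => ?_⟩
  have := mem_UN_one.1 (mem_cj.1 (hy hu)) p
  rw [map_mul, map_mul, map_inv, mul_mem_cancel_right (Subgroup.mem_sup_left h2),
    mul_mem_cancel_left (inv_mem (Subgroup.mem_sup_left h2))] at this
  exact this

theorem axq : AQ.Ok where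
  ne _ _ h := lc_ne h
  sa := lc_sa
  lev _ hU := ev_FQ ((at_cof hU).mono fun _ h => ⟨hU, h⟩)
  int x := ev_FQ ((ev_int x).mono fun _ h => Subgroup.mem_sup_left h)

end Vale.Agent.P022K.QT
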