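import Vale.Agent.P022K.QT.St
import Vale.Agent.P022K.QT.Okq
import Vale.Agent.P022K.QT.ClA

/-!
# P022K, block QT, row CLB: the level `K₀(N)` and the adelic form of a modular form
-/

set_option autoImplicit false

open UpperHalfPlane CongruenceSubgroup
open scoped MatrixGroups ModularForm Manifold

noncomputable section

namespace Vale.Agent.P022K.QT.Cl

open Vale.Agent.P022 Vale.Agent.P022K.Sh Matrix

/-! ## levels -/

/-- upper triangular integral matrices -/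
def tq (a b d : ℕ) (h : 0 < a * d) : G0 :=
  ⟨GeneralLinearGroup.mkOfDetNeZero !![(a : ℚ), b; 0, d] (by
    rw [Matrix.det_fin_two_of, mul_zero, sub_zero]
    exact_mod_cast h.ne'), mem_G0.2 (by
    change 0 < Matrix.det !![(a : ℚ), b; 0, d]
    rw [Matrix.det_fin_two_of, mul_zero, sub_zero]
    exact_mod_cast h)⟩

theorem tq_val (a b d : ℕ) (h : 0 < a * d) : (tq a b d h).1.val = !![(a : ℚ), b; 0, d] := rfl

theorem mem_Kl' {p : Pr} {g : Gl p} (h : ∀ i k, ‖g i k‖ ≤ 1) (hd : ‖g.val.det‖ = 1) :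
    g ∈ Kl p := by
  refine mem_Kl.2 ⟨h, fun i k => ?_⟩
  have e : (g⁻¹).val = g.val.det⁻¹ • g.val.adjugate := by
    rw [Matrix.coe_units_inv, Matrix.inv_def, Ring.inverse_eq_inv]
  rw [e, Matrix.smul_apply, norm_smul, norm_inv, hd, inv_one, one_mul, Matrix.adjugate_fin_two]
  fin_cases i <;> fin_cases k <;> simp [h]

theorem jl_tq (p : Pr) (a b d : ℕ) (h : 0 < a * d) :
    (jl p (tq a b d h).1).val = !![(a : ℚ_[p]), b; 0, d] := by
  ext i k
  fin_cases i <;> fin_cases k <;> simp [tq_val]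

theorem tq_K {p : Pr} {a b d : ℕ} (h : 0 < a * d) (hp : ¬ (p : ℕ) ∣ a * d) :
    jl p (tq a b d h).1 ∈ Kl p := by
  refine mem_Kl' (fun i k => ?_) ?_
  · rw [jl_tq]
    fin_cases i <;> fin_cases k <;> simp [TP.nat_le p]
  · rw [jl_tq, Matrix.det_fin_two_of, mul_zero, sub_zero, ← Nat.cast_mul]
    exact Padic.norm_natCast_eq_one_iff.2 ((Nat.Prime.coprime_iff_not_dvd p.2).2 hp)

variable {N M : ℕ}

/-- `diag (1, N)` -/
def dN (N : ℕ) [NeZero N] : G0 := tq 1 0 N (by simpa using NeZero.pos N)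

variable [NeZero N]

/-- the local levels -/
def VV (N M : ℕ) [NeZero N] (p : Pr) : Subgroup (Gl p) :=
  U1 p (M.factorization p) ⊓ cj (jl p (dN N).1) (Kl p ⊔ Zl ℚ_[p])

/-- the level `K(M) ∩ K₀(N)` with the centre -/
def UU (N M : ℕ) [NeZero N] : Subgroup G := PU (VV N M)

theorem UU_eq : UU N M = UN M ⊓ cj (TQ.j (dN N)) (UN 1) := by
  ext x
  simp only [UU, VV, mem_PU, Subgroup.mem_inf, mem_cj, mem_UN_one, map_mul, map_inv, forall_and]
  exact and_congr mem_PU.symm Iff.rfl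

theorem mem_UU {x : G} :
    x ∈ UU N M ↔ x ∈ UN M ∧ (TQ.j (dN N))⁻¹ * x * TQ.j (dN N) ∈ UN 1 := by
  rw [UU_eq, Subgroup.mem_inf, mem_cj]

theorem UU_mem (h : 0 < M) : UU N M ∈ TQ.Lev :=
  UU_eq (N := N) ▸ ok_inf _ (UN_mem h) _ (ok_conj _ (UN_mem one_pos) _)

theorem UU_le (h : 0 < M) : UU N M ≤ UU N 1 := fun _ hx =>
  mem_UU.2 ⟨UN_anti h (one_dvd M) (mem_UU.1 hx).1, (mem_UU.1 hx).2⟩

theorem VV_eq {l : Pr} (h : ¬ (l : ℕ) ∣ N) (h' : ¬ (l : ℕ) ∣ M) : VV N M l = Kl l ⊔ Zl ℚ_[l] := by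
  rw [VV, Nat.factorization_eq_zero_of_not_dvd h', U1_zero, dN,
    cj_self (Subgroup.mem_sup_left (tq_K _ (by simpa using h))), inf_idem]

theorem at_UU {l : Pr} (h : ¬ (l : ℕ) ∣ N) (h' : ¬ (l : ℕ) ∣ M) : (lc l).At (Kl l) (UU N M) :=
  at_PU _ l (VV_eq h h')

theorem Zl_le (p : Pr) : Zl ℚ_[p] ≤ VV N M p := fun z hz => ⟨Subgroup.mem_sup_right hz,
  mem_cj.2 (by
    rw [mul_assoc, ← Subgroup.mem_center_iff.1 hz, inv_mul_cancel_left]
    exact Subgroup.mem_sup_right hz)⟩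

theorem gen_UU (x : G) : ∃ γ : G0, (TQ.j γ)⁻¹ * x ∈ UU N 1 := by
  obtain ⟨γ, hγ⟩ := gen x
  choose k hk using mem_K1.1 hγ
  obtain ⟨⟨M, hM, h⟩, -⟩ := UU_mem (N := N) one_pos
  obtain ⟨δ, -, hδ⟩ := dens (x := (TQ.j γ)⁻¹ * x * (dU fun p => (k p).det)⁻¹) (fun p => by
    rw [map_mul, ← hk, map_inv, map_mul, map_inv, ev_dU, dO, det_dg, GeneralLinearGroup.map_det]
    exact mul_inv_cancel _) hM
  have hd : (dU fun p => (k p).det) ∈ UU N 1 := by
    have h1 := KN_le 1 (mem_K1.2 fun p => dO_mem (k p).det : (dU fun p => (k p).det) ∈ KN 1)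
    refine mem_UU.2 ⟨h1, ?_⟩
    rwa [mul_assoc, show _ * TQ.j (dN N) = TQ.j (dN N) * dU fun p => (k p).det from
      G_ext fun p => Units.ext ?_, inv_mul_cancel_left]
    change (dO ℚ_[p] (k p).det).val * (jl p (dN N).1).val =
      (jl p (dN N).1).val * (dO ℚ_[p] (k p).det).val
    rw [dN, jl_tq]
    simp [dO, dg_val]
  exact ⟨γ * δ, by simpa [mul_assoc] using mul_mem (h (KN_le M hδ)) hd⟩

theorem stab_UU {γ : G0} (h : TQ.j γ ∈ UU N 1) :
    ∃ g ∈ Gamma0 N, ∃ ζ ∈ TQ.Z0, γ = iZ g * ζ := by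
  obtain ⟨h1, h2⟩ := mem_UU.1 h
  rw [← map_inv, ← map_mul, ← map_mul] at h2
  obtain ⟨g, hg⟩ := mnq.split h1
  obtain ⟨g', hg'⟩ := mnq.split h2
  refine ⟨g, ?_, _, hg, (mul_inv_cancel_left _ _).symm⟩
  obtain ⟨c, hc⟩ := scalar_of_mem (mem_Z0.1 hg)
  obtain ⟨c', hc'⟩ := scalar_of_mem (mem_Z0.1 hg')
  have e : (iZ g).1 * GeneralLinearGroup.scalar _ c * (dN N).1 =
      (dN N).1 * ((iZ g').1 * GeneralLinearGroup.scalar _ c') := by
    rw [← hc, ← hc']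
    push_cast
    group
  have e1 : (c : ℚ) ^ 2 = (c' : ℚ) ^ 2 := by
    have := congrArg (fun A : GL (Fin 2) ℚ => A.det) e
    simp only [map_mul, det_iZ, one_mul, mul_comm (dN N).1.det, mul_left_inj] at this
    simpa using congrArg Units.val this
  have e2 : (g 1 0 : ℚ) * c = N * (g' 1 0 * c') := by
    simpa [dN, tq_val, Matrix.mul_apply, Fin.sum_univ_two, iZ_apply] using
      congrArg (fun A : GL (Fin 2) ℚ => A.val 1 0) e
  refine Gamma0_mem.2 ((ZMod.intCast_zmod_eq_zero_iff_dvd _ _).2 ?_)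
  rcases sq_eq_sq_iff_eq_or_eq_neg.1 e1 with e | e
  · exact ⟨g' 1 0, by
      exact_mod_cast mul_right_cancel₀ c'.ne_zero (by rw [← e] at e2 ⊢; rw [e2, mul_assoc] :
        (g 1 0 : ℚ) * c' = N * g' 1 0 * c')⟩
  · exact ⟨-g' 1 0, by
      exact_mod_cast mul_right_cancel₀ c'.ne_zero (by rw [e] at e2; linear_combination -e2 :
        (g 1 0 : ℚ) * c' = N * -g' 1 0 * c')⟩

theorem tq_VV {p : Pr} {a b d : ℕ} (h : 0 < a * d) (hp : ¬ (p : ℕ) ∣ a * d) :
    jl p (tq a b d h).1 ∈ VV N 1 p := by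
  refine ⟨by
    rw [Nat.factorization_one, Finsupp.zero_apply, U1_zero]
    exact Subgroup.mem_sup_left (tq_K h hp), mem_cj.2 ?_⟩
  rw [mul_assoc, show _ * jl p (dN N).1 = jl p (dN N).1 * jl p (tq a (b * N) d h).1 from
    Units.ext (by
      rw [Units.val_mul, Units.val_mul, dN, jl_tq, jl_tq, jl_tq]
      simp [mul_comm]), inv_mul_cancel_left]
  exact Subgroup.mem_sup_left (tq_K h hp)

/-! ## the normalised action on functions -/

variable {m : ℕ}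

/-- the real matrix -/
abbrev rr (γ : G0) : GL (Fin 2) ℝ := TQ.r γ

theorem rr_det (γ : G0) : (rr γ).val.det = (γ.1.val.det : ℚ) := by
  simp only [Matrix.det_fin_two, r_entry]
  push_cast
  rfl

theorem rr_pos (γ : G0) : 0 < (rr γ).val.det := (TQ.r γ).2

/-- the action of weight `2 m + 2` in which the scalars act trivially -/
def sl (m : ℕ) (g : ℍ → ℂ) (γ : G0) : ℍ → ℂ :=
  ((rr γ).val.det : ℂ)⁻¹ ^ m • g ∣[((2 * m + 2 : ℕ) : ℤ)] rr γ

theorem rr_σ (γ : G0) (z : ℂ) : σ (rr γ) z = z := by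
  rw [σ, if_pos (show 0 < (rr γ).det.val from rr_pos γ), ContinuousAlgEquiv.refl_apply]

theorem sl_apply (g : ℍ → ℂ) (γ : G0) (τ : ℍ) : sl m g γ τ =
    ((rr γ).val.det : ℂ) ^ (m + 1) * (denom (rr γ) τ ^ (2 * m + 2))⁻¹ * g (rr γ • τ) := by
  have d0 : ((rr γ).val.det : ℂ) ≠ 0 := by exact_mod_cast (rr_pos γ).ne'
  rw [sl, Pi.smul_apply, ModularForm.slash_apply, rr_σ, smul_eq_mul,
    show |(rr γ).det.val| = (rr γ).val.det from abs_of_pos (rr_pos γ),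
    show ((2 * m + 2 : ℕ) : ℤ) - 1 = (2 * m + 1 : ℕ) by push_cast; ring, _root_.zpow_neg,
    zpow_natCast, zpow_natCast, inv_pow]
  field_simp
  ring

theorem sl_mul (g : ℍ → ℂ) (γ δ : G0) : sl m (sl m g γ) δ = sl m g (γ * δ) := by
  have e : rr (γ * δ) = rr γ * rr δ := congrArg Subtype.val (map_mul TQ.r γ δ)
  rw [sl, sl, sl, ModularForm.smul_slash, rr_σ, e, SlashAction.slash_mul, smul_smul, Units.val_mul,
    Matrix.det_mul, Complex.ofReal_mul, mul_inv, mul_pow, mul_comm]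

theorem sl_md {g : ℍ → ℂ} (hg : MDiff g) (γ : G0) : MDiff (sl m g γ) := (hg.slash _ _).const_smul _

theorem sl_sum {ι : Type} (s : Finset ι) (g : ι → ℍ → ℂ) (γ : G0) :
    ∑ i ∈ s, sl m (g i) γ = sl m (∑ i ∈ s, g i) γ := by
  funext τ
  simp only [Finset.sum_apply, sl_apply, Finset.mul_sum]

theorem sl_smul (c : ℂ) (g : ℍ → ℂ) (γ : G0) : sl m (c • g) γ = c • sl m g γ := by
  funext τ
  simp only [Pi.smul_apply, sl_apply, smul_eq_mul, mul_left_comm]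

theorem sl_iZ (g : ℍ → ℂ) (γ : SL(2, ℤ)) : sl m g (iZ γ) = g ∣[((2 * m + 2 : ℕ) : ℤ)] γ := by
  have : (rr (iZ γ)).val.det = 1 := by
    rw [rr_det, show (iZ γ).1.val.det = 1 from congrArg Units.val (det_iZ γ), Rat.cast_one]
  rw [sl, this, Complex.ofReal_one, inv_one, one_pow, one_smul, rr, r_iZ]
  rfl

theorem Z0_fix {ζ : G0} (h : ζ ∈ TQ.Z0) (τ : ℍ) : rr ζ • τ = τ :=
  DFunLike.congr_fun (MonoidHom.mem_ker.1 h) τ

theorem sl_Z0 (g : ℍ → ℂ) {ζ : G0} (h : ζ ∈ TQ.Z0) : sl m g ζ = g := by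
  funext τ
  obtain ⟨c, hc⟩ := scalar_of_mem (mem_Z0.1 h)
  have c0 : ((c : ℚ) : ℂ) ≠ 0 := by exact_mod_cast c.ne_zero
  have e1 : ((rr ζ).val.det : ℂ) = ((c : ℚ) : ℂ) ^ 2 := by simp [rr_det, hc]
  have e2 : denom (rr ζ) τ = (c : ℚ) := by simp [denom, r_entry, hc]
  rw [sl_apply, Z0_fix h, e1, e2]
  field_simp
  ring

/-! ## the adelic form -/

variable {f : ℍ → ℂ}

/-- invariance under `Γ₀(N)` -/
def I0 (m N : ℕ) (f : ℍ → ℂ) : Prop := ∀ g ∈ Gamma0 N, f ∣[((2 * m + 2 : ℕ) : ℤ)] g = f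

theorem I0.sl (hf : I0 m N f) {γ : G0} (h : TQ.j γ ∈ UU N 1) : sl m f γ = f := by
  obtain ⟨g, hg, ζ, hζ, rfl⟩ := stab_UU h
  rw [← sl_mul, sl_Z0 _ hζ, sl_iZ, hf g hg]

/-- the choice of the component -/
def kp (N : ℕ) [NeZero N] (x : G) : G0 := Classical.epsilon fun γ => (TQ.j γ)⁻¹ * x ∈ UU N 1

theorem kp_mem (x : G) : (TQ.j (kp N x))⁻¹ * x ∈ UU N 1 := Classical.epsilon_spec (gen_UU x)

/-- the adelic form -/
def om (m N : ℕ) [NeZero N] (f : ℍ → ℂ) (x : G) : ℍ → ℂ := sl m f (kp N x)⁻¹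

theorem om_md (hm : MDiff f) (x : G) : MDiff (om m N f x) := sl_md hm _

theorem I0.om_eq (hf : I0 m N f) {γ : G0} {x : G} (h : TQ.j γ * x ∈ UU N 1) :
    om m N f x = Cl.sl m f γ := by
  have := hf.sl (γ := γ * kp N x) (by simpa [mul_assoc] using mul_mem h (inv_mem (kp_mem x)))
  conv_lhs => rw [om, ← this, sl_mul, mul_inv_cancel_right]

theorem I0.inv (hf : I0 m N f) : Inv (UU N 1) (om m N f) := fun x u hu =>
  hf.om_eq (by simpa [mul_assoc] using mul_mem (kp_mem x) hu)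

theorem I0.lt (hf : I0 m N f) (γ : G0) (x : G) :
    om m N f ((TQ.j γ)⁻¹ * x) = Cl.sl m (om m N f x) γ := by
  exact (hf.om_eq (by simpa [mul_assoc] using kp_mem x)).trans (sl_mul f _ γ).symm

theorem I0.one (hf : I0 m N f) : om m N f 1 = f :=
  (hf.om_eq (γ := 1) (by simp)).trans (sl_Z0 f (one_mem _))

/-! ## Hecke operators -/

theorem j_io {l : Pr} (hl : ¬ (l : ℕ) ∣ N) {a b d : ℕ} (h : 0 < a * d) (e : a * d = l) {g : Gl l}
    (k : GL (Fin 2) ℤ_[l]) (hg : (jl l (tq a b d h).1 * g).val = (l : ℚ_[l]) • (gK ℚ_[l] k).val) :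
    TQ.j (tq a b d h) * io l g ∈ UU N 1 := mem_PU.2 fun p => by
  rw [map_mul]
  by_cases e' : p = l
  · subst e'
    rw [VV_eq hl p.2.not_dvd_one, ev_io]
    have : jl p (tq a b d h).1 * g = gK ℚ_[p] k * GeneralLinearGroup.scalar _ (lc p).ϖ :=
      Units.ext (hg.trans (by
        ext i j
        fin_cases j <;> simp [lc, Matrix.mul_apply, Matrix.natCast_apply, mul_comm]))
    change jl p (tq a b d h).1 * g ∈ _
    rw [this]
    exact Subgroup.mul_mem_sup (S := Kl p) ⟨k, rfl⟩ (scalar_mem _)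
  · rw [ev_io_ne e', mul_one]
    exact tq_VV h fun hp => e' (Subtype.ext ((Nat.prime_dvd_prime_iff_eq p.2 l.2).1 (e ▸ hp)))

theorem res_bij (l : Pr) : Function.Bijective
    fun j : Fin l => IsLocalRing.residue ℤ_[l] (-((j : ℕ) : ℤ_[l])) := by
  let _ := Fintype.ofFinite (IsLocalRing.ResidueField ℤ_[l])
  refine (Fintype.bijective_iff_injective_and_card _).2 ⟨fun i j e => ?_, ?_⟩
  · have := congrArg (PadicInt.residueField (p := l)) e
    simp only [map_neg, map_natCast, neg_inj] at this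
    exact Fin.ext (by simpa only [ZMod.val_cast_of_lt (Fin.is_lt _)] using congrArg ZMod.val this)
  · rw [Fintype.card_fin, ← Nat.card_eq_fintype_card]
    exact (qq_eq l).symm

theorem I0.hk (hf : I0 m N f) {l : Pr} (hl : ¬ (l : ℕ) ∣ N)
    [Fintype (IsLocalRing.ResidueField ℤ_[l])] {c : ℂ}
    (hT : ∑ j : Fin l, Cl.sl m f (tq 1 j l (by simpa using l.2.pos)) +
      Cl.sl m f (tq l 0 1 (by simpa using l.2.pos)) = c • f) (x : G) :
    ∑ i, om m N f (x * io l ((lc l).tr i)) = c • om m N f x := by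
  have a := at_UU (M := 1) hl l.2.not_dvd_one
  have r := a.rep_To (UU_mem one_pos)
  have h1 : ∑ i, om m N f (io l ((lc l).tr i)) = c • f := by
    rw [Fintype.sum_option, add_comm, ← hT, ← (res_bij l).sum_comp]
    congr 1
    · refine Finset.sum_congr rfl fun j _ => ?_
      obtain ⟨s, hs⟩ := Ideal.mem_span_singleton'.1 ((PadicInt.maximalIdeal_eq_span_p (p := l)).le
        (Ideal.Quotient.eq.1 (Quotient.out_eq (IsLocalRing.residue ℤ_[l] (-((j : ℕ) : ℤ_[l]))))))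
      refine hf.om_eq (j_io hl _ (one_mul _) (nO s) ?_)
      have := congrArg (algebraMap ℤ_[l] ℚ_[l]) hs
      simp only [map_mul, map_natCast, map_sub, map_neg, PadicInt.algebraMap_apply] at this
      rw [Units.val_mul, jl_tq]
      ext i k
      fin_cases i <;> fin_cases k <;>
        simp [Tw.Lc.tr, pO, nO, lc, dg_val, Matrix.mul_apply, Fin.sum_univ_two]
      linear_combination -this
    · refine hf.om_eq (j_io hl _ (mul_one _) sO ?_)
      rw [Units.val_mul, jl_tq]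
      ext i k
      fin_cases i <;> fin_cases k <;>
        simp [Tw.Lc.tr, pO, sO, lc, dg_val, Matrix.mul_apply, Fin.sum_univ_two]
  have h2 := hk_inv (Tw.Lc.L0.cor _ ⟨UU_mem one_pos, a⟩) hf.inv (TQ.j (kp N x)) _ (kp_mem x)
  rw [mul_inv_cancel_left, r.hk hf.inv, r.hk hf.inv] at h2
  refine h2.trans ?_
  rw [om, ← sl_smul, ← h1, ← sl_sum]
  exact Finset.sum_congr rfl fun i _ => by rw [← hf.lt, map_inv, inv_inv, lc_ι]

end Vale.Agent.P022K.QT.Cl
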