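import Vale.Agent.P022K.F0.Hec
import Mathlib.NumberTheory.Padics.RingHoms

/-!
# P022K, block QT: the interface between the towers and the patching machine

`CC` = the non Eisenstein part of completed cohomology as a discrete module with commuting actions
of the adelic group and of a Galois group; `Lk` links it to the cohomology of finite level.
`Tk`, `GR` are the properties of the tower from which `CC` follows.
-/

set_option autoImplicit false

open scoped MatrixGroups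

noncomputable section

namespace Vale.Agent.P022K.Sh

open Vale.Agent.P022 Vale.Agent.P022.H218.L3

variable {G0 G : Type} [Group G0] [Group G]

/-! ## abstract modules -/

section

variable {Λ M : Type} [CommRing Λ] [AddCommGroup M] [Module Λ M] (a : Representation Λ G M)

/-- the fixed vectors -/
def Fv (U : Subgroup G) : Submodule Λ M where
  carrier := {v | ∀ u ∈ U, a u v = v}
  add_mem' h h' u hu := by rw [map_add, h u hu, h' u hu]
  zero_mem' _ _ := map_zero _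
  smul_mem' c v h u hu := by rw [map_smul, h u hu]

theorem mem_Fv {U : Subgroup G} {v : M} : v ∈ Fv a U ↔ ∀ u ∈ U, a u v = v := Iff.rfl

/-- the sum over the cosets `c U` in `O` -/
def hv (O : Set G) (U : Subgroup G) (v : M) : M := hk O U (fun x => a x v) 1

end

/-- upper triangular matrices -/
def Bo (k : Type) [Field k] : Subgroup (GL (Fin 2) k) where
  carrier := {g | g 1 0 = 0}
  mul_mem' {a b} ha hb := by
    simp only [Set.mem_ofPred_eq] at *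
    simp [Matrix.mul_apply, Fin.sum_univ_two, ha, hb]
  one_mem' := by simp
  inv_mem' {a} ha := by
    simp only [Set.mem_ofPred_eq] at *
    simp [Matrix.inv_def, Matrix.adjugate_fin_two, ha]

/-- upper triangular matrices with equal diagonal entries -/
def Bu (k : Type) [Field k] : Subgroup (GL (Fin 2) k) where
  carrier := {g | g 1 0 = 0 ∧ g 0 0 = g 1 1}
  mul_mem' {a b} ha hb := by
    simp only [Set.mem_ofPred_eq] at *
    simp [Matrix.mul_apply, Fin.sum_univ_two, ha.1, hb.1, ha.2, hb.2]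
  one_mem' := by simp
  inv_mem' {a} ha := by
    simp only [Set.mem_ofPred_eq] at *
    simp [Matrix.inv_def, Matrix.adjugate_fin_two, ha.1, ha.2]

section

variable (O K : Type) [CommRing O] [IsDomain O] [IsDiscreteValuationRing O] [Field K] [Algebra O K]

/-- the inverse image of a group of matrices over the residue field -/
def Up (V : Subgroup (GL (Fin 2) (IsLocalRing.ResidueField O))) : Subgroup (GL (Fin 2) K) :=
  (V.comap (Matrix.GeneralLinearGroup.map (n := Fin 2) (IsLocalRing.residue O))).map (gK K)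

/-- the Iwahori subgroup -/
def Iw0 : Subgroup (GL (Fin 2) K) := Up O K (Bo _)

/-- the pro-`ℓ` Iwahori subgroup times the scalar units -/
def Iw1 : Subgroup (GL (Fin 2) K) := Up O K (Bu _)

variable {O} in
/-- `diag (c, 1)` for a unit of `O` -/
def dO (c : Oˣ) : GL (Fin 2) K := dg (Units.map (algebraMap O K).toMonoidHom c)

end

/-- the primes -/
abbrev Pr : Type := Nat.Primes

instance (p : Pr) : Fact (p : ℕ).Prime := ⟨p.2⟩

namespace Tw

variable (T : Tw G0 G)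

/-- the axioms without compactness -/
structure Ok0 : Prop where
  inf : ∀ U ∈ T.Lev, ∀ U' ∈ T.Lev, U ⊓ U' ∈ T.Lev
  conj : ∀ U ∈ T.Lev, ∀ x, cj x U ∈ T.Lev
  mid : ∀ U ∈ T.Lev, ∀ U'' ∈ T.Lev, ∀ U', U ≤ U' → U' ≤ U'' → U' ∈ T.Lev
  fi : ∀ U ∈ T.Lev, ∀ U' ∈ T.Lev, U.relIndex U' ≠ 0
  neat : ∃ U ∈ T.Lev, T.Neat U
  fin : ∀ U ∈ T.Lev, ∃ S : Finset G, ∀ x, ∃ s ∈ S, ∃ γ, ∃ u ∈ U, x = T.j γ * s * u
  fg : ∀ U ∈ T.Lev, ∀ x, ∃ S : Finset G0, T.Gam U x = Subgroup.closure S ⊔ T.Z0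
  z0 : ∀ γ, γ ∈ T.Z0 ↔ T.j γ ∈ T.Z
  zc : T.Z ≤ Subgroup.center G

/-- the neat levels -/
def Nl : Set (Subgroup G) := {U | U ∈ T.Lev ∧ T.Neat U}

variable {T}

theorem Ok.ok0 (h : T.Ok) (vol : T.VOL) : T.Ok0 :=
  ⟨h.inf, h.conj, fun U hU U'' hU'' U' h1 h2 => h.up U hU U' h1 fun e =>
    h.fi U hU U'' hU'' (Subgroup.relIndex_eq_zero_of_le_right h2 e), h.fi, h.neat, h.fin,
    fun U hU x => vol _ (h.fu U hU x), h.z0, h.zc⟩

section

variable {O K : Type} [CommRing O] [IsDomain O] [IsDiscreteValuationRing O] [Field K] [Algebra O K]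
  (w : T.Lc O K)

/-- the levels that are maximal at `w` -/
def Lc.L0 : Set (Subgroup G) := {U | U ∈ T.Lev ∧ w.At (KK O K) U}

theorem Lc.L0.cor {U : Subgroup G} (hU : U ∈ w.L0) : Cor U (w.To U) U := by
  have := w.fin
  let _ := Fintype.ofFinite (IsLocalRing.ResidueField O)
  refine ⟨?_, dc_right, (hU.2.rep_To hU.1).fin⟩
  rintro u hu _ ⟨a, ha, b, hb, rfl⟩
  exact ⟨u * a, mul_mem hu ha, b, hb, by simp only [mul_assoc]⟩

variable {Λ M : Type} [CommRing Λ] [AddCommGroup M] [Module Λ M] (a : Representation Λ G M)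

/-- the Hecke operator (on vectors fixed by `GL₂(O)`) -/
def Lc.Tv : Module.End Λ M :=
  haveI := w.fin
  haveI := Fintype.ofFinite (IsLocalRing.ResidueField O)
  ∑ i, a (w.ι (w.tr i))

/-- the vectors fixed by `V` at `w` -/
abbrev Lc.Fl (V : Subgroup (GL (Fin 2) K)) : Submodule Λ M := Fv a (V.map w.ι)

/-- `s` is trivial on the spherical vectors -/
def Lc.UnM (s : Module.End Λ M) : Prop := ∀ v ∈ w.Fl a (KK O K), s v = v

/-- the relation of Eichler and Shimura -/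
def Lc.EsM (s : Module.End Λ M) : Prop :=
  ∀ v ∈ w.Fl a (KK O K), s (s v) - w.Tv a (s v) + qq O • v = 0

/-- inertia at level `Iw1` -/
def Lc.TwM (s : Module.End Λ M) (c : Oˣ) : Prop := ∀ v ∈ w.Fl a (Iw1 O K),
  s (s v) - (a (w.ι (dO K c)) (s v) + a (w.ι (dO K c⁻¹)) (s v)) + v = 0

end

variable (T) in
/-- **the interface**: `a` is the action of the adelic group, `g` the Galois action -/
structure CC {Λ M : Type} [CommRing Λ] [AddCommGroup M] [Module Λ M] (p : ℕ)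
    (a : Representation Λ G M) {H : Type} [Group H] [TopologicalSpace H]
    (g : Representation Λ H M) : Prop where
  com : ∀ x s, Commute (a x) (g s)
  z : ∀ x ∈ T.Z, a x = 1
  tor : ∀ v : M, ∃ k, p ^ k • v = 0
  sm : ∀ v, ∃ U ∈ T.Nl, v ∈ Fv a U
  adm : ∀ U ∈ T.Lev, {v | v ∈ Fv a U ∧ p • v = 0}.Finite
  div : ∀ U ∈ T.Nl, ∀ v ∈ Fv a U, ∃ v' ∈ Fv a U, p • v' = v
  tro : ∀ U ∈ T.Nl, ∀ U' ∈ T.Nl, U' ≤ U → (∀ u ∈ U, cj u U' = U') →
    (∃ m, U'.relIndex U = p ^ m) → ∀ k, ∀ v ∈ Fv a U, p ^ k • v = 0 →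
      ∃ v' ∈ Fv a U', p ^ k • v' = 0 ∧ hv a U U' v' = v
  opn : ∀ v, IsOpen {s | g s v = v}

/-! ## finite level -/

/-- cohomology modulo `n` -/
abbrev Hn (T : Tw G0 G) (n : ℕ) (U : Subgroup G) : Type := T.Hc (ZMod n) (ZMod n) U

/-- correspondences modulo `n` -/
abbrev hN (T : Tw G0 G) (n : ℕ) {U U' : Subgroup G} {Q : Set G} (c : Cor U' Q U) :
    T.Hn n U →ₗ[ZMod n] T.Hn n U' := T.hC (ZMod n) (ZMod n) c

/-- the relation between classes modulo `n` -/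
abbrev Ga (T : Tw G0 G) (θ : (G → Mer) → G → Mer) (n : ℕ) (U : Subgroup G) (a a' : T.Hn n U) :
    Prop := T.IsGal θ n U a a'

/-- the part of the cohomology of level `U` on which `T_w ^ 2 - (q + 1) ^ 2` is bijective -/
def Lc.Ft {O K : Type} [CommRing O] [IsDomain O] [IsDiscreteValuationRing O] [Field K]
    [Algebra O K] (w : T.Lc O K) (n : ℕ) {U : Subgroup G} (hU : U ∈ w.L0) :
    Submodule (ZMod n) (T.Hn n U) :=
  Fit (T.hN n (Lc.L0.cor w hU) ∘ₗ T.hN n (Lc.L0.cor w hU) -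
    (qq O + 1) ^ 2 • (1 : Module.End (ZMod n) (T.Hn n U)))

variable (T) in
/-- auxiliary places (of degree one) with a filter -/
structure Ax : Type 1 where
  I : Type
  l : I → Pr
  w : ∀ i, T.Lc ℤ_[l i] ℚ_[l i]
  F : Filter I

namespace Ax

variable (A : T.Ax)

/-- the axioms of the auxiliary places -/
structure Ok : Prop where
  ne : ∀ i k, i ≠ k → (A.w i).Ne (A.w k)
  sa : ∀ i, (A.w i).SA
  lev : ∀ U ∈ T.Lev, ∀ᶠ i in A.F, U ∈ (A.w i).L0
  int : ∀ x, ∀ᶠ i in A.F, (A.w i).π x ∈ KK ℤ_[A.l i] ℚ_[A.l i] ⊔ Zl ℚ_[A.l i]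

/-- **the non Eisenstein part** of the cohomology modulo `n` of level `U` -/
def Ne (n : ℕ) (U : Subgroup G) : Submodule (ZMod n) (T.Hn n U) :=
  ⨅ s ∈ A.F, ⨆ i ∈ s, ⨆ hU : U ∈ (A.w i).L0, (A.w i).Ft n hU

variable (p : ℕ)

/-- the topological properties -/
structure Tk : Prop where
  fin : ∀ U ∈ T.Nl, ∀ k, Finite (T.Hn (p ^ k) U)
  lif : ∀ U ∈ T.Nl, ∀ k (b : T.Hn (p ^ k) U), ∃ b' : T.Hn (p ^ (k + 1)) U,
    T.IsCo U (ZMod.castHom (pow_dvd_pow p k.le_succ) (ZMod (p ^ k))).toAddMonoidHom b' b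
  tro : ∀ U ∈ T.Nl, ∀ U' ∈ T.Nl, U' ≤ U → (∀ u ∈ U, cj u U' = U') →
    (∃ m, U'.relIndex U = p ^ m) → ∀ (c : Cor U (U : Set G) U') k, ∀ b ∈ A.Ne (p ^ k) U,
      ∃ b', T.hN (p ^ k) c b' = b

/-- the Galois action on the classes modulo `p ^ k` -/
structure GR {H : Type} [Group H] [TopologicalSpace H] (th : H → (G → Mer) → G → Mer) :
    Prop where
  ex : ∀ U ∈ T.Nl, ∀ k s, ∀ a ∈ A.Ne (p ^ k) U, ∃ a', T.Ga (th s) (p ^ k) U a a'
  uq : ∀ U ∈ T.Nl, ∀ k s a a' a'', T.Ga (th s) (p ^ k) U a a' → T.Ga (th s) (p ^ k) U a a'' →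
    a' = a''
  add : ∀ U ∈ T.Nl, ∀ k s a a' b b', T.Ga (th s) (p ^ k) U a a' → T.Ga (th s) (p ^ k) U b b' →
    T.Ga (th s) (p ^ k) U (a + b) (a' + b')
  mul : ∀ U ∈ T.Nl, ∀ k s s' a a' a'', T.Ga (th s) (p ^ k) U a a' →
    T.Ga (th s') (p ^ k) U a' a'' → T.Ga (th (s' * s)) (p ^ k) U a a''
  cor : ∀ U ∈ T.Nl, ∀ U' ∈ T.Nl, ∀ Q (c : Cor U' Q U) k s a a', T.Ga (th s) (p ^ k) U a a' →
    T.Ga (th s) (p ^ k) U' (T.hN (p ^ k) c a) (T.hN (p ^ k) c a')
  up : ∀ U ∈ T.Nl, ∀ k s a a' b b' (l : ZMod (p ^ k) →+ ZMod (p ^ (k + 1))), l 1 = p →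
    T.IsCo U l a b → T.IsCo U l a' b' → T.Ga (th s) (p ^ k) U a a' →
    T.Ga (th s) (p ^ (k + 1)) U b b'
  opn : ∀ U ∈ T.Nl, ∀ k, ∀ a ∈ A.Ne (p ^ k) U, ∃ V : Subgroup H, IsOpen (V : Set H) ∧
    ∀ s ∈ V, T.Ga (th s) (p ^ k) U a a

/-- **the link**: `im k U` kills the Eisenstein part and identifies the non Eisenstein part with
the vectors fixed by `U` and killed by `p ^ k` -/
structure Lk {M : Type} [AddCommGroup M] (a : Representation ℤ G M) {H : Type} [Group H]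
    (g : Representation ℤ H M) (th : H → (G → Mer) → G → Mer)
    (im : ∀ k U, T.Hn (p ^ k) U →+ M) : Prop where
  bij : ∀ U ∈ T.Nl, ∀ k, Set.BijOn (im k U) (A.Ne (p ^ k) U) {v | v ∈ Fv a U ∧ p ^ k • v = 0}
  prj : ∀ U ∈ T.Nl, ∀ k b, ∃ b' ∈ A.Ne (p ^ k) U, im k U b' = im k U b
  cor : ∀ U ∈ T.Nl, ∀ U' ∈ T.Nl, ∀ Q (c : Cor U' Q U) k b,
    im k U' (T.hN (p ^ k) c b) = hv a Q U (im k U b)
  up : ∀ U ∈ T.Nl, ∀ k k' b b' (l : ZMod (p ^ k) →+ ZMod (p ^ (k + k'))), l 1 = p ^ k' →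
    T.IsCo U l b b' → im (k + k') U b' = im k U b
  gal : ∀ U ∈ T.Nl, ∀ k s b b', T.Ga (th s) (p ^ k) U b b' → im k U b' = g s (im k U b)

variable {O K : Type} [CommRing O] [IsDomain O] [IsDiscreteValuationRing O] [Field K]
  [Algebra O K] (w : T.Lc O K) (θ : (G → Mer) → G → Mer)

/-- unramified at `w`, finite level -/
def UnL : Prop := ∀ U ∈ T.Nl, w.At (KK O K) U → ∀ k, ∀ a ∈ A.Ne (p ^ k) U, T.Ga θ (p ^ k) U a a

/-- Eichler-Shimura at `w`, finite level -/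
def EsL : Prop := ∀ U ∈ T.Nl, w.At (KK O K) U → ∀ (c : Cor U (w.To U) U) k,
  ∀ a ∈ A.Ne (p ^ k) U, ∀ a₁ a₂, T.Ga θ (p ^ k) U a a₁ → T.Ga θ (p ^ k) U a₁ a₂ →
    a₂ - T.hN (p ^ k) c a₁ + qq O • a = 0

/-- inertia at level `Iw1`, finite level -/
def TwL (c : Oˣ) : Prop := ∀ U ∈ T.Nl, w.At (Iw1 O K) U →
  (∃ U₀ ∈ w.L0, T.Neat U₀ ∧ U ≤ U₀) →
  ∀ (d : Cor U (dc U (w.ι (dO K c)) U) U) (d' : Cor U (dc U (w.ι (dO K c⁻¹)) U) U) k,
  ∀ a ∈ A.Ne (p ^ k) U, ∀ a₁ a₂, T.Ga θ (p ^ k) U a a₁ → T.Ga θ (p ^ k) U a₁ a₂ →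
    a₂ - (T.hN (p ^ k) d a₁ + T.hN (p ^ k) d' a₁) + a = 0

end Ax

end Tw

/-- **CCX**: existence of the module -/
def CCX : Prop := ∀ (G0 G : Type) [Group G0] [Group G] (T : Tw G0 G) (A : T.Ax) (p : ℕ)
  [Fact p.Prime] (H : Type) [Group H] [TopologicalSpace H] [IsTopologicalGroup H]
  (th : H → (G → Mer) → G → Mer), T.Ok0 → A.Ok → A.Tk p → A.GR p th →
  ∃ (M : Type) (_ : AddCommGroup M) (a : Representation ℤ G M) (g : Representation ℤ H M)
    (im : ∀ k U, T.Hn (p ^ k) U →+ M), T.CC p a g ∧ A.Lk p a g th im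

/-- **LOCM**: the local properties pass from finite level to the module -/
def LOCM : Prop := ∀ (G0 G : Type) [Group G0] [Group G] (T : Tw G0 G) (A : T.Ax) (p : ℕ)
  [Fact p.Prime] (H : Type) [Group H] [TopologicalSpace H] (th : H → (G → Mer) → G → Mer)
  (M : Type) [AddCommGroup M] (a : Representation ℤ G M) (g : Representation ℤ H M)
  (im : ∀ k U, T.Hn (p ^ k) U →+ M), T.Ok0 → A.GR p th → T.CC p a g → A.Lk p a g th im →
  T.AllL fun {_ _} _ _ _ _ _ w => (∃ U ∈ w.L0, T.Neat U) → ∀ s,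
    (A.UnL p w (th s) → w.UnM a (g s)) ∧ (A.EsL p w (th s) → w.EsM a (g s)) ∧
      ∀ c, A.TwL p w (th s) c → w.TwM a (g s) c

end Vale.Agent.P022K.Sh
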