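import Vale.Agent.P022K.F0.Free
import Vale.Agent.P022K.QT.If

/-! P022K, block QT: row LOCM (local properties pass from finite level to the module). -/

set_option autoImplicit false

open scoped MatrixGroups

noncomputable section

namespace Vale.Agent.P022K.Sh

open Fre Vale.Agent.P022 Vale.Agent.P022.H218.L3

variable {G0 G : Type} [Group G0] [Group G]

namespace Tw

variable {T : Tw G0 G} {U U' : Subgroup G}

section

variable {Λ B : Type} [CommRing Λ] [AddCommGroup B] [Module Λ B] {ρ : Representation Λ G0 B}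

/-- representatives of the components in a given set -/
theorem ex_cmp {S : Set G} (hS : ∀ x, ∃ s ∈ S, ∃ γ, ∃ u ∈ U, x = T.j γ * s * u) :
    ∃ (κ : G → G0) (o : G → G), Inv U κ ∧ Inv U o ∧ (∀ x, o x ∈ S) ∧
      (∀ x, (T.j (κ x) * o x)⁻¹ * x ∈ U) ∧ ∀ γ x, o ((T.j γ)⁻¹ * x) = o x := by
  let P : G → G → Prop := fun x s => s ∈ S ∧ ∃ γ, (T.j γ * s)⁻¹ * x ∈ U
  let o : G → G := fun x => Classical.epsilon (P x)
  have ho : ∀ x, P x (o x) := fun x => Classical.epsilon_spec (by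
    obtain ⟨s, hs, γ, u, hu, rfl⟩ := hS x
    exact ⟨s, hs, γ, by rwa [inv_mul_cancel_left]⟩)
  have oi : Inv U o := fun x u hu => congrArg Classical.epsilon (funext fun s => propext (by
    simp only [P, ← mul_assoc, U.mul_mem_cancel_right hu]))
  refine ⟨fun x => Classical.epsilon fun γ => (T.j γ * o x)⁻¹ * x ∈ U, o, fun x u hu =>
    congrArg Classical.epsilon (funext fun γ => propext ?_), oi, fun x => (ho x).1,
    fun x => Classical.epsilon_spec (ho x).2, fun γ x =>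
      congrArg Classical.epsilon (funext fun s => propext (and_congr_right fun _ =>
        ⟨fun ⟨δ, h⟩ => ⟨γ * δ, by simpa [mul_assoc] using h⟩,
          fun ⟨δ, h⟩ => ⟨γ⁻¹ * δ, by simpa [mul_assoc] using h⟩⟩))⟩
  rw [oi x u hu, ← mul_assoc, U.mul_mem_cancel_right hu]

/-- the normal form of a cocycle -/
theorem coc_nf {z : G0 → G → B} (hz : z ∈ T.Z1 ρ U) {δ δ' γ : G0} {s x : G}
    (h : (T.j δ * s)⁻¹ * x ∈ U) :
    z γ x + ρ γ (z δ' ((T.j γ)⁻¹ * x)) - z δ x = ρ δ (z (δ⁻¹ * (γ * δ')) s) := by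
  have e := congrFun (hz.2.1 δ (δ⁻¹ * (γ * δ'))) x
  rw [mul_inv_cancel_left, hz.2.1] at e
  have e' := (hz.1 (δ⁻¹ * (γ * δ'))).eq h (T.j δ)⁻¹
  rw [inv_mul_cancel_left] at e'
  rw [e', sub_eq_iff_eq_add']
  exact e

/-- **Shapiro**, injectivity -/
theorem B1_of {z : G0 → G → B} (hz : z ∈ T.Z1 ρ U) {S : Set G}
    (hS : ∀ x, ∃ s ∈ S, ∃ γ, ∃ u ∈ U, x = T.j γ * s * u)
    (h : ∀ s ∈ S, ∃ v, ∀ γ ∈ T.Gam U s, z γ s = ρ γ v - v) : z ∈ T.B1 ρ U := by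
  obtain ⟨κ, o, h1, h2, h3, h4, h5⟩ := ex_cmp hS
  choose! v hv using h
  refine ⟨fun x => ρ (κ x) (v (o x)) - z (κ x) x, fun x u hu => by
    simp only [h1 x u hu, h2 x u hu, hz.1 _ x u hu], fun γ => funext fun x => ?_⟩
  have m : (κ x)⁻¹ * (γ * κ ((T.j γ)⁻¹ * x)) ∈ T.Gam U (o x) := T.mem_Gam.2 (by
    have := mul_mem (h4 x) (inv_mem (h4 ((T.j γ)⁻¹ * x)))
    rw [h5] at this
    simpa [mul_assoc] using this)
  have e := coc_nf hz (γ := γ) (δ' := κ ((T.j γ)⁻¹ * x)) (h4 x)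
  rw [hv _ (h3 x) _ m, map_sub, ← Module.End.mul_apply, ← map_mul, mul_inv_cancel_left, map_mul,
    Module.End.mul_apply] at e
  simp only [lt, Pi.sub_apply, map_sub, h5]
  linear_combination (norm := abel) e

theorem gam_inv {X : Type} {f : G → X} (hf : Inv U f) {a : G0} {s : G} (ha : a ∈ T.Gam U s) :
    f ((T.j a)⁻¹ * s) = f s := by
  rw [← hf _ _ (T.mem_Gam.1 ha)]
  simp [mul_assoc, ← hf s _ (T.mem_Gam.1 ha)]

/-- **finiteness** -/
theorem Ok0.finH (k : T.Ok0) (hU : U ∈ T.Lev) [IsNoetherianRing Λ] [Module.Finite Λ B] :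
    Module.Finite Λ (T.H1 ρ U) := by
  obtain ⟨S, hS⟩ := k.fin U hU
  choose R hR using k.fg U hU
  let ev : T.Z1 ρ U →ₗ[Λ] ((Σ s : S, R s) → B) :=
    { toFun := fun z q => z.1 q.2 q.1
      map_add' := fun _ _ => rfl
      map_smul' := fun _ _ => rfl }
  have le : LinearMap.ker ev ≤ (T.B1 ρ U).submoduleOf (T.Z1 ρ U) := fun z hz =>
    B1_of z.2 hS fun s hs => ⟨0, fun γ hγ => by
      have c : ∀ a ∈ T.Gam U s, ∀ b, z.1 (a * b) s = z.1 a s + ρ a (z.1 b s) := fun a ha b => by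
        rw [z.2.2.1, ← gam_inv (z.2.1 b) ha]
        rfl
      let Q : Subgroup G0 :=
        { carrier := {γ | γ ∈ T.Gam U s ∧ z.1 γ s = 0}
          one_mem' := ⟨one_mem _, congrFun (z.2.2.2 1 (one_mem _)) s⟩
          mul_mem' := fun {a b} ha hb => ⟨mul_mem ha.1 hb.1, by
            rw [c a ha.1, ha.2, hb.2, map_zero, add_zero]⟩
          inv_mem' := fun {a} ha => ⟨inv_mem ha.1, by
            have e := c _ (inv_mem ha.1) a
            rw [inv_mul_cancel, z.2.2.2 1 (one_mem _), ha.2, map_zero, add_zero] at e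
            exact e.symm⟩ }
      have l : Subgroup.closure (R s : Set G0) ⊔ T.Z0 ≤ Q := sup_le
        ((Subgroup.closure_le _).2 fun γ hγ => ⟨(hR s).ge (Subgroup.mem_sup_left
          (Subgroup.subset_closure hγ)), congrFun (LinearMap.mem_ker.1 hz) ⟨⟨s, hs⟩, γ, hγ⟩⟩)
        fun γ hγ => ⟨(hR s).ge (Subgroup.mem_sup_right hγ), congrFun (z.2.2.2 γ hγ) s⟩
      rw [map_zero, sub_self]
      exact (l ((hR s).le hγ)).2⟩
  have : Module.Finite Λ (T.Z1 ρ U ⧸ LinearMap.ker ev) :=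
    Module.Finite.of_injective _
      (LinearMap.ker_eq_bot.1 (Submodule.ker_liftQ_eq_bot _ ev le_rfl le_rfl))
  exact Module.Finite.of_surjective (Submodule.factor le) (Submodule.factor_surjective le)

end

theorem Ok0.finHn (k : T.Ok0) (hU : U ∈ T.Lev) (n : ℕ) [NeZero n] : Finite (T.Hn n U) :=
  have := k.finH (ρ := Representation.trivial (ZMod n) G0 (ZMod n)) hU
  Module.finite_of_finite (ZMod n)

namespace Ax

variable {A : T.Ax} {p : ℕ} {H : Type} [Group H] [TopologicalSpace H]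
  {th : H → (G → Mer) → G → Mer}

variable (A) in
/-- the part that is non Eisenstein at some place of `s` -/
def Ns (n : ℕ) (U : Subgroup G) (s : Set A.I) : Submodule (ZMod n) (T.Hn n U) :=
  ⨆ i ∈ s, ⨆ hU : U ∈ (A.w i).L0, (A.w i).Ft n hU

theorem Ns_mono {n : ℕ} {s s' : Set A.I} (h : s ⊆ s') : A.Ns n U s ≤ A.Ns n U s' :=
  biSup_mono h

theorem Ne_le {n : ℕ} {s : Set A.I} (hs : s ∈ A.F) : A.Ne n U ≤ A.Ns n U s := iInf₂_le s hs

theorem Ft_le {n : ℕ} {s : Set A.I} {i : A.I} (hi : i ∈ s) (hU : U ∈ (A.w i).L0) :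
    (A.w i).Ft n hU ≤ A.Ns n U s :=
  le_iSup₂_of_le i hi (le_iSup (fun hU : U ∈ (A.w i).L0 => (A.w i).Ft n hU) hU)

variable (A) in
/-- the infimum is attained -/
theorem Ne_eq (n : ℕ) (U : Subgroup G) [Finite (T.Hn n U)] :
    ∃ s₀ ∈ A.F, ∀ s ∈ A.F, s ⊆ s₀ → A.Ns n U s = A.Ne n U := by
  obtain ⟨_, ⟨s₀, h0, rfl⟩, hm⟩ := (wellFounded_lt (α := Submodule (ZMod n) (T.Hn n U))).has_min
    (A.Ns n U '' {s | s ∈ A.F}) ⟨_, _, Filter.univ_mem, rfl⟩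
  have key : ∀ s ∈ A.F, A.Ns n U s₀ ≤ A.Ns n U s := fun s hs =>
    (eq_of_le_of_not_lt (Ns_mono Set.inter_subset_right)
      (hm _ ⟨_, Filter.inter_mem hs h0, rfl⟩)).ge.trans (Ns_mono Set.inter_subset_left)
  exact ⟨s₀, h0, fun s hs le => le_antisymm ((Ns_mono le).trans (le_iInf₂ key)) (Ne_le hs)⟩

variable (h : A.GR p th) (hU : U ∈ T.Nl) {k : ℕ} {s : H} {a a' b b' : T.Hn (p ^ k) U}
include h hU

theorem GR.zero : T.Ga (th s) (p ^ k) U 0 0 := by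
  obtain ⟨a, ha⟩ := h.ex U hU k s 0 (zero_mem _)
  have e := h.add U hU k s _ _ _ _ ha ha
  rw [add_zero] at e
  rwa [left_eq_add.1 (h.uq U hU k s _ _ _ ha e)] at ha

theorem GR.nsmul (e : T.Ga (th s) (p ^ k) U a a') (n : ℕ) :
    T.Ga (th s) (p ^ k) U (n • a) (n • a') := by
  induction n with
  | zero => simpa using h.zero hU
  | succ n ih => simpa only [succ_nsmul] using h.add U hU k s _ _ _ _ ih e

variable [NeZero p]

theorem GR.smul (e : T.Ga (th s) (p ^ k) U a a') (c : ZMod (p ^ k)) :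
    T.Ga (th s) (p ^ k) U (c • a) (c • a') := by
  rw [← ZMod.natCast_zmod_val c, Nat.cast_smul_eq_nsmul, Nat.cast_smul_eq_nsmul]
  exact h.nsmul hU e _

theorem GR.sub (e : T.Ga (th s) (p ^ k) U a a') (e' : T.Ga (th s) (p ^ k) U b b') :
    T.Ga (th s) (p ^ k) U (a - b) (a' - b') := by
  simpa only [neg_smul, one_smul, sub_eq_add_neg] using
    h.add U hU k s _ _ _ _ e (h.smul hU e' (-1))

theorem GR.ft [Finite (T.Hn (p ^ k) U)] {O K : Type} [CommRing O] [IsDomain O]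
    [IsDiscreteValuationRing O] [Field K] [Algebra O K] {w : T.Lc O K} (hw : U ∈ w.L0)
    (e : T.Ga (th s) (p ^ k) U a a') (ha : a ∈ w.Ft (p ^ k) hw) : a' ∈ w.Ft (p ^ k) hw := by
  have : Finite (Module.End (ZMod (p ^ k)) (T.Hn (p ^ k) U)) :=
    Finite.of_injective _ DFunLike.coe_injective
  have c := Lc.L0.cor w hw
  obtain ⟨N, N0, hN⟩ := Fre.exists_idem (T.hN (p ^ k) c ∘ₗ T.hN (p ^ k) c -
    (qq O + 1) ^ 2 • (1 : Module.End (ZMod (p ^ k)) (T.Hn (p ^ k) U)))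
  have h1 := hN 1 one_pos
  rw [mul_one] at h1
  refine (mem_Fit N0 h1).2 (h.uq U hU k s a _ _ ?_ e)
  conv => enter [5]; rw [← (mem_Fit N0 h1).1 ha]
  clear hN h1 N0
  induction N with
  | zero => exact e
  | succ N ih =>
    rw [pow_succ', Module.End.mul_apply, Module.End.mul_apply]
    exact h.sub hU (h.cor U hU U hU _ c k s _ _ (h.cor U hU U hU _ c k s _ _ ih)) (h.nsmul hU ih _)

/-- the Galois action keeps the non Eisenstein part -/
theorem GR.ne [Finite (T.Hn (p ^ k) U)] (e : T.Ga (th s) (p ^ k) U a a')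
    (ha : a ∈ A.Ne (p ^ k) U) : a' ∈ A.Ne (p ^ k) U := by
  obtain ⟨s₀, h0, h1⟩ := A.Ne_eq (p ^ k) U
  let Q : Submodule (ZMod (p ^ k)) (T.Hn (p ^ k) U) :=
    { carrier := {x | ∃ x' ∈ A.Ne (p ^ k) U, T.Ga (th s) (p ^ k) U x x'}
      zero_mem' := ⟨0, zero_mem _, h.zero hU⟩
      add_mem' := fun ⟨_, m, g⟩ ⟨_, m', g'⟩ => ⟨_, add_mem m m', h.add U hU k s _ _ _ _ g g'⟩
      smul_mem' := fun c _ ⟨_, m, g⟩ => ⟨_, Submodule.smul_mem _ c m, h.smul hU g c⟩ }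
  have l : A.Ns (p ^ k) U s₀ ≤ Q := iSup₂_le fun i hi => iSup_le fun hw x hx => by
    have le := (Ft_le hi hw).trans (h1 s₀ h0 subset_rfl).le
    obtain ⟨x', g⟩ := h.ex U hU k s x (le hx)
    exact ⟨x', le (h.ft hU hw g hx), g⟩
  obtain ⟨x, m, g⟩ := l (Ne_le h0 ha)
  rwa [h.uq U hU k s a _ _ e g]

end Ax

section

variable {O K : Type} [CommRing O] [IsDomain O] [IsDiscreteValuationRing O] [Field K]
  [Algebra O K] {w : T.Lc O K} {V : Subgroup (GL (Fin 2) K)}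

theorem Lc.at_set (w : T.Lc O K) (V : Subgroup (GL (Fin 2) K)) (U : Subgroup G) :
    w.At V (w.set V U) :=
  ⟨fun g hg => Subgroup.mem_sup_right ⟨g, hg, rfl⟩,
    (sup_le (sup_le (fun u hu => Subgroup.mem_comap.2 (by
      rw [MonoidHom.mem_ker.1 hu.2]; exact one_mem _)) fun z hz =>
        Subgroup.mem_sup_right (w.cen' z hz)) (by
      rintro _ ⟨g, hg, rfl⟩
      exact Subgroup.mem_comap.2 (by rw [w.πι]; exact Subgroup.mem_sup_left hg)) :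
      w.set V U ≤ (V ⊔ Zl K).comap w.π)⟩

theorem Km_le_Up (X : Subgroup (GL (Fin 2) (IsLocalRing.ResidueField O))) :
    Km O K 1 ≤ Up O K X := by
  rintro _ ⟨g, hg, rfl⟩
  refine ⟨g, Subgroup.mem_comap.2 ?_, rfl⟩
  rw [show Matrix.GeneralLinearGroup.map (IsLocalRing.residue O) g = 1 from ?_]
  · exact one_mem _
  ext i j
  have := congrArg (fun x : GL (Fin 2) _ => x.val i j) (MonoidHom.mem_ker.1 hg)
  have e : g.val i j - (1 : Matrix (Fin 2) (Fin 2) O) i j ∈ IsLocalRing.maximalIdeal O ^ 1 :=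
    Ideal.Quotient.eq.1 (this.trans (by fin_cases i <;> fin_cases j <;> simp))
  rw [pow_one] at e
  exact (Ideal.Quotient.eq.2 e).trans (by fin_cases i <;> fin_cases j <;> rfl)

theorem Up_le (X : Subgroup (GL (Fin 2) (IsLocalRing.ResidueField O))) : Up O K X ≤ KK O K := by
  rintro _ ⟨g, -, rfl⟩
  exact ⟨g, rfl⟩

theorem Km_le_KK (m : ℕ) : Km O K m ≤ KK O K := by
  rintro _ ⟨g, -, rfl⟩
  exact ⟨g, rfl⟩

/-- a neat level of type `V` at `w` that fixes `v` -/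
theorem CC.ex_at {Λ M : Type} [CommRing Λ] [AddCommGroup M] [Module Λ M] {p : ℕ}
    {a : Representation Λ G M} {H : Type} [Group H] [TopologicalSpace H]
    {g : Representation Λ H M} (c : T.CC p a g) (k : T.Ok0) {U₀ : Subgroup G} (h0 : U₀ ∈ w.L0)
    (n0 : T.Neat U₀) (h1 : Km O K 1 ≤ V) (h2 : V ≤ KK O K) {v : M} (hv : v ∈ w.Fl a V) :
    ∃ U ∈ T.Nl, w.At V U ∧ U ≤ U₀ ∧ v ∈ Fv a U := by
  obtain ⟨W, hW, m⟩ := c.sm v
  have le : w.set V (W ⊓ U₀) ≤ U₀ := sup_le (sup_le (inf_le_left.trans inf_le_right)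
    (sInf_le h0.1)) (Subgroup.map_le_iff_le_comap.2 fun g hg => h0.2.1 g (h2 hg))
  refine ⟨_, ⟨k.mid _ (w.lev _ (k.inf W hW.1 U₀ h0.1) 1) U₀ h0.1 _
    (sup_le_sup_left (Subgroup.map_mono h1) _) le, n0.of_le le⟩, w.at_set V _, le, ?_⟩
  let Q : Subgroup G := MulAction.stabilizer (M ≃ₗ[Λ] M) v |>.comap
    ((LinearMap.GeneralLinearGroup.generalLinearEquiv Λ M).toMonoidHom.comp a.asGroupHom)
  have hQ : ∀ x, x ∈ Q ↔ a x v = v := fun x => Iff.rfl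
  exact fun u hu => (hQ u).1 ((sup_le (sup_le (fun x hx => (hQ x).2 (m x hx.1.1)) fun z hz =>
    (hQ z).2 (by rw [c.z z hz]; rfl)) fun x hx => (hQ x).2 (hv x hx) :
      w.set V (W ⊓ U₀) ≤ Q) hu)

theorem dO_norm (c : Oˣ) {v : GL (Fin 2) K} (hv : v ∈ Iw1 O K ⊔ Zl K) :
    (dO K c)⁻¹ * v * dO K c ∈ Iw1 O K ⊔ Zl K := by
  let d : GL (Fin 2) O := ⟨!![(c : O), 0; 0, 1], !![((c⁻¹ : Oˣ) : O), 0; 0, 1],
    by simp [Matrix.one_fin_two], by simp [Matrix.one_fin_two]⟩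
  have e : dO K c = gK K d := by
    ext i j
    fin_cases i <;> fin_cases j <;> simp [dO, dg_val, d]
  refine (sup_le ?_ ?_ : Iw1 O K ⊔ Zl K ≤
    (Iw1 O K ⊔ Zl K).comap (MulAut.conj (dO K c)⁻¹).toMonoidHom) hv
  · rintro _ ⟨g, hg, rfl⟩
    refine Subgroup.mem_sup_left ⟨d⁻¹ * g * d, ?_, by simp [e]⟩
    have h1 : IsLocalRing.residue O (g.val 1 0) = 0 := hg.1
    have h2 : IsLocalRing.residue O (g.val 0 0) = IsLocalRing.residue O (g.val 1 1) := hg.2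
    have h3 : (d⁻¹ * g * d).val = !![g.val 0 0, (c⁻¹ : Oˣ) * g.val 0 1; g.val 1 0 * c, g.val 1 1] := by
      ext i j
      fin_cases i <;> fin_cases j <;>
        simp [d, Matrix.mul_apply, Fin.sum_univ_two, Matrix.vecMul, dotProduct,
          mul_right_comm _ (g.val 0 0)]
    refine ⟨show IsLocalRing.residue O ((d⁻¹ * g * d).val 1 0) = 0 from ?_,
      show IsLocalRing.residue O ((d⁻¹ * g * d).val 0 0) =
        IsLocalRing.residue O ((d⁻¹ * g * d).val 1 1) from ?_⟩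
    · simp [h3, h1]
    · simp [h3, h2]
  · exact fun z hz => Subgroup.mem_sup_right ((Subgroup.normal_of_characteristic _).conj_mem z hz _)

theorem Lc.At.dc_eq (h : w.At V U) (hU : U ∈ T.Lev) {g : GL (Fin 2) K}
    (hg : ∀ v ∈ V ⊔ Zl K, g⁻¹ * v * g ∈ V ⊔ Zl K) :
    Sh.dc U (w.ι g) U = {y | (w.ι g)⁻¹ * y ∈ U} := by
  ext y
  rw [h.dc hU]
  refine ⟨fun ⟨v, hv, e⟩ => ?_, fun e => ⟨1, one_mem _, by rwa [one_mul]⟩⟩
  have := mul_mem ((h.iff hU).2 (hg v hv)) e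
  simpa [mul_assoc] using this

variable {Λ M : Type} [CommRing Λ] [AddCommGroup M] [Module Λ M] {a : Representation Λ G M} {v : M}

theorem inv_Fv (hv : v ∈ Fv a U) : Inv U fun x => a x v := fun x u hu => by
  simp only [map_mul, Module.End.mul_apply, hv u hu]

theorem hv_one (hv : v ∈ Fv a U) (x : G) : Sh.hv a {y | x⁻¹ * y ∈ U} U v = a x v := by
  rw [Sh.hv, hk_one x (inv_Fv hv), rt, one_mul]

theorem Lc.L0.hv_To (hU : U ∈ w.L0) (hv : v ∈ Fv a U) : Sh.hv a (w.To U) U v = w.Tv a v := by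
  have := w.fin
  let _ := Fintype.ofFinite (IsLocalRing.ResidueField O)
  rw [Sh.hv, (hU.2.rep_To hU.1).hk (inv_Fv hv)]
  simp only [Lc.Tv, one_mul, LinearMap.sum_apply]

end

end Tw

/-- **row LOCM** -/
theorem locm : LOCM := by
  intro G0 G _ _ T A p _ H _ _ th M _ a g im k gr cc lk O K _ _ _ _ _ w ⟨U₀, h0, n0⟩ s
  have key : ∀ V, Km O K 1 ≤ V → V ≤ KK O K → ∀ v ∈ w.Fl a V, ∃ U ∈ T.Nl, w.At V U ∧ U ≤ U₀ ∧
      g s v ∈ Fv a U ∧ ∃ n, ∃ b ∈ A.Ne (p ^ n) U, ∃ b₁ b₂, T.Ga (th s) (p ^ n) U b b₁ ∧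
        T.Ga (th s) (p ^ n) U b₁ b₂ ∧ im n U b = v ∧ im n U b₁ = g s v ∧
        im n U b₂ = g s (g s v) := fun V h1 h2 v hv => by
    obtain ⟨U, hU, h3, h4, h5⟩ := cc.ex_at k h0 n0 h1 h2 hv
    obtain ⟨n, hn⟩ := cc.tor v
    obtain ⟨b, hb, rfl⟩ := (lk.bij U hU n).surjOn ⟨h5, hn⟩
    have := k.finHn hU.1 (p ^ n)
    obtain ⟨b₁, e1⟩ := gr.ex U hU n s b hb
    obtain ⟨b₂, e2⟩ := gr.ex U hU n s b₁ (gr.ne hU e1 hb)
    have e3 := lk.gal U hU n s _ _ e1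
    exact ⟨U, hU, h3, h4, fun u hu => by
      rw [← Module.End.mul_apply, (cc.com u s).eq, Module.End.mul_apply, h5 u hu],
      n, b, hb, b₁, b₂, e1, e2, rfl, e3, e3 ▸ lk.gal U hU n s _ _ e2⟩
  refine ⟨fun h v hv => ?_, fun h v hv => ?_, fun c h v hv => ?_⟩
  · obtain ⟨U, hU, h3, -, -, n, b, hb, -, -, -, -, rfl, -⟩ :=
      key _ (Tw.Km_le_KK 1) le_rfl v hv
    exact (lk.gal U hU n s _ _ (h U hU h3 n b hb)).symm
  · obtain ⟨U, hU, h3, -, h5, n, b, hb, b₁, b₂, e1, e2, rfl, e3, e4⟩ :=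
      key _ (Tw.Km_le_KK 1) le_rfl v hv
    have c := Tw.Lc.L0.cor w ⟨hU.1, h3⟩
    have := congrArg (im n U) (h U hU h3 c n b hb b₁ b₂ e1 e2)
    rwa [map_add, map_sub, map_nsmul, map_zero, lk.cor U hU U hU _ c, e4, e3,
      Tw.Lc.L0.hv_To ⟨hU.1, h3⟩ h5] at this
  · obtain ⟨U, hU, h3, h4, h5, n, b, hb, b₁, b₂, e1, e2, rfl, e3, e4⟩ :=
      key _ (Tw.Km_le_Up _) (Tw.Up_le _) v hv
    have d : ∀ x, Cor U (dc U x U) U := fun x => cor_dc (k.fi _ (k.conj U hU.1 x) U hU.1)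
    have := congrArg (im n U) (h U hU h3 ⟨U₀, h0, n0, h4⟩ (d _) (d _) n b hb b₁ b₂ e1 e2)
    rwa [map_add, map_sub, map_add, map_zero, lk.cor U hU U hU _ (d _), lk.cor U hU U hU _ (d _),
      e4, e3, h3.dc_eq hU.1 fun _ => Tw.dO_norm c, h3.dc_eq hU.1 fun _ => Tw.dO_norm c⁻¹,
      Tw.hv_one h5, Tw.hv_one h5] at this

end Vale.Agent.P022K.Sh
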