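import Vale.Agent.P022K.QT.Par
import Vale.Agent.P022K.F0.Galh
import Mathlib.Data.ZMod.QuotientRing

/-!
# P022K, block QT: the levels `UH E` and the groups `Γ_H(E)`
-/

set_option autoImplicit false

open scoped MatrixGroups

noncomputable section

namespace Vale.Agent.P022K.QT

open Vale.Agent.P022 Vale.Agent.P022K.Sh Vale.Agent.P022.H218.L3 Vale.Agent.P022.H231.L3 Matrix
open Vale.Agent.P027M.M (GH FS M2)

/-- the profinite integers -/
abbrev Zh : Type := ∀ q : Pr, ℤ_[q]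

/-- the component at `q` -/
abbrev pz (q : Pr) : Zh →+* ℤ_[q] := Pi.evalRingHom (fun q : Pr => ℤ_[q]) q

/-- the prime attached to a prime factor -/
def pf {E : ℕ} (p : E.primeFactors) : Pr := ⟨p.1, Nat.prime_of_mem_primeFactors p.2⟩

/-- the residue modulo `E` -/
def rz (E : ℕ) [NeZero E] : Zh →+* ZMod E :=
  (ZMod.equivPi E (NeZero.ne E)).symm.toRingHom.comp (RingHom.pi fun p : E.primeFactors =>
    (PadicInt.toZModPow (p := pf p) (E.factorization p)).comp (pz (pf p)))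

variable {E : ℕ} [NeZero E]

theorem rz_zero {x : Zh} : rz E x = 0 ↔ ∀ q : Pr, (q : ℤ_[q]) ^ E.factorization q ∣ x q := by
  have key : ∀ (q : Pr) n, PadicInt.toZModPow n (x q) = 0 ↔ (q : ℤ_[q]) ^ n ∣ x q := fun q n => by
    rw [← RingHom.mem_ker, PadicInt.ker_toZModPow, Ideal.mem_span_singleton]
  refine (map_eq_zero_iff _ (ZMod.equivPi E (NeZero.ne E)).symm.injective).trans
    ⟨fun h q => ?_, fun h => funext fun p => (key (pf p) _).2 (h (pf p))⟩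
  by_cases hq : q.1 ∣ E
  · exact (key q _).1 (congrFun h ⟨q.1, q.2.mem_primeFactors hq (NeZero.ne E)⟩)
  · rw [Nat.factorization_eq_zero_of_not_dvd hq, pow_zero]
    exact one_dvd _

theorem rz_eq {x y : Zh} :
    rz E x = rz E y ↔ ∀ q : Pr, (q : ℤ_[q]) ^ E.factorization q ∣ x q - y q := by
  rw [← sub_eq_zero, ← map_sub, rz_zero]
  rfl

/-- integral matrices -/
def ka : GL (Fin 2) Zh →* G := (MonoidHom.pi fun q : Pr =>
  (gK ℚ_[q]).comp (GeneralLinearGroup.map (pz q))).codRestrict GA fun _ =>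
    show ∀ᶠ _ : Pr in Filter.cofinite, _ from Filter.Eventually.of_forall fun _ => ⟨_, rfl⟩

theorem ev_ka (q : Pr) (k : GL (Fin 2) Zh) :
    ev q (ka k) = gK ℚ_[q] (GeneralLinearGroup.map (pz q) k) := rfl

theorem ka_mem (k : GL (Fin 2) Zh) : ka k ∈ KN 1 := mem_K1.2 fun _ => ⟨_, rfl⟩

theorem ex_ka {x : G} (h : x ∈ KN 1) : ∃ k, ka k = x := by
  choose k hk using mem_K1.1 h
  refine ⟨⟨Matrix.of fun i j q => k q i j, Matrix.of fun i j q => (k q)⁻¹ i j, ?_, ?_⟩,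
    G_ext fun q => (congrArg _ (Units.ext rfl)).trans (hk q)⟩
  · ext i j q
    have := congrFun (congrFun (k q).mul_inv i) j
    by_cases h : i = j <;> simpa [Matrix.mul_apply, Matrix.one_apply, h] using this
  · ext i j q
    have := congrFun (congrFun (k q).inv_mul i) j
    by_cases h : i = j <;> simpa [Matrix.mul_apply, Matrix.one_apply, h] using this

theorem gK_mem_Kh {p : Pr} {m : ℕ} {k : GL (Fin 2) ℤ_[p]} : gK ℚ_[p] k ∈ Kh p m ⊔ Zl ℚ_[p] ↔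
    (p : ℤ_[p]) ^ m ∣ k 1 0 ∧ (p : ℤ_[p]) ^ m ∣ k 0 0 - k 1 1 := by
  have key : ∀ x : ℤ_[p], (p : ℤ_[p]) ^ m ∣ x ↔ ‖(x : ℚ_[p])‖ ≤ (p : ℝ) ^ (-m : ℤ) := fun x => by
    rw [← PadicInt.norm_def, PadicInt.norm_le_pow_iff_mem_span_pow, Ideal.mem_span_singleton]
  rw [key, key]
  refine ⟨fun h => ?_, fun h => Subgroup.mem_sup_left ⟨⟨_, rfl⟩, h.1, by simpa using h.2⟩⟩
  obtain ⟨u, ⟨h1, h2, h3⟩, z, hz, e⟩ := Subgroup.mem_sup_of_normal_right.1 h
  obtain ⟨c, rfl⟩ := scalar_of_mem hz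
  have n1 := norm_det (l := p) (k := gK ℚ_[p] k) ⟨_, rfl⟩
  have e' : ∀ i j, ((k i j : ℤ_[p]) : ℚ_[p]) = u i j * c := fun i j => by
    have := congrArg (fun g : Gl p => g i j) e
    simpa using this.symm
  have hc : ‖(c : ℚ_[p])‖ = 1 := by
    rw [← e, Units.val_mul, Matrix.det_mul, norm_mul, norm_det h1, one_mul] at n1
    have : ‖(c : ℚ_[p])‖ ^ 2 = 1 := by simpa using n1
    exact (pow_eq_one_iff_of_nonneg (norm_nonneg _) two_ne_zero).1 this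
  rw [PadicInt.coe_sub, e', e', e', ← sub_mul, norm_mul, norm_mul, hc, mul_one, mul_one]
  exact ⟨h2, h3⟩

theorem ka_UH {k : GL (Fin 2) Zh} :
    ka k ∈ UH E ↔ rz E (k 1 0) = 0 ∧ rz E (k 0 0) = rz E (k 1 1) := by
  rw [UH, mem_PU, rz_zero, rz_eq, ← forall_and]
  exact forall_congr' fun q => gK_mem_Kh

theorem Kh_le (p : Pr) (m : ℕ) : Kh p m ≤ Kl p := fun _ h => h.1

theorem Km_le_Kh (p : Pr) (m : ℕ) : Km ℤ_[p] ℚ_[p] m ≤ Kh p m := fun g hg => by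
  obtain ⟨h1, h2⟩ := mem_Km.1 hg
  refine ⟨h1, by simpa using h2 1 0, ?_⟩
  rw [show g 0 0 - g 1 1 = (g.val - 1) 0 0 + -(g.val - 1) 1 1 by simp]
  exact (Padic.nonarchimedean _ _).trans (max_le (h2 0 0) (by rw [norm_neg]; exact h2 1 1))

omit [NeZero E] in
theorem UN_le_UH : UN E ≤ UH E := PU_mono fun p => sup_le_sup_right (Km_le_Kh p _) _

omit [NeZero E] in
theorem UH_le : UH E ≤ UN 1 := fun _ h =>
  mem_UN_one.2 fun p => sup_le_sup_right (Kh_le p _) _ (mem_PU.1 h p)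

theorem UH_mem : UH E ∈ TQ.Lev :=
  ⟨⟨E, NeZero.pos E, UN_le_UH⟩, 1, by rw [cj_one]; exact UH_le⟩

/-- `diag (e, 1)` -/
def dZ : Zhˣ →* GL (Fin 2) Zh where
  toFun e := ⟨!![(e : Zh), 0; 0, 1], !![((e⁻¹ : Zhˣ) : Zh), 0; 0, 1],
    by simp [Matrix.one_fin_two], by simp [Matrix.one_fin_two]⟩
  map_one' := Units.ext (by simp [Matrix.one_fin_two])
  map_mul' a b := Units.ext (by simp)

theorem dZ_val (e : Zhˣ) : (dZ e).val = !![(e : Zh), 0; 0, 1] := rfl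

/-- the points `diag (e, 1)` -/
def dE : Zhˣ →* G := ka.comp dZ

theorem ev_dE (q : Pr) (e : Zhˣ) : ev q (dE e) = dO ℚ_[q] (Units.map (pz q).toMonoidHom e) :=
  Units.ext (by
    ext i k
    fin_cases i <;> fin_cases k <;> simp [dE, ev_ka, dZ_val, dO, dg_val])

/-- integral matrices of determinant one -/
def sZ : SL(2, ℤ) →* GL (Fin 2) Zh := SpecialLinearGroup.mapGL Zh

theorem sZ_apply (g : SL(2, ℤ)) (i k : Fin 2) : (sZ g).val i k = (g i k : Zh) := rfl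

theorem j_iZ (g : SL(2, ℤ)) : TQ.j (iZ g) = ka (sZ g) := G_ext fun q => Units.ext (by
  ext i k
  show algebraMap ℚ ℚ_[q] (g i k : ℚ) = algebraMap ℤ_[q] ℚ_[q] (pz q (g i k : Zh))
  simp)

theorem conj_val (e e' : Zhˣ) (k : GL (Fin 2) Zh) : ((dZ e)⁻¹ * k * dZ e').val =
    !![↑e⁻¹ * k 0 0 * e', ↑e⁻¹ * k 0 1; k 1 0 * e', k 1 1] := by
  rw [← map_inv, Units.val_mul, Units.val_mul, dZ_val, dZ_val, Matrix.eta_fin_two k.val,
    Matrix.mul_fin_two, Matrix.mul_fin_two]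
  simp only [mul_zero, zero_mul, add_zero, zero_add, mul_one, one_mul]
  rfl

/-- the residue of a unit -/
def ru (E : ℕ) [NeZero E] : Zhˣ →* (ZMod E)ˣ := Units.map (rz E).toMonoidHom

theorem ru_val (e : Zhˣ) : (ru E e : ZMod E) = rz E e := rfl

theorem conj_UH {e e' : Zhˣ} {k : GL (Fin 2) Zh} : (dE e)⁻¹ * ka k * dE e' ∈ UH E ↔
    rz E (k 1 0) = 0 ∧ rz E (k 0 0) * ru E e' = rz E (k 1 1) * ru E e := by
  rw [show (dE e)⁻¹ * ka k * dE e' = ka ((dZ e)⁻¹ * k * dZ e') by simp [dE], ka_UH, conj_val]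
  simp only [of_apply, cons_val', cons_val_zero, cons_val_one, cons_val_fin_one, map_mul]
  rw [← ru_val, ← ru_val, map_inv, Units.mul_left_eq_zero, mul_assoc, Units.inv_mul_eq_iff_eq_mul,
    mul_comm (ru E e : ZMod E)]

theorem dE_UH {e : Zhˣ} : dE e ∈ UH E ↔ ru E e = 1 := by
  rw [dE, MonoidHom.comp_apply, ka_UH, dZ_val, Units.ext_iff, ru_val]
  simp only [of_apply, cons_val', cons_val_zero, cons_val_one, cons_val_fin_one, map_zero, map_one,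
    true_and, Units.val_one]

theorem cj_dE (e : Zhˣ) : cj (dE e) (UH E) = UH E := by
  have key : ∀ e : Zhˣ, ∀ u ∈ UH E, (dE e)⁻¹ * u * dE e ∈ UH E := fun e u hu => by
    obtain ⟨k, hk, z, hz, rfl⟩ := (mem_UN one_pos).1 (UH_le hu)
    obtain ⟨k, rfl⟩ := ex_ka hk
    have hz' := Z_le (UH_mem (E := E)) hz
    have := ka_UH.1 ((Subgroup.mul_mem_cancel_right _ hz').1 hu)
    rw [← mul_assoc, mul_assoc _ z, ← Z_com hz, ← mul_assoc]
    exact mul_mem (conj_UH.2 ⟨this.1, by rw [this.2]⟩) hz'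
  ext u
  refine ⟨fun h => ?_, fun h => mem_cj.2 (key e u h)⟩
  simpa [mul_assoc] using key e⁻¹ _ (mem_cj.1 h)

/-- the points `diag (e, 1)` meet all components -/
theorem ex_dE (x : G) : ∃ e γ, ∃ u ∈ UH E, x = TQ.j γ * dE e * u := by
  obtain ⟨γ, h⟩ := gen x
  obtain ⟨k, hk⟩ := ex_ka h
  obtain ⟨g, hg⟩ := dens_Z (x := ka k * (dE k.det)⁻¹) (mul_mem (ka_mem k) (inv_mem (ka_mem _)))
    (fun p => by
      rw [show ka k * (dE k.det)⁻¹ = ka (k * (dZ k.det)⁻¹) by simp [dE], ev_ka,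
        GeneralLinearGroup.map_det, GeneralLinearGroup.map_det, map_mul, map_inv,
        show (dZ k.det).det = k.det from Units.ext (by simp [dZ_val]), mul_inv_cancel, map_one,
        map_one]) (NeZero.pos E)
  refine ⟨k.det, γ * iZ g, _, UN_le_UH (KN_le E (conj_KN (ka_mem (dZ k.det)) (NeZero.pos E) hg)), ?_⟩
  rw [map_mul, hk]
  show x = _ * dE k.det * ((dE k.det)⁻¹ * _ * dE k.det)
  group

/-- the units of order two -/
def H2 (E : ℕ) : Subgroup (ZMod E)ˣ := (powMonoidHom 2).ker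

omit [NeZero E] in
theorem mem_H2 {u : (ZMod E)ˣ} : u ∈ H2 E ↔ u ^ 2 = 1 := Iff.rfl

omit [NeZero E] in
theorem det_mod {g : SL(2, ℤ)} (h : (E : ℤ) ∣ g 1 0) :
    ((g 0 0 : ℤ) : ZMod E) * ((g 1 1 : ℤ) : ZMod E) = 1 := by
  have hdet := g.det_coe
  rw [Matrix.det_fin_two] at hdet
  have h4 := congrArg (Int.cast : ℤ → ZMod E) hdet
  push_cast at h4
  rwa [(ZMod.intCast_zmod_eq_zero_iff_dvd _ _).2 h, mul_zero, sub_zero] at h4

/-- the elements of `SL₂(ℤ)` between two points -/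
theorem conj_iZ {e e' : Zhˣ} {g : SL(2, ℤ)} : (dE e)⁻¹ * TQ.j (iZ g) * dE e' ∈ UH E ↔
    (E : ℤ) ∣ g 1 0 ∧ ∃ u : (ZMod E)ˣ, (u : ZMod E) = (g 1 1 : ℤ) ∧ ru E e' = u ^ 2 * ru E e := by
  rw [j_iZ, conj_UH, sZ_apply, sZ_apply, sZ_apply, map_intCast, map_intCast, map_intCast,
    ZMod.intCast_zmod_eq_zero_iff_dvd]
  refine and_congr_right fun h => ⟨fun e1 => ⟨Units.mkOfMulEqOne _ _
    ((mul_comm _ _).trans (det_mod h)), rfl, Units.ext ?_⟩, fun ⟨u, e1, e2⟩ => ?_⟩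
  · show _ = ((g 1 1 : ℤ) : ZMod E) ^ 2 * _
    linear_combination ((g 1 1 : ℤ) : ZMod E) * e1 - (ru E e' : ZMod E) * det_mod h
  · rw [e2, Units.val_mul, Units.val_pow_eq_pow_val, e1]
    linear_combination ((g 1 1 : ℤ) : ZMod E) * (ru E e : ZMod E) * det_mod h

theorem gam_iZ {e : Zhˣ} {g : SL(2, ℤ)} : iZ g ∈ TQ.Gam (UH E) (dE e) ↔ g ∈ GH E (H2 E) := by
  rw [Tw.mem_Gam, conj_iZ]
  exact and_congr_right fun _ => ⟨fun ⟨u, h1, h2⟩ => ⟨u, by simpa [mem_H2] using h2.symm, h1⟩,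
    fun ⟨u, h1, h2⟩ => ⟨u, h2, by rw [mem_H2.1 h1, one_mul]⟩⟩

theorem ex_iZ {e e' : Zhˣ} {γ : G0} (h : (dE e)⁻¹ * TQ.j γ * dE e' ∈ UH E) :
    ∃ g, ∃ ζ ∈ TQ.Z0, γ = iZ g * ζ ∧ (dE e)⁻¹ * TQ.j (iZ g) * dE e' ∈ UH E := by
  have h1 : TQ.j γ ∈ UN 1 := by
    have := mul_mem (mul_mem (KN_le 1 (ka_mem (dZ e))) (UH_le h)) (inv_mem (KN_le 1 (ka_mem (dZ e'))))
    simpa [dE, mul_assoc] using this
  have : (TQ.Z0).Normal := MonoidHom.normal_ker _
  obtain ⟨_, ⟨g, rfl⟩, ζ, hζ, rfl⟩ := Subgroup.mem_sup_of_normal_right.1 ((stab γ).1 h1)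
  have hz := (ok_z0 ζ).1 hζ
  refine ⟨g, ζ, hζ, rfl, ?_⟩
  rwa [map_mul, ← mul_assoc, mul_assoc _ (TQ.j ζ), ← Z_com hz, ← mul_assoc,
    Subgroup.mul_mem_cancel_right _ (Z_le UH_mem hz)] at h

/-! ## the action on functions -/

/-- an integral matrix as an element of `G0` -/
def gz (A : M2) (hA : 0 < A.det) : G0 :=
  ⟨GeneralLinearGroup.mkOfDetNeZero (A.map (Int.cast : ℤ → ℚ)) (by
    rw [← Int.cast_det]; exact_mod_cast hA.ne'), mem_G0.2 (by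
    show 0 < (A.map (Int.cast : ℤ → ℚ)).det
    rw [← Int.cast_det]; exact_mod_cast hA)⟩

theorem gz_val (A : M2) (hA : 0 < A.det) : (gz A hA).1.val = A.map (Int.cast : ℤ → ℚ) := rfl

theorem act_gz (A : M2) (hA : 0 < A.det) (f : Mer) : TQ.act (gz A hA)⁻¹ f = pbz A hA f := by
  refine ext_Mer (φ := TQ.act (gz A hA)⁻¹) (ψ := pbz A hA) (fun f => ?_) f
  refine (actM_algebraMap _ _).trans (Eq.trans ?_ (pb_algebraMap _ _ f).symm)
  refine congrArg _ (Subtype.ext (funext fun τ => ?_))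
  rw [Sh.actH_apply, ← map_inv, inv_inv]
  exact congrArg (fun g : GL (Fin 2) ℝ => f.1 (g • τ)) (Units.ext (by
    ext i k
    show algebraMap ℚ ℝ (A i k : ℚ) = (A i k : ℝ)
    simp))

theorem gz_SL (g : SL(2, ℤ)) : gz g (SL_pos g) = iZ g := Subtype.ext (Units.ext rfl)

theorem act_iZ (g : SL(2, ℤ)) (f : Mer) : TQ.act (iZ g) f = H218.L3.act g f := by
  have := act_gz _ (SL_pos g⁻¹) f
  rwa [gz_SL, pbz_SL, ← map_inv iZ, inv_inv] at this

end Vale.Agent.P022K.QT
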