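import Vale.Agent.P022K.QT.ThK
import Vale.Agent.P022K.QT.Dic
import Vale.Agent.P027M.M.Dp2
import Vale.Agent.P027M.M.CPbm
import Vale.Agent.P027M.M.CAct
import Vale.Agent.P027M.M.Hec2
import Vale.Agent.P027M.Th.Kap
import Vale.Agent.P027M.Th.Kbc

/-!
# P022K, block QT: Shimura reciprocity on the modular tower (row THM; helper50)
-/

set_option autoImplicit false

open scoped MatrixGroups

noncomputable section

namespace Vale.Agent.P022K.QT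

open Vale.Agent.P022 Vale.Agent.P022K.Sh Vale.Agent.P022.H218.L3 Vale.Agent.P022.H231.L3 Sh.Tw
open Vale.Agent.P027M.M (Mdl FS FF cv mkF cv_mem cv_inj M2 L Gt Lv Mid Cyc ze GALX SHIM EXP CF GRP)
open Vale.Agent.P027M Matrix
open TP (Af Zn int_mem int_mem_iff Zn_mul1 dens1 chi_mem chi_spec pr_chi)

variable {X : Mdl} {s : GQ} {φ ψ : G → Mer} {U : Subgroup G} {n N : ℕ}

/-! ## rational matrices -/

theorem G0_ext {γ δ : G0} (h : γ.1.val = δ.1.val) : γ = δ := Subtype.ext (Units.ext h)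

theorem gz_mul {A B : M2} (hA : 0 < A.det) (hB : 0 < B.det) :
    gz A hA * gz B hB = gz (A * B) (by rw [det_mul]; exact mul_pos hA hB) :=
  G0_ext (Matrix.map_mul (f := Int.castRingHom ℚ)).symm

theorem ex_gz (γ : G0) : ∃ A hA, γ⁻¹ * gz A hA ∈ TQ.Z0 := by
  obtain ⟨⟨d, hd⟩, h⟩ := IsLocalization.exist_integer_multiples_of_finite (nonZeroDivisors ℤ)
    fun i : Fin 2 × Fin 2 => γ.1.val i.1 i.2
  choose a ha using h
  have d0 : (d : ℚ) ≠ 0 := Int.cast_ne_zero.2 (nonZeroDivisors.ne_zero hd)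
  have e : (Matrix.of fun i k => a (i, k) : M2).map (Int.cast : ℤ → ℚ) = (d : ℚ) • γ.1.val :=
    Matrix.ext fun i k => by simpa using ha (i, k)
  have hA : 0 < (Matrix.of fun i k => a (i, k) : M2).det := by
    have : (0 : ℚ) < ((Matrix.of fun i k => a (i, k) : M2).map (Int.cast : ℤ → ℚ)).det := by
      rw [e, det_smul, Fintype.card_fin]
      exact mul_pos (by positivity) (mem_G0.1 γ.2)
    rw [show ((Matrix.of fun i k => a (i, k) : M2).map (Int.cast : ℤ → ℚ)).det = _ from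
      (RingHom.map_det (Int.castRingHom ℚ) _).symm, eq_intCast] at this
    exact_mod_cast this
  refine ⟨_, hA, mem_Z0.2 ?_⟩
  convert scalar_mem (Units.mk0 _ d0) using 1
  rw [Subgroup.coe_mul, Subgroup.coe_inv, inv_mul_eq_iff_eq_mul]
  refine Units.ext ?_
  rw [gz_val, e]
  ext i k
  fin_cases k <;> simp [Matrix.mul_apply, mul_comm, Matrix.intCast_apply]

/-- generators of `G0` -/
theorem G0_ind (P : Subgroup G0) (hz : TQ.Z0 ≤ P) (hT : iZ ModularGroup.T ∈ P)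
    (hL : iZ (M.Dp.mk 1 0 1 1 (by ring)) ∈ P)
    (hd : ∀ (a : ℕ) (ha : 0 < a), gz _ (diag_pos ha) ∈ P) (γ : G0) : γ ∈ P := by
  have hs : ∀ g, iZ g ∈ P := fun g => by
    have : Subgroup.closure {ModularGroup.S, ModularGroup.T} ≤ P.comap iZ := by
      rw [Subgroup.closure_le, Set.pair_subset_iff]
      refine ⟨?_, hT⟩
      rw [show ModularGroup.S = ModularGroup.T⁻¹ * M.Dp.mk 1 0 1 1 (by ring) * ModularGroup.T⁻¹ by
        decide]
      exact mul_mem (mul_mem (inv_mem hT) hL) (inv_mem hT)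
    exact this (by simp [SpecialLinearGroup.SL2Z_generators])
  obtain ⟨A, hA, h⟩ := ex_gz γ
  obtain ⟨g, a, d, b, ha, h0, rfl⟩ := M.Pbm.hermite A hA
  rw [← P.inv_mem_iff, ← P.mul_mem_cancel_right (x := gz _ hA)]
  · exact hz h
  · convert mul_mem (mul_mem (mul_mem (hs (g * ModularGroup.S)) (hd d h0))
      (hs (M.Dp.mk 0 1 (-1) (-b) (by ring)))) (hd a ha) using 1
    rw [← gz_SL, ← gz_SL, gz_mul, gz_mul, gz_mul]
    congr 1
    show _ = g.val * ModularGroup.S.val * _ * _ * _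
    rw [mul_assoc, mul_assoc, mul_assoc]
    congr 1
    simp [M.Dp.mk, ModularGroup.S]

theorem act_FS (X : Mdl) (γ : G0) {f : Mer} (hf : f ∈ FS) : TQ.act γ f ∈ FS := by
  obtain ⟨A, hA, h⟩ := ex_gz γ⁻¹
  rw [inv_inv] at h
  rw [← mul_inv_cancel_right γ (gz A hA), act_mul, act_Z0 h, act_gz, ← M.cv_mkF f hf, ← X.pb_coe]
  exact cv_mem _

theorem fv_loc (X : Mdl) (hφ : φ ∈ TQ.RU U) (h : ∀ x, ∃ x', TQ.Rel U x x' ∧ φ x' ∈ FS) : FV φ :=
  fun x => by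
    obtain ⟨x', r, e⟩ := h x
    obtain ⟨γ, u, hu, rfl⟩ := r.symm
    rw [RU_val hφ γ x' hu]
    exact act_FS X γ e

/-! ## levels -/

theorem neg_Z0 : iZ (-1) ∈ TQ.Z0 := by
  rw [mem_Z0]
  convert scalar_mem (-1 : ℚˣ) using 1
  ext i k
  fin_cases i <;> fin_cases k <;> simp [iZ_apply]

theorem gt_UN (hN : 0 < N) {g : SL(2, ℤ)} (h : g ∈ Gt N) : TQ.j (iZ g) ∈ UN N := by
  rcases M.CAct.gt_cases h with h | h
  · exact KN_le N ((j_KN hN).2 h)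
  · rw [← neg_neg g, ← mul_neg_one, map_mul, map_mul]
    exact mul_mem (KN_le N ((j_KN hN).2 h)) (Z_le (UN_mem hN) ((ok_z0 _).1 neg_Z0))

theorem ex_lv (hU : U ∈ TQ.Lev) (y : G) : ∃ N, Lv N ∧ UN N ≤ cj y U := by
  obtain ⟨⟨N, hN, h⟩, -⟩ := ok_conj U hU y
  exact ⟨N * 4, ⟨by omega, dvd_mul_left _ _⟩, (UN_anti (by omega) (dvd_mul_right _ _)).trans h⟩

theorem fix_Gt (hN : 0 < N) {y : G} (h : UN N ≤ cj y U) (hφ : φ ∈ TQ.RU U) {g : SL(2, ℤ)}
    (hg : g ∈ Gt N) : H218.L3.act g (φ y) = φ y := by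
  rw [← act_iZ]
  exact TQ.mem_KF.1 (RU_KF hφ y) _ (h (gt_UN hN hg))

/-- the cyclotomic character as a unit of the adeles -/
def cu (s : GQ) : Afˣ := (TP.chi Qb).toHomUnits s.toRingEquiv

theorem br_dl (s : GQ) : br (Tq.dR (cu s)⁻¹) = dl s := G_ext fun p => by
  rw [dl, ev_dU, map_inv, map_inv, map_inv, ev_br, inv_eq_iff_mul_eq_one, ← mul_one (Tq.pi _ _),
    show Tq.pi p (Tq.dR (cu s)) = dO ℚ_[p] (chi p s) from ?_, mul_one, ← dO_mul, mul_inv_cancel,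
    dO_one]
  ext i k
  fin_cases i <;> fin_cases k <;> simp [Tq.pi_apply, Tq.dR, dO, dg_val, cu, chi]
  exact pr_chi _ _

theorem cu_mem (s : GQ) : (cu s : Af) ∈ Zn 1 := chi_mem _

theorem cu_inv (s : GQ) : (((cu s)⁻¹ : Afˣ) : Af) ∈ Zn 1 := by
  rw [cu, ← map_inv]
  exact chi_mem _

theorem dU_K1 (c : ∀ p : Pr, ℤ_[p]ˣ) : dU c ∈ KN 1 := mem_K1.2 fun p => dO_mem (c p)

theorem cyc_of (hN : 0 < N) {k : ℤ} (hk : (cu s : Af) - k ∈ Zn N) : Cyc N s k := fun a ha => by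
  have e : ∀ b : ℤ, ze N b = ze N 1 ^ b := fun b => by
    rw [ze, ze, ← Complex.exp_int_mul]
    congr 1
    push_cast
    ring
  have h1 : a ^ N = 1 := (M.io : Qb →+* ℂ).injective (by
    have : (N : ℂ) ≠ 0 := Nat.cast_ne_zero.2 hN.ne'
    rw [map_pow, map_one, RingHom.coe_coe, ha, ← zpow_natCast, ← e, ze,
      ← Complex.exp_two_pi_mul_I]
    congr 1
    push_cast
    field_simp)
  rw [show s a = a ^ k from chi_spec s.toRingEquiv hN h1 hk, map_zpow₀, ha, e k]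

theorem dl_KN (hN : 0 < N) (h : (cu s : Af) - 1 ∈ Zn N) : dl s ∈ KN N := by
  have h1 := dU_K1 fun p => (chi p s)⁻¹
  rw [← dl, ← br_dl, br_KN one_pos] at h1
  rw [← inv_mem_iff, ← br_dl, ← map_inv, br_KN hN, Tq.mem_KN]
  refine ⟨inv_mem h1, Tq.mz_of ?_⟩
  rw [← map_inv, inv_inv]
  simpa [Tq.dR] using h

theorem tw_KN (hN : 0 < N) {k : ℤ} (hk : (cu s : Af) - k ∈ Zn N) {γ γ' : SL(2, ℤ)}
    (h : M.Tw N k γ γ') : (TQ.j (iZ γ))⁻¹ * (dl s * TQ.j (iZ γ') * (dl s)⁻¹) ∈ KN N := by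
  have h0 := dU_K1 fun p => (chi p s)⁻¹
  have h1 := inv_mem (j_K1.2 ⟨γ, rfl⟩)
  have h2 := mul_mem h1 (mul_mem (mul_mem h0 (j_K1.2 ⟨γ', rfl⟩)) (inv_mem h0))
  rw [← dl] at h2
  simp only [← br_dl, ← br_j, ← map_inv br, ← map_mul br, br_KN one_pos] at h1 h2
  simp only [← br_dl, ← br_j, ← map_inv br, ← map_mul br, br_KN hN]
  refine Tq.mem_KN.2 ⟨h2, ?_⟩
  rw [← (jA (iZ γ)).inv_mul, Units.val_mul, ← mul_sub]
  obtain ⟨a1, a2, a3, a4⟩ := h
  have b1 := (int_mem_iff hN).2 a1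
  have b2 := Zn_mul1 (cu_inv s) (sub_mem ((int_mem_iff hN).2 a2) (Zn_mul1 (int_mem (γ 0 1)) hk))
  have b3 := add_mem ((int_mem_iff hN).2 a3) (Zn_mul1 (int_mem (γ' 1 0)) hk)
  have b4 := (int_mem_iff hN).2 a4
  refine one_mul N ▸ (Tq.mem_K1.1 h1).1.mul (Tq.mz_of ⟨?_, ?_, ?_, ?_⟩)
  all_goals
    rw [← map_inv Tq.dR, inv_inv]
    simp [Tq.dR, Matrix.mul_apply, Matrix.vecMul, dotProduct, Fin.sum_univ_two, j_entry, iZ_apply]
  · simpa [mul_comm _ (cu s : Af)] using b1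
  · convert b2 using 1
    push_cast
    linear_combination (γ 0 1 : Af) * (cu s).inv_mul
  · convert b3 using 1
    push_cast
    ring
  · simpa using b4

theorem dl_gz (s : GQ) {a : ℕ} (ha : 0 < a) :
    dl s * TQ.j (gz _ (diag_pos ha)) = TQ.j (gz _ (diag_pos ha)) * dl s := by
  rw [← br_dl, ← br_j, ← map_mul, ← map_mul]
  congr 1
  ext i k
  fin_cases i <;> fin_cases k <;>
    simp [Tq.dR, Matrix.mul_apply, Fin.sum_univ_two, j_entry, gz_val, mul_comm]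

/-! ## the row -/

section

variable (hX : GALX X) (hS : SHIM X) (hE : EXP) (hC : CF) (hG : GRP)

include hX hE hC hG in
theorem gal_diag {a : ℕ} (ha : 0 < a) (f : FF) :
    X.gal s (X.pb _ (diag_pos ha) f) = X.pb _ (diag_pos ha) (X.gal s f) := by
  obtain ⟨N, hN, hf⟩ := hX.2.2.2.2.1 f
  obtain ⟨t, h1, h2⟩ := hE.2.2.1 N f hN.pos (hf _ (hG N hN).2.2.2.2.1)
  obtain ⟨t', h3⟩ := (hC s).2.1 t h2
  have key : ∀ (t : H542.L3.LS) (f : FF), H236.L3.ExM N t (cv f) →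
      H236.L3.ExM (N * 1) (H542.L3.sb a ha t) (cv (X.pb _ (diag_pos ha) f)) := fun t f h => by
    have := hE.2.1 N a 1 0 ha one_pos hN.pos (by simpa using ha) t _ h
    rw [M.Hec2.rs_zero] at this
    rw [X.pb_coe]
    exact this
  have N1 : 0 < N * 1 := by simpa using hN.pos
  exact cv_inj (hE.1 _ _ _ _ N1 (hX.1 s _ _ _ _ N1 (key t f h1) (((hC s).2.2.2.2.2.2.1 t t' a ha).2 h3))
    (key t' _ (hX.1 s f N t t' hN.pos h1 h3)))

include hS in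
theorem th_SL (hφ : φ ∈ TQ.RU U) (h : FV φ) (hU : U ∈ TQ.Lev) {g : SL(2, ℤ)}
    (hg : ∀ (N : ℕ) (k : ℤ), IsCoprime k N → ∃ g', M.Tw N k g' g) (x : G) :
    th X s φ (TQ.j (iZ g) * x) = TQ.act (iZ g) (th X s φ x) := by
  obtain ⟨N, hN, le⟩ := ex_lv hU (dl s * x)
  obtain ⟨k, hk⟩ := dens1 (cu_mem s) hN.pos
  obtain ⟨k', hk'⟩ := dens1 (cu_inv s) hN.pos
  obtain ⟨g', hg⟩ := hg N k (by
    obtain ⟨c, hc⟩ := (int_mem_iff hN.pos (z := 1 - k' * k)).1 (by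
      convert add_mem (Zn_mul1 (cu_mem s) hk') (Zn_mul1 (int_mem k') hk) using 1
      push_cast
      linear_combination -(cu s).mul_inv)
    exact ⟨k', c, by linear_combination -hc⟩)
  have e : φ (dl s * (TQ.j (iZ g) * x)) = φ (TQ.j (iZ g') * (dl s * x)) := by
    rw [← hφ.2 (TQ.j (iZ g') * (dl s * x)) _ (mem_cj.1 (le (KN_le N (tw_KN hN.pos hk hg))))]
    congr 1
    group
  have m : mkF _ (h (TQ.j (iZ g') * (dl s * x))) ∈ L (Gt N) := fun δ hδ =>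
    fix_Gt hN.pos (by
      rw [← cj_cj, ← conj_UN (KN_le 1 (j_K1.2 ⟨g', rfl⟩)) hN.pos]
      exact cj_mono _ le) hφ hδ
  rw [th_val h (f := mkF _ (h _)) e, th_val h (x := x) (f := X.pg g' (mkF _ (h (TQ.j (iZ g') *
    (dl s * x))))) (by
      rw [M.Dp.cv_pg, M.cv_mkF, hφ.1, ← act_iZ, ← act_mul, ← map_mul, inv_mul_cancel, map_one,
        act_one]), (hS N hN s k (cyc_of hN.pos hk)).2 g' g hg _ m, M.Dp.cv_pg, ← act_iZ, ← act_mul,
    ← map_mul, mul_inv_cancel, map_one, act_one]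

include hX hS hE hC hG in
theorem th_RU (hU : U ∈ TQ.Lev) (hφ : φ ∈ TQ.RU U) (h : FV φ) : th X s φ ∈ TQ.RU U := by
  let P : Subgroup G0 :=
    { carrier := {γ | ∀ x, th X s φ (TQ.j γ * x) = TQ.act γ (th X s φ x)}
      mul_mem' := fun {a b} ha hb x => by rw [map_mul, mul_assoc, ha, hb, act_mul]
      one_mem' := fun x => by rw [map_one, one_mul, act_one]
      inv_mem' := fun {a} ha x => by
        rw [← mul_inv_cancel_left (TQ.j a) x, ha, ← act_mul, inv_mul_cancel, act_one, map_inv,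
          inv_mul_cancel_left] }
  refine ⟨G0_ind P (fun γ hγ x => ?_) (th_SL hS hφ h hU fun N k hk => ?_)
    (th_SL hS hφ h hU fun N k _ => ⟨M.Dp.mk 1 0 k 1 (by ring), ?_⟩) fun a ha => ?_,
    fun x u hu => ?_⟩
  · have hz := (ok_z0 γ).1 hγ
    rw [act_Z0 hγ, th_apply h x]
    exact th_val h (by rw [← Z_com hz, ← mul_assoc, hφ.2 _ _ (Z_le hU hz)]; rfl)
  · obtain ⟨a, b, e⟩ := hk
    refine ⟨M.Dp.tr a, ?_⟩
    simp only [M.Tw, M.Dp.tr, M.Dp.mk00, M.Dp.mk01, M.Dp.mk10, M.Dp.mk11]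
    refine ⟨by simp [ModularGroup.T], ⟨b, ?_⟩, by simp [ModularGroup.T], by simp [ModularGroup.T]⟩
    rw [show ModularGroup.T 0 1 = 1 from rfl]
    linear_combination -e
  · simp [M.Tw, M.Dp.mk00, M.Dp.mk01, M.Dp.mk10, M.Dp.mk11]
  · refine P.inv_mem_iff.1 fun x => ?_
    rw [th_apply h x, act_gz, ← X.pb_coe, ← gal_diag hX hE hC hG ha]
    refine th_val h ?_
    rw [X.pb_coe, ← act_gz, M.cv_mkF, ← hφ.1, ← mul_assoc, ← mul_assoc, map_inv,
      (Commute.inv_right (dl_gz s ha)).eq]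
  · rw [th_apply h x]
    exact th_val h (by rw [← mul_assoc, hφ.2 _ u hu]; rfl)

/-- roots of algebraic modular functions -/
theorem root_L (hB : Th.KBC) {Γ : Subgroup SL(2, ℤ)} [P019P.CFF Qb (L Γ)] (m : Mid N Γ) (hn : 0 < n) {y : Mer} {f : FF}
    (e : y ^ n = cv f) (h : ∀ g ∈ Γ, H218.L3.act g y = y) : ∃ w ∈ L Γ, cv w = y := by
  by_cases y0 : y = 0
  · exact ⟨0, zero_mem _, by rw [map_zero, y0]⟩
  obtain ⟨_, j, hj, bc⟩ := hB N Γ m
  have hf : f ∈ L Γ := fun g hg => by rw [← e, map_pow, h g hg]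
  have hy : y ∈ MF Γ := H587.L3.mem_of_trivial hn y0 (e ▸ Th.Kbc.cv_MF ⟨f, hf⟩) fun γ => by
    rw [h _ (Γ.inv_mem γ.2)]
    simp
  obtain ⟨w, hw, -⟩ := bc.pow_of_pow hn.ne' (y := ⟨y, hy⟩) (f := ⟨f, hf⟩)
    (Subtype.ext (by rw [hj, ← e]; rfl))
  exact ⟨w, w.2, by rw [← hj, hw]⟩

include hX hS hE hC hG in
/-- **THM** -/
theorem thm_of (hF : M.CFFS) (hB : Th.KBC) : THM X := fun U hU =>
  ⟨fun _ _ hφ h => ⟨th_RU hX hS hE hC hG hU hφ h, th_fv⟩, fun n hn ψ hψ h x => by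
    obtain ⟨N, hN, le⟩ := ex_lv hU x
    have := hF _ (hG N hN).2.2.1.hi (hG N hN).1
    obtain ⟨w, -, e⟩ := root_L hB (hG N hN).2.2.1 hn (y := ψ x) (f := mkF _ (h x)) rfl
      fun g hg => fix_Gt hN.pos le hψ hg
    exact e ▸ cv_mem w⟩

end

end Vale.Agent.P022K.QT
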