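import Vale.Agent.P022K.QT.If
import Vale.Agent.P022K.F0.Wt

/-!
# P022K, block QT: the modular tower over `ℚ` (definitions)
-/

set_option autoImplicit false

open scoped MatrixGroups

noncomputable section

namespace Vale.Agent.P022K.QT

open Vale.Agent.P022 Vale.Agent.P022K.Sh Matrix

/-- the local group -/
abbrev Gl (p : Pr) : Type := GL (Fin 2) ℚ_[p]

/-- the maximal compact subgroup -/
abbrev Kl (p : Pr) : Subgroup (Gl p) := KK ℤ_[p] ℚ_[p]

/-- the restricted product -/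
def GA : Subgroup (∀ p : Pr, Gl p) where
  carrier := {g | ∀ᶠ p in Filter.cofinite, g p ∈ Kl p}
  mul_mem' {a b} h h' := by
    simp only [Set.mem_ofPred_eq] at *
    exact (h.and h').mono fun _ e => mul_mem e.1 e.2
  one_mem' := by
    simp only [Set.mem_ofPred_eq]
    exact Filter.Eventually.of_forall fun _ => one_mem _
  inv_mem' {a} h := by
    simp only [Set.mem_ofPred_eq] at *
    exact h.mono fun _ e => inv_mem e

/-- the adelic group -/
abbrev G : Type := GA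

/-- the rational matrices of positive determinant -/
def G0 : Subgroup (GL (Fin 2) ℚ) := GP.comap (GeneralLinearGroup.map (algebraMap ℚ ℝ))

theorem mem_Kl {p : Pr} {g : Gl p} :
    g ∈ Kl p ↔ (∀ i k, ‖g i k‖ ≤ 1) ∧ ∀ i k, ‖(g⁻¹ : Gl p) i k‖ ≤ 1 := by
  constructor
  · rintro ⟨k, rfl⟩
    exact ⟨fun i j => (k i j).2, fun i j => by
      rw [← map_inv]
      exact ((k⁻¹ : GL (Fin 2) ℤ_[p]) i j).2⟩
  · rintro ⟨h, h'⟩
    have inj : Function.Injective
        (fun A : Matrix (Fin 2) (Fin 2) ℤ_[p] => A.map (algebraMap ℤ_[p] ℚ_[p])) :=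
      Matrix.map_injective Subtype.val_injective
    refine ⟨⟨Matrix.of fun i k => ⟨g i k, h i k⟩, Matrix.of fun i k => ⟨_, h' i k⟩, inj ?_, inj ?_⟩,
      Units.ext rfl⟩
    · simp only [Matrix.map_mul, Matrix.map_one _ (map_zero _) (map_one _)]
      exact g.mul_inv
    · simp only [Matrix.map_mul, Matrix.map_one _ (map_zero _) (map_one _)]
      exact g.inv_mul

theorem rat_int (x : ℚ) : ∀ᶠ p : Pr in Filter.cofinite, ‖(x : ℚ_[p])‖ ≤ 1 := by
  refine ((Set.finite_le_nat x.den).preimage Subtype.val_injective.injOn).subset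
    fun (p : Pr) hp => ?_
  exact Nat.le_of_dvd x.den_pos (by
    by_contra h
    exact hp (Padic.norm_rat_le_one h))

/-- the component at `p` of a rational matrix -/
abbrev jl (p : Pr) : GL (Fin 2) ℚ →* Gl p := GeneralLinearGroup.map (algebraMap ℚ ℚ_[p])

/-- the diagonal embedding -/
def jq : GL (Fin 2) ℚ →* G := (MonoidHom.pi jl).codRestrict GA fun g => by
  have h : ∀ g : GL (Fin 2) ℚ, ∀ᶠ p : Pr in Filter.cofinite, ∀ i k, ‖jl p g i k‖ ≤ 1 := fun g =>
    Filter.eventually_all.2 fun i => Filter.eventually_all.2 fun k => rat_int (g i k)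
  exact ((h g).and (h g⁻¹)).mono fun p e => mem_Kl.2 ⟨e.1, by
    have := e.2
    rwa [map_inv] at this⟩

/-- the component at `p` -/
def ev (p : Pr) : G →* Gl p := (Pi.evalMonoidHom Gl p).comp GA.subtype

open Classical in
/-- the inclusion of the factor at `p` -/
def io (p : Pr) : Gl p →* G := (MonoidHom.mulSingle Gl p).codRestrict GA fun g =>
  (Filter.eventually_cofinite_ne p).mono fun q hq => by
    rw [MonoidHom.mulSingle_apply, Pi.mulSingle_eq_of_ne hq]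
    exact one_mem _

theorem ev_jq (p : Pr) (g : GL (Fin 2) ℚ) : ev p (jq g) = jl p g := rfl

theorem ev_io (p : Pr) (g : Gl p) : ev p (io p g) = g := by
  classical exact Pi.mulSingle_eq_same (M := Gl) p g

theorem ev_io_ne {p q : Pr} (h : q ≠ p) (g : Gl p) : ev q (io p g) = 1 := by
  classical exact Pi.mulSingle_eq_of_ne (M := Gl) h g

theorem G_ext {x y : G} (h : ∀ p, ev p x = ev p y) : x = y := Subtype.ext (funext h)

theorem ev_int (x : G) : ∀ᶠ p in Filter.cofinite, ev p x ∈ Kl p := x.2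

/-- the product of local levels -/
def PU (V : ∀ p, Subgroup (Gl p)) : Subgroup G := ⨅ p, (V p).comap (ev p)

theorem mem_PU {V : ∀ p, Subgroup (Gl p)} {x : G} : x ∈ PU V ↔ ∀ p, ev p x ∈ V p := by
  simp [PU]

theorem PU_mono {V V' : ∀ p, Subgroup (Gl p)} (h : ∀ p, V p ≤ V' p) : PU V ≤ PU V' :=
  fun _ hx => mem_PU.2 fun p => h p (mem_PU.1 hx p)

/-- the local principal level -/
def U1 (p : Pr) (m : ℕ) : Subgroup (Gl p) := Km ℤ_[p] ℚ_[p] m ⊔ Zl ℚ_[p]

/-- the principal level `N` (with the centre) -/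
def UN (N : ℕ) : Subgroup G := PU fun p => U1 p (N.factorization p)

/-- **the modular tower** -/
def TQ : Tw G0 G where
  j := jq.comp G0.subtype
  r := (GeneralLinearGroup.map (algebraMap ℚ ℝ)).subgroupComap GP
  Lev := {U | (∃ N, 0 < N ∧ UN N ≤ U) ∧ ∃ x, U ≤ cj x (UN 1)}

theorem Km_anti {O K : Type} [CommRing O] [IsDomain O] [IsDiscreteValuationRing O] [Field K]
    [Algebra O K] {m n : ℕ} (h : m ≤ n) : Km O K n ≤ Km O K m := by
  refine Subgroup.map_mono fun g hg => ?_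
  rw [MonoidHom.mem_ker] at hg ⊢
  ext i k
  have e := congrArg (fun A : GL (Fin 2) _ => Ideal.Quotient.factor
    (Ideal.pow_le_pow_right (I := IsLocalRing.maximalIdeal O) h) (A i k)) hg
  by_cases hi : i = k <;> simpa [Matrix.one_apply, hi] using e

theorem Km_zero {O K : Type} [CommRing O] [IsDomain O] [IsDiscreteValuationRing O] [Field K]
    [Algebra O K] : Km O K 0 = KK O K := by
  have : Subsingleton (O ⧸ IsLocalRing.maximalIdeal O ^ 0) := by
    rw [pow_zero, Ideal.one_eq_top]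
    infer_instance
  rw [Km, KK, MonoidHom.range_eq_map]
  congr 1
  exact eq_top_iff.2 fun g _ => Units.ext (Subsingleton.elim _ _)

theorem U1_anti (p : Pr) {m n : ℕ} (h : m ≤ n) : U1 p n ≤ U1 p m := sup_le_sup_right (Km_anti h) _

theorem U1_zero (p : Pr) : U1 p 0 = Kl p ⊔ Zl ℚ_[p] := by rw [U1, Km_zero]

theorem UN_anti {M N : ℕ} (hN : 0 < N) (h : M ∣ N) : UN N ≤ UN M :=
  PU_mono fun p => U1_anti p
    ((Nat.factorization_le_iff_dvd (Nat.pos_of_dvd_of_pos h hN).ne' hN.ne').2 h p)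

theorem mem_UN_one {x : G} : x ∈ UN 1 ↔ ∀ p, ev p x ∈ Kl p ⊔ Zl ℚ_[p] := by
  simp only [UN, mem_PU, Nat.factorization_one, Finsupp.coe_zero, Pi.zero_apply, U1_zero]

theorem UN_mem {N : ℕ} (h : 0 < N) : UN N ∈ TQ.Lev :=
  ⟨⟨N, h, le_rfl⟩, 1, fun x hx => mem_cj.2 (by simpa using UN_anti h (one_dvd N) hx)⟩

theorem mem_Km {p : Pr} {m : ℕ} {g : Gl p} : g ∈ Km ℤ_[p] ℚ_[p] m ↔
    g ∈ Kl p ∧ ∀ i k, ‖(g.val - 1) i k‖ ≤ (p : ℝ) ^ (-m : ℤ) := by
  have key : ∀ k : GL (Fin 2) ℤ_[p], GeneralLinearGroup.map (n := Fin 2) (Ideal.Quotient.mk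
      (IsLocalRing.maximalIdeal ℤ_[p] ^ m)) k = 1 ↔
      ∀ i j, ‖((gK ℚ_[p] k).val - 1) i j‖ ≤ (p : ℝ) ^ (-m : ℤ) := fun k => by
    have e : ∀ i j, ((gK ℚ_[p] k).val - 1) i j = ((k.val - 1) i j : ℤ_[p]) := fun i j => by
      by_cases h : i = j <;> simp [h]
    simp only [e, ← PadicInt.norm_def, PadicInt.norm_le_pow_iff_mem_span_pow,
      ← Ideal.span_singleton_pow, ← PadicInt.maximalIdeal_eq_span_p, ← Ideal.Quotient.eq_zero_iff_mem,
      Units.ext_iff, ← Matrix.ext_iff]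
    refine forall₂_congr fun i j => ?_
    rw [Matrix.sub_apply, map_sub, sub_eq_zero]
    by_cases h : i = j <;> simp [Matrix.one_apply, h]
  exact ⟨fun ⟨k, hk, e⟩ => ⟨⟨k, e⟩, e ▸ (key k).1 hk⟩, fun ⟨⟨k, e⟩, h⟩ =>
    ⟨k, (key k).2 (by rw [show gK ℚ_[p] k = g from e]; exact h), e⟩⟩

theorem scalar_of_mem {K : Type} [Field K] {z : GL (Fin 2) K} (h : z ∈ Zl K) :
    ∃ c : Kˣ, z = GeneralLinearGroup.scalar (Fin 2) c := by
  have h1 := congrArg (fun A : GL (Fin 2) K => A.val)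
    (Subgroup.mem_center_iff.1 h (GeneralLinearGroup.mkOfDetNeZero !![1, 1; 0, 1] (by simp)))
  have h2 := congrArg (fun A : GL (Fin 2) K => A.val)
    (Subgroup.mem_center_iff.1 h (GeneralLinearGroup.mkOfDetNeZero !![1, 0; 1, 1] (by simp)))
  have a := congrFun (congrFun h1 0) 0
  have b := congrFun (congrFun h1 0) 1
  have c := congrFun (congrFun h2 0) 0
  simp [Matrix.mul_apply, Fin.sum_univ_two] at a b c
  have d := z.det_ne_zero
  rw [Matrix.det_fin_two] at d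
  have e : z 0 0 ≠ 0 := fun e => d (by simp [e, c])
  refine ⟨Units.mk0 _ e, ?_⟩
  ext i k
  fin_cases i <;> fin_cases k <;> simp [a, c]
  rw [c] at b
  simpa using b

theorem iInf_U1 {p : Pr} {g : Gl p} (h : ∀ m, g ∈ U1 p m) : g ∈ Zl ℚ_[p] := by
  refine Subgroup.mem_center_iff.2 fun x => ?_
  have hp : (1 : ℝ) < p := by exact_mod_cast p.2.one_lt
  ext i k
  rw [← sub_eq_zero, ← norm_le_zero_iff]
  obtain ⟨k0, hk0, z0, hz0, e0⟩ := Subgroup.mem_sup_of_normal_right.1 (h 0)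
  obtain ⟨C, hC⟩ : ∃ C : ℝ, ∀ i k, ‖x i k‖ ≤ C := ⟨∑ i, ∑ k, ‖x i k‖, fun i k =>
    (Finset.single_le_sum (f := fun k => ‖x i k‖) (fun _ _ => norm_nonneg _)
      (Finset.mem_univ k)).trans (Finset.single_le_sum (f := fun i => ∑ k, ‖x i k‖)
      (fun _ _ => Finset.sum_nonneg fun _ _ => norm_nonneg _) (Finset.mem_univ i))⟩
  obtain ⟨D, hD⟩ : ∃ D : ℝ, ∀ i k, ‖g i k‖ ≤ D := ⟨∑ i, ∑ k, ‖g i k‖, fun i k =>
    (Finset.single_le_sum (f := fun k => ‖g i k‖) (fun _ _ => norm_nonneg _)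
      (Finset.mem_univ k)).trans (Finset.single_le_sum (f := fun i => ∑ k, ‖g i k‖)
      (fun _ _ => Finset.sum_nonneg fun _ _ => norm_nonneg _) (Finset.mem_univ i))⟩
  have C0 : 0 ≤ C := (norm_nonneg _).trans (hC 0 0)
  have D0 : 0 ≤ D := (norm_nonneg _).trans (hD 0 0)
  have key : ∀ m : ℕ, ‖(x * g) i k - (g * x) i k‖ ≤ 8 * C * D * ((p : ℝ)⁻¹) ^ m := fun m => by
    obtain ⟨u, hu, z, hz, e⟩ := Subgroup.mem_sup_of_normal_right.1 (h m)
    obtain ⟨c, rfl⟩ := scalar_of_mem hz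
    obtain ⟨h1, h2⟩ := mem_Km.1 hu
    have hc : ‖(c : ℚ_[p])‖ ≤ 2 * D := by
      have e1 : (c : ℚ_[p]) = (u⁻¹ * g : Gl p) 0 0 := by
        rw [← e, inv_mul_cancel_left]
        simp
      rw [e1, Units.val_mul, Matrix.mul_apply, Fin.sum_univ_two]
      refine (norm_add_le _ _).trans ?_
      rw [norm_mul, norm_mul, two_mul]
      exact add_le_add (mul_le_of_le_one_left (norm_nonneg _) ((mem_Kl.1 h1).2 _ _) |>.trans (hD _ _))
        (mul_le_of_le_one_left (norm_nonneg _) ((mem_Kl.1 h1).2 _ _) |>.trans (hD _ _))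
    have e2 : (x * g) i k - (g * x) i k =
        c * ((x.val * (u.val - 1)) i k - ((u.val - 1) * x.val) i k) := by
      rw [← e]
      simp [Matrix.mul_apply, Fin.sum_univ_two, Matrix.diagonal, Matrix.one_apply]
      fin_cases i <;> fin_cases k <;> simp <;> ring
    have h3 : ∀ i k, ‖(u.val - 1) i k‖ ≤ ((p : ℝ)⁻¹) ^ m := fun i k => by
      simpa using h2 i k
    have t0 : 0 ≤ ((p : ℝ)⁻¹) ^ m := by positivity
    have h4 : ∀ a b c d, ‖x.val a b * (u.val - 1) c d‖ ≤ C * ((p : ℝ)⁻¹) ^ m := fun a b c d => by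
      rw [norm_mul]
      exact mul_le_mul (hC _ _) (h3 _ _) (norm_nonneg _) C0
    have h5 : ‖(x.val * (u.val - 1)) i k - ((u.val - 1) * x.val) i k‖ ≤
        4 * (C * ((p : ℝ)⁻¹) ^ m) := by
      simp only [Matrix.mul_apply, Fin.sum_univ_two]
      have a1 := h4 i 0 0 k
      have a2 := h4 i 1 1 k
      have a3 := h4 0 k i 0
      have a4 := h4 1 k i 1
      rw [mul_comm (x.val _ _)] at a3 a4
      refine (norm_sub_le _ _).trans ?_
      linarith [norm_add_le (x.val i 0 * (u.val - 1) 0 k) (x.val i 1 * (u.val - 1) 1 k),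
        norm_add_le ((u.val - 1) i 0 * x.val 0 k) ((u.val - 1) i 1 * x.val 1 k)]
    rw [e2, norm_mul]
    calc _ ≤ 2 * D * (4 * (C * ((p : ℝ)⁻¹) ^ m)) :=
          mul_le_mul hc h5 (norm_nonneg _) (by positivity)
      _ = _ := by ring
  have lim := (tendsto_pow_atTop_nhds_zero_of_lt_one (r := (p : ℝ)⁻¹) (by positivity)
    (inv_lt_one_of_one_lt₀ hp)).const_mul (8 * C * D)
  rw [mul_zero] at lim
  exact ge_of_tendsto' lim key

theorem mem_Z {x : G} : x ∈ TQ.Z ↔ ∀ p : Pr, ev p x ∈ Zl ℚ_[p] := by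
  rw [Tw.Z, Subgroup.mem_sInf]
  refine ⟨fun h p => iInf_U1 fun m => ?_, fun h U ⟨⟨N, _, hN⟩, _⟩ =>
    hN (mem_PU.2 fun p => Subgroup.mem_sup_right (h p))⟩
  have := mem_PU.1 (h _ (UN_mem (pow_pos p.2.pos m))) p
  rwa [p.2.factorization_pow, Finsupp.single_eq_same] at this

theorem io_com (p : Pr) (g : Gl p) (x : G) (h : ev p x = 1) : Commute (io p g) x :=
  G_ext fun q => by
    rw [map_mul, map_mul]
    by_cases e : q = p
    · subst e
      rw [h, mul_one, one_mul]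
    · rw [ev_io_ne e, mul_one, one_mul]

theorem idx_of {Γ : Type} [Group Γ] {A B : Subgroup Γ} {S : Set Γ} (hS : S.Finite)
    (h : ∀ b ∈ B, ∃ s ∈ S, s⁻¹ * b ∈ A) : A.relIndex B ≠ 0 := by
  have := hS.to_subtype
  choose f h1 h2 using h
  refine Subgroup.index_ne_zero_iff_finite.2 (Finite.of_injective
    (fun c : B ⧸ A.subgroupOf B => (⟨f _ c.out.2, h1 _ _⟩ : S)) fun c d e => ?_)
  have e' : f _ c.out.2 = f _ d.out.2 := congrArg Subtype.val e
  have := mul_mem (inv_mem (h2 _ c.out.2)) (h2 _ d.out.2)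
  rw [e', _root_.mul_inv_rev, inv_inv, mul_assoc, mul_inv_cancel_left] at this
  rw [← c.out_eq', ← d.out_eq']
  exact QuotientGroup.eq.2 this

theorem of_idx {Γ : Type} [Group Γ] {A B : Subgroup Γ} (h : A.relIndex B ≠ 0) :
    ∃ S : Finset Γ, (∀ s ∈ S, s ∈ B) ∧ ∀ b ∈ B, ∃ s ∈ S, s⁻¹ * b ∈ A := by
  classical
  have := Subgroup.index_ne_zero_iff_finite.1 h
  have := Fintype.ofFinite (B ⧸ A.subgroupOf B)
  refine ⟨Finset.univ.image fun c : B ⧸ A.subgroupOf B => (c.out : Γ), fun s hs => ?_,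
    fun b hb => ⟨_, Finset.mem_image_of_mem _ (Finset.mem_univ
      ((⟨b, hb⟩ : B) : B ⧸ A.subgroupOf B)), ?_⟩⟩
  · obtain ⟨c, -, rfl⟩ := Finset.mem_image.1 hs
    exact c.out.2
  · exact (QuotientGroup.eq (s := A.subgroupOf B)).1
      (QuotientGroup.out_eq' ((⟨b, hb⟩ : B) : B ⧸ A.subgroupOf B))

theorem idx_cj {Γ : Type} [Group Γ] {A B : Subgroup Γ} (h : A.relIndex B ≠ 0) (x : Γ) :
    (cj x A).relIndex (cj x B) ≠ 0 := by
  obtain ⟨S, -, hS⟩ := of_idx h
  refine idx_of (S.finite_toSet.image fun s => x * s * x⁻¹) fun b hb => ?_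
  obtain ⟨s, hs, e⟩ := hS _ (mem_cj.1 hb)
  exact ⟨_, ⟨s, hs, rfl⟩, mem_cj.2 (by simpa [mul_assoc] using e)⟩

theorem gK_inj (p : Pr) : Function.Injective (gK (O := ℤ_[p]) ℚ_[p]) := fun _ _ e =>
  Units.ext (Matrix.map_injective Subtype.val_injective (congrArg Units.val e))

theorem U1_index (p : Pr) (m : ℕ) : (U1 p m).relIndex (Kl p ⊔ Zl ℚ_[p]) ≠ 0 := by
  have : Finite (ℤ_[p] ⧸ IsLocalRing.maximalIdeal ℤ_[p] ^ m) :=
    Ideal.finite_quotient_pow (IsNoetherian.noetherian _) m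
  have h : (Km ℤ_[p] ℚ_[p] m).relIndex (Kl p) ≠ 0 := by
    rw [Km, Kl, KK, MonoidHom.range_eq_map, Subgroup.relIndex_map_map_of_injective _ _ (gK_inj p),
      Subgroup.relIndex_top_right]
    exact Subgroup.FiniteIndex.index_ne_zero
  obtain ⟨S, -, hS⟩ := of_idx h
  refine idx_of S.finite_toSet fun b hb => ?_
  obtain ⟨k, hk, z, hz, rfl⟩ := Subgroup.mem_sup_of_normal_right.1 hb
  obtain ⟨s, hs, e⟩ := hS k hk
  exact ⟨s, hs, mul_assoc s⁻¹ k z ▸ Subgroup.mul_mem_sup e hz⟩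

theorem nrm_mul {p : Pr} {A B : Matrix (Fin 2) (Fin 2) ℚ_[p]} {a b : ℝ} (hA : ∀ i k, ‖A i k‖ ≤ a)
    (hB : ∀ i k, ‖B i k‖ ≤ b) (i k : Fin 2) : ‖(A * B) i k‖ ≤ a * b := by
  have h : ∀ j, ‖A i j * B j k‖ ≤ a * b := fun j => by
    rw [norm_mul]
    exact mul_le_mul (hA _ _) (hB _ _) (norm_nonneg _) ((norm_nonneg _).trans (hA i j))
  rw [Matrix.mul_apply, Fin.sum_univ_two]
  exact (Padic.nonarchimedean _ _).trans (max_le (h 0) (h 1))

theorem ex_bd {p : Pr} (A : Matrix (Fin 2) (Fin 2) ℚ_[p]) :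
    ∃ n : ℕ, ∀ i k, ‖A i k‖ ≤ (p : ℝ) ^ (n : ℤ) := by
  have hp : (1 : ℝ) < p := by exact_mod_cast p.2.one_lt
  obtain ⟨n, hn⟩ := pow_unbounded_of_one_lt (∑ i, ∑ k, ‖A i k‖) hp
  refine ⟨n, fun i k => ?_⟩
  rw [zpow_natCast]
  exact ((Finset.single_le_sum (f := fun k => ‖A i k‖) (fun _ _ => norm_nonneg _)
      (Finset.mem_univ k)).trans (Finset.single_le_sum (f := fun i => ∑ k, ‖A i k‖)
      (fun _ _ => Finset.sum_nonneg fun _ _ => norm_nonneg _) (Finset.mem_univ i))).trans hn.le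

theorem nrm_one {p : Pr} {A : Matrix (Fin 2) (Fin 2) ℚ_[p]} (h : ∀ i k, ‖(A - 1) i k‖ ≤ 1)
    (i k : Fin 2) : ‖A i k‖ ≤ 1 := by
  rw [show A i k = (A - 1) i k + (1 : Matrix (Fin 2) (Fin 2) ℚ_[p]) i k by simp]
  refine (Padic.nonarchimedean _ _).trans (max_le (h i k) ?_)
  by_cases e : i = k <;> simp [Matrix.one_apply, e]

theorem ex_cj {p : Pr} (g : Gl p) (n : ℕ) : ∃ m, cj g (U1 p m) ≤ U1 p n := by
  have hp : (1 : ℝ) ≤ p := by exact_mod_cast p.2.one_lt.le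
  have p0 : (p : ℝ) ≠ 0 := by positivity
  obtain ⟨a, ha⟩ := ex_bd g.val
  obtain ⟨b, hb⟩ := ex_bd (g⁻¹).val
  have key : ∀ u ∈ Km ℤ_[p] ℚ_[p] (a + b + n), ∀ i k,
      ‖((g * u * g⁻¹).val - 1) i k‖ ≤ (p : ℝ) ^ (-n : ℤ) := fun u hu i k => by
    have e : (g * u * g⁻¹).val - 1 = g.val * (u.val - 1) * (g⁻¹).val := by
      rw [mul_sub, sub_mul, mul_one, Units.mul_inv, Units.val_mul, Units.val_mul]
    rw [e]
    refine (nrm_mul (nrm_mul ha (mem_Km.1 hu).2) hb i k).trans (le_of_eq ?_)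
    rw [← zpow_add₀ p0, ← zpow_add₀ p0]
    congr 1
    push_cast
    ring
  have le : (p : ℝ) ^ (-n : ℤ) ≤ 1 := zpow_le_one_of_nonpos₀ hp (by omega)
  refine ⟨a + b + n, fun y hy => ?_⟩
  obtain ⟨u, hu, z, hz, e⟩ := Subgroup.mem_sup_of_normal_right.1 (mem_cj.1 hy)
  have e' : y = g * u * g⁻¹ * z := by
    rw [mul_assoc (g * u), Subgroup.mem_center_iff.1 hz, ← mul_assoc, mul_assoc g, e]
    group
  rw [e']
  refine Subgroup.mul_mem_sup (mem_Km.2 ⟨mem_Kl.2 ⟨nrm_one fun i k => (key u hu i k).trans le,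
    nrm_one fun i k => ?_⟩, key u hu⟩) hz
  rw [show (g * u * g⁻¹)⁻¹ = g * u⁻¹ * g⁻¹ by group]
  exact (key _ (inv_mem hu) i k).trans le

theorem cj_cj {Γ : Type} [Group Γ] (x y : Γ) (U : Subgroup Γ) : cj x (cj y U) = cj (x * y) U := by
  ext u
  simp only [mem_cj, _root_.mul_inv_rev, mul_assoc]

theorem cj_mono {Γ : Type} [Group Γ] (x : Γ) {U U' : Subgroup Γ} (h : U ≤ U') :
    cj x U ≤ cj x U' := fun _ hu => mem_cj.2 (h (mem_cj.1 hu))

theorem cj_one {Γ : Type} [Group Γ] (U : Subgroup Γ) : cj 1 U = U := by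
  ext u
  simp [mem_cj]

theorem cj_self {Γ : Type} [Group Γ] {U : Subgroup Γ} {x : Γ} (h : x ∈ U) : cj x U = U := by
  ext u
  rw [mem_cj, U.mul_mem_cancel_right h, U.mul_mem_cancel_left (inv_mem h)]

theorem idx_loc {p : Pr} (g : Gl p) (n : ℕ) :
    (U1 p n).relIndex (cj g (Kl p ⊔ Zl ℚ_[p])) ≠ 0 := by
  obtain ⟨m, hm⟩ := ex_cj g n
  exact fun e => idx_cj (U1_index p m) g (Subgroup.relIndex_eq_zero_of_le_left hm e)

/-- **the place `p`** -/
def lc (p : Pr) : TQ.Lc ℤ_[p] ℚ_[p] where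
  fr := inferInstance
  fin := inferInstance
  cpl := inferInstance
  ch := inferInstance
  ϖ := Units.mk0 p (Nat.cast_ne_zero.2 p.2.ne_zero)
  irr := ⟨p, PadicInt.irreducible_p, rfl⟩
  ι := io p
  π := ev p
  πι := ev_io p
  com := io_com p
  cen g hg := mem_Z.2 fun q => by
    by_cases e : q = p
    · subst e
      rwa [ev_io]
    · rw [ev_io_ne e]
      exact one_mem _
  cen' z hz := mem_Z.1 hz p
  op := by
    rintro U ⟨⟨N, -, hN⟩, -⟩
    refine ⟨N.factorization p, fun g hg => hN (mem_PU.2 fun q => ?_)⟩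
    by_cases e : q = p
    · subst e
      rw [ev_io]
      exact Subgroup.mem_sup_left hg
    · rw [ev_io_ne e]
      exact one_mem _
  cpt := by
    rintro U ⟨-, x, hx⟩ e
    refine idx_loc (ev p x) 0 (Subgroup.relIndex_eq_zero_of_le_right ?_ (U1_zero p ▸ e))
    rintro _ ⟨u, hu, rfl⟩
    refine mem_cj.2 ?_
    simpa only [map_mul, map_inv] using mem_UN_one.1 (mem_cj.1 (hx hu)) p
  lev := by
    rintro U ⟨⟨N, h0, hN⟩, x, hx⟩ m
    refine ⟨⟨N * p ^ m, Nat.mul_pos h0 (pow_pos p.2.pos m), fun u hu => ?_⟩,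
      x * (io p (ev p x))⁻¹, sup_le (sup_le (fun u hu => ?_) fun u hu => ?_) ?_⟩
    · have h1 : ev p u ∈ U1 p m := U1_anti p (by
        rw [Nat.factorization_mul h0.ne' (pow_pos p.2.pos m).ne', p.2.factorization_pow]
        simp) (mem_PU.1 hu p)
      obtain ⟨k, hk, z, hz, e⟩ := Subgroup.mem_sup_of_normal_right.1 h1
      have h2 : u * (io p (ev p u))⁻¹ ∈ UN N := mem_PU.2 fun q => by
        rw [map_mul, map_inv]
        by_cases e : q = p
        · subst e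
          rw [ev_io, mul_inv_cancel]
          exact one_mem _
        · rw [ev_io_ne e, inv_one, mul_one]
          exact mem_PU.1 (UN_anti (Nat.mul_pos h0 (pow_pos p.2.pos m)) (dvd_mul_right _ _) hu) q
      have h3 : u = u * (io p (ev p u))⁻¹ * io p z * io p k := by
        rw [mul_assoc, mul_assoc, ← map_mul, ← Subgroup.mem_center_iff.1 hz, e, inv_mul_cancel,
          mul_one]
      rw [h3]
      refine Subgroup.mul_mem_sup (Subgroup.mul_mem_sup ⟨hN h2, ?_⟩ (mem_Z.2 fun q => ?_))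
        ⟨k, hk, rfl⟩
      · show ev p _ = 1
        rw [map_mul, map_inv, ev_io, mul_inv_cancel]
      · by_cases e : q = p
        · subst e
          rwa [ev_io]
        · rw [ev_io_ne e]
          exact one_mem _
    · refine mem_cj.2 (mem_UN_one.2 fun q => ?_)
      by_cases e : q = p
      · subst e
        have : ev q u = 1 := hu.2
        simp only [map_mul, map_inv, ev_io, this, mul_inv_cancel, inv_one, mul_one]
        exact one_mem _
      · have := mem_UN_one.1 (mem_cj.1 (hx hu.1)) q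
        simpa only [map_mul, map_inv, ev_io_ne e, inv_one, mul_one] using this
    · refine mem_cj.2 (mem_UN_one.2 fun q => ?_)
      rw [map_mul, map_mul, map_inv, mul_assoc, ← Subgroup.mem_center_iff.1 (mem_Z.1 hu q),
        inv_mul_cancel_left]
      exact Subgroup.mem_sup_right (mem_Z.1 hu q)
    · rintro _ ⟨k, hk, rfl⟩
      refine mem_cj.2 (mem_UN_one.2 fun q => ?_)
      by_cases e : q = p
      · subst e
        simp only [map_mul, map_inv, ev_io, mul_inv_cancel, inv_one, mul_one, one_mul]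
        exact Subgroup.mem_sup_left (mem_Km.1 hk).1
      · simp only [map_mul, map_inv, ev_io_ne e, inv_one, mul_one, inv_mul_cancel]
        exact one_mem _

theorem lc_ι (p : Pr) : (lc p).ι = io p := rfl
theorem lc_π (p : Pr) : (lc p).π = ev p := rfl

theorem lc_ne {p q : Pr} (h : p ≠ q) : (lc p).Ne (lc q) :=
  ⟨fun g => ev_io_ne h g, fun g => ev_io_ne h.symm g⟩

theorem qq_eq (p : Pr) : qq ℤ_[p] = p := by
  rw [qq, Nat.card_congr (PadicInt.residueField (p := p)).toEquiv, Nat.card_zmod]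

/-- the filter of the primes `≡ 1` modulo all `N` -/
def FQ : Filter Pr := ⨅ N : ℕ+, Filter.principal {l : Pr | (N : ℕ) ∣ l.1 - 1}

/-- the auxiliary places -/
def AQ : TQ.Ax := ⟨Pr, id, lc, FQ⟩

/-- the local system of weight `2 m + 2` -/
def rw (R : Type) [CommRing R] [Algebra ℚ R] (m : ℕ) : Representation R G0 (Vw R Unit m) :=
  wt m fun _ => (GeneralLinearGroup.map (algebraMap ℚ R)).comp G0.subtype

/-- the data of an automorphic system -/
structure AdQ (m : ℕ) (S : Finset ℕ) (L : (l : ℕ) → Option (GL (Fin 2) (ZMod l) → Qb))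
    (a : ℕ → Qb) (V : ∀ p, Subgroup (Gl p)) (z : G0 → G → Vw Qb Unit m) : Prop where
  zl : ∀ p : Pr, Zl ℚ_[p] ≤ V p
  lev : PU V ∈ TQ.Lev
  neat : TQ.Neat (PU V)
  coc : z ∈ TQ.Z1 (rw Qb m) (PU V)
  ne : z ∉ TQ.B1 (rw Qb m) (PU V)
  sph : ∀ l : Pr, l.1 ∉ S → (lc l).At (Kl l) (PU V)
  eig : ∀ᶠ l : Pr in Filter.cofinite,
    TQ.Eig (rw Qb m) (PU V) z (hk ((lc l).To (PU V)) (PU V)) (a l)
  ty : ∀ (l : Pr) c, l.1 ∈ S → L l = some c → (lc l).HasTy (rw Qb m) (PU V) z c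

/-- **automorphic systems over `ℚ`** -/
def AutQ (m : ℕ) (S : Finset ℕ) (L : (l : ℕ) → Option (GL (Fin 2) (ZMod l) → Qb))
    (a : ℕ → Qb) : Prop := ∃ V z, AdQ m S L a V z

end Vale.Agent.P022K.QT
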