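import Vale.Agent.P022K.QT.Ht
import Vale.Agent.P022K.QT.ThM

/-!
# P022K, block QT: the Galois side of the modular tower
-/

set_option autoImplicit false

namespace Vale.Agent.P022K.QT

open Vale.Agent.P027M

theorem thm0 (X : M.Mdl) : THM X :=
  have h := J.j_min X
  thm_of h.galx (M.x_shim X) M.exp M.cf2 h.grp h.cffs Th.kbc0

/-- **GALQ** -/
theorem galq : GALQ := galq_thm thm0

end Vale.Agent.P022K.QT
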