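import Vale.Agent.P022K.QT.St

/-!
# P022K, block QT: rows MONO and CONG
-/

set_option autoImplicit false

namespace Vale.Agent.P022K.QT

open Vale.Agent.P022K.Sh

theorem monq (A : CH.Thy) (h : A.AutQ = AutQ) : A.MONO := by
  rintro m S L a p - hA
  rw [h] at hA ⊢
  obtain ⟨V, z, d⟩ := hA
  refine ⟨V, z, d.zl, d.lev, d.neat, d.coc, d.ne,
    fun l hl => d.sph l fun e => hl (Finset.mem_of_mem_erase e), d.eig, fun l c hl e => ?_⟩
  have ne : l.1 ≠ p := fun e' => by
    subst e'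
    rw [Function.update_self] at e
    exact absurd e (by simp)
  rw [Function.update_of_ne ne] at e
  exact d.ty l c (Finset.mem_erase.2 ⟨ne, hl⟩) e

theorem conq (A : CH.Thy) (h : A.AutQ = AutQ) : A.CONG := by
  rintro m S L L' a e hA
  rw [h] at hA ⊢
  obtain ⟨V, z, d⟩ := hA
  exact ⟨V, z, d.zl, d.lev, d.neat, d.coc, d.ne, d.sph, d.eig,
    fun l c hl e' => d.ty l c hl ((e _ hl).trans e')⟩

theorem clbq_of (clb : ∀ m a, CH.NE {3} a → CH.ClW m {2, 3} a → AutQ m {2, 3} CH.Lv.non a) :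
    CLBQ := fun A h => ⟨fun m a h1 h2 => h ▸ clb m a h1 h2, monq A h, conq A h⟩

end Vale.Agent.P022K.QT
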