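import Vale.Agent.P022K.QT.ClU
import Vale.Agent.P022K.QT.Mono

/-!
# P022K, block QT, row CLB: classical eigenforms give eigenclasses on the modular tower
-/

set_option autoImplicit false

open UpperHalfPlane CongruenceSubgroup
open scoped MatrixGroups ModularForm Manifold

noncomputable section

namespace Vale.Agent.P022K.QT.Cl

open Vale.Agent.P022 Vale.Agent.P022K.Sh Matrix

variable {m N : ℕ} [NeZero N] {f : ℍ → ℂ}

theorem syd_map {R S : Type} [CommRing R] [CommRing S] (φ : R →+* S) (g : GL (Fin 2) R) :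
    syd m (GeneralLinearGroup.map φ g) = (syd m g).map φ := by
  ext j k
  change _ * sy (2 * m) (g.val.map φ) j k = φ (_ * sy (2 * m) g.val j k)
  rw [sy_map, map_mul, GeneralLinearGroup.map_det, ← map_inv, ← map_pow]
  rfl

theorem rw_apply (R : Type) [CommRing R] [Algebra ℚ R] (γ : G0) (v : Vw R Unit m)
    (k : Unit → Fin (2 * m + 1)) :
    rw R m γ v k = ∑ j, algebraMap ℚ R (syd m γ.1 (k ()) j) * v fun _ => j := by
  refine (Fintype.sum_equiv (Equiv.funUnique Unit _) _ _ fun j => ?_ :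
    ∑ j, (∏ i : Unit, syd m (GeneralLinearGroup.map (algebraMap ℚ R) γ.1) (k i) (j i)) * v j = _)
  rw [Fintype.prod_unique, syd_map]
  rfl

theorem cx_rr (γ : G0) : ((rr γ).val.det : ℂ)⁻¹ ^ m • sy (2 * m) (cx (rr γ)) =
    (syd m γ.1).map (algebraMap ℚ ℂ) := by
  have : cx (rr γ) = γ.1.val.map (algebraMap ℚ ℂ) := by
    ext i k
    simp [r_entry]
  rw [this, sy_map, rr_det]
  ext j k
  change _ = algebraMap ℚ ℂ (_ * sy (2 * m) γ.1.val j k)
  simp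

theorem pf_sl {g : ℍ → ℂ} (hg : MDiff g) (γ : G0) (τ : ℍ) (k : Fin (2 * m + 1)) :
    pf (2 * m) g (rr γ • τ) k = pf (2 * m) g (rr γ • I) k +
      ∑ j, algebraMap ℚ ℂ (syd m γ.1 k j) * pf (2 * m) (sl m g γ) τ j := by
  have d0 : ((rr γ).val.det : ℂ) ≠ 0 := by exact_mod_cast (rr_pos γ).ne'
  have := pf_act (2 * m) hg (sl_md (m := m) hg γ) (rr γ) (rr_pos γ)
    (c := ((rr γ).val.det : ℂ)⁻¹ ^ m) (fun σ => by
      have := denom_ne_zero (rr γ) σ
      rw [sl_apply, inv_pow]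
      field_simp
      ring) τ
  rw [cx_rr] at this
  exact congrFun this k

variable (φ : Qb →+* ℂ)

/-- `Qb`-linear forms on `ℂ` -/
def Lin (l : ℂ →+ Qb) : Prop := ∀ a y, l (φ a * y) = a * l y

variable {φ} {l : ℂ →+ Qb}

theorem Lin.rat (h : Lin φ l) (q : ℚ) (y : ℂ) :
    l (algebraMap ℚ ℂ q * y) = algebraMap ℚ Qb q * l y := by
  rw [← h, eq_ratCast, eq_ratCast, map_ratCast]

/-- the cocycle of the periods -/
def zz (m N : ℕ) [NeZero N] (f : ℍ → ℂ) (l : ℂ →+ Qb) (γ : G0) (x : G) : Vw Qb Unit m :=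
  fun k => l (pf (2 * m) (om m N f x) (rr γ • I) (k ()))

theorem zz_mem (hm : MDiff f) (hf : I0 m N f) (h : Lin φ l) {U : Subgroup G} (le : U ≤ UU N 1) :
    zz m N f l ∈ TQ.Z1 (rw Qb m) U := by
  refine ⟨fun γ x u hu => ?_, fun γ δ => ?_, fun γ hγ => ?_⟩
  · funext k
    rw [zz, zz, hf.inv x u (le hu)]
  · funext x k
    have e : rr (γ * δ) = rr γ * rr δ := congrArg Subtype.val (map_mul TQ.r γ δ)
    simp only [Pi.add_apply, Tw.lt, rw_apply, zz, e, mul_smul, hf.lt]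
    rw [pf_sl (om_md hm x), map_add, map_sum]
    simp only [h.rat]
  · funext x k
    rw [zz, Z0_fix hγ, pf_I _ (om_md hm x)]
    exact map_zero l

theorem zz_eig (hm : MDiff f) (hf : I0 m N f) (h : Lin φ l) {M : ℕ} (hM : 0 < M) {p : Pr}
    (hp : ¬ (p : ℕ) ∣ N) (hp' : ¬ (p : ℕ) ∣ M) {c : Qb}
    (hT : ∑ j : Fin p, sl m f (tq 1 j p (by simpa using p.2.pos)) +
      sl m f (tq p 0 1 (by simpa using p.2.pos)) = φ c • f) :
    TQ.Eig (rw Qb m) (UU N M) (zz m N f l) (hk ((lc p).To (UU N M)) (UU N M)) c := by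
  let _ := Fintype.ofFinite (IsLocalRing.ResidueField ℤ_[p])
  have r := (at_UU hp hp').rep_To (UU_mem hM)
  suffices e : (fun γ => hk ((lc p).To (UU N M)) (UU N M) (zz m N f l γ)) = c • zz m N f l by
    rw [Tw.Eig, e, sub_self]
    exact zero_mem _
  funext γ x k
  rw [r.hk ((zz_mem hm hf h (UU_le hM)).1 γ)]
  have := congrArg l (congrFun (pf_lin (2 * m) Finset.univ (fun i => om_md hm _) (om_md hm x)
    (hf.hk hp hT x) (rr γ • I)) (k ()))
  rw [Finset.sum_apply, map_sum, Pi.smul_apply, smul_eq_mul, h] at this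
  rw [Finset.sum_apply]
  exact this

theorem zz_ne (φ : Qb →+* ℂ) (hm : MDiff f) (hf : I0 m N f)
    (hb : ∀ δ : SL(2, ℤ), IsBoundedAtImInfty (f ∣[((2 * m + 2 : ℕ) : ℤ)] δ)) (h0 : f ≠ 0)
    {U : Subgroup G} (hU : U ∈ TQ.Lev) (le : U ≤ UU N 1) :
    ∃ l, Lin φ l ∧ zz m N f l ∉ TQ.B1 (rw Qb m) U := by
  by_contra! hc
  let Γ := U.comap (TQ.j.comp iZ)
  have : Γ.FiniteIndex := by
    obtain ⟨⟨M, hM, h⟩, -⟩ := hU
    have : NeZero M := ⟨hM.ne'⟩
    exact Subgroup.finiteIndex_of_le (H := Gamma M) fun g hg => h (KN_le M ((j_KN hM).2 hg))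
  obtain ⟨v, hv⟩ := desc φ (ι := Γ × Fin (2 * m + 1))
    (fun i j => algebraMap ℚ Qb ((syd m (iZ i.1).1 - 1) i.2 j))
    (fun i => pf (2 * m) f (i.1.1 • I) i.2) fun l hl => by
      obtain ⟨F, h1, h2⟩ := hc l hl
      refine ⟨fun j => F 1 fun _ => j, fun i => ?_⟩
      have := congrFun (congrFun (h2 (iZ i.1)) 1) fun _ => i.2
      have e : F ((TQ.j (iZ i.1))⁻¹ * 1) = F 1 := by
        simpa using h1 1 _ (inv_mem i.1.2)
      rw [zz, hf.one, Pi.sub_apply, Pi.sub_apply, Tw.lt, e, rw_apply] at this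
      rw [← act]
      refine this.trans ?_
      simp [sub_mul, Matrix.one_apply, apply_ite (Rat.cast : ℚ → Qb)]
  have ew : ((2 * m + 2 : ℕ) : ℤ) = ((2 * m : ℕ) : ℤ) + 2 := rfl
  refine h0 (inj Γ (w := 2 * m) hm (ew ▸ hb) (fun g hg => ?_) v fun g hg => funext fun k => ?_)
  · rw [← ew, ← sl_iZ]
    exact hf.sl (le hg)
  · have e := cx_rr (m := m) (iZ g)
    rw [rr_det, show (iZ g).1.val.det = 1 from congrArg Units.val (det_iZ g), rr, r_iZ] at e
    simp only [Rat.cast_one, Complex.ofReal_one, inv_one, one_pow, one_smul] at e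
    refine (hv (⟨g, hg⟩, k)).trans ?_
    change _ = ∑ j, sy (2 * m) (cx (SpecialLinearGroup.mapGL ℝ g)) k j * v j - v k
    simp [e, sub_mul, Matrix.one_apply, apply_ite (Rat.cast : ℚ → ℂ)]

/-! ## classical forms -/

theorem i0_of {S : Finset ℕ} (F : St.M N (2 * m + 2))
    (h : ∀ l : St.Pr N, l.1 ∉ S → St.dia (2 * m + 2) l F = F) : I0 m N F.fn := fun g hg => by
  have hd : (g 0 0 : ZMod N) * g 1 1 = 1 := by
    have := congrArg (Int.cast : ℤ → ZMod N) g.det_coe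
    rw [Matrix.det_fin_two] at this
    simpa [Gamma0_mem.1 hg] using this
  obtain ⟨l, h1, hl, e⟩ := Nat.forall_exists_prime_gt_and_eq_mod (IsUnit.of_mul_eq_one_right _ hd)
    (S.sup id + 2 * N)
  let L : St.Pr N := ⟨l, hl, fun d => by
    have := Nat.le_of_dvd (by simpa using NeZero.pos N) d
    omega⟩
  have h2 : F.fn ∣[((2 * m + 2 : ℕ) : ℤ)] St.gam L = F.fn := congrArg St.M.fn (h L fun hs => by
    have : l ≤ S.sup id := Finset.le_sup (f := id) hs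
    omega)
  have h3 : g * (St.gam L)⁻¹ ∈ Gamma1 N := by
    have := congrArg (Int.cast : ℤ → ZMod N) (St.gam L).det_coe
    rw [Matrix.det_fin_two] at this
    have e' : (g * (St.gam L)⁻¹).1 = g.1 * adjugate (St.gam L).1 := rfl
    rw [Gamma1_mem, e', Matrix.adjugate_fin_two]
    simp [St.gam, L, e] at this
    simp [St.gam, L, e, Matrix.mul_apply, Fin.sum_univ_two, Gamma0_mem.1 hg, hd,
      (mul_comm _ _).trans this]
  have h4 : F.fn ∣[((2 * m + 2 : ℕ) : ℤ)] (g * (St.gam L)⁻¹) = F.fn :=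
    F.slash_action_eq' _ ⟨_, h3, rfl⟩
  rw [← inv_mul_cancel_right g (St.gam L), SlashAction.slash_mul, h4, h2]

theorem hk_of (F : St.M N (2 * m + 2)) (p : Pr) (hp : ¬ (p : ℕ) ∣ 2 * N) {c : Qb}
    (hT : St.hecke (2 * m + 2) ⟨p, p.2, hp⟩ F = φ ((p.1 : Qb) ^ m * c) • F)
    (hD : St.dia (2 * m + 2) ⟨p, p.2, hp⟩ F = F) :
    ∑ j : Fin p, sl m F.fn (tq 1 j p (by simpa using p.2.pos)) +
      sl m F.fn (tq p 0 1 (by simpa using p.2.pos)) = φ c • F.fn := by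
  have h1 : St.heckeFun (2 * m + 2) ⟨p, p.2, hp⟩ F.fn = φ ((p.1 : Qb) ^ m * c) • F.fn :=
    congrArg St.M.fn hT
  have h2 : St.diaFun (2 * m + 2) ⟨p, p.2, hp⟩ F.fn = F.fn := congrArg St.M.fn hD
  have e1 : ∀ j : ℕ, rr (tq 1 j p (by simpa using p.2.pos)) = St.up (N := N) ⟨p, p.2, hp⟩ j :=
    fun j => by
    ext i k
    fin_cases i <;> fin_cases k <;> simp [r_entry, tq_val, St.up]
  have e2 : rr (tq p 0 1 (by simpa using p.2.pos)) = St.dn (N := N) ⟨p, p.2, hp⟩ := by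
    ext i k
    fin_cases i <;> fin_cases k <;> simp [r_entry, tq_val, St.dn]
  have p0 : (p.1 : ℂ) ≠ 0 := Nat.cast_ne_zero.2 p.2.ne_zero
  rw [St.heckeFun, h2] at h1
  simp only [sl, rr_det, tq_val, Matrix.det_fin_two_of, Nat.cast_one, one_mul, mul_one,
    mul_zero, sub_zero, Rat.cast_natCast, Complex.ofReal_natCast]
  simp only [e1, e2, ← Finset.smul_sum, ← smul_add, h1, smul_smul, map_mul, map_pow, map_natCast]
  rw [inv_pow, inv_mul_cancel_left₀ (pow_ne_zero _ p0)]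

end Cl

open Vale.Agent.P022 Vale.Agent.P022K.Sh Cl

theorem clq (m : ℕ) (S : Finset ℕ) (a : ℕ → Qb) (h2 : 2 ∈ S) (h : CH.ClW m S a) :
    AutQ m S CH.Lv.non a := by
  obtain ⟨N, _, F, φ, h0, hN, h⟩ := h
  have hf := i0_of F fun l hl => (h l hl).2
  have hm : MDiff F.fn := F.holo'
  have h4 : 0 < 4 := by norm_num
  obtain ⟨l, hl, hne⟩ := zz_ne φ hm hf (fun δ => F.bdd_at_cusps' (c := (δ : GL (Fin 2) ℝ) •
    OnePoint.infty) (by
      rw [Subgroup.IsArithmetic.isCusp_iff_isCusp_SL2Z]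
      exact isCusp_SL2Z_iff'.2 ⟨δ, rfl⟩) _ rfl) (fun e => h0 (DFunLike.coe_injective
        (F := ModularForm _ _) e)) (UU_mem h4) (UU_le h4)
  have n1 : ∀ p : Pr, p.1 ∉ S → ¬ (p : ℕ) ∣ N := fun p hp d => hp (hN _ p.2 d)
  have n2 : ∀ p : Pr, p.1 ∉ S → ¬ (p : ℕ) ∣ 2 := fun p hp d =>
    hp ((Nat.prime_dvd_prime_iff_eq p.2 Nat.prime_two).1 d ▸ h2)
  have n4 : ∀ p : Pr, p.1 ∉ S → ¬ (p : ℕ) ∣ 4 := fun p hp d =>
    n2 p hp (p.2.dvd_of_dvd_pow (n := 2) d)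
  refine ⟨VV N 4, zz m N F.fn l, Zl_le, UU_mem h4, fun x γ hγ => neq (N := 4) (by norm_num) x γ
    (TQ.mem_Gam.2 (mem_UU.1 (TQ.mem_Gam.1 hγ)).1), zz_mem hm hf hl (UU_le h4), hne,
    fun p hp => at_UU (n1 p hp) (n4 p hp), ?_, fun _ _ _ e => by cases e⟩
  filter_upwards [(S.finite_toSet.preimage Subtype.val_injective.injOn).compl_mem_cofinite] with p hp
  have d : ¬ (p : ℕ) ∣ 2 * N := fun d => (p.2.dvd_mul.1 d).elim (n2 p hp) (n1 p hp)
  exact zz_eig hm hf hl h4 (n1 p hp) (n4 p hp) (hk_of F p d (h ⟨p, p.2, d⟩ hp).1 (h ⟨p, p.2, d⟩ hp).2)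

/-- **CLB** -/
theorem clb (m : ℕ) (a : ℕ → Qb) (_ : CH.NE {3} a) (h : CH.ClW m {2, 3} a) :
    AutQ m {2, 3} CH.Lv.non a := clq m _ a (by simp) h

theorem clbq : CLBQ := clbq_of clb

end Vale.Agent.P022K.QT
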