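import Vale.Agent.P022K.QT.St
import Vale.Agent.P022K.F0.Galh

/-!
# P022K, block QT: Kummer functions of classes, formal properties of `th` (helper50)
-/

set_option autoImplicit false

open scoped MatrixGroups

noncomputable section

namespace Vale.Agent.P022K.Sh

open Vale.Agent.P022 Vale.Agent.P022.H218.L3

variable {G0 G : Type} [Group G0] [Group G]

theorem en_up' {n N m : ℕ} (hn : 0 < n) (hm : 0 < m) (hN : N = m * n) (l : ZMod n →+ ZMod N)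
    (h : l 1 = m) (t : ZMod n) : en N (l t) = en n t := by
  have N0 : 0 < N := hN ▸ Nat.mul_pos hm hn
  have : NeZero n := ⟨hn.ne'⟩
  have : NeZero N := ⟨N0.ne'⟩
  have e : t = t.val • (1 : ZMod n) := by simp
  rw [e, map_nsmul, en_nsmul N0, en_nsmul hn, h, en_eq, en_eq, ← Nat.cast_one (R := ZMod n),
    ZMod.toCircle_natCast, ZMod.toCircle_natCast, hN]
  have : (m : ℂ) ≠ 0 := Nat.cast_ne_zero.2 hm.ne'
  congr 2
  push_cast
  field_simp

namespace Tw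

variable {T : Tw G0 G} {U U' : Subgroup G} {Q : Set G} {n : ℕ} {h h' φ φ' ψ : G → Mer}
  {z : G0 → G → ZMod n} {a a' b : T.Hn n U} {θ : (G → Mer) → G → Mer}

/-- gluing from one point of each component -/
theorem ex_loc {c : G0 → G → ℂ} (c0 : ∀ γ x, c γ x ≠ 0) (cU : ∀ γ, Inv U (c γ))
    (cm : ∀ γ δ x, c (γ * δ) x = c γ x * c δ ((T.j γ)⁻¹ * x)) {P : G → Mer → Prop}
    (hf : ∀ x, ∃ x', T.Rel U x x' ∧ ∃ f, P x' f ∧
      ∀ γ ∈ T.Gam U x', T.act γ f = algebraMap ℂ Mer (c γ x') * f) :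
    ∃ h, T.Sec U c h ∧ ∀ x, ∃ x', T.Rel U x x' ∧ P x' (h x') := by
  choose p r f hP hf using hf
  choose H h1 h2 _ using fun x => ex_one c0 cU cm (p x) (hf x)
  refine ⟨fun y => H (T.rp U y) y, ⟨fun y u hu => ?_, fun γ y => ?_⟩,
    fun x => ⟨p (T.rp U x), (rel_rp x).trans (r _), ?_⟩⟩
  · beta_reduce
    rw [← rp_eq (rel_right y hu), (h1 _).1 y u hu]
  · beta_reduce
    rw [← rp_eq (rel_left γ y), (h1 _).2]
  · beta_reduce
    rw [← rp_eq ((rel_rp x).trans (r _)), h2]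
    exact hP _

theorem ex_RU_loc {P : G → Mer → Prop}
    (hf : ∀ x, ∃ x', T.Rel U x x' ∧ ∃ f ∈ T.KF (T.Gam U x'), P x' f) :
    ∃ ψ ∈ T.RU U, ∀ x, ∃ x', T.Rel U x x' ∧ P x' (ψ x') := by
  obtain ⟨h, h1, h2⟩ := ex_loc (T := T) (U := U) (c := fun _ _ => 1) (fun _ _ => one_ne_zero)
    (fun _ _ _ _ => rfl) (fun _ _ _ => (mul_one _).symm) (P := P) fun x =>
      (hf x).imp fun x' e => ⟨e.1, e.2.imp fun f k => ⟨k.2, fun γ hγ => by
        rw [T.mem_KF.1 k.1 γ hγ, map_one, one_mul]⟩⟩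
  exact ⟨h, sec_one.1 h1, h2⟩

theorem Kum.val (k : T.Kum n U h z) (γ : G0) (x : G) {u : G} (hu : u ∈ U) :
    eM n (z γ (T.j γ * x)) * h (T.j γ * x * u) = T.act γ (h x) := by
  rw [k.2.1 _ u hu, ← k.eq, inv_mul_cancel_left]

theorem Kum.gam (k : T.Kum n U h z) {γ : G0} {x : G} (hγ : γ ∈ T.Gam U x) :
    T.act γ (h x) = eM n (z γ x) * h x := by
  rw [← k.eq, ← k.2.1 x _ (inv_mem (T.mem_Gam.1 hγ))]
  congr 2
  group

theorem Kum.zero_iff (hn : 0 < n) (k : T.Kum n U h z) {γ : G0} {x : G} (hγ : γ ∈ T.Gam U x) :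
    z γ x = 0 ↔ T.act γ (h x) = h x := by
  rw [k.gam hγ]
  refine ⟨fun e => by rw [e, eM_zero, one_mul], fun e => eM_inj hn ?_⟩
  rw [eM_zero]
  exact mul_right_cancel₀ (k.1 x) (e.trans (one_mul _).symm)

theorem Kum.mem0 (ok : T.Ok0) (hU : U ∈ T.Lev) (hn : 0 < n) (k : T.Kum n U h z) :
    z ∈ T.Z1 (Representation.trivial (ZMod n) G0 (ZMod n)) U := by
  refine mem_Z1.2 ⟨fun γ x u hu => ?_, fun γ δ x => ?_, fun γ hγ x => ?_⟩
  · refine eM_inj hn (mul_right_cancel₀ (k.1 x) ?_)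
    rw [← k.eq, ← k.2.1 x u hu, ← k.eq, ← mul_assoc, k.2.1 _ u hu]
  · refine eM_inj hn (mul_right_cancel₀ (k.1 x) ?_)
    rw [← k.eq, act_mul, map_mul, mul_inv_rev, mul_assoc, k.eq, map_mul, act_eM, k.eq, eM_add hn]
    ring
  · have hz := (ok.z0 γ).1 hγ
    refine (k.zero_iff hn (T.mem_Gam.2 ?_)).2 (act_Z0 hγ _)
    rw [mul_assoc, ← Subgroup.mem_center_iff.1 (ok.zc hz), inv_mul_cancel_left]
    exact Z_le hU hz

/-- a Kummer function from local roots -/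
theorem ex_kum_loc (hn : 0 < n)
    (hz : z ∈ T.Z1 (Representation.trivial (ZMod n) G0 (ZMod n)) U) {P : G → Mer → Prop}
    (hf : ∀ x, ∃ x', T.Rel U x x' ∧ ∃ y, y ≠ 0 ∧ P x' y ∧
      ∀ γ ∈ T.Gam U x', T.act γ y = eM n (z γ x') * y) :
    ∃ h, T.Kum n U h z ∧ ∀ x, ∃ x', T.Rel U x x' ∧ P x' (h x') := by
  obtain ⟨z1, z2, -⟩ := mem_Z1.1 hz
  obtain ⟨h, h1, h2⟩ := ex_loc (T := T) (U := U) (c := fun γ x => en n (z γ x))
    (fun _ _ => en_ne _) (fun γ x u hu => congrArg (en n) (z1 γ x u hu))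
    (fun γ δ x => by rw [z2, en_add hn]) (P := fun x y => y ≠ 0 ∧ P x y) fun x =>
      (hf x).imp fun x' e => ⟨e.1, e.2.imp fun y k => ⟨⟨k.1, k.2.1⟩, k.2.2⟩⟩
  refine ⟨h, ⟨fun x e => ?_, h1⟩, fun x => (h2 x).imp fun _ e => ⟨e.1, e.2.2⟩⟩
  obtain ⟨x', r, k, -⟩ := h2 x
  obtain ⟨γ, u, hu, rfl⟩ := r.symm
  have := h1.2 γ (T.j γ * x' * u)
  rw [e, mul_zero, map_eq_zero, mul_assoc, inv_mul_cancel_left, h1.1 _ u hu] at this
  exact k this

/-- a function with local roots has a Kummer root -/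
theorem ex_kum_rt (hn : 0 < n) (hφ : φ ∈ T.RU U)
    (hd : ∀ x, ∃ x', T.Rel U x x' ∧ ∃ y, y ≠ 0 ∧ y ^ n = φ x') :
    ∃ h z, T.Kum n U h z ∧ h ^ n = φ := by
  let rt : Mer → Mer := fun f => Classical.epsilon fun y => y ≠ 0 ∧ y ^ n = f
  have hr : ∀ x, rt (φ x) ≠ 0 ∧ rt (φ x) ^ n = φ x := fun x => by
    obtain ⟨x', r, y, y0, e⟩ := hd x
    obtain ⟨γ, u, hu, rfl⟩ := r.symm
    exact Classical.epsilon_spec (p := fun y => y ≠ 0 ∧ y ^ n = φ (T.j γ * x' * u))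
      ⟨T.act γ y, (map_ne_zero _).2 y0, by rw [← map_pow, e, RU_val hφ γ x' hu]⟩
  have h0 : ∀ x, φ x ≠ 0 := fun x => (hr x).2 ▸ pow_ne_zero _ (hr x).1
  have key : ∀ γ x, ∃ a, T.act γ (rt (φ ((T.j γ)⁻¹ * x))) / rt (φ x) = eM n a := fun γ x =>
    ex_eM hn (by rw [div_pow, ← map_pow, (hr _).2, (hr _).2, (mem_RU.1 hφ).2, div_self (h0 x)])
  choose z hz using key
  exact ⟨fun x => rt (φ x), z, ⟨fun x => (hr x).1, fun x u hu => congrArg rt (hφ.2 x u hu),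
    fun γ x => (div_eq_iff (hr x).1).1 (hz γ x)⟩, funext fun x => (hr x).2⟩

variable (T) in
/-- `φ` is a Kummer function of the class `a` -/
def Kf (n : ℕ) (U : Subgroup G) (a : T.Hn n U) (φ : G → Mer) : Prop :=
  ∃ (z : T.Z1 (Representation.trivial (ZMod n) G0 (ZMod n)) U) (h : G → Mer),
    Submodule.Quotient.mk z = a ∧ T.Kum n U h z.1 ∧ h ^ n = φ

theorem Kf.ne (k : T.Kf n U a φ) (x : G) : φ x ≠ 0 := by
  obtain ⟨z, h, -, k, rfl⟩ := k
  exact k.pow_ne x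

theorem ex_kf_root (ok : T.Ok0) (hU : U ∈ T.Lev) (hn : 0 < n) (hφ : φ ∈ T.RU U)
    (hd : ∀ x, ∃ x', T.Rel U x x' ∧ ∃ y, y ≠ 0 ∧ y ^ n = φ x') : ∃ a, T.Kf n U a φ := by
  obtain ⟨h, z, k, e⟩ := ex_kum_rt hn hφ hd
  exact ⟨_, ⟨z, k.mem0 ok hU hn⟩, h, rfl, k, e⟩

variable (hn : 0 < n)

include hn

theorem Kf.mem (k : T.Kf n U a φ) : φ ∈ T.RU U := by
  obtain ⟨z, h, -, k, rfl⟩ := k
  exact k.pow_mem hn

theorem Kf.mul (k : T.Kf n U a φ) (k' : T.Kf n U b ψ) : T.Kf n U (a + b) (φ * ψ) := by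
  obtain ⟨z, h, rfl, k, rfl⟩ := k
  obtain ⟨z', h', rfl, k', rfl⟩ := k'
  exact ⟨z + z', _, rfl, k.mul hn k', mul_pow _ _ _⟩

theorem Kf.pow (k : T.Kf n U a φ) (m : ℕ) : T.Kf n U (m • a) (φ ^ m) := by
  obtain ⟨z, h, rfl, k, rfl⟩ := k
  exact ⟨m • z, _, rfl, k.pow hn m, pow_right_comm _ _ _⟩

theorem Kf.mul_pow (k : T.Kf n U a φ) (hψ : ψ ∈ T.RU U) (h0 : ∀ x, ψ x ≠ 0) :
    T.Kf n U a (φ * ψ ^ n) := by
  obtain ⟨z, h, rfl, k, rfl⟩ := k
  exact ⟨z, _, rfl, k.mul_RU hn hψ h0, _root_.mul_pow _ _ _⟩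

theorem Kf.hp (c : Cor U' Q U) (k : T.Kf n U a φ) : T.Kf n U' (T.hN n c a) (Sh.hp Q U φ) := by
  obtain ⟨z, h, rfl, k, rfl⟩ := k
  refine ⟨T.hZ _ c z, _, rfl, k.hp hn c, ?_⟩
  rw [hp_eq c, hp_eq c, ← Finset.prod_pow]
  exact Finset.prod_congr rfl fun a _ => funext fun x => rfl

theorem Kf.eq_iff (k : T.Kf n U a φ) (k' : T.Kf n U a' φ') :
    a = a' ↔ ∃ ψ ∈ T.RU U, φ = φ' * ψ ^ n := by
  obtain ⟨z, h, rfl, k, rfl⟩ := k
  obtain ⟨z', h', rfl, k', rfl⟩ := k'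
  rw [mk_eq_mk, k.cob hn k']

theorem Kf.unique (k : T.Kf n U a φ) (k' : T.Kf n U a' φ) : a = a' :=
  (k.eq_iff hn k').2 ⟨1, one_mem _, by rw [one_pow, mul_one]⟩

theorem Kf.eq_of_loc (k : T.Kf n U a φ) (k' : T.Kf n U a' φ')
    (e : ∀ x, ∃ x', T.Rel U x x' ∧ ∃ v ∈ T.KF (T.Gam U x'), φ x' = φ' x' * v ^ n) : a = a' := by
  obtain ⟨ψ, h1, h2⟩ := ex_RU_loc (P := fun x v => φ x = φ' x * v ^ n) e
  refine (k.eq_iff hn k').2 ⟨ψ, h1, funext fun x => ?_⟩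
  obtain ⟨x', r, e⟩ := h2 x
  exact RU_ext (k.mem hn) (mul_mem (k'.mem hn) (pow_mem h1 n)) e r.symm

/-- every cocycle in the class has a Kummer root of `φ` -/
theorem Kf.of_mk {w : T.Z1 (Representation.trivial (ZMod n) G0 (ZMod n)) U}
    (k : T.Kf n U (Submodule.Quotient.mk w) φ) : ∃ h, T.Kum n U h w.1 ∧ h ^ n = φ := by
  obtain ⟨z, h, e, k, rfl⟩ := k
  obtain ⟨f, f1, f2⟩ := mem_B1.1 (mk_eq_mk.1 e.symm)
  refine ⟨fun x => eM n (f x) * h x, ⟨fun x => mul_ne_zero (eM_ne _) (k.1 x), fun x u hu => ?_,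
    fun γ x => ?_⟩, funext fun x => ?_⟩
  · beta_reduce
    rw [f1 x u hu, k.2.1 x u hu]
  · have e : w.1 γ x - z.1 γ x = _ := f2 γ x
    show _ = eM n _ * _
    rw [map_mul, act_eM, k.eq, ← mul_assoc, ← mul_assoc, ← eM_add hn, ← eM_add hn]
    congr 2
    linear_combination -e
  · simp only [Pi.pow_apply, _root_.mul_pow, eM_pow hn, one_mul]

theorem Kf.up {N m : ℕ} (hm : 0 < m) (hN : N = m * n) {l : ZMod n →+ ZMod N} (e : l 1 = m)
    {b : T.Hn N U} (c : T.IsCo U l a b) (k : T.Kf n U a φ) : T.Kf N U b (φ ^ m) := by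
  obtain ⟨z, w, rfl, rfl, hw⟩ := c
  obtain ⟨h, k', rfl⟩ := k.of_mk hn
  refine ⟨w, h, rfl, ⟨k'.1, k'.2.1, fun γ x => ?_⟩, by rw [hN, mul_comm, pow_mul]⟩
  rw [hw, en_up' hn hm hN l e]
  exact k'.2.2 γ x

theorem ga_iff' (pw : ∀ φ, θ φ ≠ 0 → ∀ m, θ (φ ^ m) = θ φ ^ m) :
    T.Ga θ n U a a' ↔ ∃ φ, T.Kf n U a φ ∧ T.Kf n U a' (θ φ) := by
  have : NeZero n := ⟨hn.ne'⟩
  constructor
  · rintro ⟨z, z', rfl, rfl, k⟩
    obtain ⟨h, h', k, k', e⟩ := k (AddMonoidHom.id _)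
    exact ⟨_, ⟨z, h, rfl, k, rfl⟩, z', h', rfl, k', e.symm⟩
  · rintro ⟨_, ⟨z, h, rfl, k, rfl⟩, z', h', rfl, k', e⟩
    refine ⟨z, z', rfl, rfl, fun l => ?_⟩
    have key : ∀ y : G0 → G → ZMod n, (fun γ x => l (y γ x)) = (l 1).val • y := fun y => by
      funext γ x
      conv_lhs => rw [show y γ x = (y γ x).val • (1 : ZMod n) by simp, map_nsmul]
      simp [mul_comm]
    rw [key, key]
    refine ⟨_, _, k.pow hn _, k'.pow hn _, ?_⟩
    rw [pow_right_comm, pw _ (fun e0 => k'.pow_ne 1 (by rw [e, e0]; rfl)), ← e, pow_right_comm]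

end Tw

end Vale.Agent.P022K.Sh

namespace Vale.Agent.P022K.QT

open Vale.Agent.P022 Vale.Agent.P022K.Sh Vale.Agent.P022.H218.L3 Sh.Tw
open Vale.Agent.P027M.M (Mdl FS FF cv mkF cv_mem cv_inj)

variable {X : Mdl} {s s' : GQ} {φ ψ : G → Mer} {U U' : Subgroup G} {Q : Set G} {n : ℕ}

theorem dO_mul {p : Pr} (c d : ℤ_[p]ˣ) : dO ℚ_[p] (c * d) = dO ℚ_[p] c * dO ℚ_[p] d := by
  ext i k
  fin_cases i <;> fin_cases k <;> simp [dO, dg_val, Matrix.mul_apply, Fin.sum_univ_two]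

theorem dO_one {p : Pr} : dO ℚ_[p] (1 : ℤ_[p]ˣ) = 1 := by
  ext i k
  fin_cases i <;> fin_cases k <;> simp [dO, dg_val]

theorem dU_mul (c d : ∀ p : Pr, ℤ_[p]ˣ) : dU (c * d) = dU c * dU d :=
  G_ext fun p => by rw [map_mul, ev_dU, ev_dU, ev_dU, Pi.mul_apply, dO_mul]

theorem dU_one : dU 1 = 1 := G_ext fun p => by rw [map_one, ev_dU, Pi.one_apply, dO_one]

theorem dU_inv (c : ∀ p : Pr, ℤ_[p]ˣ) : dU c⁻¹ = (dU c)⁻¹ :=
  eq_inv_of_mul_eq_one_left (by rw [← dU_mul, inv_mul_cancel, dU_one])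

theorem dl_mul (s s' : GQ) : dl (s' * s) = dl s * dl s' := by
  rw [dl, dl, dl, ← dU_mul]
  congr 1
  funext p
  rw [map_mul, mul_inv_rev, Pi.mul_apply]

theorem dl_one : dl 1 = 1 := by
  rw [dl, ← dU_one]
  congr 1
  funext p
  rw [map_one, inv_one, Pi.one_apply]

theorem FV.mul (h : FV φ) (h' : FV ψ) : FV (φ * ψ) := fun x => mul_mem (h x) (h' x)

theorem FV.pow (h : FV φ) (m : ℕ) : FV (φ ^ m) := fun x => pow_mem (h x) m

theorem FV.inv (h : FV φ) : FV φ⁻¹ := fun x => inv_mem (h x)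

theorem FV.rt (h : FV φ) (g : G) : FV (rt g φ) := fun _ => h _

theorem fv_one : FV 1 := fun _ => one_mem FS

theorem fv_rt {g : G} : FV (rt g φ) ↔ FV φ :=
  ⟨fun h x => by simpa [rt] using h (x * g⁻¹), fun h => h.rt g⟩

theorem fv_prod {I : Type} (t : Finset I) {f : I → G → Mer} (h : ∀ i ∈ t, FV (f i)) :
    FV (∏ i ∈ t, f i) := fun x => by
  rw [Finset.prod_apply]
  exact prod_mem fun i hi => h i hi x

theorem FV.hp (c : Cor U' Q U) (h : FV φ) : FV (hp Q U φ) := by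
  rw [hp_eq c]
  exact fv_prod _ fun _ _ => h.rt _

theorem th_apply (h : FV φ) (x : G) :
    th X s φ x = cv (X.gal s (mkF (φ (dl s * x)) (h _))) := by rw [th, dif_pos h]

theorem th_val (h : FV φ) {x : G} {f : FF} (e : φ (dl s * x) = cv f) :
    th X s φ x = cv (X.gal s f) := by
  rw [th_apply h]
  exact congrArg (fun f => cv (X.gal s f)) (cv_inj e)

theorem th_not (h : ¬ FV φ) : th X s φ = 0 := by rw [th, dif_neg h]

theorem fv_of (h : th X s φ ≠ 0) : FV φ := by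
  by_contra e
  exact h (th_not e)

theorem th_fv : FV (th X s φ) := fun x => by
  by_cases h : FV φ
  · rw [th_apply h]
    exact cv_mem _
  · rw [th_not h]
    exact zero_mem FS

theorem th_mul (h : FV φ) (h' : FV ψ) : th X s (φ * ψ) = th X s φ * th X s ψ := funext fun x => by
  rw [Pi.mul_apply, th_apply h, th_apply h', ← map_mul, ← map_mul]
  exact th_val (h.mul h') rfl

theorem th_one : th X s 1 = 1 := funext fun x => by
  rw [th_val fv_one (f := 1) (map_one cv).symm, map_one, map_one, Pi.one_apply]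

theorem th_prod {I : Type} (t : Finset I) {f : I → G → Mer} (h : ∀ i ∈ t, FV (f i)) :
    th X s (∏ i ∈ t, f i) = ∏ i ∈ t, th X s (f i) := by
  classical
  induction t using Finset.induction_on with
  | empty => rw [Finset.prod_empty, Finset.prod_empty, th_one]
  | insert i t hi ih =>
    have h' : ∀ k ∈ t, FV (f k) := fun k hk => h k (Finset.mem_insert_of_mem hk)
    rw [Finset.prod_insert hi, Finset.prod_insert hi,
      th_mul (h i (Finset.mem_insert_self _ _)) (fv_prod t h'), ih h']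

theorem th_pow (h : FV φ) (m : ℕ) : th X s (φ ^ m) = th X s φ ^ m := by
  have := th_prod (X := X) (s := s) (Finset.range m) (f := fun _ => φ) fun _ _ => h
  rwa [Finset.prod_const, Finset.prod_const, Finset.card_range] at this

theorem th_rt (g : G) : th X s (rt g φ) = rt g (th X s φ) := funext fun x => by
  by_cases h : FV φ
  · rw [rt, th_apply h]
    exact th_val (h.rt g) (by rw [rt, mul_assoc]; rfl)
  · rw [th_not h, th_not (mt fv_rt.1 h)]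
    rfl

theorem th_hp (c : Cor U' Q U) (h : FV φ) : th X s (hp Q U φ) = hp Q U (th X s φ) := by
  rw [hp_eq c, hp_eq c, th_prod _ fun _ _ => h.rt _]
  exact Finset.prod_congr rfl fun _ _ => th_rt _

theorem th_th : th X s' (th X s φ) = th X (s' * s) φ := funext fun x => by
  by_cases h : FV φ
  · rw [th_val th_fv (th_apply h _), th_apply h, map_mul]
    simp only [dl_mul, mul_assoc]
    rfl
  · rw [th_not h, th_not h, th_val (φ := 0) (f := 0) (fun _ => zero_mem FS) (map_zero cv).symm,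
      map_zero, map_zero, Pi.zero_apply]

theorem th_id (h : FV φ) : th X 1 φ = φ := funext fun x => by
  rw [th_apply h, map_one]
  simp only [dl_one, one_mul]
  rfl

theorem th_ne (h : FV φ) (h0 : ∀ x, φ x ≠ 0) (x : G) : th X s φ x ≠ 0 := by
  rw [th_apply h, map_ne_zero, map_ne_zero]
  exact fun e => h0 _ ((congrArg cv e).trans (map_zero cv))

variable {a a' a'' b b' : TQ.Hn n U}

theorem ga_iff (hn : 0 < n) : TQ.Ga (th X s) n U a a' ↔
    ∃ φ, FV φ ∧ TQ.Kf n U a φ ∧ TQ.Kf n U a' (th X s φ) := by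
  rw [ga_iff' hn fun φ h m => th_pow (fv_of h) m]
  exact exists_congr fun φ => ⟨fun h => ⟨fv_of fun e => h.2.ne 1 (by rw [e]; rfl), h⟩, fun h => h.2⟩

/-- every Kummer function with algebraic values computes the action -/
theorem Ga.kf (hT : THM X) (hU : U ∈ TQ.Lev) (hn : 0 < n) (g : TQ.Ga (th X s) n U a a')
    (k : TQ.Kf n U a φ) (h : FV φ) : TQ.Kf n U a' (th X s φ) := by
  obtain ⟨φ', h', k1, k2⟩ := (ga_iff hn).1 g
  obtain ⟨ψ, hψ, rfl⟩ := (k.eq_iff hn k1).1 rfl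
  have f : FV ψ := (hT U hU).2 n hn ψ hψ fun x => by
    have := mul_mem (h'.inv x) (h x)
    rwa [Pi.inv_apply, Pi.mul_apply, inv_mul_cancel_left₀ (k1.ne x)] at this
  rw [th_mul h' (f.pow n), th_pow f]
  exact k2.mul_pow hn ((hT U hU).1 s ψ hψ f).1 (th_ne f fun x e => k.ne x (by
    rw [Pi.mul_apply, Pi.pow_apply, e, zero_pow hn.ne', mul_zero]))

/-- **FOR** from **THM** -/
theorem for_of (hT : THM X) : FOR X := by
  intro n hn U hU
  refine ⟨fun s a a' a'' g g' => ?_, fun s a a' b b' g g' => ?_, fun s s' a a' a'' g g' => ?_,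
    fun U' _ Q c s a a' g => ?_, fun n' d e hd s a a' b b' l hl c c' g => ?_⟩
  all_goals obtain ⟨φ, h, k1, k2⟩ := (ga_iff hn).1 g
  · exact k2.unique hn (Ga.kf hT hU hn g' k1 h)
  · obtain ⟨ψ, h', l1, l2⟩ := (ga_iff hn).1 g'
    exact (ga_iff hn).2 ⟨_, h.mul h', k1.mul hn l1, th_mul (X := X) h h' ▸ k2.mul hn l2⟩
  · exact (ga_iff hn).2 ⟨φ, h, k1, th_th (X := X) ▸ Ga.kf hT hU hn g' k2 th_fv⟩
  · exact (ga_iff hn).2 ⟨_, h.hp c, k1.hp hn c, th_hp (X := X) c h ▸ k2.hp hn c⟩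
  · exact (ga_iff (e ▸ Nat.mul_pos hd hn)).2 ⟨_, h.pow d, k1.up hn hd e hl c,
      th_pow (X := X) h d ▸ k2.up hn hd e hl c'⟩

end Vale.Agent.P022K.QT
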