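import Vale.Agent.P022K.QT.Locm
import Vale.Agent.P022K.QT.If2

/-! P022K, block QT: rows LOCC, LTC, BC. -/

set_option autoImplicit false

open scoped MatrixGroups TensorProduct

noncomputable section

namespace Vale.Agent.P022K.Sh

open Vale.Agent.P022 Vale.Agent.P022.H218.L3

/-- **row LOCC** -/
theorem locc : LOCC := by
  intro G0 G _ _ T A p H _ _ th M _ a g im k cc lk O K _ _ _ _ _ w ⟨U₀, h0, n0⟩ s
  have key : ∀ U, ∀ U' ∈ T.Nl, U' ≤ U → ∀ v ∈ Fv a U, g s v ∈ Fv a U' ∧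
      ∃ n, ∃ b ∈ A.Ne (p ^ n) U', im n U' b = v ∧ ∀ b₁ b₂, T.Ga (th s) (p ^ n) U' b b₁ →
        T.Ga (th s) (p ^ n) U' b₁ b₂ → im n U' b₁ = g s v ∧ im n U' b₂ = g s (g s v) :=
    fun U U' hU le v hv => by
      obtain ⟨n, hn⟩ := cc.tor v
      obtain ⟨b, hb, rfl⟩ := (lk.bij U' hU n).surjOn ⟨fun u hu => hv u (le hu), hn⟩
      refine ⟨fun u hu => by
        rw [← Module.End.mul_apply, (cc.com u s).eq, Module.End.mul_apply, hv u (le hu)],
        n, b, hb, rfl, fun b₁ b₂ e1 e2 => ?_⟩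
      have e3 := lk.gal U' hU n s _ _ e1
      exact ⟨e3, e3 ▸ lk.gal U' hU n s _ _ e2⟩
  refine ⟨fun h v hv => ?_, fun h v hv => ?_, fun c h v hv => ?_⟩
  · obtain ⟨U, hU, h3, -, h5⟩ := cc.ex_at k h0 n0 (Tw.Km_le_KK 1) le_rfl hv
    obtain ⟨U', hU', le, h⟩ := h U hU h3
    obtain ⟨-, n, b, hb, rfl, -⟩ := key U U' hU' le v h5
    exact (lk.gal U' hU' n s _ _ (h n b hb)).symm
  · obtain ⟨U, hU, h3, -, h5⟩ := cc.ex_at k h0 n0 (Tw.Km_le_KK 1) le_rfl hv
    obtain ⟨U', hU', le, h3, h⟩ := h U hU h3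
    obtain ⟨h5, n, b, hb, rfl, h6⟩ := key U U' hU' le v h5
    have c := Tw.Lc.L0.cor w ⟨hU'.1, h3⟩
    obtain ⟨b₁, b₂, e1, e2, e⟩ := h c n b hb
    obtain ⟨e3, e4⟩ := h6 _ _ e1 e2
    have := congrArg (im n U') e
    rwa [map_add, map_sub, map_nsmul, map_zero, lk.cor U' hU' U' hU' _ c, e4, e3,
      Tw.Lc.L0.hv_To ⟨hU'.1, h3⟩ h5] at this
  · obtain ⟨U, hU, h3, h4, h5⟩ := cc.ex_at k h0 n0 (Tw.Km_le_Up _) (Tw.Up_le _) hv
    obtain ⟨U', hU', le, h⟩ := h U hU h3 ⟨U₀, h0, n0, h4⟩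
    obtain ⟨h5, n, b, hb, rfl, h6⟩ := key U U' hU' le v h5
    have d : ∀ x, Cor U' (dc U' x U') U' := fun x => cor_dc (k.fi _ (k.conj U' hU'.1 x) U' hU'.1)
    obtain ⟨h3, h⟩ := h (d _) (d _) n
    obtain ⟨b₁, b₂, e1, e2, e⟩ := h b hb
    obtain ⟨e3, e4⟩ := h6 _ _ e1 e2
    have := congrArg (im n U') e
    rwa [map_add, map_sub, map_add, map_zero, lk.cor U' hU' U' hU' _ (d _),
      lk.cor U' hU' U' hU' _ (d _), e4, e3, h3.dc_eq hU'.1 fun _ => Tw.dO_norm c,
      h3.dc_eq hU'.1 fun _ => Tw.dO_norm c⁻¹, Tw.hv_one h5, Tw.hv_one h5] at this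

/-- **row LTC** -/
theorem ltc : LTC := by
  intro G0 G _ _ T A p _ H _ _ th _ _ tk gr O K _ _ _ _ _ w s
  have key : ∀ U ∈ T.Nl, ∀ n, ∀ b ∈ A.Ne (p ^ n) U, ∃ b₁ b₂, T.Ga (th s) (p ^ n) U b b₁ ∧
      T.Ga (th s) (p ^ n) U b₁ b₂ := fun U hU n b hb => by
    have := tk.fin U hU n
    obtain ⟨b₁, e1⟩ := gr.ex U hU n s b hb
    obtain ⟨b₂, e2⟩ := gr.ex U hU n s b₁ (gr.ne hU e1 hb)
    exact ⟨b₁, b₂, e1, e2⟩
  refine ⟨fun h U hU h1 => ⟨U, hU, le_rfl, h U hU h1⟩,
    fun h U hU h1 => ⟨U, hU, le_rfl, h1, fun c n b hb => ?_⟩,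
    fun c h U hU h1 h2 => ⟨U, hU, le_rfl, fun d d' n => ⟨h1, fun b hb => ?_⟩⟩⟩
  · obtain ⟨b₁, b₂, e1, e2⟩ := key U hU n b hb
    exact ⟨b₁, b₂, e1, e2, h U hU h1 c n b hb _ _ e1 e2⟩
  · obtain ⟨b₁, b₂, e1, e2⟩ := key U hU n b hb
    exact ⟨b₁, b₂, e1, e2, h U hU h1 h2 d d' n b hb _ _ e1 e2⟩

/-! ## base change -/

section

variable {O : Type} [CommRing O] {p d : ℕ} {e : Fin d → O}

variable (p e) in
/-- `e` is a basis modulo all powers of `p` -/
structure Bs : Prop where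
  sur : ∀ (k : ℕ) (o : O), ∃ (n : Fin d → ℤ) (o' : O), o = ∑ i, n i • e i + (p : O) ^ k * o'
  inj : ∀ (k : ℕ) (n : Fin d → ℤ), (p : O) ^ k ∣ ∑ i, n i • e i → ∀ i, (p : ℤ) ^ k ∣ n i

theorem ex_basis_zmod (p : ℕ) [Fact p.Prime] (Q : Type) [AddCommGroup Q] [Finite Q]
    (m : Module (ZMod p) Q) : ∃ (d : ℕ) (b : Fin d → Q), (∀ x, ∃ n : Fin d → ℤ,
      x = ∑ i, n i • b i) ∧ ∀ n : Fin d → ℤ, ∑ i, n i • b i = 0 → ∀ i, (p : ℤ) ∣ n i := by
  let b := Module.finBasis (ZMod p) Q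
  refine ⟨_, b, fun x => ?_, fun n h i => (ZMod.intCast_zmod_eq_zero_iff_dvd _ _).1
    (Fintype.linearIndependent_iff.1 b.linearIndependent (fun i => (n i : ZMod p))
      (by simpa only [Int.cast_smul_eq_zsmul] using h) i)⟩
  choose n hn using fun i => ZMod.intCast_surjective (b.repr x i)
  exact ⟨n, by simp only [← Int.cast_smul_eq_zsmul (ZMod p), hn, b.sum_repr]⟩

theorem ex_bs [Fact p.Prime] (hp : (p : O) ∈ nonZeroDivisors O)
    [Finite (O ⧸ Ideal.span {(p : O)})] : ∃ (d : ℕ) (e : Fin d → O), Bs p e := by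
  obtain ⟨d, b, b1, b2⟩ := ex_basis_zmod p (O ⧸ Ideal.span {(p : O)})
    (AddCommGroup.zmodModule fun x => by
      rw [nsmul_eq_mul, ← map_natCast (Ideal.Quotient.mk _),
        Ideal.Quotient.eq_zero_iff_mem.2 (Ideal.mem_span_singleton_self _), zero_mul])
  choose e he using fun i => Ideal.Quotient.mk_surjective (b i)
  have key : ∀ n : _ → ℤ, Ideal.Quotient.mk _ (∑ i, n i • e i) = ∑ i, n i • b i :=
    fun n => by simp only [map_sum, map_zsmul, he]
  refine ⟨_, e, fun k => ?_, fun k => ?_⟩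
  · induction k with
    | zero => exact fun o => ⟨0, o, by simp⟩
    | succ k ih =>
      intro o
      obtain ⟨n, o', rfl⟩ := ih o
      obtain ⟨m, hm⟩ := b1 (Ideal.Quotient.mk _ o')
      obtain ⟨c, hc⟩ := Ideal.mem_span_singleton.1 (Ideal.Quotient.eq.1 (hm.trans (key m).symm))
      refine ⟨fun i => n i + p ^ k * m i, c, ?_⟩
      rw [eq_add_of_sub_eq hc]
      simp only [zsmul_eq_mul, Int.cast_add, Int.cast_mul, Int.cast_pow, Int.cast_natCast, add_mul,
        Finset.sum_add_distrib, mul_add, Finset.mul_sum, mul_assoc]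
      ring
  · induction k with
    | zero => exact fun n _ i => by simp
    | succ k ih =>
      intro n h
      choose m hm using ih n ((pow_dvd_pow _ k.le_succ).trans h)
      have h1 : ∑ i, n i • e i = (p : O) ^ k * ∑ i, m i • e i := by
        simp only [hm, zsmul_eq_mul, Int.cast_mul, Int.cast_pow, Int.cast_natCast, Finset.mul_sum,
          mul_assoc]
      obtain ⟨c, hc⟩ := h
      rw [h1, pow_succ, mul_assoc, mul_cancel_left_mem_nonZeroDivisors (pow_mem hp k)] at hc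
      have h2 := key m
      rw [Ideal.Quotient.eq_zero_iff_mem.2 (Ideal.mem_span_singleton.2 ⟨c, hc⟩)] at h2
      intro i
      rw [hm, pow_succ]
      exact mul_dvd_mul_left _ (b2 m h2.symm i)

variable {M : Type} [AddCommGroup M]

variable (e) in
/-- coordinates of the tensor product -/
def tcr : (Fin d → M) →+ O ⊗[ℤ] M where
  toFun v := ∑ i, e i ⊗ₜ[ℤ] v i
  map_zero' := by simp
  map_add' v w := by simp [TensorProduct.tmul_add, Finset.sum_add_distrib]

theorem Bs.bij (h : Bs p e) (tor : ∀ v : M, ∃ k, p ^ k • v = 0) :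
    Function.Bijective (tcr (M := M) e) := by
  choose k hk using tor
  choose n o' hn using h.sur
  have up : ∀ {a b : ℕ} {v : M}, a ≤ b → p ^ a • v = 0 → p ^ b • v = 0 := fun {a b v} le h => by
    obtain ⟨c, rfl⟩ := Nat.exists_eq_add_of_le le
    rw [pow_add, mul_comm, mul_smul, h, smul_zero]
  have spec : ∀ (o : O) (v : M) (a : ℕ) (m : Fin d → ℤ) (c : O), p ^ a • v = 0 →
      o = ∑ i, m i • e i + (p : O) ^ a * c → ∀ i, n (k v) o i • v = m i • v :=
    fun o v a m c h1 h2 i => by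
      have h3 : p ^ min a (k v) • v = 0 := by
        rcases min_choice a (k v) with h | h <;> rw [h]
        exacts [h1, hk v]
      obtain ⟨r, hr⟩ := h.inj (min a (k v)) (n (k v) o - m) (by
        rw [show ∑ i, (n (k v) o - m) i • e i = (p : O) ^ a * c - (p : O) ^ k v * o' (k v) o by
          simp only [Pi.sub_apply, sub_smul, Finset.sum_sub_distrib]
          linear_combination h2 - hn (k v) o]
        exact dvd_sub ((pow_dvd_pow _ (min_le_left _ _)).mul_right _)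
          ((pow_dvd_pow _ (min_le_right _ _)).mul_right _)) i
      rw [← sub_eq_zero, ← sub_smul, show n (k v) o i - m i = _ from hr, mul_comm, mul_smul,
        ← Nat.cast_pow, natCast_zsmul, h3, smul_zero]
  let ψ : O →+ M →+ Fin d → M := AddMonoidHom.mk' (fun o => AddMonoidHom.mk'
    (fun v i => n (k v) o i • v) fun v w => funext fun i => by
      have h1 := up (Nat.le_add_right (k v) (k w)) (hk v)
      have h2 := up (Nat.le_add_left (k w) (k v)) (hk w)
      rw [Pi.add_apply, spec o v _ _ _ h1 (hn _ o), spec o w _ _ _ h2 (hn _ o),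
        spec o (v + w) _ _ _ (by rw [smul_add, h1, h2, add_zero]) (hn _ o), smul_add])
    fun a b => AddMonoidHom.ext fun v => funext fun i => by
      show n (k v) (a + b) i • v = n (k v) a i • v + n (k v) b i • v
      rw [spec (a + b) v _ (n (k v) a + n (k v) b) (o' (k v) a + o' (k v) b) (hk v) (by
        simp only [Pi.add_apply, add_smul, Finset.sum_add_distrib]
        linear_combination hn (k v) a + hn (k v) b), Pi.add_apply, add_smul]
  let Ψ := TensorProduct.liftAddHom (R := ℤ) ψ fun r a v => by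
    rw [map_zsmul, map_zsmul, AddMonoidHom.smul_apply]
  refine ⟨Function.LeftInverse.injective (g := Ψ) fun v => ?_, fun x => ?_⟩
  · show Ψ (∑ i, e i ⊗ₜ[ℤ] v i) = v
    funext j
    have : ∀ i, Ψ (e i ⊗ₜ[ℤ] v i) j = (Pi.single i 1 : Fin d → ℤ) j • v i := fun i =>
      spec (e i) (v i) _ (Pi.single i 1) 0 (hk _) (by simp [Pi.single_apply]) j
    simp [map_sum, this, Pi.single_apply]
  · induction x with
    | zero => exact ⟨0, map_zero _⟩
    | add x y hx hy =>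
      obtain ⟨a, rfl⟩ := hx
      obtain ⟨b, rfl⟩ := hy
      exact ⟨a + b, map_add _ _ _⟩
    | tmul o v =>
      refine ⟨fun i => n (k v) o i • v, ?_⟩
      show ∑ i, e i ⊗ₜ[ℤ] (n (k v) o i • v) = _
      conv_rhs => rw [hn (k v) o]
      rw [TensorProduct.add_tmul, TensorProduct.sum_tmul, ← Nat.cast_pow, ← nsmul_eq_mul,
        TensorProduct.smul_tmul, hk, TensorProduct.tmul_zero, add_zero]
      simp only [TensorProduct.smul_tmul]

theorem bc_tc {Γ : Type} [Monoid Γ] (a : Representation ℤ Γ M) (x : Γ) (v : Fin d → M) :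
    bc O a x (tcr e v) = tcr e fun i => a x (v i) := by
  simp only [tcr, AddMonoidHom.coe_mk, ZeroHom.coe_mk, map_sum, bc_tmul]

variable {G0 G : Type} [Group G0] [Group G] {T : Tw G0 G} {a : Representation ℤ G M}
  {H : Type} [Group H] [TopologicalSpace H] {g : Representation ℤ H M}

theorem tc_mem (h : Function.Injective (tcr (M := M) e)) {U : Subgroup G} {v : Fin d → M} :
    tcr e v ∈ Fv (bc O a) U ↔ ∀ i, v i ∈ Fv a U := by
  simp only [mem_Fv, bc_tc, h.eq_iff, funext_iff]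
  exact ⟨fun k i u hu => k u hu i, fun k u hu i => k i u hu⟩

theorem tc_zero (h : Function.Injective (tcr (M := M) e)) {n : ℕ} {v : Fin d → M} :
    n • tcr e v = 0 ↔ ∀ i, n • v i = 0 := by
  rw [← map_nsmul, map_eq_zero_iff _ h, funext_iff]
  rfl

theorem hv_tc {U U' : Subgroup G} {Q : Set G} (c : Cor U' Q U) (v : Fin d → M) :
    hv (bc O a) Q U (tcr e v) = tcr e fun i => hv a Q U (v i) := by
  simp only [hv, hk_eq c, bc_tc, ← map_sum]
  exact congrArg _ (funext fun i => Finset.sum_apply _ _ _)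

theorem Tw.CC.bc [Fact p.Prime] (cc : T.CC p a g) (k : T.Ok0)
    (h : Function.Bijective (tcr (M := M) e)) : T.CC p (bc O a) (bc O g) where
  com x s := (cc.com x s).map (Module.End.baseChangeHom ℤ O M)
  z x hx := (congrArg (Module.End.baseChangeHom ℤ O M) (cc.z x hx)).trans (map_one _)
  tor x := by
    obtain ⟨v, rfl⟩ := h.2 x
    choose n hn using fun i => cc.tor (v i)
    refine ⟨∑ i, n i, (tc_zero h.1).2 fun i => ?_⟩
    obtain ⟨c, hc⟩ := Nat.exists_eq_add_of_le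
      (Finset.single_le_sum (fun i _ => Nat.zero_le (n i)) (Finset.mem_univ i))
    rw [hc, pow_add, mul_comm, mul_smul, hn, smul_zero]
  sm x := by
    obtain ⟨v, rfl⟩ := h.2 x
    have : ∀ s : Finset (Fin d), ∃ U ∈ T.Nl, ∀ i ∈ s, v i ∈ Fv a U := fun s => by
      induction s using Finset.induction_on with
      | empty => exact (cc.sm 0).imp fun U hU => ⟨hU.1, by simp⟩
      | insert j s _ ih =>
        obtain ⟨U, hU, m⟩ := ih
        obtain ⟨W, hW, m'⟩ := cc.sm (v j)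
        exact ⟨U ⊓ W, ⟨k.inf U hU.1 W hW.1, hU.2.of_le inf_le_left⟩,
          (Finset.forall_mem_insert _ _ _).2
            ⟨fun u hu => m' u hu.2, fun i hi u hu => m i hi u hu.1⟩⟩
    obtain ⟨U, hU, m⟩ := this Finset.univ
    exact ⟨U, hU, (tc_mem h.1).2 fun i => m i (Finset.mem_univ i)⟩
  adm U hU := ((Set.Finite.pi' fun _ : Fin d => cc.adm U hU).image (tcr e)).subset fun x hx => by
    obtain ⟨v, rfl⟩ := h.2 x
    exact ⟨v, fun i => ⟨(tc_mem h.1).1 hx.1 i, (tc_zero h.1).1 hx.2 i⟩, rfl⟩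
  div U hU x hx := by
    obtain ⟨v, rfl⟩ := h.2 x
    choose v' h1 h2 using fun i => cc.div U hU (v i) ((tc_mem h.1).1 hx i)
    exact ⟨tcr e v', (tc_mem h.1).2 h1, by rw [← map_nsmul]; exact congrArg _ (funext h2)⟩
  tro U hU U' hU' le nm hm n x hx h0 := by
    obtain ⟨v, rfl⟩ := h.2 x
    choose v' h1 h2 h3 using fun i =>
      cc.tro U hU U' hU' le nm hm n (v i) ((tc_mem h.1).1 hx i) ((tc_zero h.1).1 h0 i)
    exact ⟨tcr e v', (tc_mem h.1).2 h1, (tc_zero h.1).2 h2,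
      (hv_tc (cor_tr le (k.fi U' hU'.1 U hU.1)) v').trans (congrArg _ (funext h3))⟩
  opn x := by
    obtain ⟨v, rfl⟩ := h.2 x
    simp only [bc_tc, h.1.eq_iff, funext_iff, Set.ofPred_forall]
    exact isOpen_iInter_of_finite fun i => cc.opn (v i)

theorem Tv_tc {O' K : Type} [CommRing O'] [IsDomain O'] [IsDiscreteValuationRing O'] [Field K]
    [Algebra O' K] (w : T.Lc O' K) (v : Fin d → M) :
    w.Tv (bc O a) (tcr e v) = tcr e fun i => w.Tv a (v i) := by
  simp only [Tw.Lc.Tv, LinearMap.sum_apply, bc_tc, ← map_sum]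
  exact congrArg _ (funext fun i => Finset.sum_apply _ _ _)

omit [TopologicalSpace H] in
theorem loc_bc (h : Function.Bijective (tcr (M := M) e)) :
    T.AllL fun {_ _} _ _ _ _ _ w => ∀ s, (w.UnM a (g s) → w.UnM (bc O a) (bc O g s)) ∧
    (w.EsM a (g s) → w.EsM (bc O a) (bc O g s)) ∧
    ∀ c, w.TwM a (g s) c → w.TwM (bc O a) (bc O g s) c := by
  intro O' K _ _ _ _ _ w s
  refine ⟨fun k x hx => ?_, fun k x hx => ?_, fun c k x hx => ?_⟩ <;> obtain ⟨v, rfl⟩ := h.2 x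
  · rw [bc_tc]
    exact congrArg _ (funext fun i => k _ ((tc_mem h.1).1 hx i))
  · simp only [bc_tc, Tv_tc, ← map_sub, ← map_nsmul, ← map_add]
    exact (congrArg _ (funext fun i => k _ ((tc_mem h.1).1 hx i))).trans (map_zero _)
  · simp only [bc_tc, ← map_sub, ← map_add]
    exact (congrArg _ (funext fun i => k _ ((tc_mem h.1).1 hx i))).trans (map_zero _)

end

/-- base change -/
theorem bc_of (G0 G : Type) [Group G0] [Group G] (T : Tw G0 G) (p : ℕ) [Fact p.Prime]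
    (H : Type) [Group H] [TopologicalSpace H] (M : Type) [AddCommGroup M]
    (a : Representation ℤ G M) (g : Representation ℤ H M) (O : Type) [CommRing O]
    (hp : (p : O) ∈ nonZeroDivisors O) (hf : Finite (O ⧸ Ideal.span {(p : O)})) (k : T.Ok0)
    (cc : T.CC p a g) : T.CC p (bc O a) (bc O g) ∧
    (∃ (d : ℕ) (e : Fin d → O), Function.Bijective fun v : Fin d → M => ∑ i, e i ⊗ₜ[ℤ] v i) ∧
    T.AllL fun {_ _} _ _ _ _ _ w => ∀ s, (w.UnM a (g s) → w.UnM (bc O a) (bc O g s)) ∧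
      (w.EsM a (g s) → w.EsM (bc O a) (bc O g s)) ∧
      ∀ c, w.TwM a (g s) c → w.TwM (bc O a) (bc O g s) c := by
  obtain ⟨d, e, h⟩ := ex_bs hp
  have b := h.bij cc.tor
  exact ⟨cc.bc k b, ⟨d, e, b⟩, loc_bc b⟩

/-- **row BC** -/
theorem bc_row : BC := bc_of

end Vale.Agent.P022K.Sh
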