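import Vale.Agent.P022K.QT.Ccy1
import Vale.Agent.P022K.QT.If2

/-! P022K, block QT: rows CCY and CCX (existence of the module `M`). -/

set_option autoImplicit false

open Module

noncomputable section

namespace Vale.Agent.P022K.Sh

open Vale.Agent.P022 Vale.Agent.P022.H218.L3

namespace Cy

open Fre Tw

variable {G0 G : Type} [Group G0] [Group G] {T : Tw G0 G} {U U' : Subgroup G} {A : T.Ax} {p : ℕ}
  [NeZero p] {M : Type} [AddCommGroup M] {a : Representation ℤ G M}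
  {im : ∀ m U, T.Hn (p ^ m) U →+ M}

variable (A) in
/-- the operators modulo `n` -/
abbrev tn (n : ℕ) (U : Subgroup G) (i : A.I) : End (ZMod n) (T.Hn n U) := tc A _ _ U i

theorem hn_tor {n : ℕ} (b : T.Hn n U) : n • b = 0 := by
  rw [← Nat.cast_smul_eq_nsmul (ZMod n), ZMod.natCast_self, zero_smul]

theorem nl_inf (k : T.Ok0) (hU : U ∈ T.Nl) (hU' : U' ∈ T.Lev) : U ⊓ U' ∈ T.Nl :=
  ⟨k.inf _ hU.1 _ hU', hU.2.of_le inf_le_left⟩

theorem Pre.res (h : Pre A p a im) (hU : U ∈ T.Lev) (hU' : U' ∈ T.Lev) (le : U' ≤ U) (m : ℕ)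
    (b : T.Hn (p ^ m) U) : im m U' (T.hN (p ^ m) (cor_res le) b) = im m U b := by
  rw [h.cor U hU U' hU', hv, hk_self (inv_Fv (h.fix U hU m b))]
  exact LinearMap.congr_fun (map_one a) _

theorem Pre.dia (h : Pre A p a im) (hU : U ∈ T.Lev) (hU' : U' ∈ T.Lev) {x : G}
    (c : Cor U' {y | x⁻¹ * y ∈ U} U) (m : ℕ) (b : T.Hn (p ^ m) U) :
    im m U' (T.hN (p ^ m) c b) = a x (im m U b) := by
  rw [h.cor U hU U' hU', hv_one (h.fix U hU m b)]

theorem Pre.eq (h : Pre A p a im) (hU : U ∈ T.Lev) {m : ℕ} {b c : T.Hn (p ^ m) U} :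
    im m U b = im m U c ↔ b - c ∈ Ei A _ _ U := by
  rw [← h.ker U hU, map_sub, sub_eq_zero]

theorem Pre.sur (h : Pre A p a im) (k : T.Ok0) (hA : A.Ok) (hU : U ∈ T.Lev) {n : ℕ} {v : M}
    (h1 : v ∈ Fv a U) (h2 : p ^ n • v = 0) : ∃ b, im n U b = v := by
  obtain ⟨W, hW, m, b, rfl⟩ := h.all v
  obtain ⟨N, n1, n2, n3, n4⟩ := ex_nm k hU hW
  rw [← h.res hW n1 n3] at h1 h2 ⊢
  generalize T.hN (p ^ m) (cor_res n3) b = b at h1 h2 ⊢
  have := k.finHn n1 (p ^ m)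
  have d : ∀ u : U, Cor N {y | (u : G)⁻¹ * y ∈ N} N := fun u => cor_dia (n4 u u.2)
  let V : AddSubgroup (T.Hn (p ^ m) N) :=
    ((Fv a U).toAddSubgroup ⊓ (nsmulAddMonoidHom (p ^ n)).ker).comap (im m N)
  have hV : ∀ x, x ∈ V ↔ (∀ u, T.hN _ (d u) x - x ∈ Ei A _ _ N) ∧ p ^ n • x ∈ Ei A _ _ N :=
    fun x => and_congr (Subtype.forall'.trans (forall_congr' fun u => by
      rw [← h.eq n1, h.dia n1 n1])) (by rw [← h.ker N n1, map_nsmul]; rfl)
  have hs := (hA.lev U hU).and ((hA.lev N n1).and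
    (ei_unif (A := A) (Λ := ZMod (p ^ m)) (B := ZMod (p ^ m)) (U := N)))
  obtain ⟨y, ⟨c, hc⟩, hy⟩ := split (tc_comm hA) _ (V₀ := V) (W := (im n U).range.comap (im m N))
    (fun i (hi : U ∈ (A.w i).L0 ∧ N ∈ (A.w i).L0 ∧ ∃ r, ∀ y ∈ Ei A _ _ N,
      (tn A (p ^ m) N i ^ r) y = 0) x hx => by
      obtain ⟨i1, i2, r, i3⟩ := hi
      obtain ⟨x1, x2⟩ := (hV x).1 hx
      have dt : ∀ u y, T.hN (p ^ m) (d u) (tn A (p ^ m) N i y) = tn A (p ^ m) N i (T.hN _ (d u) y) :=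
        fun u y => by
          rw [tn, tc_eq i2]
          exact i1.2.dia_tt i2.2 n1 _ u.2 (d u) y
      refine ⟨(hV _).2 ⟨fun u => ?_, ?_⟩, r + 2, fun j => ?_⟩
      · rw [dt, ← map_sub]
        exact ei_tc hA i (x1 u)
      · rw [← map_nsmul]
        exact ei_tc hA i x2
      obtain ⟨e, he⟩ := k.toCtr.coker_res n1 n2 n4 i1.2 i2.2
        (T.pi0_of _ _ _ (hA.sa i) N n1 i2.2) (Lc.L0.cor _ i2) (cor_res n2) d
        ((tn A (p ^ m) N i ^ (r + j)) x) fun u => by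
          rw [pow_comm (dt u), ← sub_eq_zero, ← map_sub]
          exact pow_zero_of_le (i3 _ (x1 u)) (Nat.le_add_right _ _)
      rw [← tc_eq i2] at he
      obtain ⟨c, hc⟩ := h.trs U hU m n (tn A (p ^ m) U i e) (by
        rw [← map_nsmul]
        refine ker_res k hA i1 i2 n2 n4 ?_
        rw [map_nsmul, he, ← map_nsmul, ← map_nsmul,
          pow_zero_of_le (i3 _ x2) (Nat.le_add_right _ _), map_zero])
      refine ⟨c, hc.trans ((h.res hU n1 n2 m _).symm.trans (congrArg _ ?_))⟩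
      rw [show r + 2 + j = r + j + 1 + 1 by ring, pow_succ', pow_succ', End.mul_apply,
        End.mul_apply, ← he, tn, tc_eq i1, tc_eq i2]
      exact i1.2.res_tt hU i2.2 n1 _ _ _ e) (b := b) ⟨h1, h2⟩
  exact ⟨c, hc.trans ((h.eq n1).2 (Filter.mem_of_superset hs hy)).symm⟩

theorem Pre.prj (h : Pre A p a im) (k : T.Ok0) (hA : A.Ok) (hU : U ∈ T.Lev) (m : ℕ)
    (b : T.Hn (p ^ m) U) : ∃ b' ∈ A.Ne (p ^ m) U, im m U b' = im m U b := by
  have := k.finHn hU (p ^ m)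
  obtain ⟨y, h1, h2⟩ := ex_ne hA b
  exact ⟨y, h1, ((h.eq hU).2 h2).symm⟩

theorem Pre.bij (h : Pre A p a im) (k : T.Ok0) (hA : A.Ok) (hU : U ∈ T.Lev) (m : ℕ) :
    Set.BijOn (im m U) (A.Ne (p ^ m) U) {v | v ∈ Fv a U ∧ p ^ m • v = 0} := by
  have := k.finHn hU (p ^ m)
  refine ⟨fun b _ => ⟨h.fix U hU m b, by rw [← map_nsmul, hn_tor, map_zero]⟩,
    fun b hb c hc e => sub_eq_zero.1 (ne_ei hA (sub_mem hb hc) ((h.eq hU).1 e)), fun v hv => ?_⟩
  obtain ⟨b, rfl⟩ := h.sur k hA hU hv.1 hv.2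
  exact h.prj k hA hU m b

theorem ee_up {m m' : ℕ} {l : ZMod (p ^ m) →+ ZMod (p ^ (m + m'))} (e : l 1 = p ^ m') :
    1 • ee (p ^ (m + m')) (l 1) = ee (p ^ m) 1 := by
  rw [one_nsmul, e, ← ee_pow p m m', ← map_nsmul, nsmul_eq_mul, mul_one, Nat.cast_pow]

/-! ### the Galois action -/

variable {H : Type} [Group H] [TopologicalSpace H] {th : H → (G → Mer) → G → Mer}

section

variable (g : A.GC p th) (hU : U ∈ T.Nl) {m : ℕ} {s : H} {b b' c c' : T.Hn (p ^ m) U}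
include g hU

theorem ga_nsmul (e : T.Ga (th s) (p ^ m) U b b') (n : ℕ) :
    T.Ga (th s) (p ^ m) U (n • b) (n • b') := by
  have key : ∀ n : ℕ, T.Ga (th s) (p ^ m) U ((n + 1) • b) ((n + 1) • b') := fun n => by
    induction n with
    | zero => simpa using e
    | succ n ih => simpa only [succ_nsmul] using g.add U hU m s _ _ _ _ ih e
  obtain ⟨j, hj⟩ := Nat.exists_eq_succ_of_ne_zero (show n + p ^ m ≠ 0 from
    (Nat.add_pos_right _ (NeZero.pos _)).ne')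
  have := key j
  rwa [← Nat.succ_eq_add_one, ← hj, add_nsmul, add_nsmul, hn_tor, hn_tor, add_zero,
    add_zero] at this

theorem ga_smul (e : T.Ga (th s) (p ^ m) U b b') (x : ZMod (p ^ m)) :
    T.Ga (th s) (p ^ m) U (x • b) (x • b') := by
  rw [← ZMod.natCast_zmod_val x, Nat.cast_smul_eq_nsmul, Nat.cast_smul_eq_nsmul]
  exact ga_nsmul g hU e _

theorem ga_sub (e : T.Ga (th s) (p ^ m) U b b') (e' : T.Ga (th s) (p ^ m) U c c') :
    T.Ga (th s) (p ^ m) U (b - c) (b' - c') := by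
  simpa only [neg_smul, one_smul, sub_eq_add_neg] using
    g.add U hU m s _ _ _ _ e (ga_smul g hU e' (-1))

theorem ga_pow (e : T.Ga (th s) (p ^ m) U b b') (i : A.I) (n : ℕ) :
    T.Ga (th s) (p ^ m) U ((tn A (p ^ m) U i ^ n) b) ((tn A (p ^ m) U i ^ n) b') := by
  induction n with
  | zero => exact e
  | succ n ih =>
    rw [pow_succ', End.mul_apply, End.mul_apply]
    generalize (tn A (p ^ m) U i ^ n) b = x at ih
    generalize (tn A (p ^ m) U i ^ n) b' = y at ih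
    by_cases h : U ∈ (A.w i).L0
    · rw [tn, tc_eq h]
      exact ga_sub g hU (g.cor U hU U hU _ _ m s _ _ (g.cor U hU U hU _ _ m s _ _ ih))
        (ga_nsmul g hU ih _)
    · simpa only [tc_ne h, LinearMap.zero_apply, zero_nsmul] using ga_nsmul g hU ih 0

theorem ga_ei (e : T.Ga (th s) (p ^ m) U b b') (h : b ∈ Ei A _ _ U) : b' ∈ Ei A _ _ U :=
  h.mono fun i ⟨n, hn⟩ => ⟨n, g.uq U hU m s 0 _ _ (hn ▸ ga_pow g hU e i n)
    (by simpa only [zero_nsmul] using ga_nsmul g hU e 0)⟩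

theorem ga_ne [Finite (T.Hn (p ^ m) U)]
    (ex : ∀ x ∈ A.Ne (p ^ m) U, ∃ x', T.Ga (th s) (p ^ m) U x x')
    (e : T.Ga (th s) (p ^ m) U b b') (h : b ∈ A.Ne (p ^ m) U) : b' ∈ A.Ne (p ^ m) U := by
  obtain ⟨s₀, h0, h1⟩ := A.Ne_eq (p ^ m) U
  have h2 := (h1 s₀ h0 subset_rfl).symm.trans (Ns_eq _ _)
  let Q : Submodule (ZMod (p ^ m)) (T.Hn (p ^ m) U) :=
    { carrier := {x | ∃ x' ∈ A.Ne (p ^ m) U, T.Ga (th s) (p ^ m) U x x'}
      zero_mem' := ⟨0, zero_mem _, by simpa only [zero_nsmul] using ga_nsmul g hU e 0⟩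
      add_mem' := fun ⟨_, n, f⟩ ⟨_, n', f'⟩ => ⟨_, add_mem n n', g.add U hU m s _ _ _ _ f f'⟩
      smul_mem' := fun c _ ⟨_, n, f⟩ => ⟨_, Submodule.smul_mem _ c n, ga_smul g hU f c⟩ }
  have l : A.Ne (p ^ m) U ≤ Q := h2.le.trans (iSup₂_le fun i hi x hx => by
    have le : Fit (tn A (p ^ m) U i) ≤ A.Ne (p ^ m) U := (le_iSup₂_of_le i hi le_rfl).trans h2.ge
    obtain ⟨x', f⟩ := ex x (le hx)
    obtain ⟨N, n0, n1, -⟩ := ex_N (tc A (ZMod (p ^ m)) (ZMod (p ^ m)) U i)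
    exact ⟨_, le ((Fit_eq n0 n1).ge ⟨x', rfl⟩), (mem_Fit n0 n1).1 hx ▸ ga_pow g hU f i N⟩)
  obtain ⟨x, n, f⟩ := l h
  rwa [g.uq U hU m s b _ _ e f]

theorem ga_move (h : Pre A p a im) (e : T.Ga (th s) (p ^ m) U b b') (hU' : U' ∈ T.Nl)
    (le : U' ≤ U) {n : ℕ} (hn : m ≤ n) : ∃ c c', T.Ga (th s) (p ^ n) U' c c' ∧
      im n U' c = im m U b ∧ im n U' c' = im m U b' := by
  induction hn with
  | refl => exact ⟨_, _, g.cor U hU U' hU' _ (cor_res le) m s _ _ e, h.res hU.1 hU'.1 le _ _,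
      h.res hU.1 hU'.1 le _ _⟩
  | @step n _ ih =>
    obtain ⟨c, c', f, e1, e2⟩ := ih
    let l : ZMod (p ^ n) →+ ZMod (p ^ (n + 1)) := ZMod.lift _ ⟨zmultiplesHom _ (p : ZMod _), by
      rw [zmultiplesHom_apply, natCast_zsmul, nsmul_eq_mul, ← Nat.cast_mul, ← pow_succ,
        ZMod.natCast_self]⟩
    have hl : l 1 = p := by
      rw [← Int.cast_one, ZMod.lift_coe]
      exact one_zsmul _
    have u := fun x => h.up U' hU'.1 n (n + 1) 1 l x _ (ee_up (hl.trans (pow_one _).symm))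
      (isCo_co l x)
    exact ⟨_, _, g.up U' hU' n s _ _ _ _ l hl (isCo_co l c) (isCo_co l c') f,
      ((one_nsmul _).symm.trans (u c)).trans e1, ((one_nsmul _).symm.trans (u c')).trans e2⟩

end

variable (T th im) in
/-- the graph of the Galois action -/
def Rl (s : H) (v v' : M) : Prop :=
  ∃ U ∈ T.Nl, ∃ m b b', T.Ga (th s) (p ^ m) U b b' ∧ im m U b = v ∧ im m U b' = v'

variable (h : Pre A p a im) (k : T.Ok0) (g : A.GC p th)
include h k g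

theorem rl_two {s : H} {v v' w w' : M} (e : Rl T im th s v v') (e' : Rl T im th s w w') :
    ∃ U ∈ T.Nl, ∃ m b b' c c', T.Ga (th s) (p ^ m) U b b' ∧ T.Ga (th s) (p ^ m) U c c' ∧
      im m U b = v ∧ im m U b' = v' ∧ im m U c = w ∧ im m U c' = w' := by
  obtain ⟨U, hU, m, b, b', f, rfl, rfl⟩ := e
  obtain ⟨U', hU', m', c, c', f', rfl, rfl⟩ := e'
  have n := nl_inf k hU hU'.1
  obtain ⟨x, x', f1, e1, e2⟩ := ga_move g hU h f n inf_le_left (le_max_left m m')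
  obtain ⟨y, y', f2, e3, e4⟩ := ga_move g hU' h f' n inf_le_right (le_max_right m m')
  exact ⟨_, n, _, x, x', y, y', f1, f2, e1, e2, e3, e4⟩

theorem rl_uq {s : H} {v v' w : M} (e : Rl T im th s v v') (e' : Rl T im th s v w) : v' = w := by
  obtain ⟨U, hU, m, b, b', c, c', f, f', e1, rfl, e2, rfl⟩ := rl_two h k g e e'
  exact (h.eq hU.1).2 (ga_ei g hU (ga_sub g hU f f') ((h.eq hU.1).1 (e1.trans e2.symm)))

theorem rl_add {s : H} {v v' w w' : M} (e : Rl T im th s v v') (e' : Rl T im th s w w') :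
    Rl T im th s (v + w) (v' + w') := by
  obtain ⟨U, hU, m, b, b', c, c', f, f', rfl, rfl, rfl, rfl⟩ := rl_two h k g e e'
  exact ⟨U, hU, m, _, _, g.add U hU m s _ _ _ _ f f', map_add _ _ _, map_add _ _ _⟩

theorem ex_good (hA : A.Ok) (v : M) : ∃ U ∈ T.Nl, ∃ m, ∃ b ∈ A.Ne (p ^ m) U, im m U b = v ∧
    ∀ a ∈ A.Ne (p ^ m) U, (∀ s, ∃ a', T.Ga (th s) (p ^ m) U a a') ∧
      ∃ V : Subgroup H, IsOpen (V : Set H) ∧ ∀ s ∈ V, T.Ga (th s) (p ^ m) U a a := by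
  obtain ⟨W, hW, m, b, rfl⟩ := h.all v
  obtain ⟨U₀, h0⟩ := k.neat
  obtain ⟨U, hU, le, ex⟩ := g.ex _ (nl_inf k h0 hW)
  obtain ⟨c, h1, h2⟩ := h.prj k hA hU.1 m (T.hN _ (cor_res (le.trans inf_le_right)) b)
  exact ⟨U, hU, m, c, h1, h2.trans (h.res hW hU.1 (le.trans inf_le_right) m b), ex m⟩

theorem ex_gal (hA : A.Ok) : ∃ r : Representation ℤ H M, ∀ s v, Rl T im th s v (r s v) := by
  have tot : ∀ s v, ∃ v', Rl T im th s v v' := fun s v => by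
    obtain ⟨U, hU, m, b, hb, rfl, ex⟩ := ex_good h k g hA v
    obtain ⟨b', f⟩ := (ex b hb).1 s
    exact ⟨_, U, hU, m, b, b', f, rfl, rfl⟩
  choose φ hφ using tot
  obtain ⟨r, hr⟩ := ex_rep (fun s => AddMonoidHom.mk' (φ s) fun v w =>
    rl_uq h k g (hφ s _) (rl_add h k g (hφ s v) (hφ s w))) (fun v => by
      obtain ⟨U, hU, m, b, hb, rfl, ex⟩ := ex_good h k g hA v
      obtain ⟨V, -, f⟩ := (ex b hb).2
      exact rl_uq h k g (hφ 1 _) ⟨U, hU, m, b, b, f 1 V.one_mem, rfl, rfl⟩) fun s' s v => by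
      obtain ⟨U, hU, m, b, hb, rfl, ex⟩ := ex_good h k g hA v
      have := k.finHn hU.1 (p ^ m)
      obtain ⟨b', f⟩ := (ex b hb).1 s
      obtain ⟨b'', f'⟩ := (ex b' (ga_ne g hU (fun x hx => (ex x hx).1 s) f hb)).1 s'
      have e1 := rl_uq h k g (hφ s _) ⟨U, hU, m, b, b', f, rfl, rfl⟩
      have e2 := rl_uq h k g (hφ s' _) ⟨U, hU, m, b', b'', f', rfl, rfl⟩
      exact (rl_uq h k g (hφ _ _) ⟨U, hU, m, b, b'', g.mul U hU m _ _ _ _ _ f f', rfl, rfl⟩).trans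
        (e2.symm.trans (congrArg (φ s') e1.symm))
  exact ⟨r, fun s v => hr s v ▸ hφ s v⟩

end Cy

open Cy in
/-- **row CCY** -/
theorem ccy : CCY := by
  intro G0 G _ _ T A p _ H _ _ _ th k hA tk g
  obtain ⟨a, h⟩ := ex_pre k hA p
  obtain ⟨r, hr⟩ := ex_gal h k g hA
  obtain ⟨U₀, h0⟩ := k.neat
  refine ⟨_, _, a, r, im k hA p, ⟨fun x s => LinearMap.ext fun v => ?_,
    fun x hx => LinearMap.ext fun v => ?_, fun v => ?_, fun v => ?_, fun U hU => ?_,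
    fun U hU v hv => ?_, fun U hU U' hU' le nm hm n v h1 h2 => ?_, fun v => ?_⟩,
    fun U hU => h.bij k hA hU.1, fun U hU => h.prj k hA hU.1,
    fun U hU U' hU' => h.cor U hU.1 U' hU'.1, fun U hU m m' b b' l hl e =>
      (one_nsmul _).symm.trans (h.up U hU.1 _ _ 1 l b b' (ee_up hl) e),
    fun U hU m s b b' f => rl_uq h k g ⟨U, hU, m, b, b', f, rfl, rfl⟩ (hr s _)⟩
  · obtain ⟨U, hU, m, b, b', f, rfl, e⟩ := hr s v
    have n : cj x U ∈ T.Nl := ⟨k.conj U hU.1 x, neat_cj hU.2 x⟩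
    exact rl_uq h k g ⟨_, n, m, _, _, g.cor U hU _ n _ (cor_cj U x) m s _ _ f,
      h.dia hU.1 n.1 _ _ _, (h.dia hU.1 n.1 _ _ _).trans (congrArg _ e)⟩ (hr s _)
  · obtain ⟨U, hU, m, b, rfl⟩ := h.all v
    exact h.fix U hU m b x ((sInf_le hU : T.Z ≤ U) hx)
  · obtain ⟨U, hU, m, b, rfl⟩ := h.all v
    exact ⟨m, by rw [← map_nsmul, hn_tor, map_zero]⟩
  · obtain ⟨U, hU, m, b, rfl⟩ := h.all v
    exact ⟨_, nl_inf k h0 hU, fun u hu => h.fix U hU m b u hu.2⟩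
  · have := k.finHn hU (p ^ 1)
    exact ((Set.toFinite _).image _).subset fun v hv =>
      (h.bij k hA hU 1).surjOn ⟨hv.1, (pow_one p).symm ▸ hv.2⟩
  · obtain ⟨W, hW, m, c, rfl⟩ := h.all v
    obtain ⟨b, e⟩ := h.sur k hA hU.1 hv (n := m) (by rw [← map_nsmul, hn_tor, map_zero])
    obtain ⟨b', e'⟩ := tk.lif U hU m b
    refine ⟨_, h.fix U hU.1 _ b', (h.dn U hU.1 _ _ p _ b' b ?_ e').symm.trans e⟩
    have e := ee_pow p m 1
    rw [pow_one] at e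
    exact (congrArg _ (map_one (ZMod.castHom (pow_dvd_pow p m.le_succ) (ZMod (p ^ m))))).trans
      e.symm
  · obtain ⟨b, hb, rfl⟩ := (h.bij k hA hU.1 n).surjOn ⟨h1, h2⟩
    have c := cor_tr le (k.fi _ hU'.1 _ hU.1)
    obtain ⟨b', rfl⟩ := tk.tro U hU U' hU' le nm hm c n b hb
    exact ⟨_, h.fix U' hU'.1 n b', by rw [← map_nsmul, hn_tor, map_zero],
      (h.cor U' hU'.1 U hU.1 _ c n b').symm⟩
  · obtain ⟨U, hU, m, b, hb, rfl, ex⟩ := ex_good h k g hA v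
    obtain ⟨V, o, f⟩ := (ex b hb).2
    let S : Subgroup H :=
      { carrier := {s | r s (im k hA p m U b) = im k hA p m U b}
        one_mem' := LinearMap.congr_fun (map_one r) _
        mul_mem' := fun {x y} hx hy => (LinearMap.congr_fun (map_mul r x y) _).trans
          ((congrArg (r x) hy).trans hx)
        inv_mem' := fun {x} hx => (congrArg (r x⁻¹) hx).symm.trans
          (LinearMap.congr_fun ((map_mul r _ _).symm.trans ((congrArg r (inv_mul_cancel x)).trans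
            (map_one r))) _) }
    exact Subgroup.isOpen_mono (H₂ := S) (fun s hs =>
      rl_uq h k g (hr s _) ⟨U, hU, m, b, b, f s hs, rfl, rfl⟩) o

/-- **row CCX** -/
theorem ccx : CCX := ccx_of ccy

end Vale.Agent.P022K.Sh
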