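import Vale.Agent.P022K.QT.Hom0

/-!
# P022K, block QT: from eigenvectors of level `Γ₀(N)` to parabolic homomorphisms
-/

set_option autoImplicit false

open scoped MatrixGroups TensorProduct

noncomputable section

namespace Vale.Agent.P022K.Sh.Tw

variable {G0 G : Type} [Group G0] [Group G] {T : Tw G0 G} {O K O' K' : Type} [CommRing O]
  [IsDomain O] [IsDiscreteValuationRing O] [Field K] [Algebra O K] [CommRing O'] [IsDomain O']
  [IsDiscreteValuationRing O'] [Field K'] [Algebra O' K'] {w : T.Lc O K} {w' : T.Lc O' K'}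
  {U : Subgroup G}

theorem Lc.hk_comm (ne : w.Ne w') (h : U ∈ w.L0) (h' : U ∈ w'.L0) {B : Type} [AddCommMonoid B]
    {f : G → B} (hf : Inv U f) :
    hk (w.To U) U (hk (w'.To U) U f) = hk (w'.To U) U (hk (w.To U) U f) := by
  have := w.fin
  have := w'.fin
  let _ := Fintype.ofFinite (IsLocalRing.ResidueField O)
  let _ := Fintype.ofFinite (IsLocalRing.ResidueField O')
  funext x
  rw [(h.2.rep_To h.1).hk (hk_inv (Lc.L0.cor w' h') hf),
    (h'.2.rep_To h.1).hk (hk_inv (Lc.L0.cor w h) hf)]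
  simp only [(h.2.rep_To h.1).hk hf, (h'.2.rep_To h.1).hk hf]
  rw [Finset.sum_comm]
  exact Finset.sum_congr rfl fun i _ => Finset.sum_congr rfl fun k _ => by
    rw [mul_assoc, mul_assoc, (w.com _ _ (ne.1 _)).eq]

theorem Lc.hN_comm (ne : w.Ne w') (h : U ∈ w.L0) (h' : U ∈ w'.L0) (n : ℕ)
    (c : Cor U (w.To U) U) (c' : Cor U (w'.To U) U) : Commute (T.hN n c) (T.hN n c') := by
  refine LinearMap.ext fun a => ?_
  obtain ⟨z, rfl⟩ := Submodule.Quotient.mk_surjective _ a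
  exact congrArg Submodule.Quotient.mk
    (Subtype.ext (funext fun γ => Lc.hk_comm ne h h' (z.2.1 γ)))

/-- the Hecke operators keep the non Eisenstein part -/
theorem Ax.ne_hN (A : T.Ax) (ne : ∀ᶠ i in A.F, w.Ne (A.w i)) (h : U ∈ w.L0) (n : ℕ)
    (c : Cor U (w.To U) U) {a : T.Hn n U} (ha : a ∈ A.Ne n U) : T.hN n c a ∈ A.Ne n U := by
  refine (Submodule.mem_iInf _).2 fun s => (Submodule.mem_iInf _).2 fun hs => ?_
  refine (show A.Ns n U _ ≤ (A.Ns n U s).comap (T.hN n c) from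
    iSup₂_le fun i hi => iSup_le fun h' b hb => ?_) (Ax.Ne_le (Filter.inter_mem hs ne) ha)
  refine Ax.Ft_le hi.1 h' ((Submodule.mem_iInf _).2 fun k => ?_)
  obtain ⟨y, rfl⟩ := (Submodule.mem_iInf _).1 hb k
  have e := Lc.hN_comm hi.2 h h' n c (Lc.L0.cor _ h')
  exact ⟨_, (LinearMap.congr_fun (((e.mul_right e).sub_right
    ((Commute.one_right _).smul_right _)).pow_right k).eq y).symm⟩

end Vale.Agent.P022K.Sh.Tw

namespace Vale.Agent.P022K.QT

open Vale.Agent.P022K.Sh Matrix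
open Vale.Agent.P022.H231.L3 (IsDel al)
open Vale.Agent.P027M.M (GH)

/-- `c` is an eigenvector of `T_l` on the homomorphisms on `Γ₀(N)` -/
def EigH {k : Type} [Field k] (N l : ℕ) (c : SL(2, ℤ) → k) (a : k) : Prop :=
  ∃ d, IsDel 1 N l d ∧ ∀ γ ∈ GH N ⊤, ∃ (s : Equiv.Perm (Option (Fin l)))
    (g : Option (Fin l) → SL(2, ℤ)), (∀ i, g i ∈ GH N ⊤) ∧
    (∀ i, al 1 l d i * (γ : Matrix (Fin 2) (Fin 2) ℤ) =
      (g i : Matrix (Fin 2) (Fin 2) ℤ) * al 1 l d (s i)) ∧ ∑ i, c (g i) = a * c γ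

/-- classes with coefficients in a field -/
theorem hom_cls {Λ k : Type} [CommRing Λ] [Field k] [Algebra Λ k] {N : ℕ} (hN : 0 < N)
    {z : G0 → G → k} (hz : z ∈ TQ.Z1 (Representation.trivial Λ G0 k) (U0 N))
    (h0 : z ∉ TQ.B1 (Representation.trivial Λ G0 k) (U0 N)) (hp : Par (U0 N) z) :
    P027M.Th.Par (GH N ⊤) (hm N z) ∧ hm N z ≠ 0 ∧ ∀ (l : Pr) (b : Λ), ¬ (l : ℕ) ∣ N →
      TQ.Eig (Representation.trivial Λ G0 k) (U0 N) z (hk ((lc l).To (U0 N)) (U0 N)) b →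
      EigH N l (hm N z) (algebraMap Λ k b) := by
  refine ⟨hm_par hN hz hp, fun e => h0 ((b1_U0 hN hz).2 fun g hg => ?_), fun l b hl he => ?_⟩
  · rw [← hm_apply z hg, e, Pi.zero_apply]
  obtain ⟨d, hd, h⟩ := ex_step hN l hl
  refine ⟨d, hd, fun γ hγ => ?_⟩
  obtain ⟨s, g, h1, h2, h3⟩ := h γ hγ
  refine ⟨s, g, h1, h2, ?_⟩
  have := (b1_U0 hN (sub_mem (TQ.hZ _ (Tw.Lc.L0.cor (lc l) ⟨U0_mem hN, at_U0 l hl⟩) ⟨z, hz⟩).2
    (Submodule.smul_mem _ b hz))).1 he γ hγ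
  rw [h3 Λ k z hz, hm_apply _ hγ, hm_apply _ hγ, ← Algebra.smul_def]
  exact sub_eq_zero.1 this

theorem ex_fun {O X k : Type} [CommRing O] [AddCommGroup X] [Module O X] [Field k]
    (lam : O →+* k) [Finite (O ⧸ RingHom.ker lam)]
    {x : Submodule.torsionBySet O X (RingHom.ker lam)} (x0 : x ≠ 0) :
    ∃ μ : Submodule.torsionBySet O X (RingHom.ker lam) →+ k, μ x ≠ 0 ∧
      ∀ (o : O) y, μ (o • y) = lam o * μ y := by
  have := RingHom.ker_isPrime lam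
  let _ := (Finite.isField_of_domain (O ⧸ RingHom.ker lam)).toField
  obtain ⟨φ, hφ⟩ := not_forall.1
    (mt (Module.forall_dual_apply_eq_zero_iff (O ⧸ RingHom.ker lam) x).1 x0)
  refine ⟨(RingHom.kerLift lam).toAddMonoidHom.comp φ.toAddMonoidHom,
    (map_ne_zero_iff _ (RingHom.kerLift_injective lam)).2 hφ, fun o y => ?_⟩
  change RingHom.kerLift lam (φ (Ideal.Quotient.mk (RingHom.ker lam) o • y)) = _
  rw [map_smul, smul_eq_mul, map_mul, RingHom.kerLift_mk]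
  rfl

section

open Vale.Agent.P022.H218.L3 (Mer)

variable {p N : ℕ} {H : Type} [Group H] {th : H → (G → Mer) → G → Mer} {M : Type}
  [AddCommGroup M] {a : Representation ℤ G M} {g : Representation ℤ H M}
  {im : ∀ k U, TQ.Hn (p ^ k) U →+ M}

/-- the homomorphism on `Γ₀(N)` of a vector killed by `p` -/
theorem ex_hom [Fact p.Prime] (hN : 0 < N) (h4 : 4 ∣ N) (lk : AQ.Lk p a g th im) :
    ∃ Φ : M → SL(2, ℤ) → ZMod (p ^ 1), ∀ v ∈ Fv a (U0 N), p • v = 0 →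
      P027M.Th.Par (GH N ⊤) (Φ v) ∧ (Φ v = 0 ↔ v = 0) ∧
      (∀ v' ∈ Fv a (U0 N), p • v' = 0 → Φ (v + v') = Φ v + Φ v') ∧
      ∃ z ∈ TQ.Z1 (Representation.trivial (ZMod (p ^ 1)) G0 (ZMod (p ^ 1))) (U0 N),
        Φ v = hm N z ∧ ∀ l : Pr, ¬ (l : ℕ) ∣ N →
          Φ ((lc l).Tv a v) = hm N fun δ => hk ((lc l).To (U0 N)) (U0 N) (z δ) := by
  have nl : U0 N ∈ TQ.Nl := ⟨U0_mem hN, neat_U0 hN h4⟩
  have b := lk.bij _ nl 1
  rw [show {v | v ∈ Fv a (U0 N) ∧ p ^ 1 • v = 0} = {v | v ∈ Fv a (U0 N) ∧ p • v = 0} by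
    rw [pow_one p]] at b
  have e1 : ∀ z z' : TQ.Z1 (Representation.trivial (ZMod (p ^ 1)) G0 (ZMod (p ^ 1))) (U0 N),
      (Submodule.Quotient.mk z : TQ.Hn (p ^ 1) (U0 N)) = Submodule.Quotient.mk z' ↔
      hm N z.1 = hm N z'.1 := fun z z' => by
    rw [Submodule.Quotient.eq]
    refine (b1_U0 hN (z - z').2).trans ⟨fun h => funext fun γ => ?_, fun h γ hγ => ?_⟩
    · by_cases hγ : γ ∈ GH N ⊤
      · rw [hm_apply _ hγ, hm_apply _ hγ]
        exact sub_eq_zero.1 (h γ hγ)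
      · simp only [hm, if_neg hγ]
    · have := congrFun h γ
      rw [hm_apply _ hγ, hm_apply _ hγ] at this
      exact sub_eq_zero.2 this
  have sj : ∀ v ∈ {v | v ∈ Fv a (U0 N) ∧ p • v = 0}, ∃ x ∈ AQ.Ne (p ^ 1) (U0 N), im 1 _ x = v :=
    fun v hv => b.surjOn hv
  choose! c hc hc' using sj
  choose z hz using fun v => Submodule.Quotient.mk_surjective _ (c v)
  have key : ∀ v y, Submodule.Quotient.mk y ∈ AQ.Ne (p ^ 1) (U0 N) →
      im 1 _ (Submodule.Quotient.mk y) = v → hm N (z v).1 = hm N y.1 := fun v y h1 h2 => by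
    have m := h2 ▸ b.mapsTo h1
    exact (e1 _ _).1 ((hz v).trans (b.injOn (hc _ m) h1 ((hc' _ m).trans h2.symm)))
  have z0 : hm N (0 : G0 → G → ZMod (p ^ 1)) = 0 := funext fun γ => by simp [hm]
  refine ⟨fun v => hm N (z v).1, fun v h1 h2 => ?_⟩
  have m : v ∈ {v | v ∈ Fv a (U0 N) ∧ p • v = 0} := ⟨h1, h2⟩
  refine ⟨hm_par hN (z v).2 fun x γ => mk_mem_Par.1 (ne_le_par nl.1 (NeZero.pos _)
    ((hz v).symm ▸ hc _ m)) γ x, ⟨fun h => ?_, fun h => ?_⟩, fun v' h1' h2' => ?_, _, (z v).2, rfl,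
    fun l hl => ?_⟩
  · rw [← hc' _ m, ← hz, (e1 _ 0).2 (h.trans z0.symm), Submodule.Quotient.mk_zero, map_zero]
  · exact (key v 0 (zero_mem _) (h ▸ map_zero _)).trans z0
  · refine (key _ (z v + z v') ?_ ?_).trans (funext fun γ => ?_)
    · rw [Submodule.Quotient.mk_add, hz, hz]
      exact add_mem (hc _ m) (hc _ ⟨h1', h2'⟩)
    · rw [Submodule.Quotient.mk_add, hz, hz, map_add, hc' _ m, hc' _ ⟨h1', h2'⟩]
    · simp only [hm, Pi.add_apply, Submodule.coe_add]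
      split <;> simp
  · have l0 : U0 N ∈ (lc l).L0 := ⟨nl.1, at_U0 l hl⟩
    have c1 := Tw.Lc.L0.cor _ l0
    have e2 : (Submodule.Quotient.mk (TQ.hZ _ c1 (z v)) : TQ.Hn (p ^ 1) (U0 N)) =
        TQ.hN _ c1 (c v) := by rw [← hz]; rfl
    refine key _ (TQ.hZ _ c1 (z v)) ?_ ?_
    · rw [e2]
      exact AQ.ne_hN (ev_FQ ((Filter.eventually_cofinite_ne l).mono fun _ h => lc_ne h.symm)) l0 _
        c1 (hc _ m)
    · rw [e2, lk.cor _ nl _ nl, hc' _ m, Tw.Lc.L0.hv_To l0 h1]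

/-- **eigenvectors give parabolic homomorphisms** -/
theorem hom_mod [Fact p.Prime] (hN : 0 < N) (h4 : 4 ∣ N) (lk : AQ.Lk p a g th im)
    (tor : ∀ v : M, ∃ k, p ^ k • v = 0) {O : Type} [CommRing O]
    (hp : (p : O) ∈ nonZeroDivisors O) [Finite (O ⧸ Ideal.span {(p : O)})] {k : Type} [Field k]
    (lam : O →+* k) (h0 : lam p = 0) {w : O ⊗[ℤ] M} (hw : w ∈ Fv (bc O a) (U0 N)) (w0 : w ≠ 0)
    (hm : ∀ o, lam o = 0 → o • w = 0) : ∃ c : SL(2, ℤ) → k, P027M.Th.Par (GH N ⊤) c ∧ c ≠ 0 ∧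
      ∀ (l : Pr) (b : O), ¬ (l : ℕ) ∣ N → (lc l).Tv (bc O a) w = b • w → EigH N l c (lam b) := by
  obtain ⟨d, e, bs⟩ := ex_bs (p := p) hp
  have bj := bs.bij tor
  obtain ⟨Φ, hΦ⟩ := ex_hom hN h4 lk
  obtain ⟨v, rfl⟩ := bj.2 w
  have v1 := (tc_mem bj.1).1 hw
  have v2 := (tc_zero bj.1).1 ((Nat.cast_smul_eq_nsmul O p _).symm.trans (hm p h0))
  have Φ0 : Φ 0 = 0 := (hΦ 0 (zero_mem _) (smul_zero _)).2.1.2 rfl
  let S : AddSubgroup M := (Fv a (U0 N)).toAddSubgroup ⊓ (nsmulAddMonoidHom p).ker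
  let Ψ : S →+ SL(2, ℤ) → ZMod (p ^ 1) :=
    AddMonoidHom.mk' (fun x => Φ x) fun x y => (hΦ x x.2.1 x.2.2).2.2.1 y y.2.1 y.2.2
  let π := Ideal.Quotient.mk (Ideal.span {(p : O)})
  have p0 : π p = 0 := Ideal.Quotient.eq_zero_iff_mem.2 (Ideal.mem_span_singleton_self _)
  let φ := ZMod.castHom (ringChar.dvd (R := O ⧸ Ideal.span {(p : O)}) (x := p ^ 1)
    (by rw [pow_one, ← map_natCast π, p0])) (O ⧸ Ideal.span {(p : O)})
  let C : (Fin d → M) → SL(2, ℤ) → O ⧸ Ideal.span {(p : O)} :=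
    fun u γ => ∑ i, π (e i) * φ (Φ (u i) γ)
  have lin : ∀ (o : O) u, tcr e u = o • tcr e v → ∀ γ, C u γ = o • C v γ := fun o u h γ => by
    choose n o' hn using fun i => bs.sur 1 (o * e i)
    have h1 : u = fun j => ∑ i, n i j • v i := bj.1 (by
      rw [h]
      simp only [tcr, AddMonoidHom.coe_mk, ZeroHom.coe_mk, Finset.smul_sum, TensorProduct.tmul_sum]
      rw [Finset.sum_comm]
      refine Finset.sum_congr rfl fun i _ => ?_
      rw [TensorProduct.smul_tmul', smul_eq_mul, hn, TensorProduct.add_tmul, pow_one,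
        ← nsmul_eq_mul, TensorProduct.smul_tmul, v2, TensorProduct.tmul_zero, add_zero,
        TensorProduct.sum_tmul]
      simp only [TensorProduct.smul_tmul])
    have h2 : ∀ j, Φ (u j) = ∑ i, n i j • Φ (v i) := fun j => by
      have := map_sum Ψ (fun i => n i j • (⟨v i, v1 i, v2 i⟩ : S)) Finset.univ
      simp only [map_zsmul] at this
      rw [h1]
      refine Eq.trans (congrArg Φ ?_) this
      simp
    simp only [C, h2, Finset.sum_apply, Pi.smul_apply, map_sum, map_zsmul, Finset.mul_sum,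
      Finset.smul_sum]
    rw [Finset.sum_comm]
    refine Finset.sum_congr rfl fun i _ => ?_
    rw [Algebra.smul_def, Ideal.Quotient.algebraMap_eq, ← mul_assoc, ← map_mul, hn, map_add,
      map_mul, pow_one (p : O), p0, zero_mul, add_zero, map_sum, Finset.sum_mul]
    simp only [map_zsmul, smul_mul_assoc, mul_smul_comm, π]
  have mem : ∀ γ, C v γ ∈ Submodule.torsionBySet O _ (RingHom.ker lam) := fun γ =>
    (Submodule.mem_torsionBySet_iff _ _).2 fun o => by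
      rw [← lin o 0 (by rw [map_zero, hm o o.2])]
      simp [C, Φ0]
  obtain ⟨γ0, hγ⟩ : ∃ γ, C v γ ≠ 0 := by
    by_contra! h
    refine w0 ((congrArg _ (funext fun i => (hΦ _ (v1 i) (v2 i)).2.1.1 (funext fun γ => ?_))).trans
      (map_zero _))
    choose n hn using fun i => ZMod.intCast_surjective (Φ (v i) γ)
    rw [← hn, Pi.zero_apply, ZMod.intCast_zmod_eq_zero_iff_dvd, Nat.cast_pow]
    refine bs.inj 1 n ?_ i
    rw [pow_one, ← Ideal.mem_span_singleton, ← Ideal.Quotient.eq_zero_iff_mem, ← h γ]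
    simp only [C, ← hn, map_sum, map_intCast, zsmul_eq_mul, map_mul, mul_comm, π]
  have : Finite (O ⧸ RingHom.ker lam) := Finite.of_surjective _
    (Ideal.Quotient.factor_surjective (Ideal.span_le.2 (Set.singleton_subset_iff.2 h0)))
  obtain ⟨μ, h1, h2⟩ := ex_fun lam (x := ⟨_, mem γ0⟩) fun h => hγ (congrArg Subtype.val h)
  have z0 : ∀ γ, (∀ i, Φ (v i) γ = 0) → μ ⟨_, mem γ⟩ = 0 := fun γ h =>
    (congrArg μ (Subtype.ext (by simp [C, h]))).trans (map_zero μ)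
  have par := fun i => (hΦ _ (v1 i) (v2 i)).1
  refine ⟨fun γ => μ ⟨_, mem γ⟩, ⟨fun γ hγ δ hδ => ?_, fun x t h => z0 _ fun i => (par i).par x t h,
    z0 _ fun i => (par i).neg, fun γ h => z0 _ fun i => (par i).out γ h⟩,
    fun h => h1 (congrFun h γ0), fun l b hl hb => ?_⟩
  · rw [← map_add]
    refine congrArg μ (Subtype.ext ?_)
    simp only [C, (par _).add γ hγ δ hδ, map_add, mul_add, Finset.sum_add_distrib, Submodule.coe_add]
  obtain ⟨δ, hd, h⟩ := ex_step hN l hl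
  refine ⟨δ, hd, fun γ hγ => ?_⟩
  obtain ⟨s, t, h3, h5, h6⟩ := h γ hγ
  refine ⟨s, t, h3, h5, ?_⟩
  rw [← h2, ← map_sum]
  refine congrArg μ (Subtype.ext ?_)
  rw [Submodule.coe_smul, ← lin b _ ((Tv_tc _ _).symm.trans hb), Submodule.coe_sum]
  simp only [C]
  rw [Finset.sum_comm]
  refine Finset.sum_congr rfl fun i _ => ?_
  obtain ⟨z, hz, e1, e2⟩ := (hΦ _ (v1 i) (v2 i)).2.2.2
  rw [← Finset.mul_sum, ← map_sum, e2 l hl, e1, h6 _ _ z hz]

end

end Vale.Agent.P022K.QT
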