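import Vale.Agent.P022K.QT.If
import Vale.Agent.P022K.F0.Galh
import Vale.Agent.P022K.F0.Loc
import Vale.Agent.P022K.F0.Cf.Rows

/-!
# P022K, block QT: the interface for the towers of quaternion algebras
-/

set_option autoImplicit false

open NumberField IsDedekindDomain Filter
open scoped MatrixGroups

noncomputable section

namespace Vale.Agent.P022K.Sh

open Vale.Agent.P022 Vale.Agent.P022.H218.L3

section gen

variable {G0 G : Type} [Group G0] [Group G]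

theorem en_up {n N m : ℕ} (hn : 0 < n) (hm : 0 < m) (hN : N = n * m) (l : ZMod n →+ ZMod N)
    (h : l 1 = m) (t : ZMod n) : en N (l t) = en n t := by
  have N0 : 0 < N := hN ▸ Nat.mul_pos hn hm
  have : NeZero n := ⟨hn.ne'⟩
  have : NeZero N := ⟨N0.ne'⟩
  have e : t = t.val • (1 : ZMod n) := by simp
  rw [e, map_nsmul, en_nsmul N0, en_nsmul hn, h, en_eq, en_eq, ← Nat.cast_one (R := ZMod n),
    ZMod.toCircle_natCast, ZMod.toCircle_natCast, hN]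
  have : (m : ℂ) ≠ 0 := Nat.cast_ne_zero.2 hm.ne'
  congr 2
  push_cast
  field_simp

namespace Tw

variable {T : Tw G0 G} {U : Subgroup G} {σ : ℂ ≃+* ℂ} {θ : (G → Mer) → G → Mer}

theorem IsGal.up (s : T.Sl σ θ) (hU : U ∈ T.Lev) {n N m : ℕ} (hn : 0 < n) (hm : 0 < m)
    (hN : N = n * m) (l : ZMod n →+ ZMod N) (h : l 1 = m) {a a' : T.Hn n U} {b b' : T.Hn N U}
    (c : T.IsCo U l a b) (c' : T.IsCo U l a' b') (k : T.Ga θ n U a a') : T.Ga θ N U b b' := by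
  have : NeZero N := ⟨(hN ▸ Nat.mul_pos hn hm : 0 < N).ne'⟩
  obtain ⟨z, z', rfl, rfl, k⟩ := k
  have key : ∀ (y : T.Z1 (Representation.trivial (ZMod n) G0 (ZMod n)) U) {b : T.Hn N U},
      T.IsCo U l (Submodule.Quotient.mk y : T.Hn n U) b → (Submodule.Quotient.mk
        ⟨fun γ x => l (y.1 γ x), Z1_map y.2 l⟩ : T.Hn N U) = b := by
    rintro y _ ⟨u, v, e, rfl, hv⟩
    refine mk_eq_mk.2 ?_
    convert B1_map (Λ' := ZMod N) (mk_eq_mk.1 e.symm) l using 1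
    funext γ x
    simp only [Pi.sub_apply, hv, map_sub]
  refine ⟨_, _, key z c, key z' c', fun l' => ?_⟩
  obtain ⟨f, f', k1, k2, r⟩ := k (nsmulAddMonoidHom (l' 1).val)
  have e : ∀ t, en N (l' (l t)) = en n (nsmulAddMonoidHom (l' 1).val t) := fun t => by
    rw [← en_up hn hm hN l h, nsmulAddMonoidHom_apply, map_nsmul]
    congr 1
    conv_lhs => rw [show l t = (l t).val • (1 : ZMod N) by simp, map_nsmul]
    simp [mul_comm]
  refine ⟨f, f', ⟨k1.1, k1.2.1, fun γ x => ?_⟩, ⟨k2.1, k2.2.1, fun γ x => ?_⟩, ?_⟩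
  · rw [e]
    exact k1.2.2 γ x
  · rw [e]
    exact k2.2.2 γ x
  · rw [hN, pow_mul, pow_mul, s.em.pow hU (k1.pow_mem hn), r]

variable (T) in
/-- `th s` is a semilinear automorphism above an extension of `s` -/
def Th (io : Qb →+* ℂ) (H : Subgroup GQ) (th : H → (G → Mer) → G → Mer) : Prop :=
  ∀ s : H, ∃ σ, Ext io s σ ∧ T.Sl σ (th s)

theorem Can.ex_sl {K : Type} [Field K] {j : K →+* Qb} {io : Qb →+* ℂ}
    (can : T.Can (Set.range (io.comp j))) {g : GQ} (hg : g ∈ GK j) (σ : ℂ ≃+* ℂ)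
    (e : Ext io g σ) : ∃ θ, T.Sl σ θ := can.ex σ (by
  rintro _ ⟨a, rfl⟩
  exact (e (j a)).trans (congrArg io (hg a)))

theorem Can.ex_th {K : Type} [Field K] {j : K →+* Qb} {io : Qb →+* ℂ}
    (can : T.Can (Set.range (io.comp j))) {H : Subgroup GQ} (le : H ≤ GK j) :
    ∃ th, T.Th io H th := by
  choose sg hsg using ex_ext io
  choose th hth using fun g : H => can.ex_sl (le g.2) _ (hsg g)
  exact ⟨th, fun s => ⟨_, hsg s, hth s⟩⟩

/-- **GR** -/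
theorem Th.gr (ok : T.Ok) {K : Type} [Field K] {j : K →+* Qb} {io : Qb →+* ℂ}
    (can : T.Can (Set.range (io.comp j))) {H : Subgroup GQ} (hH : IsOpen (H : Set GQ))
    (le : H ≤ GK j) {th : H → (G → Mer) → G → Mer} (h : T.Th io H th) (A : T.Ax) {p : ℕ}
    (hp : 0 < p) : A.GR p th := by
  have p0 : ∀ k, 0 < p ^ k := fun k => pow_pos hp k
  have ex : ∀ U ∈ T.Nl, ∀ k, ∃ ρ : H →* (T.Hn (p ^ k) U ≃ₗ[ZMod (p ^ k)] T.Hn (p ^ k) U),
      IsOpen (ρ.ker : Set H) ∧ ∀ s a a', T.Ga (th s) (p ^ k) U a a' ↔ ρ s a = a' := by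
    intro U hU k
    obtain ⟨ρ, h1, h2⟩ := ex_gact (Λ := ZMod (p ^ k)) (B := ZMod (p ^ k)) ok T.cf T.poi io hH
      can.mod (fun g hg => can.ex_sl (le hg)) hU.1 hU.2 (p0 k)
    refine ⟨ρ, ?_, fun s a a' => ?_⟩
    · convert h1.preimage (continuous_subtype_val (p := fun g => g ∈ H)) using 1
      ext g
      simp
    · obtain ⟨σ, e, sl⟩ := h s
      exact ⟨fun k' => (h2 s σ _ e sl a).unique sl hU.1 (p0 k) k', fun k' => k' ▸ h2 s σ _ e sl a⟩
  choose ρ op hρ using ex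
  refine ⟨fun U hU k s a _ => ⟨_, (hρ U hU k s a _).2 rfl⟩, fun U hU k s a a' a'' k1 k2 => ?_,
    fun U hU k s a a' b b' k1 k2 => ?_, fun U hU k s s' a a' a'' k1 k2 => ?_,
    fun U hU U' _ Q c k s a a' k1 => ?_, fun U hU k s a a' b b' l hl c c' k1 => ?_,
    fun U hU k a _ => ⟨(ρ U hU k).ker, op U hU k, fun s hs => ?_⟩⟩
  · rw [hρ U hU] at k1 k2
    rw [← k1, k2]
  · rw [hρ U hU] at k1 k2 ⊢
    rw [map_add, k1, k2]
  · rw [hρ U hU] at k1 k2 ⊢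
    rw [map_mul, LinearEquiv.mul_apply, k1, k2]
  · obtain ⟨σ, -, sl⟩ := h s
    exact k1.hC sl hU.1 (p0 k) ok c
  · obtain ⟨σ, -, sl⟩ := h s
    exact IsGal.up sl hU.1 (p0 k) hp (pow_succ p k) l hl c c' k1
  · rw [hρ U hU, MonoidHom.mem_ker.1 hs]
    rfl

section

variable {O K : Type} [CommRing O] [IsDomain O] [IsDiscreteValuationRing O] [Field K]
  [Algebra O K] {w : T.Lc O K} (A : T.Ax) {p : ℕ}

theorem Ax.unL (s : T.Sl σ θ) (hp : 0 < p) (co : p.Coprime (qq O))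
    (h : ∀ U ∈ T.Lev, T.Neat U → w.At (KK O K) U → w.Unr σ U) : A.UnL p w θ :=
  fun U hU m k a _ => (h U hU.1 hU.2 m).one θ s _ (pow_pos hp k) (co.pow_left k) a

theorem Ax.esL (s : T.Sl σ θ) (hp : 0 < p) (co : p.Coprime (qq O))
    (h : ∀ U ∈ T.Lev, T.Neat U → w.At (KK O K) U → w.ES σ U) : A.EsL p w θ :=
  fun U hU m c k a _ a₁ a₂ =>
    (h U hU.1 hU.2 m).one θ s c _ (pow_pos hp k) (co.pow_left k) a a₁ a₂

/-- a finite extension of a level that is maximal at `w` -/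
theorem Lc.At.of_le {V : Subgroup (GL (Fin 2) K)} {U U' : Subgroup G} (h : w.At V U) (le : U ≤ U')
    (r : ∀ c : U' ⧸ U.subgroupOf U', w.π (c.out : U') ∈ V ⊔ Zl K) : w.At V U' := by
  refine ⟨fun g hg => le (h.1 g hg), fun u hu => ?_⟩
  obtain ⟨v, hv⟩ := QuotientGroup.mk_out_eq_mul (U.subgroupOf U') (⟨u, hu⟩ : U')
  have h1 := mul_mem (r (QuotientGroup.mk ⟨u, hu⟩)) (inv_mem (h.2 _ v.2))
  rw [hv] at h1
  simpa using h1

end

end Tw

end gen

namespace QD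

variable {F : Type} [Field F] [NumberField F] (X : QD F)

/-- the place `w` has degree one over `l` -/
def Dg1 (w : Pl F) (l : ℕ) [Fact l.Prime] : Prop :=
  ∃ e : Fw w ≃+* ℚ_[l], ∀ x, x ∈ Ow w ↔ e x ∈ (algebraMap ℤ_[l] ℚ_[l]).range

section

variable {O K : Type} [CommRing O] [IsDomain O] [IsDiscreteValuationRing O] [Field K] [Algebra O K]

/-- the factor `L` respects the orders -/
def IntPl (w : Pl F) (L : X.tw.Lc O K) : Prop := X.IsPl w L ∧ ∀ x : X.G, X.cw w x ∈ X.ODw w ↔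
  ∀ i k, (L.π x : Matrix (Fin 2) (Fin 2) K) i k ∈ (algebraMap O K).range

variable {X}

theorem IntPl.pi_mem {w : Pl F} {L : X.tw.Lc O K} (h : X.IntPl w L) {x : X.G}
    (h1 : X.cw w x ∈ X.ODw w) (h2 : X.cw w (x⁻¹ : X.G) ∈ X.ODw w) : L.π x ∈ KK O K := by
  obtain ⟨e, he⟩ := h.1.cp
  exact (LocA.mem_KK he.inj).2 ⟨(h.2 _).1 h1, by rw [← map_inv]; exact (h.2 _).1 h2⟩

end

theorem ex_intPl {w : Pl F} (h : 2 * X.a * X.b ∉ w.asIdeal) {l : ℕ} [Fact l.Prime]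
    (d : Dg1 w l) : ∃ L : X.tw.Lc ℤ_[l] ℚ_[l], X.IntPl w L ∧ (L.ϖ : ℚ_[l]) = l := by
  obtain ⟨e, he⟩ := d
  obtain ⟨s, hs⟩ := X.loc_two w h
  obtain ⟨L, h1, h2, h3⟩ := X.loc.1 ℤ_[l] ℚ_[l] w e (s.toRingEquiv.trans e.mapMatrix) l
    Subtype.val_injective PadicInt.irreducible_p he fun c => by
      show e.mapMatrix (s _) = _
      rw [s.commutes]
      ext i k
      simp [Matrix.algebraMap_matrix_apply, apply_ite e]
  refine ⟨L, ⟨h1, fun x => ?_⟩, by rw [h2, map_natCast]⟩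
  rw [hs, h3]
  exact forall₂_congr fun i k => he _

/-- the good places of degree one -/
def AxI : Type := {w : Pl F // 2 * X.a * X.b ∉ w.asIdeal ∧ ∃ l : Pr, Dg1 w l}

/-- **the auxiliary places** -/
def ax : X.tw.Ax where
  I := X.AxI
  l i := i.2.2.choose
  w i := (X.ex_intPl i.2.1 i.2.2.choose_spec).choose
  F := cofinite

theorem ax_F : X.ax.F = cofinite := rfl

theorem ax_int (i : X.AxI) : X.IntPl i.1 (X.ax.w i) :=
  (X.ex_intPl i.2.1 i.2.2.choose_spec).choose_spec.1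

theorem ax_pl (i : X.AxI) : X.IsPl i.1 (X.ax.w i) := (X.ax_int i).1

theorem ax_pi (i : X.AxI) : ((X.ax.w i).ϖ : ℚ_[X.ax.l i]) = X.ax.l i :=
  (X.ex_intPl i.2.1 i.2.2.choose_spec).choose_spec.2

theorem qq_padic (l : ℕ) [Fact l.Prime] : qq ℤ_[l] = l :=
  (Nat.card_congr PadicInt.residueField.toEquiv).trans (Nat.card_zmod l)

theorem ax_norm (i : X.AxI) : Ideal.absNorm i.1.asIdeal = X.ax.l i :=
  (X.ax_pl i).qq_eq.symm.trans (qq_padic _)

theorem ax_ev {q : Pl F → Prop} (h : ∀ᶠ w in cofinite, q w) : ∀ᶠ i in X.ax.F, q i.1 :=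
  Subtype.val_injective.tendsto_cofinite.eventually h

theorem ax_KK (x : X.G) :
    ∀ᶠ i in X.ax.F, (X.ax.w i).π x ∈ KK ℤ_[X.ax.l i] ℚ_[X.ax.l i] :=
  (X.ax_ev ((X.int_cw x).and (X.int_cw (x⁻¹ : X.G)))).mono fun i h =>
    (X.ax_int i).pi_mem h.1 h.2

/-- strong approximation at all split places -/
def SAA : Prop := X.tw.AllL fun {_ _} _ _ _ _ _ L => ∀ w, X.IsPl w L → L.SA

theorem GOOD.saa (h : X.GOOD) : X.SAA := fun O K _ _ _ _ _ L w hw => (h O K L w hw).1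

theorem ax_ok (sa : X.SAA) : X.ax.Ok where
  ne i k h := ⟨(X.ax_pl i).pi_io (X.ax_pl k) fun e => h (Subtype.ext e),
    (X.ax_pl k).pi_io (X.ax_pl i) fun e => h (Subtype.ext e.symm)⟩
  sa i := sa _ _ _ _ (X.ax_pl i)
  lev U hU := by
    obtain ⟨N, N0, le, fi⟩ := id hU
    have : Finite (U ⧸ (X.UN N).subgroupOf U) := Nat.finite_of_card_ne_zero fi
    have h1 : ∀ᶠ w : Pl F in cofinite, (N : 𝓞 F) ∉ w.asIdeal := by
      rw [eventually_cofinite]
      simpa using finite_dvd (r := (N : 𝓞 F)) (Nat.cast_ne_zero.2 N0.ne')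
    filter_upwards [X.ax_ev h1, eventually_all.2 fun c : U ⧸ (X.UN N).subgroupOf U =>
      X.ax_KK (c.out : U)] with i h2 h3
    exact ⟨hU, ((X.ax_pl i).at_UN (X.ax_int i).2 h2).of_le le fun c =>
      Subgroup.mem_sup_left (h3 c)⟩
  int x := (X.ax_KK x).mono fun _ h => Subgroup.mem_sup_left h

variable {X} {j : F →+* Qb} {io : Qb →+* ℂ}

theorem CAN.can (h : X.CAN) (e : X.Emb j io) : X.tw.Can (Set.range (io.comp j)) := by
  rw [show io.comp j = X.tc from e]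
  exact h

theorem CAN.ex_th (h : X.CAN) (e : X.Emb j io) {H : Subgroup GQ} (le : H ≤ GK j) :
    ∃ th, X.tw.Th io H th := (h.can e).ex_th le

/-- **GR** for `X` -/
theorem CAN.gr (h : X.CAN) (e : X.Emb j io) {H : Subgroup GQ} (hH : IsOpen (H : Set GQ))
    (le : H ≤ GK j) {th : H → (X.G → Mer) → X.G → Mer} (ht : X.tw.Th io H th) (A : X.tw.Ax)
    {p : ℕ} (hp : 0 < p) : A.GR p th := ht.gr X.ok (h.can e) hH le A hp

section

variable {O K : Type} [CommRing O] [IsDomain O] [IsDiscreteValuationRing O] [Field K] [Algebra O K]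
  {L : X.tw.Lc O K} {w : Pl F} {H : Subgroup GQ} {th : H → (X.G → Mer) → X.G → Mer}
  {P : Ideal (𝓞 Qb)} {p : ℕ}

theorem IsPl.coprime (h : X.IsPl w L) (hp : p.Prime) (hw : (p : 𝓞 F) ∉ w.asIdeal) :
    p.Coprime (qq O) := by
  rw [h.qq_eq, hp.coprime_iff_not_dvd]
  intro d
  have := w.isPrime
  have : Finite (𝓞 F ⧸ w.asIdeal) := Ideal.finiteQuotientOfFreeOfNeBot _ w.ne_bot
  let _ := Fintype.ofFinite (𝓞 F ⧸ w.asIdeal)
  have := Fact.mk hp
  rw [Ideal.absNorm_apply, Submodule.cardQuot_apply, Nat.card_eq_fintype_card] at d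
  refine (prime_dvd_char_iff_dvd_card p).2 d |> fun d' => hw ?_
  rw [← Ideal.Quotient.eq_zero_iff_mem, map_natCast]
  have hc : (ringChar (𝓞 F ⧸ w.asIdeal)).Prime := CharP.char_is_prime (𝓞 F ⧸ w.asIdeal) _
  rw [(Nat.prime_dvd_prime_iff_eq hp hc).1 d']
  exact ringChar.Nat.cast_ringChar

/-- **UnL** for `X` -/
theorem GOOD.unL (g : X.GOOD) (e : X.Emb j io) (le : H ≤ GK j) (ht : X.tw.Th io H th)
    (A : X.tw.Ax) (hp : p.Prime) (hL : X.IsPl w L) (hw : (p : 𝓞 F) ∉ w.asIdeal) (hP : P.IsPrime)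
    (hb : below j P = w.asIdeal) (s : H) (hs : ∀ x : 𝓞 Qb, (s : GQ) • x - x ∈ P) :
    A.UnL p L (th s) := by
  obtain ⟨σ, e1, sl⟩ := ht s
  exact A.unL sl hp.pos (hL.coprime hp hw) fun U hU n m =>
    ((g O K L w hL).2 U hU n m j io e P hP hb s (le s.2) σ e1).1 hs

/-- **EsL** for `X` -/
theorem GOOD.esL (g : X.GOOD) (e : X.Emb j io) (le : H ≤ GK j) (ht : X.tw.Th io H th)
    (A : X.tw.Ax) (hp : p.Prime) (hL : X.IsPl w L) (hw : (p : 𝓞 F) ∉ w.asIdeal) (hP : P.IsPrime)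
    (hb : below j P = w.asIdeal) (s : H)
    (hs : ∀ x : 𝓞 Qb, (s : GQ) • x - x ^ Ideal.absNorm w.asIdeal ∈ P) : A.EsL p L (th s) := by
  obtain ⟨σ, e1, sl⟩ := ht s
  exact A.esL sl hp.pos (hL.coprime hp hw) fun U hU n m =>
    ((g O K L w hL).2 U hU n m j io e P hP hb s (le s.2) σ e1).2 (by rwa [hL.qq_eq])

end

end QD

end Vale.Agent.P022K.Sh
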