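import Vale.Agent.P022K.F0.Free
import Vale.Agent.P022K.QT.If

/-! P022K, block QT: the topological properties `Tk` from the rows LAT and WEIL. -/

set_option autoImplicit false

noncomputable section

namespace Vale.Agent.P022K.Sh

variable {G0 G : Type} [Group G0] [Group G]

theorem cor_res {U U' : Subgroup G} (le : U' ≤ U) : Cor U' (U : Set G) U := by
  have r := rep_one (U := U) 1
  simp only [inv_one, one_mul] at r
  exact ⟨fun _ hu _ hy => U.mul_mem (le hu) hy, r.right, r.fin⟩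

theorem cor_dia {U : Subgroup G} {u : G} (h : cj u U = U) : Cor U {y | u⁻¹ * y ∈ U} U :=
  ⟨fun v hv y hy => by
    have := U.mul_mem (mem_cj.1 (h.ge hv)) hy
    simpa [mul_assoc] using this, (rep_one u).right, (rep_one u).fin⟩

namespace Tw

variable {T : Tw G0 G} {O K : Type} [CommRing O] [IsDomain O] [IsDiscreteValuationRing O]
  [Field K] [Algebra O K] {w : T.Lc O K}

theorem LAT.lif (lat : T.LAT) {U : Subgroup G} (hU : U ∈ T.Lev) (n : T.Neat U) {m m' : ℕ}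
    (h : m ∣ m') (b : T.Hn m U) :
    ∃ b' : T.Hn m' U, T.IsCo U (ZMod.castHom h (ZMod m)).toAddMonoidHom b' b := by
  have := (lat U hU n).1
  have := (lat U hU n).2.1
  obtain ⟨c, b1, k1⟩ := lat.ex_co hU n (ZMod m)
  obtain ⟨c', -, k2⟩ := lat.ex_co hU n (ZMod m')
  obtain ⟨a, rfl⟩ := b1.onto b
  obtain ⟨z, z', e, e', hz⟩ := k2 a
  let y : T.Z1 (Representation.trivial (ZMod m) G0 (ZMod m)) U :=
    ⟨fun γ x => ZMod.castHom h (ZMod m) (z'.1 γ x), fun γ x u hu => congrArg _ (z'.2.1 γ x u hu),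
      fun γ δ => funext fun x => by
        beta_reduce
        rw [z'.2.2.1, Pi.add_apply, map_add]
        rfl, fun γ hγ => funext fun x => by
        beta_reduce
        rw [z'.2.2.2 γ hγ, Pi.zero_apply, map_zero, Pi.zero_apply]⟩
  refine ⟨c' a, z', y, e', IsCo.unique ⟨z, y, e, rfl, fun γ x => ?_⟩ (k1 a), fun _ _ => rfl⟩
  show ZMod.castHom h (ZMod m) (z'.1 γ x) = _
  rw [hz, zmultiplesHom_apply, zmultiplesHom_apply, map_zsmul, map_one]

/-- the trace is onto the part where `t_w` is bijective -/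
theorem Ctr.tro (ok : T.Ctr) (lat : T.LAT) (weil : T.WEIL) (sa : w.SA) {U U' : Subgroup G}
    (hU : U ∈ w.L0) (hU' : U' ∈ w.L0) (n : T.Neat U) (le : U' ≤ U) (nm : ∀ u ∈ U, cj u U' = U')
    (c : Cor U (U : Set G) U') (m : ℕ) [NeZero m] : w.Ft m hU ≤ LinearMap.range (T.hN m c) :=
  fun b hb => by
    have eU : (U : Set G)⁻¹ = U := inv_coe_set
    have s : Cor U (U : Set G)⁻¹ U' := eU.symm ▸ c
    obtain ⟨b', -, e⟩ := ok.tr_onto lat weil hU.1 hU'.1 n le nm hU.2 hU'.2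
      (T.pi0_of _ _ w sa U' hU'.1 hU'.2) (Lc.L0.cor w hU) (Lc.L0.cor w hU') (cor_res le)
      (fun u => cor_dia (nm u u.2)) s b hb
    exact ⟨b', (LinearMap.congr_fun (hH_congr eU s c) b').symm.trans e⟩

/-- the properties `Tk` -/
theorem Ctr.tk (ok : T.Ctr) (lat : T.LAT) (weil : T.WEIL) {A : T.Ax} (hA : A.Ok) (p : ℕ)
    [NeZero p] : A.Tk p where
  fin _ hU _ := lat.finite hU.1 hU.2 _
  lif _ hU _ := lat.lif hU.1 hU.2 _
  tro U hU U' hU' le nm _ c k b hb :=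
    (iInf₂_le_of_le _ (hA.lev U' hU'.1) (iSup₂_le fun i hi => iSup_le fun h =>
      ok.tro lat weil (hA.sa i) h hi hU.2 le nm c _) :
      A.Ne (p ^ k) U ≤ LinearMap.range (T.hN (p ^ k) c)) hb

theorem Ok0.toCtr (h : T.Ok0) : T.Ctr := ⟨h.z0, h.zc⟩

theorem Ok.tk (ok : T.Ok) (lat : T.LAT) (weil : T.WEIL) {A : T.Ax} (hA : A.Ok) (p : ℕ)
    [NeZero p] : A.Tk p := ok.toCtr.tk lat weil hA p

end Tw

end Vale.Agent.P022K.Sh
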