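import Vale.Agent.P022K.QT.BetD
import Vale.Agent.P022K.QT.TkF
import Mathlib.Topology.Instances.AddCircle.Real

/-! P022K, block QT, row BET: the graph of the link exists (row GRX). -/

set_option autoImplicit false

open scoped MatrixGroups TensorProduct

noncomputable section

namespace Vale.Agent.P022K.Sh.Be

open Vale.Agent.P022 Vale.Agent.P022.H218.L3

/-! ## the Prüfer group -/

/-- `P` is the increasing union of the groups `ℤ / p ^ k` -/
structure Pru (p : ℕ) {P : Type} [AddCommGroup P] (ε : ∀ k, ZMod (p ^ k) →+ P) : Prop where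
  inj : ∀ k, Function.Injective (ε k)
  sur : ∀ k x, p ^ k • x = 0 → ∃ a, ε k a = x
  up : ∀ k k', ∃ l : ZMod (p ^ k) →+ ZMod (p ^ (k + k')), l 1 = p ^ k' ∧
    ∀ a, ε (k + k') (l a) = ε k a
  tor : ∀ x : P, ∃ k, p ^ k • x = 0
  div : ∀ x : P, ∃ y, p • y = x

theorem zmod_kill (n : ℕ) {V : Type} [AddCommGroup V] [Module (ZMod n) V] (a : V) : n • a = 0 := by
  rw [← Nat.cast_smul_eq_nsmul (ZMod n), ZMod.natCast_self, zero_smul]

theorem ex_pru (p : ℕ) [NeZero p] :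
    ∃ (P : Type) (_ : AddCommGroup P) (ε : ∀ k, ZMod (p ^ k) →+ P), Pru p ε := by
  let P : AddSubgroup UnitAddCircle :=
    { carrier := {x | ∃ k, p ^ k • x = 0}
      zero_mem' := ⟨0, smul_zero _⟩
      add_mem' := fun {x y} ⟨k, h⟩ ⟨m, h'⟩ => ⟨k + m, by
        rw [smul_add, pow_add, mul_smul _ _ y, h', mul_comm, mul_smul, h, smul_zero, smul_zero,
          add_zero]⟩
      neg_mem' := fun {x} ⟨k, h⟩ => ⟨k, by rw [smul_neg, h, neg_zero]⟩ }
  let ε : ∀ k, ZMod (p ^ k) →+ P := fun k => ZMod.toAddCircle.codRestrict P fun a =>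
    ⟨k, by rw [← map_nsmul, zmod_kill, map_zero]⟩
  have p0 : (p : ℝ) ≠ 0 := NeZero.ne _
  have e : ∀ k (j : ℤ), (ε k j : UnitAddCircle) = ((j / (p : ℝ) ^ k : ℝ) : UnitAddCircle) :=
    fun k j => (ZMod.toAddCircle_intCast (N := p ^ k) j).trans (by rw [Nat.cast_pow])
  have sur : ∀ k (x : P), p ^ k • x = 0 → ∃ j : ℤ, ε k j = x := fun k ⟨x, hx⟩ h => by
    obtain ⟨r, rfl⟩ := QuotientAddGroup.mk_surjective x
    obtain ⟨j, hj⟩ := (AddCircle.coe_eq_zero_iff (1 : ℝ)).1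
      ((AddCircle.coe_nsmul (1 : ℝ)).trans (congrArg Subtype.val h))
    refine ⟨j, Subtype.ext ((e k j).trans (congrArg _ ?_))⟩
    rw [div_eq_iff (pow_ne_zero _ p0), mul_comm]
    simpa using hj
  refine ⟨P, inferInstance, ε, fun k a b h => ZMod.toAddCircle_injective _ (congrArg Subtype.val h),
    fun k x h => (sur k x h).elim fun j hj => ⟨j, hj⟩, fun k k' => ⟨ZMod.lift _ ⟨zmultiplesHom _
      ((p : ZMod (p ^ (k + k'))) ^ k'), ?_⟩, ?_, fun a => ?_⟩,
    fun x => x.2.imp fun k h => Subtype.ext h, fun x => ?_⟩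
  · rw [zmultiplesHom_apply, natCast_zsmul, nsmul_eq_mul, ← Nat.cast_pow, ← Nat.cast_mul, ← pow_add,
      ZMod.natCast_self]
  · rw [← Int.cast_one, ZMod.lift_coe]
    exact one_zsmul _
  · obtain ⟨j, rfl⟩ := ZMod.intCast_surjective a
    rw [ZMod.lift_coe]
    refine Subtype.ext (Eq.trans ?_ ((e (k + k') (j * p ^ k')).trans (Eq.trans (congrArg _ ?_)
      (e k j).symm)))
    · simp
    · push_cast
      field_simp
      ring
  · obtain ⟨k, h⟩ := x.2
    obtain ⟨j, rfl⟩ := sur k x (Subtype.ext h)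
    refine ⟨ε (k + 1) j, Subtype.ext ?_⟩
    rw [AddSubgroup.coe_nsmul, e, e, ← AddCircle.coe_nsmul]
    congr 1
    rw [nsmul_eq_mul]
    field_simp
    ring

/-! ## cocycles with constant coefficients -/

variable {G0 G : Type} [Group G0] [Group G] {T : Tw G0 G} {U U' : Subgroup G}

variable (T U) in
/-- cocycles with constant coefficients -/
structure Cz {B : Type} [AddCommGroup B] (z : G0 → G → B) : Prop where
  inv : ∀ γ x, ∀ u ∈ U, z γ (x * u) = z γ x
  mul : ∀ γ δ x, z (γ * δ) x = z γ x + z δ ((T.j γ)⁻¹ * x)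
  zer : ∀ γ ∈ T.Z0, ∀ x, z γ x = 0

theorem cz_iff {Λ B : Type} [CommRing Λ] [AddCommGroup B] [Module Λ B] {z : G0 → G → B} :
    z ∈ T.Z1 (Representation.trivial Λ G0 B) U ↔ Cz T U z :=
  ⟨fun h => ⟨h.1, fun γ δ => congrFun (h.2.1 γ δ), fun γ m => congrFun (h.2.2 γ m)⟩,
    fun h => ⟨h.1, fun γ δ => funext (h.2 γ δ), fun γ m => funext (h.3 γ m)⟩⟩

section

variable {B B' : Type} [AddCommGroup B] [AddCommGroup B'] {z : G0 → G → B} {y : G0 → G → B'}

theorem Cz.map (h : Cz T U z) (l : B →+ B') (e : ∀ γ x, y γ x = l (z γ x)) : Cz T U y :=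
  ⟨fun γ x u hu => by rw [e, e, h.1 γ x u hu], fun γ δ x => by rw [e, e, e, h.2, map_add],
    fun γ m x => by rw [e, h.3 γ m, map_zero]⟩

theorem Cz.of_inj (h : Cz T U y) {l : B →+ B'} (hl : Function.Injective l)
    (e : ∀ γ x, y γ x = l (z γ x)) : Cz T U z :=
  ⟨fun γ x u hu => hl (by rw [← e, ← e, h.1 γ x u hu]),
    fun γ δ x => hl (by rw [map_add, ← e, ← e, ← e, h.2]),
    fun γ m x => hl (by rw [← e, h.3 γ m, map_zero])⟩

theorem Cz.rt (h : Cz T U z) {g : G} (le : U' ≤ cj g U) : Cz T U' fun γ x => z γ (x * g) :=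
  ⟨fun γ x u hu => by simpa [mul_assoc] using h.1 γ (x * g) _ (mem_cj.1 (le hu)),
    fun γ δ x => by rw [h.2, mul_assoc], fun γ m x => h.3 γ m _⟩

theorem Cz.pi {I : Type} {z : I → G0 → G → B} (h : ∀ i, Cz T U (z i)) :
    Cz T U fun γ x i => z i γ x :=
  ⟨fun γ x u hu => funext fun i => (h i).1 γ x u hu, fun γ δ x => funext fun i => (h i).2 γ δ x,
    fun γ m x => funext fun i => (h i).3 γ m x⟩

end

theorem nl_cj (k : T.Ok0) (h : U ∈ T.Nl) (g : G) : cj g U ∈ T.Nl :=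
  ⟨k.conj U h.1 g, fun x γ m => h.2 (x * g) γ (T.mem_Gam.2 (by
    simpa [mul_assoc] using mem_cj.1 (T.mem_Gam.1 m)))⟩

theorem nl_inf (k : T.Ok0) (h : U ∈ T.Nl) (h' : U' ∈ T.Nl) : U ⊓ U' ∈ T.Nl :=
  ⟨k.inf U h.1 U' h'.1, h.2.of_le inf_le_left⟩

theorem ind_pow {Λ B : Type} [CommRing Λ] [AddCommGroup B] [Module Λ B]
    {ρ : Representation Λ G0 B} {φ : Module.End Λ (T.H1 ρ U)} {A : (G → B) → G → B}
    (h : Tw.Ind φ A) (n : ℕ) : Tw.Ind (φ ^ n : Module.End Λ (T.H1 ρ U)) A^[n] := by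
  induction n with
  | zero => exact Tw.ind_id
  | succ n ih =>
    rw [pow_succ', Function.iterate_succ']
    exact h.comp ih

theorem qq_pr (l : Pr) : qq ℤ_[l] = l := by
  rw [qq, Nat.card_congr (PadicInt.residueField (p := l)).toEquiv, Nat.card_zmod]

/-- the cocycles modulo `n` -/
abbrev Zn (T : Tw G0 G) (n : ℕ) (U : Subgroup G) : Type :=
  T.Z1 (Representation.trivial (ZMod n) G0 (ZMod n)) U

/-- the class -/
abbrev cl {n : ℕ} (z : Zn T n U) : T.Hn n U := Submodule.Quotient.mk z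

/-! ## the link -/

section

variable {A : T.Ax} {p : ℕ} {H : Type} [Group H] {th : H → (G → Mer) → G → Mer} {M : Type}
  [AddCommGroup M] {a : Representation ℤ G M} {g : Representation ℤ H M}
  {im : ∀ k U, T.Hn (p ^ k) U →+ M} (lk : A.Lk p a g th im) (hU : U ∈ T.Nl) {k : ℕ}
include lk hU

theorem im_mem (b : T.Hn (p ^ k) U) : im k U b ∈ Fv a U ∧ p ^ k • im k U b = 0 := by
  obtain ⟨b', h, e⟩ := lk.prj U hU k b
  exact e ▸ (lk.bij U hU k).mapsTo h

theorem im_rt (hU' : U' ∈ T.Nl) {x : G} (le : U' ≤ cj x U) (z : Zn T (p ^ k) U)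
    (y : Zn T (p ^ k) U') (e : ∀ γ, y.1 γ = rt x (z.1 γ)) :
    im k U' (cl y) = a x (im k U (cl z)) := by
  have c : Cor U' {y | x⁻¹ * y ∈ U} U := ⟨fun v hv y hy => by
    simpa [mul_assoc] using U.mul_mem (mem_cj.1 (le hv)) hy, (rep_one x).right, (rep_one x).fin⟩
  obtain ⟨y', h1, h2⟩ := Tw.ind_dia c z
  rw [← Tw.hv_one (im_mem lk hU _).1, ← lk.cor U hU U' hU' _ c,
    show y = y' from Subtype.ext (funext fun γ => (e γ).trans (h2 γ).symm)]
  exact congrArg _ h1.symm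

theorem im_mono {P : Type} [AddCommGroup P] {ε : ∀ k, ZMod (p ^ k) →+ P} (hP : Pru p ε)
    (hU' : U' ∈ T.Nl) (le : U' ≤ U) {k' : ℕ} (hk : k ≤ k') (z : Zn T (p ^ k) U) :
    ∃ y : Zn T (p ^ k') U', (∀ γ x, ε k' (y.1 γ x) = ε k (z.1 γ x)) ∧
      im k' U' (cl y) = im k U (cl z) := by
  obtain ⟨m, rfl⟩ := Nat.exists_eq_add_of_le hk
  obtain ⟨l, h1, h2⟩ := hP.up k m
  let z' : Zn T (p ^ k) U' := ⟨z.1, fun γ => (z.2.1 γ).mono le, z.2.2⟩
  let y : Zn T (p ^ (k + m)) U' :=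
    ⟨fun γ x => l (z.1 γ x), cz_iff.2 ((cz_iff.1 z'.2).map l fun _ _ => rfl)⟩
  refine ⟨y, fun γ x => h2 _, (lk.up U' hU' k m _ _ l h1 ⟨z', y, rfl, rfl, fun _ _ => rfl⟩).trans ?_⟩
  rw [im_rt lk hU hU' (x := 1) (fun u hu => mem_cj.2 (by simpa using le hu)) z z'
    fun γ => ((z.2.1 γ).rt_eq U.one_mem).symm, map_one, Module.End.one_apply]

/-- the kernel of the link is Eisenstein -/
theorem im_ker [NeZero p] (ok : T.Ok0) (hA : A.Ok) (k : ℕ) : ∀ᶠ i in A.F, ∃ n : ℕ,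
    ∀ z : Zn T (p ^ k) U, im k U (cl z) = 0 → ∃ f : G → ZMod (p ^ k), Inv U f ∧
      (tt A i (RR G0 G ℤ (ZMod (p ^ k))) ^ n) z.1 = fun γ x => f ((T.j γ)⁻¹ * x) - f x := by
  have := ok.finHn hU.1 (p ^ k)
  have : Finite (Module.End (ZMod (p ^ k)) (T.Hn (p ^ k) U)) :=
    Finite.of_injective _ DFunLike.coe_injective
  obtain ⟨s₀, h0, h1⟩ := A.Ne_eq (p ^ k) U
  filter_upwards [h0, hA.lev U hU.1] with i hi hw
  have := (A.w i).fin
  let _ := Fintype.ofFinite (IsLocalRing.ResidueField ℤ_[A.l i])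
  have c := Tw.Lc.L0.cor _ hw
  obtain ⟨N, N0, hN⟩ := Fre.exists_idem
    ((A.w i).tt (Representation.trivial (ZMod (p ^ k)) G0 (ZMod (p ^ k))) c)
  have h2 := hN 1 one_pos
  rw [mul_one] at h2
  refine ⟨N, fun z hz => ?_⟩
  have h3 : ∀ b, im k U b = 0 → im k U (T.hN (p ^ k) c b) = 0 := fun b hb => by
    rw [lk.cor U hU U hU _ c, hb, Tw.Lc.L0.hv_To hw (zero_mem _), map_zero]
  have h4 : ∀ n, im k U (((A.w i).tt (Representation.trivial (ZMod (p ^ k)) G0 (ZMod (p ^ k))) c ^ n)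
      (cl z)) = 0 := fun n => by
    induction n with
    | zero => exact hz
    | succ n ih =>
      rw [pow_succ', Module.End.mul_apply, LinearMap.sub_apply, map_sub, LinearMap.smul_apply,
        map_nsmul, Module.End.one_apply, ih, smul_zero, sub_zero]
      exact h3 _ (h3 _ ih)
  have h5 := (lk.bij U hU k).injOn (((Tw.Ax.Ft_le hi hw).trans (h1 s₀ h0 subset_rfl).le)
    ((Tw.Fit_eq N0 h2).ge ⟨cl z, rfl⟩)) (zero_mem _) ((h4 N).trans (map_zero _).symm)
  obtain ⟨y, h6, h7⟩ := ind_pow (hw.2.ind_t hU.1 c) N z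
  obtain ⟨f, h8, h9⟩ := (Submodule.Quotient.mk_eq_zero _).1 (h6.symm.trans h5)
  refine ⟨f, h8, funext fun γ => Eq.trans ?_ ((h7 γ).symm.trans (h9 γ))⟩
  have h10 : ∀ y : G0 → G → ZMod (p ^ k), (A.w i).Tv (RR G0 G ℤ _) y γ = (A.w i).Tf _ (y γ) :=
    fun y => funext fun x => by
      simp only [Tw.Lc.Tv, LinearMap.sum_apply, Finset.sum_apply, RR_apply]
      rfl
  clear h2 hN N0 h5 h6 h7
  induction N with
  | zero => rfl
  | succ N ih =>
    rw [pow_succ', Function.iterate_succ', Module.End.mul_apply, Function.comp_apply, ← ih,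
      Tw.Lc.tf_apply, ← h10, ← h10, qq_pr]
    rfl

end

/-! ## base change -/

section

variable {O : Type} [CommRing O] {p d : ℕ} {e : Fin d → O}

theorem smul_tc (h : Bs p e) (k : ℕ) (o : O) : ∃ n : Fin d → Fin d → ℤ, ∀ (M : Type)
    [AddCommGroup M] (v : Fin d → M), (∀ i, p ^ k • v i = 0) →
      o • tcr e v = tcr e fun j => ∑ i, n i j • v i := by
  choose n o' hn using fun i => h.sur k (o * e i)
  refine ⟨n, fun M _ v hv => ?_⟩
  simp only [tcr, AddMonoidHom.coe_mk, ZeroHom.coe_mk, Finset.smul_sum, TensorProduct.tmul_sum]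
  rw [Finset.sum_comm]
  refine Finset.sum_congr rfl fun i _ => ?_
  rw [TensorProduct.smul_tmul', smul_eq_mul, hn, TensorProduct.add_tmul, TensorProduct.sum_tmul,
    ← Nat.cast_pow, ← nsmul_eq_mul, TensorProduct.smul_tmul, hv, TensorProduct.tmul_zero, add_zero]
  simp only [TensorProduct.smul_tmul]

variable {P : Type} [AddCommGroup P] (e) (ε : ∀ k, ZMod (p ^ k) →+ P)

/-- the coordinates of the elements killed by `p ^ k` -/
def Ek (k : ℕ) : (Fin d → ZMod (p ^ k)) →+ O ⊗[ℤ] P := (tcr e).comp ((ε k).compLeft (Fin d))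

variable {e ε}

theorem Ek_apply (k : ℕ) (v : Fin d → ZMod (p ^ k)) : Ek e ε k v = tcr e fun i => ε k (v i) := rfl

theorem Ek_inj (h : Bs p e) (hP : Pru p ε) (k : ℕ) : Function.Injective (Ek e ε k) :=
  fun _ _ m => funext fun i => hP.inj k (congrFun ((h.bij hP.tor).1 m) i)

theorem Ek_sur (h : Bs p e) (hP : Pru p ε) {k : ℕ} {x : O ⊗[ℤ] P} (hx : p ^ k • x = 0) :
    ∃ v, Ek e ε k v = x := by
  obtain ⟨v, rfl⟩ := (h.bij hP.tor).2 x
  choose u hu using fun i => hP.sur k _ ((tc_zero (h.bij hP.tor).1).1 hx i)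
  exact ⟨u, congrArg (tcr e) (funext hu)⟩

theorem Ek_kill (k : ℕ) (v : Fin d → ZMod (p ^ k)) : p ^ k • Ek e ε k v = 0 := by
  rw [← map_nsmul, zmod_kill, map_zero]

variable {M : Type} [AddCommGroup M] (h : Bs p e) (ε) (im : ∀ k U, T.Hn (p ^ k) U →+ M)

/-- the graph at finite level -/
def Gp (k : ℕ) (U : Subgroup G) : Submodule O ((G0 → G → O ⊗[ℤ] P) × (O ⊗[ℤ] M)) where
  carrier := {q | ∃ z : Fin d → Zn T (p ^ k) U, (∀ γ x, q.1 γ x = Ek e ε k fun i => (z i).1 γ x) ∧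
    q.2 = tcr e fun i => im k U (cl (z i))}
  zero_mem' := ⟨0, fun _ _ => (map_zero _).symm, (map_zero (tcr e)).symm.trans
    (congrArg _ (funext fun _ => (map_zero (im k U)).symm))⟩
  add_mem' := fun ⟨z, h1, h2⟩ ⟨y, h3, h4⟩ => ⟨z + y, fun γ x => by
    rw [Prod.fst_add, Pi.add_apply, Pi.add_apply, h1, h3, ← map_add]
    rfl, by
    rw [Prod.snd_add, h2, h4, ← map_add]
    exact congrArg _ (funext fun i => (map_add (im k U) _ _).symm)⟩
  smul_mem' o q := fun ⟨z, h1, h2⟩ => by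
    obtain ⟨n, hn⟩ := smul_tc h k o
    refine ⟨fun j => ∑ i, n i j • z i, fun γ x => ?_, ?_⟩
    · rw [Prod.smul_fst, Pi.smul_apply, Pi.smul_apply, h1, Ek_apply, Ek_apply,
        hn _ _ fun i => by rw [← map_nsmul, zmod_kill, map_zero]]
      simp only [← map_zsmul, ← map_sum, Submodule.coe_sum, Finset.sum_apply]
      rfl
    · rw [Prod.smul_snd, h2, hn _ _ fun i => by rw [← map_nsmul, zmod_kill, map_zero]]
      simp only [← map_zsmul, ← map_sum]
      exact congrArg _ (funext fun j => congrArg _ (by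
        simp only [cl, ← Submodule.mkQ_apply, map_sum, map_zsmul]))

variable {h ε im} {k : ℕ} {z : G0 → G → O ⊗[ℤ] P} {v v' : O ⊗[ℤ] M}

theorem Gp.coc (m : (z, v) ∈ Gp ε h im k U) :
    z ∈ T.Z1 (Representation.trivial O G0 _) U ∧ p ^ k • z = 0 := by
  obtain ⟨y, h1, -⟩ := m
  exact ⟨cz_iff.2 ((Cz.pi fun i => cz_iff.1 (y i).2).map _ h1),
    funext fun γ => funext fun x => (congrArg (p ^ k • ·) (h1 γ x)).trans (Ek_kill _ _)⟩

variable (hP : Pru p ε)
include hP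

theorem Gp.uq (m : (z, v) ∈ Gp ε h im k U) (m' : (z, v') ∈ Gp ε h im k U) : v = v' := by
  obtain ⟨y, h1, h2⟩ := m
  obtain ⟨y', h3, h4⟩ := m'
  obtain rfl : y = y' := funext fun i => Subtype.ext (funext fun γ => funext fun x =>
    congrFun (Ek_inj h hP k ((h1 γ x).symm.trans (h3 γ x))) i)
  exact h2.trans h4.symm

variable (h im) in
theorem Gp.ex (hz : z ∈ T.Z1 (Representation.trivial O G0 _) U) (h0 : p ^ k • z = 0) :
    ∃ v, (z, v) ∈ Gp ε h im k U := by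
  choose y hy using fun γ x => Ek_sur h hP (congrFun (congrFun h0 γ) x)
  have c := (cz_iff.1 hz).of_inj (Ek_inj h hP k) fun γ x => (hy γ x).symm
  exact ⟨_, fun i => ⟨fun γ x => y γ x i, cz_iff.2
    (c.map (Pi.evalAddMonoidHom _ i) fun _ _ => rfl)⟩, fun γ x => (hy γ x).symm, rfl⟩

variable {A : T.Ax} {H : Type} [Group H] {th : H → (G → Mer) → G → Mer}
  {a : Representation ℤ G M} {g : Representation ℤ H M} (lk : A.Lk p a g th im)
include lk

theorem Gp.mono (hU : U ∈ T.Nl) (hU' : U' ∈ T.Nl) (le : U' ≤ U) {k' : ℕ} (hk : k ≤ k') :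
    Gp ε h im k U ≤ Gp ε h im k' U' := fun _ ⟨z, h1, h2⟩ => by
  choose y h3 h4 using fun i => im_mono lk hU hP hU' le hk (z i)
  exact ⟨y, fun γ x => (h1 γ x).trans (congrArg (tcr e) (funext fun i => (h3 i γ x).symm)),
    h2.trans (congrArg _ (funext fun i => (h4 i).symm))⟩

variable (h) in
theorem ex_gr (ok : T.Ok0) : ∃ S : Submodule O ((G0 → G → O ⊗[ℤ] P) × (O ⊗[ℤ] M)),
    (∀ q ∈ S, ∃ U ∈ T.Nl, ∃ k, q ∈ Gp ε h im k U) ∧ (∀ U ∈ T.Nl, ∀ k, Gp ε h im k U ≤ S) ∧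
    ∀ U ∈ T.Nl, ∀ k z v, z ∈ T.Z1 (Representation.trivial O G0 _) U → p ^ k • z = 0 →
      (z, v) ∈ S → (z, v) ∈ Gp ε h im k U := by
  have two : ∀ {U U' k k' q q'}, U ∈ T.Nl → U' ∈ T.Nl → q ∈ Gp ε h im k U → q' ∈ Gp ε h im k' U' →
      q ∈ Gp ε h im (k + k') (U ⊓ U') ∧ q' ∈ Gp ε h im (k + k') (U ⊓ U') :=
    fun hU hU' m m' => ⟨Gp.mono hP lk hU (nl_inf ok hU hU') inf_le_left (Nat.le_add_right _ _) m,
      Gp.mono hP lk hU' (nl_inf ok hU hU') inf_le_right (Nat.le_add_left _ _) m'⟩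
  refine ⟨{ carrier := {q | ∃ U ∈ T.Nl, ∃ k, q ∈ Gp ε h im k U}
            zero_mem' := ok.neat.imp fun U hU => ⟨hU, 0, zero_mem _⟩
            add_mem' := fun ⟨U, hU, _, m⟩ ⟨U', hU', _, m'⟩ => ⟨_, nl_inf ok hU hU', _,
              add_mem (two hU hU' m m').1 (two hU hU' m m').2⟩
            smul_mem' := fun o _ ⟨U, hU, k, m⟩ => ⟨U, hU, k, Submodule.smul_mem _ o m⟩ },
    fun _ m => m, fun U hU k _ m => ⟨U, hU, k, m⟩, fun U hU k z v hz h0 ⟨U', hU', _, m'⟩ => ?_⟩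
  obtain ⟨v', m⟩ := Gp.ex h im hP hz h0
  rwa [← Gp.uq hP (two hU hU' m m').1 (two hU hU' m m').2]

end

/-- **row GRX** -/
theorem grx : GRX := by
  intro G0 G _ _ T A p _ H _ _ th M _ a g im O _ _ _ _ ok hA cc lk pm p0
  obtain ⟨ϖ, hϖ⟩ := IsDiscreteValuationRing.exists_irreducible O
  have : Finite (O ⧸ Ideal.span {(p : O)}) := by
    obtain ⟨n, hn⟩ := IsDiscreteValuationRing.associated_pow_irreducible p0 hϖ
    rw [Ideal.span_singleton_eq_span_singleton.2 hn, ← Ideal.span_singleton_pow,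
      ← hϖ.maximalIdeal_eq]
    have : Finite (O ⧸ IsLocalRing.maximalIdeal O) := ‹Finite (IsLocalRing.ResidueField O)›
    exact Ideal.finite_quotient_pow (IsNoetherian.noetherian _) n
  obtain ⟨d, e, h⟩ := ex_bs (mem_nonZeroDivisors_of_ne_zero p0)
  obtain ⟨P, _, ε, hP⟩ := ex_pru p
  obtain ⟨S, s1, s2, s3⟩ := ex_gr h hP lk ok
  have bP := h.bij hP.tor
  have bM := h.bij cc.tor
  refine ⟨O ⊗[ℤ] P, inferInstance, inferInstance, S, fun o ho x => ?_, ?_, fun x => ?_,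
    (cc.bc ok bM).tor, fun x z v m => ?_, fun U hU k z hz h0 => ?_, fun U hU k f v hf h0 m => ?_,
    fun U hU k v hv h0 => ?_, fun U hU k => ?_⟩
  · obtain ⟨n, hn⟩ := IsDiscreteValuationRing.associated_pow_irreducible ho hϖ
    obtain ⟨c, hc⟩ := hn.dvd.trans (pow_dvd_pow_of_dvd
      (Ideal.mem_span_singleton.1 (hϖ.maximalIdeal_eq ▸ pm)) n)
    have : ∀ (n : ℕ) (x : O ⊗[ℤ] P), ∃ y, p ^ n • y = x := fun n => by
      induction n with
      | zero => exact fun x => ⟨x, by simp⟩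
      | succ n ih =>
        intro x
        obtain ⟨y, rfl⟩ := ih x
        obtain ⟨v, rfl⟩ := bP.2 y
        choose u hu using fun i => hP.div (v i)
        exact ⟨tcr e u, by rw [pow_succ, mul_smul, ← map_nsmul _ p, show p • u = v from funext hu]⟩
    obtain ⟨y, rfl⟩ := this n x
    exact ⟨c • y, by rw [smul_smul, ← hc, ← Nat.cast_pow, Nat.cast_smul_eq_nsmul]⟩
  · rcases d with - | d
    · obtain ⟨n, o, ho⟩ := h.sur 1 1
      refine absurd (IsUnit.of_mul_eq_one o ?_) pm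
      simpa using ho.symm
    · have : Fact (1 < p ^ 1) := ⟨by simpa using (Fact.out : p.Prime).one_lt⟩
      exact (Ek_inj h hP 1).nontrivial
  · obtain ⟨v, rfl⟩ := bP.2 x
    choose n hn using fun i => hP.tor (v i)
    refine ⟨∑ i, n i, (tc_zero bP.1).2 fun i => ?_⟩
    obtain ⟨c, hc⟩ := Nat.exists_eq_add_of_le
      (Finset.single_le_sum (fun i _ => Nat.zero_le (n i)) (Finset.mem_univ i))
    rw [hc, pow_add, mul_comm, mul_smul, hn, smul_zero]
  · obtain ⟨U, hU, k, y, h1, h2⟩ := s1 _ m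
    refine s2 _ (nl_cj ok hU x) k ⟨fun i => ⟨_, cz_iff.2 ((cz_iff.1 (y i).2).rt le_rfl)⟩,
      fun γ u => h1 γ _, ?_⟩
    rw [show v = _ from h2]
    exact (bc_tc a x _).trans (congrArg _ (funext fun i =>
      (im_rt lk hU (nl_cj ok hU x) le_rfl _ _ fun _ => rfl).symm))
  · exact (Gp.ex h im hP hz h0).imp fun v m => s2 U hU k m
  · obtain ⟨y, h1, h2⟩ := s3 U hU k (fun γ x => f ((T.j γ)⁻¹ * x) - f x) v
      (cz_iff.2 ⟨fun γ x u hu => by rw [← mul_assoc, hf _ u hu, hf _ u hu],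
        fun γ δ x => by simp [mul_assoc], fun γ m x => sub_eq_zero.2 (congrFun
          (ok.toCtr.lt_Z0 (ρ := Representation.trivial O G0 _) hU.1 m rfl hf) x)⟩)
      (funext fun γ => funext fun x => by
        have := congrFun h0
        simp only [Pi.smul_apply, Pi.zero_apply] at this ⊢
        rw [smul_sub, this, this, sub_self]) m
    choose u hu using fun x => Ek_sur h hP (congrFun h0 x)
    refine h2.trans ((congrArg _ (funext fun i => ?_)).trans (map_zero _))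
    refine (congrArg (im k U) ((Submodule.Quotient.mk_eq_zero (x := y i) _).2 ?_)).trans (map_zero _)
    refine ⟨fun x => u x i, fun x w hw => congrFun (Ek_inj h hP k (a₁ := u (x * w)) (a₂ := u x)
      (by rw [hu, hu, hf x w hw])) i, fun γ => funext fun x => ?_⟩
    exact congrFun (Ek_inj h hP k (a₂ := u ((T.j γ)⁻¹ * x) - u x)
      ((h1 γ x).symm.trans (by rw [map_sub, hu, hu]))) i
  · obtain ⟨u, rfl⟩ := bM.2 v
    choose b _ hb using fun i => (lk.bij U hU k).surjOn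
      ⟨(tc_mem bM.1).1 hv i, (tc_zero bM.1).1 h0 i⟩
    choose y hy using fun i => Submodule.Quotient.mk_surjective _ (b i)
    have m : ((fun γ x => Ek e ε k fun i => (y i).1 γ x), tcr e u) ∈ Gp ε h im k U :=
      ⟨y, fun _ _ => rfl, congrArg (tcr e) (funext fun i => (hb i).symm.trans
        (congrArg _ (hy i).symm))⟩
    exact ⟨_, (Gp.coc m).1, (Gp.coc m).2, s2 U hU k m⟩
  · refine (im_ker lk hU ok hA k).mono fun i ⟨n, hn⟩ => ⟨n, fun z hz h0 m => ?_⟩
    obtain ⟨y, h1, h2⟩ := s3 U hU k z 0 hz h0 m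
    choose f h3 h4 using fun j => hn (y j) (congrFun (bM.1 (h2.symm.trans (map_zero _).symm)) j)
    have key : ∀ (n : ℕ) γ x, (tt A i (RR G0 G O _) ^ n) z γ x =
        Ek e ε k fun j => (tt A i (RR G0 G ℤ _) ^ n) (y j).1 γ x := fun n => by
      have one : ∀ (z : G0 → G → O ⊗[ℤ] P) (y : Fin d → G0 → G → ZMod (p ^ k)),
          (∀ γ x, z γ x = Ek e ε k fun j => y j γ x) → ∀ γ x,
          (A.w i).Tv (RR G0 G O _) z γ x = Ek e ε k fun j => (A.w i).Tv (RR G0 G ℤ _) (y j) γ x :=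
        fun z y h γ x => by
          simp only [Tw.Lc.Tv, LinearMap.sum_apply, Finset.sum_apply, RR_apply, h, ← map_sum]
          exact congrArg _ (funext fun j => Finset.sum_apply _ _ _)
      induction n with
      | zero => exact h1
      | succ n ih =>
        intro γ x
        simp only [pow_succ', Module.End.mul_apply]
        generalize (tt A i (RR G0 G O _) ^ n) z = z' at ih
        simp only [tt, LinearMap.sub_apply, Module.End.mul_apply, LinearMap.smul_apply,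
          Module.End.one_apply, Pi.sub_apply, Pi.smul_apply]
        rw [one _ _ (one _ _ ih), ih, ← map_nsmul, ← map_sub]
        rfl
    refine ⟨fun x => Ek e ε k fun j => f j x, fun x u hu => congrArg _ (funext fun j => h3 j x u hu),
      funext fun x => Ek_kill _ _, funext fun γ => funext fun x => ?_⟩
    rw [key, ← map_sub]
    exact congrArg _ (funext fun j => congrFun (congrFun (h4 j) γ) x)

end Vale.Agent.P022K.Sh.Be
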