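import Vale.Agent.P022K.QT.BetT
import Vale.Agent.P022K.QT.BetG

/-!
# P022K, block QT: row BET
-/

namespace Vale.Agent.P022K.Sh

/-- **row BET** -/
theorem bet : BET := Be.bet_of Be.grx

end Vale.Agent.P022K.Sh
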