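import Vale.Agent.P022K.QT.BetD

/-!
# P022K, block QT, row BET: duality for weighted cocycles
-/

set_option autoImplicit false

noncomputable section

namespace Vale.Agent.P022K.Sh.Be

variable {G0 G : Type} [Group G0] [Group G] {Λ : Type} [CommRing Λ] {J : Type} [Fintype J]

section

variable {M M' : Type} [AddCommGroup M] [Module Λ M] [AddCommGroup M'] [Module Λ M']

/-- `B ⊗ s` -/
def am (B : Matrix J J Λ) (s : Module.End Λ M) : Module.End Λ (J → M) where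
  toFun φ := fun j => ∑ i, B j i • s (φ i)
  map_add' φ ψ := funext fun j => by
    simp only [Pi.add_apply, map_add, smul_add, Finset.sum_add_distrib]
  map_smul' c φ := funext fun j => by
    simp only [Pi.smul_apply, map_smul, RingHom.id_apply, Finset.smul_sum, smul_comm c]

theorem am_apply (B : Matrix J J Λ) (s : Module.End Λ M) (φ : J → M) (j : J) :
    am B s φ j = ∑ i, B j i • s (φ i) := rfl

theorem am_mul (B B' : Matrix J J Λ) (s s' : Module.End Λ M) :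
    am (B * B') (s * s') = am B s * am B' s' := LinearMap.ext fun φ => funext fun j => by
  simp only [am_apply, Module.End.mul_apply, Matrix.mul_apply, Finset.sum_smul, map_sum, map_smul,
    Finset.smul_sum, mul_smul]
  exact Finset.sum_comm

theorem am_one [DecidableEq J] (s : Module.End Λ M) (φ : J → M) (j : J) : am 1 s φ j = s (φ j) := by
  simp [am_apply, Matrix.one_apply]

theorem am_comm {B B' : Matrix J J Λ} {s s' : Module.End Λ M} (h : Commute B B')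
    (h' : Commute s s') : Commute (am B s) (am B' s') := by
  rw [Commute, SemiconjBy, ← am_mul, ← am_mul, h.eq, h'.eq]

theorem am_co (h : M →ₗ[Λ] M') {s : Module.End Λ M} {s' : Module.End Λ M'}
    (e : ∀ v, h (s v) = s' (h v)) (B : Matrix J J Λ) (φ : J → M) :
    h.compLeft J (am B s φ) = am B s' (h.compLeft J φ) := funext fun j => by
  simp only [LinearMap.compLeft_apply, Function.comp, am_apply, map_sum, map_smul, e]

variable [DecidableEq J] (a : Representation Λ G M) (a' : Representation Λ G M')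

/-- the linear map given by `opM` -/
def opL (F : G →₀ Matrix J J Λ) : Module.End Λ (J → M) := ∑ g ∈ F.support, am (F g) (a g)

omit [DecidableEq J] in
theorem opL_apply (F : G →₀ Matrix J J Λ) (φ : J → M) : opL a F φ = opM a F φ := funext fun j => by
  simp only [opL, LinearMap.sum_apply, Finset.sum_apply, am_apply, opM, Finsupp.sum]

variable {a a'} {U : Subgroup G} {τ : G → Matrix J J Λ}

omit [DecidableEq J] in
theorem mem_Av {φ : J → M} : φ ∈ Av a U τ ↔ ∀ u ∈ U, am (τ u) (a u) φ = φ :=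
  forall₂_congr fun _ _ => funext_iff.symm

omit [DecidableEq J] in
theorem opL_co (h : M →ₗ[Λ] M') (e : ∀ g v, h (a g v) = a' g (h v)) (F : G →₀ Matrix J J Λ)
    (φ : J → M) : h.compLeft J (opL a F φ) = opL a' F (h.compLeft J φ) := by
  simp only [opL, LinearMap.sum_apply, map_sum, am_co h (e _)]

omit [DecidableEq J] in
theorem Av_co (h : M →ₗ[Λ] M') (e : ∀ g v, h (a g v) = a' g (h v)) {φ : J → M}
    (hφ : φ ∈ Av a U τ) : h.compLeft J φ ∈ Av a' U τ :=
  mem_Av.2 fun u hu => by rw [← am_co h (e u), mem_Av.1 hφ u hu]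

omit [DecidableEq J] in
theorem Av_of {ι : Type} (h : ι → M →ₗ[Λ] M') (e : ∀ t g v, h t (a g v) = a' g (h t v))
    (i : ∀ v w, (∀ t, h t v = h t w) → v = w) {φ : J → M}
    (hφ : ∀ t, (h t).compLeft J φ ∈ Av a' U τ) : φ ∈ Av a U τ :=
  mem_Av.2 fun u hu => funext fun j => i _ _ fun t =>
    congrFun ((am_co (h t) (e t u) _ _).trans (mem_Av.1 (hφ t) u hu)) j

end

variable {R R' : Type} [AddCommGroup R] [Module Λ R] [AddCommGroup R'] [Module Λ R']
  {T : Tw G0 G} {ρ : G0 → Matrix J J Λ} {U : Subgroup G} {τ : G → Matrix J J Λ}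

/-- change of coefficients of functions -/
abbrev c0 (h : R →ₗ[Λ] R') : (J → G → R) →ₗ[Λ] (J → G → R') := (h.compLeft G).compLeft J

/-- change of coefficients of cochains -/
abbrev c1 (h : R →ₗ[Λ] R') : (J → G0 → G → R) →ₗ[Λ] (J → G0 → G → R') :=
  ((h.compLeft G).compLeft G0).compLeft J

/-- evaluation of a cochain -/
abbrev sl (γ : G0) : (J → G0 → G → R) →ₗ[Λ] (J → G → R) :=
  (LinearMap.proj γ : (G0 → G → R) →ₗ[Λ] (G → R)).compLeft J

variable (T R) in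
/-- left translation -/
def ll (γ : G0) : Module.End Λ (G → R) := LinearMap.funLeft Λ R ((T.j γ)⁻¹ * ·)

theorem ll_rr (γ : G0) (g : G) : Commute (ll R T γ) (rr G Λ R g) :=
  LinearMap.ext fun f => funext fun _ => congrArg f (mul_assoc _ _ _)

theorem sum_ll (γ : G0) (f : J → G → R) (j : J) (x : G) :
    am (ρ γ) (ll R T γ) f j x = ∑ i, ρ γ j i • f i ((T.j γ)⁻¹ * x) := by
  rw [am_apply, Finset.sum_apply]
  rfl

theorem sum_rr (B : Matrix J J Λ) (g : G) (f : J → G → R) (j : J) (x : G) :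
    am B (rr G Λ R g) f j x = ∑ i, B j i • f i (x * g) := by
  rw [am_apply, Finset.sum_apply]
  rfl

omit [Fintype J] [Group G0] [Group G] in
theorem ext_sl {z w : J → G0 → G → R} (h : ∀ γ, sl (Λ := Λ) γ z = sl (Λ := Λ) γ w) : z = w :=
  funext fun j => funext fun γ => congrFun (h γ) j

theorem sl_dw (γ : G0) (f : J → G → R) :
    sl (Λ := Λ) γ (dw R T ρ f) = am (ρ γ) (ll R T γ) f - f :=
  funext fun j => funext fun x => by rw [Pi.sub_apply, Pi.sub_apply, sum_ll]; rfl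

omit [Group G0] in
theorem sl_opL (γ : G0) (F : G →₀ Matrix J J Λ) (z : J → G0 → G → R) :
    sl (Λ := Λ) γ (opL (RR G0 G Λ R) F z) = opL (rr G Λ R) F (sl (Λ := Λ) γ z) :=
  opL_co _ (fun _ _ => rfl) F z

omit [Group G0] in
theorem Av_RR {z : J → G0 → G → R} :
    z ∈ Av (RR G0 G Λ R) U τ ↔ ∀ γ, sl (Λ := Λ) γ z ∈ Av (rr G Λ R) U τ :=
  ⟨fun h γ u hu j => (Finset.sum_apply γ _ _).symm.trans (congrFun (h u hu j) γ),
    fun h u hu j => funext fun γ => (Finset.sum_apply γ _ _).trans (h γ u hu j)⟩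

theorem mem_Zw {z : J → G0 → G → R} : z ∈ Zw R T ρ U τ ↔
    (∀ γ, sl (Λ := Λ) γ z ∈ Av (rr G Λ R) U τ) ∧ (∀ γ δ, sl (Λ := Λ) (γ * δ) z =
      sl (Λ := Λ) γ z + am (ρ γ) (ll R T γ) (sl (Λ := Λ) δ z)) ∧
      ∀ γ ∈ T.Z0, sl (Λ := Λ) γ z = 0 :=
  and_congr Av_RR (and_congr ⟨fun h γ δ => funext fun j => funext fun x => by
      rw [Pi.add_apply, Pi.add_apply, sum_ll]; exact h j γ δ x,
    fun h j γ δ x => by
      have := congrFun (congrFun (h γ δ) j) x
      rwa [Pi.add_apply, Pi.add_apply, sum_ll] at this⟩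
    ⟨fun h γ hγ => funext fun j => h j γ hγ, fun h j γ hγ => congrFun (h γ hγ) j⟩)

theorem c0_Av (h : R →ₗ[Λ] R') {f : J → G → R} (hf : f ∈ Av (rr G Λ R) U τ) :
    c0 h f ∈ Av (rr G Λ R') U τ := Av_co _ (fun _ _ => rfl) hf

theorem c1_dw (h : R →ₗ[Λ] R') (f : J → G → R) : c1 h (dw R T ρ f) = dw R' T ρ (c0 h f) :=
  ext_sl (Λ := Λ) fun γ => by
    rw [sl_dw, ← am_co (h.compLeft G) (s := ll R T γ) fun _ => rfl, ← map_sub, ← sl_dw]
    rfl

theorem c1_Bw (h : R →ₗ[Λ] R') {z : J → G0 → G → R} (hz : z ∈ Bw R T ρ U τ) :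
    c1 h z ∈ Bw R' T ρ U τ := by
  obtain ⟨f, hf, rfl⟩ := hz
  exact ⟨_, c0_Av h hf, (c1_dw h f).symm⟩

theorem c1_Zw (h : R →ₗ[Λ] R') {z : J → G0 → G → R} (hz : z ∈ Zw R T ρ U τ) :
    c1 h z ∈ Zw R' T ρ U τ :=
  ⟨Av_co _ (fun _ _ => rfl) hz.1, fun j γ δ x => by
    simp only [LinearMap.compLeft_apply, Function.comp, hz.2.1, map_add, map_sum, map_smul],
    fun j γ hγ => funext fun x => by
      simp only [LinearMap.compLeft_apply, Function.comp, hz.2.2 j γ hγ, Pi.zero_apply, map_zero]⟩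

theorem Zw_of {ι : Type} (h : ι → R →ₗ[Λ] R') (i : ∀ v w, (∀ t, h t v = h t w) → v = w)
    {z : J → G0 → G → R} (hz : ∀ t, c1 (h t) z ∈ Zw R' T ρ U τ) : z ∈ Zw R T ρ U τ :=
  ⟨Av_of (fun t => ((h t).compLeft G).compLeft G0) (fun _ _ _ => rfl) (fun _ _ e =>
      funext fun γ => funext fun x => i _ _ fun t => congrFun (congrFun (e t) γ) x)
      fun t => (hz t).1,
    fun j γ δ x => i _ _ fun t => by
      simpa only [LinearMap.compLeft_apply, Function.comp, map_add, map_sum, map_smul]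
        using (hz t).2.1 j γ δ x,
    fun j γ hγ => funext fun x => i _ _ fun t =>
      (congrFun ((hz t).2.2 j γ hγ) x).trans (map_zero _).symm⟩

omit [Group G0] in
theorem c1_opL (h : R →ₗ[Λ] R') (F : G →₀ Matrix J J Λ) (z : J → G0 → G → R) :
    c1 h (opL (RR G0 G Λ R) F z) = opL (RR G0 G Λ R') F (c1 h z) := opL_co _ (fun _ _ => rfl) F z

/-! ## the universal coboundary -/

variable (U τ) in
/-- extension from the representatives -/
def xt (s : G ⧸ U → J → R) : J → G → R := fun j x => ∑ i, τ (x⁻¹ * (x : G ⧸ U).out) j i • s x i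

theorem xt_eq {f : J → G → R} (hf : f ∈ Av (rr G Λ R) U τ) :
    xt U τ (fun q i => f i q.out) = f := funext fun j => funext fun x => by
  rw [← congrFun (congrFun (mem_Av.1 hf _ (out_mk_mem U x)) j) x, sum_rr, mul_inv_cancel_left, xt]

variable (U τ) in
/-- `τ` is multiplicative on `U` -/
def Mu : Prop := ∀ u ∈ U, ∀ v ∈ U, τ (u * v) = τ u * τ v

theorem xt_mem (m : Mu U τ) (s : G ⧸ U → J → R) : xt U τ s ∈ Av (rr G Λ R) U τ :=
  mem_Av.2 fun u hu => funext fun j => funext fun x => by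
    have e : ((x * u : G) : G ⧸ U) = x := QuotientGroup.eq.2 (by simpa using hu)
    have := m u hu _ (out_mk_mem U (x * u))
    rw [e, mul_inv_rev, mul_assoc, mul_inv_cancel_left] at this
    simp only [sum_rr, xt, e, this, Matrix.mul_apply, Finset.sum_smul, Finset.smul_sum, mul_smul,
      mul_inv_rev, mul_assoc]
    exact Finset.sum_comm

theorem c0_xt (h : R →ₗ[Λ] R') (s : G ⧸ U → J → R) :
    c0 h (xt U τ s) = xt U τ fun q i => h (s q i) := funext fun j => funext fun x => by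
  simp only [LinearMap.compLeft_apply, Function.comp, xt, map_sum, map_smul]

theorem Av_lift (m : Mu U τ) (h : R →ₗ[Λ] R') (sur : Function.Surjective h) {f : J → G → R'}
    (hf : f ∈ Av (rr G Λ R') U τ) : ∃ f' ∈ Av (rr G Λ R) U τ, c0 h f' = f := by
  choose s hs using sur
  exact ⟨_, xt_mem m fun q i => s (f i q.out), by simp only [c0_xt, hs, xt_eq hf]⟩

variable (U τ) in
/-- the universal function -/
def f0 : J → G → ((G ⧸ U) × J →₀ Λ) := xt U τ fun q i => Finsupp.single (q, i) 1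

theorem ex_f0 {f : J → G → R} (hf : f ∈ Av (rr G Λ R) U τ) :
    ∃ h : ((G ⧸ U) × J →₀ Λ) →ₗ[Λ] R, c0 h (f0 U τ) = f :=
  ⟨Finsupp.linearCombination Λ fun q => f q.2 q.1.out, by
    simp only [f0, c0_xt, Finsupp.linearCombination_single, one_smul, xt_eq hf]⟩

theorem opL_Av (m : Mu U τ) {F : G →₀ Matrix J J Λ}
    (h : ∀ f ∈ Av (rr G Λ Λ) U τ, opL (rr G Λ Λ) F f ∈ Av (rr G Λ Λ) U τ) {f : J → G → R}
    (hf : f ∈ Av (rr G Λ R) U τ) : opL (rr G Λ R) F f ∈ Av (rr G Λ R) U τ := by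
  obtain ⟨k, rfl⟩ := ex_f0 hf
  rw [← opL_co (a := rr G Λ _) (k.compLeft G) fun _ _ => rfl]
  refine c0_Av k (Av_of (a' := rr G Λ Λ) (fun q => (Finsupp.lapply q).compLeft G) (fun _ _ _ => rfl)
    (fun _ _ e => funext fun x => Finsupp.ext fun q => congrFun (e q) x) fun q => ?_)
  rw [opL_co (a' := rr G Λ Λ) _ fun _ _ => rfl]
  exact h _ (c0_Av _ (xt_mem m _))

/-- the pairing with chains -/
abbrev lc (z : J → G0 → G → R) : (J × G0 × G →₀ Λ) →ₗ[Λ] R :=
  Finsupp.linearCombination Λ fun q => z q.1 q.2.1 q.2.2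

omit [Fintype J] [Group G0] [Group G] in
theorem lc_c1 (h : R →ₗ[Λ] R') (z : J → G0 → G → R) (l : J × G0 × G →₀ Λ) :
    lc (c1 h z) l = h (lc z l) := (Finsupp.apply_linearCombination Λ h _ l).symm

omit [Fintype J] [Group G0] [Group G] in
theorem lc_sub (z w : J → G0 → G → R) (l : J × G0 × G →₀ Λ) : lc (z - w) l = lc z l - lc w l := by
  simp only [Finsupp.linearCombination_apply, Pi.sub_apply, smul_sub, Finsupp.sum_sub]

omit [Fintype J] [Group G0] [Group G] in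
theorem lc_smul (c : Λ) (z : J → G0 → G → R) (l : J × G0 × G →₀ Λ) : lc (c • z) l = c • lc z l := by
  simp only [Finsupp.linearCombination_apply, Pi.smul_apply, Finsupp.smul_sum, smul_comm c]

variable (T ρ U τ) in
/-- the cycles -/
def Cyc : Submodule Λ (J × G0 × G →₀ Λ) := LinearMap.ker (lc (dw _ T ρ (f0 U τ)))

theorem Bw_kill {z : J → G0 → G → R} (hz : z ∈ Bw R T ρ U τ) : ∀ l ∈ Cyc T ρ U τ, lc z l = 0 := by
  obtain ⟨f, hf, rfl⟩ := hz
  obtain ⟨h, rfl⟩ := ex_f0 hf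
  exact fun l hl => by rw [← c1_dw, lc_c1, LinearMap.mem_ker.1 hl, map_zero]

/-- **duality** -/
theorem Bw_of (m : Mu U τ) (b : Module.Baer Λ R) {z : J → G0 → G → R}
    (h : ∀ l ∈ Cyc T ρ U τ, lc z l = 0) : z ∈ Bw R T ρ U τ := by
  obtain ⟨k, hk⟩ := b.extension_property ((Cyc T ρ U τ).liftQ (lc (dw _ T ρ (f0 U τ))) le_rfl)
    (LinearMap.ker_eq_bot.1 (Submodule.ker_liftQ_eq_bot _ _ _ le_rfl))
    ((Cyc T ρ U τ).liftQ (lc z) h)
  refine ⟨_, c0_Av k (xt_mem m fun q i => Finsupp.single (q, i) 1), (c1_dw k _).symm.trans ?_⟩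
  funext j γ x
  have : k (lc (dw _ T ρ (f0 U τ)) (Finsupp.single (j, γ, x) (1 : Λ))) =
      lc z (Finsupp.single (j, γ, x) (1 : Λ)) :=
    LinearMap.congr_fun hk (Submodule.Quotient.mk (Finsupp.single (j, γ, x) 1))
  rw [Finsupp.linearCombination_single, Finsupp.linearCombination_single, one_smul, one_smul] at this
  exact this

theorem baer_of [IsDomain Λ] [IsPrincipalIdealRing Λ] (h : ∀ o : Λ, o ≠ 0 → ∀ x : R, ∃ y, o • y = x) :
    Module.Baer Λ R := fun I g => by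
  obtain ⟨o, rfl⟩ := (IsPrincipalIdealRing.principal I).principal
  have m := Submodule.mem_span_singleton_self (R := Λ) o
  have : ∃ y, o • y = g ⟨o, m⟩ := by
    by_cases e : o = 0
    · exact ⟨0, by subst e; exact (smul_zero _).trans (map_zero g).symm⟩
    · exact h o e _
  obtain ⟨y, hy⟩ := this
  refine ⟨LinearMap.toSpanSingleton Λ R y, fun x hx => ?_⟩
  obtain ⟨c, rfl⟩ := Submodule.mem_span_singleton.1 hx
  rw [LinearMap.toSpanSingleton_apply, smul_assoc, hy, ← map_smul]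
  rfl

theorem ex_map (b : Module.Baer Λ R') {r : R} (h : ∀ o : Λ, o • r = 0 → o = 0) (x : R') :
    ∃ k : R →ₗ[Λ] R', k r = x := by
  obtain ⟨k, hk⟩ := b.extension_property (LinearMap.toSpanSingleton Λ R r)
    ((injective_iff_map_eq_zero _).2 h) (LinearMap.toSpanSingleton Λ R' x)
  exact ⟨k, by simpa using LinearMap.congr_fun hk 1⟩

/-! ## finiteness -/

theorem Av_zero {f : J → G → R} (hf : f ∈ Av (rr G Λ R) U τ) {x y : G} (h : x⁻¹ * y ∈ U)
    (e : ∀ j, f j y = 0) (j : J) : f j x = 0 := by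
  rw [← congrFun (congrFun (mem_Av.1 hf _ h) j) x, sum_rr, mul_inv_cancel_left]
  simp only [e, smul_zero, Finset.sum_const_zero]

/-- **Shapiro**: a cocycle that vanishes on the generators is a coboundary -/
theorem ex_gen (k : T.Ok0) (hU : U ∈ T.Lev) : ∃ I : Set (G0 × G), I.Finite ∧
    ∀ (R : Type) [AddCommGroup R] [Module Λ R], ∀ z ∈ Zw R T ρ U τ,
      (∀ q ∈ I, ∀ j, z j q.1 q.2 = 0) → z ∈ Bw R T ρ U τ := by
  obtain ⟨S, hS⟩ := k.fin U hU
  choose X hX using k.fg U hU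
  refine ⟨⋃ s ∈ S, (fun γ => (γ, s)) '' X s, S.finite_toSet.biUnion fun s _ =>
    (X s).finite_toSet.image _, fun R _ _ z hz h => ?_⟩
  have av := Av_RR.1 hz.1
  have key : ∀ s ∈ S, ∀ γ ∈ T.Gam U s, ∀ j, z j γ s = 0 := fun s hs => by
    have c : ∀ a ∈ T.Gam U s, ∀ b, (∀ j, z j b s = 0) → ∀ j, z j (a * b) s = z j a s :=
      fun a ha b hb j => by
        have := Av_zero (av b) (x := (T.j a)⁻¹ * s) (y := s)
          (by simpa [mul_assoc] using T.mem_Gam.1 ha) hb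
        rw [hz.2.1, Finset.sum_eq_zero fun i _ => by rw [show z i b _ = 0 from this i, smul_zero],
          add_zero]
    let Q : Subgroup G0 :=
      { carrier := {γ | γ ∈ T.Gam U s ∧ ∀ j, z j γ s = 0}
        one_mem' := ⟨one_mem _, fun j => congrFun (hz.2.2 j 1 (one_mem _)) s⟩
        mul_mem' := fun {a b} ha hb => ⟨mul_mem ha.1 hb.1, fun j => by
          rw [c a ha.1 b hb.2, ha.2]⟩
        inv_mem' := fun {a} ha => ⟨inv_mem ha.1, fun j => by
          rw [← c _ (inv_mem ha.1) a ha.2, inv_mul_cancel, hz.2.2 j 1 (one_mem _)]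
          rfl⟩ }
    have l : Subgroup.closure (X s : Set G0) ⊔ T.Z0 ≤ Q := sup_le
      ((Subgroup.closure_le _).2 fun γ hγ => ⟨(hX s).ge (Subgroup.mem_sup_left
        (Subgroup.subset_closure hγ)), h _ (Set.mem_biUnion hs ⟨γ, hγ, rfl⟩)⟩)
      fun γ hγ => ⟨(hX s).ge (Subgroup.mem_sup_right hγ), fun j => congrFun (hz.2.2 j γ hγ) s⟩
    exact fun γ hγ => (l ((hX s).le hγ)).2
  obtain ⟨κ, o, h1, -, h3, h4, h5⟩ := Tw.ex_cmp hS
  refine ⟨-fun j x => z j (κ x) x, neg_mem (mem_Av.2 fun u hu => funext fun j => funext fun x => ?_),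
    funext fun j => funext fun γ => funext fun x => ?_⟩
  · rw [sum_rr, h1 x u hu]
    exact (sum_rr _ _ _ _ _).symm.trans (congrFun (congrFun (mem_Av.1 (av (κ x)) u hu) j) x)
  · have m : (κ x)⁻¹ * (γ * κ ((T.j γ)⁻¹ * x)) ∈ T.Gam U (o x) := T.mem_Gam.2 (by
      have := mul_mem (h4 x) (inv_mem (h4 ((T.j γ)⁻¹ * x)))
      rw [h5] at this
      simpa [mul_assoc] using this)
    have e := hz.2.1 j (κ x) ((κ x)⁻¹ * (γ * κ ((T.j γ)⁻¹ * x))) x
    have := Av_zero (av _) (x := (T.j (κ x))⁻¹ * x) (y := o x)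
      (by simpa [mul_assoc] using inv_mem (h4 x)) (key _ (h3 x) _ m)
    rw [mul_inv_cancel_left, hz.2.1, Finset.sum_eq_zero (s := Finset.univ)
      (f := fun i => ρ (κ x) j i • _) fun i _ => by
        rw [show z i _ _ = 0 from this i, smul_zero], add_zero] at e
    show ∑ i, ρ γ j i • -z i _ _ - -z j _ _ = _
    simp only [smul_neg, Finset.sum_neg_distrib, ← e]
    abel

theorem fg_cyc [IsNoetherianRing Λ] (k : T.Ok0) (hU : U ∈ T.Lev) {z : J → G0 → G → R}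
    (hz : z ∈ Zw R T ρ U τ) : ((Cyc T ρ U τ).map (lc z)).FG := by
  obtain ⟨I, fi, h⟩ := ex_gen (ρ := ρ) (τ := τ) k hU
  let N := Submodule.span Λ ((fun q : J × G0 × G => z q.1 q.2.1 q.2.2) '' Set.univ ×ˢ I)
  refine Submodule.FG.of_le (T := N) (Submodule.fg_span ((Set.finite_univ.prod fi).image _)) ?_
  rintro _ ⟨l, hl, rfl⟩
  rw [← Submodule.Quotient.mk_eq_zero]
  exact (lc_c1 N.mkQ z l).symm.trans (Bw_kill (h _ _ (c1_Zw N.mkQ hz) fun q hq j =>
    (Submodule.Quotient.mk_eq_zero N).2 (Submodule.subset_span ⟨(j, q), ⟨trivial, hq⟩, rfl⟩)) l hl)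

/-! ## operators -/

variable (ρ U τ) in
/-- operators that act on the cohomology -/
structure Gd (F : G →₀ Matrix J J Λ) : Prop where
  com : ∀ γ g, Commute (ρ γ) (F g)
  av : ∀ f ∈ Av (rr G Λ Λ) U τ, opL (rr G Λ Λ) F f ∈ Av (rr G Λ Λ) U τ

variable {F : G →₀ Matrix J J Λ}

theorem Gd.ll (h : Gd ρ U τ F) (γ : G0) (f : J → G → R) :
    opL (rr G Λ R) F (am (ρ γ) (ll R T γ) f) = am (ρ γ) (ll R T γ) (opL (rr G Λ R) F f) :=
  (LinearMap.congr_fun (Commute.sum_right F.support (fun g => am (F g) (rr G Λ R g)) _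
    fun g _ => am_comm (h.com γ g) (ll_rr γ g)).eq f).symm

theorem Gd.dw (h : Gd ρ U τ F) (f : J → G → R) :
    opL (RR G0 G Λ R) F (dw R T ρ f) = dw R T ρ (opL (rr G Λ R) F f) :=
  ext_sl (Λ := Λ) fun γ => by rw [sl_opL, sl_dw, sl_dw, map_sub, h.ll]

theorem Gd.Bw (h : Gd ρ U τ F) (m : Mu U τ) {z : J → G0 → G → R} (hz : z ∈ Bw R T ρ U τ) :
    opL (RR G0 G Λ R) F z ∈ Bw R T ρ U τ := by
  obtain ⟨f, hf, rfl⟩ := hz
  exact ⟨_, opL_Av m h.av hf, (h.dw f).symm⟩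

theorem Gd.Zw (h : Gd ρ U τ F) (m : Mu U τ) {z : J → G0 → G → R} (hz : z ∈ Zw R T ρ U τ) :
    opL (RR G0 G Λ R) F z ∈ Zw R T ρ U τ := by
  obtain ⟨h1, h2, h3⟩ := mem_Zw.1 hz
  exact mem_Zw.2 ⟨fun γ => sl_opL γ F z ▸ opL_Av m h.av (h1 γ),
    fun γ δ => by rw [sl_opL, sl_opL, sl_opL, h2, map_add, h.ll],
    fun γ hγ => by rw [sl_opL, h3 γ hγ, map_zero]⟩

theorem Gd.cyc (h : Gd ρ U τ F) (m : Mu U τ) (z : J → G0 → G → R) {l : J × G0 × G →₀ Λ}
    (hl : l ∈ Cyc T ρ U τ) : ∃ l' ∈ Cyc T ρ U τ, lc z l' = lc (opL (RR G0 G Λ R) F z) l := by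
  have key : ∀ (R : Type) [AddCommGroup R] [Module Λ R] (z : J → G0 → G → R),
      lc z (lc (opL (RR G0 G Λ _) F fun j γ x => Finsupp.single (j, γ, x) (1 : Λ)) l) =
        lc (opL (RR G0 G Λ R) F z) l := fun R _ _ z => by
    rw [← lc_c1, c1_opL]
    congr 3
    funext j γ x
    simp
  exact ⟨_, (key _ _).trans (Bw_kill (h.Bw m ⟨_, xt_mem m _, rfl⟩) l hl), key R z⟩

variable {Ω : Type}

variable (R T ρ U τ) in
/-- eigencocycles -/
def Eg (F : Ω → G →₀ Matrix J J Λ) (c : Ω → Λ) (z : J → G0 → G → R) : Prop :=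
  z ∈ Zw R T ρ U τ ∧ ∀ ω, opL (RR G0 G Λ R) (F ω) z - c ω • z ∈ Bw R T ρ U τ

variable {F : Ω → G →₀ Matrix J J Λ} {c : Ω → Λ}

theorem Eg.c1 {z : J → G0 → G → R} (hz : Eg R T ρ U τ F c z) (h : R →ₗ[Λ] R') :
    Eg R' T ρ U τ F c (c1 h z) :=
  ⟨c1_Zw h hz.1, fun ω => by
    rw [← c1_opL, ← map_smul, ← map_sub]
    exact c1_Bw h (hz.2 ω)⟩

/-- from a torsion free module to a divisible module -/
theorem un_of (m : Mu U τ) (b : Module.Baer Λ R) (b' : Module.Baer Λ R')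
    (tf : ∀ (o : Λ) (r : R), r ≠ 0 → o • r = 0 → o = 0) {z : J → G0 → G → R}
    (hz : Eg R T ρ U τ F c z) (ne : z ∉ Bw R T ρ U τ) {o : Λ} {x : R'} (hx : o • x ≠ 0) :
    ∃ z', Eg R' T ρ U τ F c z' ∧ o • z' ∉ Bw R' T ρ U τ := by
  obtain ⟨l, hl, e⟩ : ∃ l ∈ Cyc T ρ U τ, lc z l ≠ 0 := by
    by_contra! h
    exact ne (Bw_of m b h)
  obtain ⟨k, hk⟩ := ex_map b' (fun o => tf o _ e) x
  exact ⟨_, hz.c1 k, fun h => hx (by rw [← hk, ← lc_c1, ← lc_smul, Bw_kill h l hl])⟩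

/-- from unbounded exponents to an arbitrary divisible module -/
theorem of_un [IsDomain Λ] [IsNoetherianRing Λ] (k : T.Ok0) (hU : U ∈ T.Lev) (m : Mu U τ)
    (b : Module.Baer Λ R) (b' : Module.Baer Λ R') [Nontrivial R']
    (h : ∀ o : Λ, o ≠ 0 → ∃ z, Eg R T ρ U τ F c z ∧ o • z ∉ Bw R T ρ U τ) :
    ∃ z, Eg R' T ρ U τ F c z ∧ z ∉ Bw R' T ρ U τ := by
  choose y h1 h2 using fun o : {o : Λ // o ≠ 0} => h o.1 o.2
  let z : J → G0 → G → {o : Λ // o ≠ 0} → R := fun j γ x o => y o j γ x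
  have hz : z ∈ Zw _ T ρ U τ :=
    Zw_of (fun o => LinearMap.proj o) (fun _ _ e => funext e) fun o => (h1 o).1
  have : ∃ l ∈ Cyc T ρ U τ, ∀ o : Λ, o • lc z l = 0 → o = 0 := by
    by_contra! h3
    have := Module.Finite.of_fg (fg_cyc k hU hz)
    obtain ⟨o, h4, h5⟩ := Submodule.annihilator_top_inter_nonZeroDivisors (R := Λ)
      (M := (Cyc T ρ U τ).map (lc z)) fun ⟨_, l, hl, e⟩ => by
        obtain ⟨o, h6, h7⟩ := h3 l hl
        exact ⟨⟨o, mem_nonZeroDivisors_of_ne_zero h7⟩, Subtype.ext (e ▸ h6)⟩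
    refine h2 ⟨o, nonZeroDivisors.ne_zero h5⟩ (Bw_of m b fun l hl => ?_)
    have := congrArg Subtype.val (Submodule.mem_annihilator.1 h4 ⟨_, l, hl, rfl⟩ trivial)
    rw [lc_smul]
    exact (congrArg (o • ·) (lc_c1 (LinearMap.proj ⟨o, _⟩) z l)).trans (congrFun this _)
  obtain ⟨l, hl, h3⟩ := this
  obtain ⟨x, hx⟩ := exists_ne (0 : R')
  obtain ⟨s, hs⟩ := ex_map b' h3 x
  refine ⟨c1 s z, ⟨c1_Zw s hz, fun ω => Bw_of m b' fun l hl => ?_⟩,
    fun h => hx (by rw [← hs, ← lc_c1, Bw_kill h l hl])⟩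
  rw [← c1_opL, ← map_smul, ← map_sub, lc_c1]
  refine (congrArg s (funext fun o => ?_)).trans (map_zero s)
  have := lc_c1 (LinearMap.proj o : _ →ₗ[Λ] R) (opL (RR G0 G Λ _) (F ω) z - c ω • z) l
  rw [map_sub, map_smul, c1_opL] at this
  exact this.symm.trans (Bw_kill ((h1 o).2 ω) l hl)

end Vale.Agent.P022K.Sh.Be
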