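import Vale.Agent.P022K.QT.BetA

/-!
# P022K, block QT, row BET: weighted cocycles with divisible coefficients and the module
-/

set_option autoImplicit false

open scoped MatrixGroups

noncomputable section

namespace Vale.Agent.P022K.Sh.Be

variable {G0 G : Type} [Group G0] [Group G] {T : Tw G0 G} {O : Type} [CommRing O]
  {M M' : Type} [AddCommGroup M] [Module O M] [AddCommGroup M'] [Module O M']
  {a : Representation O G M} {a' : Representation O G M'}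

/-! ## the Hecke operator on a representation -/

section

variable {O' K : Type} [CommRing O'] [IsDomain O'] [IsDiscreteValuationRing O'] [Field K]
  [Algebra O' K] {w : T.Lc O' K} {v : M} {U : Subgroup G}

theorem Tv_fix (hv : v ∈ w.Fl a (KK O' K ⊔ Zl K)) : w.Tv a v ∈ w.Fl a (KK O' K ⊔ Zl K) := by
  have := w.fin
  let _ := Fintype.ofFinite (IsLocalRing.ResidueField O')
  have hf : Inv (KK O' K ⊔ Zl K) fun g => a (w.ι g) v := fun x u hu => by
    simp only [map_mul, Module.End.mul_apply, hv _ ⟨u, hu, rfl⟩]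
  have c : Cor (KK O' K ⊔ Zl K) (dc (KK O' K ⊔ Zl K) (dg w.ϖ) (KK O' K ⊔ Zl K))
      (KK O' K ⊔ Zl K) := ⟨by
    rintro u hu _ ⟨a, ha, b, hb, rfl⟩
    exact ⟨u * a, mul_mem hu ha, b, hb, by simp only [mul_assoc]⟩, dc_right, w.rep_loc.fin⟩
  rintro _ ⟨k, hk, rfl⟩
  have := hk_inv c hf 1 k hk
  rw [w.rep_loc.hk hf, w.rep_loc.hk hf] at this
  simpa only [Tw.Lc.Tv, LinearMap.sum_apply, map_sum, one_mul, map_mul, Module.End.mul_apply]
    using this

theorem Tv_away {y : G} (hy : w.π y = 1) : Commute (w.Tv a) (a y) :=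
  Commute.sum_left _ _ _ fun _ _ => (w.com _ y hy).map a

theorem Tv_com (hv : v ∈ w.Fl a (KK O' K ⊔ Zl K)) {g : G} (hg : w.π g ∈ KK O' K ⊔ Zl K) :
    w.Tv a (a g v) = a g (w.Tv a v) := by
  have hy : w.π (g * (w.ι (w.π g))⁻¹) = 1 := by rw [map_mul, map_inv, w.πι, mul_inv_cancel]
  have e : ∀ x ∈ w.Fl a (KK O' K ⊔ Zl K), a g x = a (g * (w.ι (w.π g))⁻¹) x := fun x hx => by
    conv_rhs => rw [← hx _ ⟨_, hg, rfl⟩, ← Module.End.mul_apply, ← map_mul, inv_mul_cancel_right]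
  rw [e v hv, e _ (Tv_fix hv)]
  exact LinearMap.congr_fun (Tv_away hy).eq v

theorem Fv_le (hU : U ∈ w.L0) (hv : v ∈ Fv a U) : v ∈ w.Fl a (KK O' K ⊔ Zl K) := by
  rintro _ ⟨k, hk, rfl⟩
  exact hv _ ((hU.2.iff hU.1).2 hk)

theorem Tv_co (h : M →ₗ[O] M') (e : ∀ g v, h (a g v) = a' g (h v)) (v : M) :
    h (w.Tv a v) = w.Tv a' (h v) := by
  simp only [Tw.Lc.Tv, LinearMap.sum_apply, map_sum, e]

end

variable {A : T.Ax} {i : A.I} {v : M} {U U' : Subgroup G}

variable (A i) in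
/-- the maximal compact subgroup times the centre -/
abbrev VV : Subgroup (GL (Fin 2) ℚ_[A.l i]) := KK ℤ_[A.l i] ℚ_[A.l i] ⊔ Zl ℚ_[A.l i]

theorem tt_apply (v : M) :
    tt A i a v = (A.w i).Tv a ((A.w i).Tv a v) - ((A.l i : ℕ) + 1) ^ 2 • v := rfl

theorem tt_mem {Q : Submodule O M} (h : ∀ v ∈ Q, (A.w i).Tv a v ∈ Q) (n : ℕ) :
    ∀ v ∈ Q, (tt A i a ^ n) v ∈ Q := by
  induction n with
  | zero => exact fun _ hv => hv
  | succ n ih => exact fun v hv => ih _ (sub_mem (h _ (h v hv)) (nsmul_mem hv _))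

theorem tt_com (n : ℕ) {g : G} (hg : (A.w i).π g ∈ VV A i) :
    ∀ v ∈ (A.w i).Fl a (VV A i), (tt A i a ^ n) (a g v) = a g ((tt A i a ^ n) v) := by
  induction n with
  | zero => exact fun _ _ => rfl
  | succ n ih =>
    intro v hv
    rw [pow_succ, Module.End.mul_apply, Module.End.mul_apply, tt_apply v,
      ← ih _ (sub_mem (Tv_fix (Tv_fix hv)) (nsmul_mem hv _)), tt_apply, Tv_com hv hg,
      Tv_com (Tv_fix hv) hg, map_sub (a g), map_nsmul]

theorem tt_co (h : M →ₗ[O] M') (e : ∀ g v, h (a g v) = a' g (h v)) (n : ℕ) (v : M) :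
    h ((tt A i a ^ n) v) = (tt A i a' ^ n) (h v) := by
  induction n with
  | zero => rfl
  | succ n ih => simp only [pow_succ', Module.End.mul_apply, tt_apply, map_sub, map_nsmul,
      Tv_co h e, ih]

theorem tt_Fv (hU : U ∈ (A.w i).L0) (n : ℕ) (hv : v ∈ Fv a U) : (tt A i a ^ n) v ∈ Fv a U :=
  fun u hu => by rw [← tt_com n (hU.2.2 u hu) v (Fv_le hU hv), hv u hu]

theorem Tv_Tv (hA : A.Ok) (i k : A.I) : Commute ((A.w i).Tv a) ((A.w k).Tv a) := by
  by_cases e : i = k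
  · exact e ▸ Commute.refl _
  · exact Commute.sum_right _ _ _ fun _ _ => Tv_away ((hA.ne i k e).1 _)

theorem Fv_tr {u : G} (hu : ∀ x ∈ U', u⁻¹ * x * u ∈ U') (hv : v ∈ Fv a U') : a u v ∈ Fv a U' :=
  fun x hx => by
    conv_rhs => rw [← hv _ (hu x hx)]
    rw [← Module.End.mul_apply, ← Module.End.mul_apply, ← map_mul, ← map_mul, mul_assoc,
      mul_inv_cancel_left]

/-! ## the coboundary with constant coefficients -/

variable {D : Type} [AddCommGroup D] [Module O D]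

variable (T O D) in
/-- the coboundary -/
def d0 : (G → D) →ₗ[O] (G0 → G → D) where
  toFun f := fun γ x => f ((T.j γ)⁻¹ * x) - f x
  map_add' f f' := by
    funext γ x
    simp only [Pi.add_apply]
    abel
  map_smul' c f := by
    funext γ x
    simp only [Pi.smul_apply, RingHom.id_apply, smul_sub]

theorem d0_rr (g : G) (f : G → D) : d0 T O D (rr G O D g f) = RR G0 G O D g (d0 T O D f) :=
  funext fun γ => funext fun x => by
    show f (_ * x * g) - _ = f (_ * (x * g)) - _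
    rw [mul_assoc]
    rfl

theorem Fv_rr {f : G → D} : f ∈ Fv (rr G O D) U ↔ Inv U f :=
  ⟨fun h x u hu => congrFun (h u hu) x, fun h u hu => funext fun x => h x u hu⟩

variable (T O D) in
/-- cocycles without a level -/
abbrev Co : Submodule O (G0 → G → D) := T.Z1 (Representation.trivial O G0 D) ⊥

theorem mem_Z1 {z : G0 → G → D} : z ∈ T.Z1 (Representation.trivial O G0 D) U ↔
    z ∈ Fv (RR G0 G O D) U ∧ z ∈ Co T O D :=
  ⟨fun h => ⟨fun u hu => funext fun γ => funext fun x => h.1 γ x u hu,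
    fun γ => (h.1 γ).mono bot_le, h.2⟩,
    fun h => ⟨fun γ x u hu => congrFun (congrFun (h.1 u hu) γ) x, h.2.2⟩⟩

theorem Co_RR (g : G) {z : G0 → G → D} (h : z ∈ Co T O D) : RR G0 G O D g z ∈ Co T O D :=
  ⟨fun γ x u hu => by rw [Subgroup.mem_bot.1 hu, mul_one], fun γ δ => funext fun x => by
    simp [h.2.1, Tw.lt, mul_assoc], fun γ hγ => funext fun x => congrFun (h.2.2 γ hγ) _⟩

theorem Co_tt (n : ℕ) : ∀ z ∈ Co T O D, (tt A i (RR G0 G O D) ^ n) z ∈ Co T O D :=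
  tt_mem (fun z hz => by
    rw [Tw.Lc.Tv, LinearMap.sum_apply]
    exact Submodule.sum_mem _ fun _ _ => Co_RR _ hz) n

theorem d0_Co (k : T.Ok0) {f : G → D} (hf : ∀ u ∈ T.Z, ∀ x, f (x * u) = f x) :
    d0 T O D f ∈ Co T O D :=
  ⟨fun γ x u hu => by rw [Subgroup.mem_bot.1 hu, mul_one], fun γ δ => funext fun x => by
    simp [d0, Tw.lt, mul_assoc], fun γ hγ => funext fun x => by
      have h1 := inv_mem ((k.z0 γ).1 hγ)
      show f _ - f x = 0
      rw [← Subgroup.mem_center_iff.1 (k.zc h1) x, hf _ h1, sub_self]⟩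

theorem tt_eis (hA : A.Ok) (hU : U ∈ (A.w i).L0) {f : G → D} (hf : f ∈ Fv (rr G O D) U)
    (h : d0 T O D f = 0) : (tt A i (rr G O D) ^ 1) f = 0 := by
  have := (A.w i).fin
  let _ := Fintype.ofFinite (IsLocalRing.ResidueField ℤ_[A.l i])
  have e : ∀ f : G → D, Inv U f → hk ((A.w i).To U) U f = (A.w i).Tv (rr G O D) f := fun f hf =>
    funext fun x => by
      rw [(hU.2.rep_To hU.1).hk hf, Tw.Lc.Tv, LinearMap.sum_apply, Finset.sum_apply]
      rfl
  have h1 := Fv_rr.1 hf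
  have := T.pi0_of _ _ (A.w i) (hA.sa i) U hU.1 hU.2 D f ⟨h1, fun γ => funext fun x =>
    sub_eq_zero.1 (congrFun (congrFun h γ) x)⟩
  rw [e _ (hk_inv (Tw.Lc.L0.cor _ hU) h1), e _ h1, show qq ℤ_[A.l i] = A.l i from
    (Nat.card_congr PadicInt.residueField.toEquiv).trans (Nat.card_zmod _)] at this
  rw [pow_one, tt_apply, this, sub_self]

/-! ## weights -/

variable {J : Type} [Fintype J] [DecidableEq J] {τ : G → Matrix J J O} {p k : ℕ}

variable (T O) in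
/-- the coboundary on vectors -/
abbrev d1 : (J → G → D) →ₗ[O] (J → G0 → G → D) := dw D T (1 : G0 → Matrix J J O)

theorem dw_one (f : J → G → D) : d1 T O f = (d0 T O D).compLeft J f :=
  funext fun j => funext fun γ => funext fun x => by simp [dw, d0, Matrix.one_apply]

theorem mem_Zw1 {z : J → G0 → G → D} : z ∈ Zw D T 1 U τ ↔
    z ∈ Av (RR G0 G O D) U τ ∧ ∀ j, z j ∈ Co T O D :=
  and_congr_right fun _ => ⟨fun h j => ⟨fun γ x u hu => by rw [Subgroup.mem_bot.1 hu, mul_one],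
    fun γ δ => funext fun x => by simp [h.1, Tw.lt, Matrix.one_apply], h.2 j⟩,
    fun h => ⟨fun j γ δ x => by simp [(h j).2.1, Tw.lt, Matrix.one_apply], fun j => (h j).2.2⟩⟩

theorem dw_am (B : Matrix J J O) (g : G) (f : J → G → D) : d1 T O
    (am B (rr G O D g) f) = am B (RR G0 G O D g) (d1 T O f) := by
  rw [dw_one, dw_one, am_co _ (d0_rr g)]

omit [DecidableEq J] in
theorem am_mem {Q : Submodule O M} {s : Module.End O M} {φ : J → M} (h : ∀ j, s (φ j) ∈ Q)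
    (B : Matrix J J O) (j : J) : am B s φ j ∈ Q :=
  Submodule.sum_mem _ fun i _ => Submodule.smul_mem _ _ (h i)

theorem am_cong {B : Matrix J J O} (h : ∀ i j, (p : O) ^ k ∣ (B - 1) i j) (s : Module.End O M)
    {φ : J → M} (hφ : p ^ k • φ = 0) (j : J) : am B s φ j = s (φ j) := by
  rw [← am_one, ← sub_eq_zero, am_apply, am_apply, ← Finset.sum_sub_distrib]
  refine Finset.sum_eq_zero fun i _ => ?_
  obtain ⟨c, hc⟩ := h j i
  rw [← sub_smul, ← Matrix.sub_apply, hc, mul_comm, mul_smul, ← Nat.cast_pow,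
    Nat.cast_smul_eq_nsmul, ← map_nsmul, show p ^ k • φ i = 0 from congrFun hφ i, map_zero,
    smul_zero]

variable (A i a) in
/-- the powers of `tt` on vectors -/
abbrev tj (n : ℕ) : Module.End O (J → M) := (tt A i a ^ n).compLeft J

omit [DecidableEq J] in
theorem tj_am (n : ℕ) {g : G} (hg : (A.w i).π g ∈ VV A i) (B : Matrix J J O) {φ : J → M}
    (h : ∀ j, φ j ∈ (A.w i).Fl a (VV A i)) :
    tj a A i n (am B (a g) φ) = am B (a g) (tj a A i n φ) := funext fun j => by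
  simp only [LinearMap.compLeft_apply, Function.comp, am_apply, map_sum, map_smul,
    tt_com n hg _ (h _)]

theorem tj_dw (n : ℕ) (f : J → G → D) : d1 T O (tj (rr G O D) A i n f) =
    tj (RR G0 G O D) A i n (d1 T O f) := by
  rw [dw_one, dw_one]
  exact funext fun j => tt_co (d0 T O D) d0_rr n (f j)

omit [Fintype J] [DecidableEq J] in
theorem tj_succ (n : ℕ) (φ : J → M) : tj a A i (n + 1) φ = tj a A i 1 (tj a A i n φ) :=
  funext fun j => by simp only [LinearMap.compLeft_apply, Function.comp, pow_succ', pow_zero,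
    Module.End.mul_apply, Module.End.one_apply]

variable (A i a) in
/-- the Hecke operator on vectors -/
abbrev TJ : Module.End O (J → M) := ((A.w i).Tv a).compLeft J

omit [Fintype J] [DecidableEq J] in
theorem tj_one (φ : J → M) :
    tj a A i 1 φ = TJ a A i (TJ a A i φ) - ((A.l i : ℕ) + 1 : O) ^ 2 • φ := funext fun j => by
  rw [← Nat.cast_succ, ← Nat.cast_pow, Nat.cast_smul_eq_nsmul, tj, pow_one]
  rfl

omit [Fintype J] [DecidableEq J] in
theorem tj_mem {Q : Submodule O (J → M)} (h : ∀ φ ∈ Q, TJ a A i φ ∈ Q) (n : ℕ) :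
    ∀ φ ∈ Q, tj a A i n φ ∈ Q := by
  induction n with
  | zero => exact fun _ hv => hv
  | succ n ih =>
    intro φ hφ
    rw [tj_succ, tj_one]
    exact sub_mem (h _ (h _ (ih φ hφ))) (Submodule.smul_mem _ _ (ih φ hφ))

omit [Fintype J] [DecidableEq J] in
theorem tj_eig {Q : Submodule O (J → M)} (h : ∀ φ ∈ Q, TJ a A i φ ∈ Q) {φ : J → M} {c : O}
    (e : TJ a A i φ - c • φ ∈ Q) (n : ℕ) :
    tj a A i n φ - (c ^ 2 - ((A.l i : ℕ) + 1 : O) ^ 2) ^ n • φ ∈ Q := by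
  induction n with
  | zero => exact (pow_zero (_ : O)).symm ▸ (one_smul O φ).symm ▸ (sub_self φ).symm ▸ zero_mem Q
  | succ n ih =>
    have := add_mem (tj_mem h 1 _ ih) (Submodule.smul_mem _
      ((c ^ 2 - ((A.l i : ℕ) + 1 : O) ^ 2) ^ n) (add_mem (h _ e) (Submodule.smul_mem _ c e)))
    convert this using 1
    simp only [tj_succ n, map_sub, map_smul, tj_one φ]
    module

omit [Fintype J] [DecidableEq J] in
theorem TJ_tj (hA : A.Ok) (k : A.I) (n : ℕ) (φ : J → M) :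
    TJ a A k (tj a A i n φ) = tj a A i n (TJ a A k φ) := by
  have h := Tv_Tv (a := a) hA k i
  have : Commute ((A.w k).Tv a) (tt A i a) := (h.mul_right h).sub_right
    ((Commute.one_right ((A.w k).Tv a)).smul_right (((A.l i : ℕ) + 1) ^ 2))
  exact funext fun j => LinearMap.congr_fun (this.pow_right n).eq (φ j)

variable (T p U τ k U') in
/-- a small normal level -/
structure Sm : Prop where
  nl : U' ∈ T.Nl
  le : U' ≤ U
  nm : ∀ u ∈ U, ∀ x ∈ U', u⁻¹ * x * u ∈ U'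
  cg : ∀ u ∈ U', ∀ i j, (p : O) ^ k ∣ (τ u - 1) i j

theorem Sm.fv (h : Sm T U U' τ p k) {φ : J → M} (hφ : φ ∈ Av a U τ) (h0 : p ^ k • φ = 0) (j : J) :
    φ j ∈ Fv a U' := fun u hu =>
  (am_cong (h.cg u hu) _ h0 j).symm.trans (congrFun (mem_Av.1 hφ u (h.le hu)) j)

theorem Sm.z1 (h : Sm T U U' τ p k) {z : J → G0 → G → D} (hz : z ∈ Zw D T 1 U τ)
    (h0 : p ^ k • z = 0) (j : J) : z j ∈ T.Z1 (Representation.trivial O G0 D) U' :=
  mem_Z1.2 ⟨h.fv hz.1 h0 j, (mem_Zw1.1 hz).2 j⟩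

variable {Ω : Type}

variable (A p U τ) in
/-- the hypotheses on the weight -/
structure W2 (F : Ω → G →₀ Matrix J J O) (c : Ω → O) : Prop where
  ok : T.Ok0
  ax : A.Ok
  lev : U ∈ T.Lev
  mu : Mu U τ
  z : ∀ u ∈ T.Z, τ u = 1
  con : ∀ k : ℕ, ∃ U' ∈ T.Lev, ∀ u ∈ U, u ∈ U' → ∀ i j, (p : O) ^ k ∣ (τ u - 1) i j
  aw : ∀ᶠ i in A.F, ∀ g, (A.w i).ι g ∈ U → τ ((A.w i).ι g) = 1
  gd : ∀ ω, Gd (1 : G0 → Matrix J J O) U τ (F ω)
  nE : ∃ᶠ i in A.F, ∃ ω, (∀ g, F ω g = (A.w i).Tg O g • 1) ∧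
    IsUnit (c ω ^ 2 - ((A.l i : ℕ) + 1 : O) ^ 2)

theorem opL_Tg {F : G →₀ Matrix J J O} (h : ∀ g, F g = (A.w i).Tg O g • 1) :
    opL a F = TJ a A i := LinearMap.ext fun φ => funext fun j => by
  classical
  have := (A.w i).fin
  let _ := Fintype.ofFinite (IsLocalRing.ResidueField ℤ_[A.l i])
  have e : F = ∑ r, Finsupp.single ((A.w i).ι ((A.w i).tr r)) 1 := Finsupp.ext fun g => by
    rw [h, Tw.Lc.Tg, Finsupp.finsetSum_apply, Finsupp.finsetSum_apply, Finset.sum_smul]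
    exact Finset.sum_congr rfl fun r _ => by simp [Finsupp.single_apply]
  rw [opL_apply, opM, e, ← Finsupp.sum_finsetSum_index (by simp) (by
    simp [add_smul, Finset.sum_add_distrib])]
  simp [Tw.Lc.Tv, Matrix.one_apply]

variable {F : Ω → G →₀ Matrix J J O} {c : Ω → O} (W : W2 A U τ p F c)
include W

theorem W2.ex_sm (k : ℕ) : ∃ U', Sm T U U' τ p k := by
  obtain ⟨U₁, h1, h2⟩ := W.con k
  obtain ⟨U₂, h3, h4⟩ := W.ok.neat
  have h5 := W.ok.inf _ (W.ok.inf U W.lev U₁ h1) U₂ h3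
  have := Subgroup.index_ne_zero_iff_finite.1 (W.ok.fi _ h5 U W.lev)
  have key : ∀ s : Set G, s.Finite → ∃ X ∈ T.Lev, ∀ g ∈ s, X ≤ cj g (U ⊓ U₁ ⊓ U₂) := fun s hs => by
    induction s, hs using Set.Finite.induction_on with
    | empty => exact ⟨U, W.lev, by simp⟩
    | insert _ _ ih =>
      obtain ⟨X, h6, h7⟩ := ih
      exact ⟨_, W.ok.inf X h6 _ (W.ok.conj _ h5 _), Set.forall_mem_insert.2
        ⟨inf_le_right, fun g hg => inf_le_left.trans (h7 g hg)⟩⟩
  obtain ⟨X, h6, h7⟩ := key _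
    (Set.finite_range fun q : U ⧸ (U ⊓ U₁ ⊓ U₂).subgroupOf U => ((q.out : U) : G))
  have le : ⨅ u : U, cj (u : G) (U ⊓ U₁ ⊓ U₂) ≤ U ⊓ U₁ ⊓ U₂ := fun x hx => by
    simpa using mem_cj.1 (Subgroup.mem_iInf.1 hx 1)
  refine ⟨⨅ u : U, cj (u : G) (U ⊓ U₁ ⊓ U₂), ⟨W.ok.mid X h6 _ h5 _ (le_iInf fun u x hx => ?_) le,
    h4.of_le (le.trans inf_le_right)⟩, fun x hx => (le hx).1.1, fun u hu x hx =>
    Subgroup.mem_iInf.2 fun y => mem_cj.2 ?_, fun u hu => h2 u (le hu).1.1 (le hu).1.2⟩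
  · have m := Subgroup.mem_subgroupOf.1 (out_mk_mem ((U ⊓ U₁ ⊓ U₂).subgroupOf U) u)
    have := mul_mem (mul_mem m (mem_cj.1 (h7 _ ⟨(u : U ⧸ _), rfl⟩ hx))) (inv_mem m)
    exact mem_cj.2 (by simpa [mul_assoc] using this)
  · simpa [mul_assoc] using mem_cj.1 (Subgroup.mem_iInf.1 hx (⟨u, hu⟩ * y))

theorem W2.Bw_le : Bw D T 1 U τ ≤ Zw D T 1 U τ := by
  rintro _ ⟨f, hf, rfl⟩
  rw [dw_one]
  refine mem_Zw1.2 ⟨Av_co _ d0_rr hf, fun j => d0_Co W.ok fun u hu x => ?_⟩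
  have := congrFun (mem_Av.1 hf u ((sInf_le W.lev : T.Z ≤ U) hu)) j
  rw [W.z u hu, am_one] at this
  exact congrFun this x

omit W [DecidableEq J] in
theorem ex_bd {X : Type} {s : Set X} (hs : s.Finite) (tor : ∀ x : M, ∃ k, p ^ k • x = 0)
    (f : J → X → M) : ∃ k, ∀ j, ∀ x ∈ s, p ^ k • f j x = 0 := by
  choose n hn using tor
  obtain ⟨k, hk⟩ := ((Set.finite_univ.prod hs).image fun q : J × X => n (f q.1 q.2)).bddAbove
  refine ⟨k, fun j x hx => ?_⟩
  obtain ⟨m, e⟩ := Nat.exists_eq_add_of_le (hk ⟨(j, x), ⟨trivial, hx⟩, rfl⟩)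
  rw [e, pow_add, mul_comm, mul_smul, hn, smul_zero]

variable {N : Type} [AddCommGroup N] [Module O N] {b : Representation O G N}
  {S : Submodule O ((G0 → G → D) × N)}

omit W in
variable (S) in
/-- the graph on vectors -/
def GW (z : J → G0 → G → D) (φ : J → N) : Prop := ∀ j, (z j, φ j) ∈ S

variable (X : Gr A p b S) {z y : J → G0 → G → D} {φ χ : J → N}
include X

omit W in
section

omit X [Fintype J] [DecidableEq J] [Group G0] [Group G] in
theorem GW.sub (h : GW S z φ) (h' : GW S y χ) : GW S (z - y) (φ - χ) := fun j =>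
  sub_mem (h j) (h' j)

omit X [Fintype J] [DecidableEq J] [Group G0] [Group G] in
theorem GW.smul (h : GW S z φ) (o : O) : GW S (o • z) (o • φ) := fun j =>
  S.smul_mem o (h j)

omit [DecidableEq J] in
theorem GW.am (h : GW S z φ) (B : Matrix J J O) (g : G) :
    GW S (am B (RR G0 G O D g) z) (am B (b g) φ) := fun j => by
  have := S.sum_mem (t := Finset.univ) fun i _ => S.smul_mem (B j i) (X.eqv g _ _ (h i))
  convert this using 1
  exact Prod.ext (by simp [am_apply, Prod.fst_sum]) (by simp [am_apply, Prod.snd_sum])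

omit [DecidableEq J] in
theorem GW.opL (h : GW S z φ) (F : G →₀ Matrix J J O) :
    GW S (opL (RR G0 G O D) F z) (opL b F φ) := fun j => by
  have := S.sum_mem (t := F.support) fun g _ => h.am X (F g) g j
  convert this using 1
  exact Prod.ext (by simp [Be.opL, Prod.fst_sum]) (by simp [Be.opL, Prod.snd_sum])

omit [Fintype J] [DecidableEq J] in
theorem GW.tj (h : GW S z φ) (n : ℕ) : GW S (tj (RR G0 G O D) A i n z) (tj b A i n φ) := by
  have hT : ∀ {z φ}, GW (J := J) S z φ → GW S (TJ (RR G0 G O D) A i z) (TJ b A i φ) := fun h j => by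
    have := (A.w i).fin
    let _ := Fintype.ofFinite (IsLocalRing.ResidueField ℤ_[A.l i])
    have := S.sum_mem (t := Finset.univ) fun r _ => X.eqv ((A.w i).ι ((A.w i).tr r)) _ _ (h j)
    convert this using 1
    exact Prod.ext (by simp [Tw.Lc.Tv, Prod.fst_sum]) (by simp [Tw.Lc.Tv, Prod.snd_sum])
  induction n with
  | zero => exact h
  | succ n ih =>
    rw [tj_succ, tj_succ n, tj_one, tj_one]
    exact (hT (hT ih)).sub (ih.smul _)

end

/-- coboundaries go to zero -/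
theorem W2.zero (h : GW S z φ) (hz : z ∈ Bw D T 1 U τ) (h0 : p ^ k • z = 0) : φ = 0 := by
  obtain ⟨f, hf, rfl⟩ := hz
  obtain ⟨s, hs⟩ := W.ok.fin U W.lev
  obtain ⟨m, hm⟩ := ex_bd s.finite_toSet X.trD (p ^ k • f)
  have h1 : p ^ (m + k) • f = 0 := funext fun j => funext fun x => by
    obtain ⟨t, ht, γ, u, hu, rfl⟩ := hs x
    have e := congrFun (congrFun (congrFun ((map_nsmul _ _ f).trans h0) j) γ) (T.j γ * t * u)
    rw [dw_one] at e
    have e' : (p ^ k • f) j ((T.j γ)⁻¹ * (T.j γ * t * u)) = (p ^ k • f) j (T.j γ * t * u) :=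
      sub_eq_zero.1 e
    rw [mul_assoc, inv_mul_cancel_left, ← mul_assoc] at e'
    rw [pow_add, mul_smul]
    exact (congrArg (p ^ m • ·) e'.symm).trans (Av_zero (nsmul_mem (nsmul_mem hf (p ^ k)) (p ^ m))
      (x := t * u) (y := t) (by simpa using hu) (fun j => hm j t ht) j)
  obtain ⟨U', s'⟩ := W.ex_sm (m + k)
  rw [dw_one] at h
  exact funext fun j => X.cob U' s'.nl _ (f j) _ (Fv_rr.1 (s'.fv hf h1 j)) (congrFun h1 j) (h j)

theorem W2.tot (hz : z ∈ Zw D T 1 U τ) (h0 : p ^ k • z = 0) : ∃ φ ∈ Av b U τ, GW S z φ := by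
  obtain ⟨U', s⟩ := W.ex_sm k
  choose φ h using fun j => X.tot U' s.nl k _ (s.z1 hz h0 j) (congrFun h0 j)
  refine ⟨φ, mem_Av.2 fun u hu => sub_eq_zero.1 (W.zero X (k := 0) (z := 0) ?_ (zero_mem _)
    (smul_zero _)), h⟩
  have := (GW.am X h (τ u) u).sub h
  rwa [mem_Av.1 hz.1 u hu, sub_self] at this

theorem W2.bd (hp : ∀ k, (p : O) ^ k ≠ 0) (hz : z ∈ Zw D T 1 U τ) :
    ∃ y k, z - y ∈ Bw D T 1 U τ ∧ p ^ k • y = 0 := by
  obtain ⟨I, fi, h⟩ := ex_gen (ρ := (1 : G0 → Matrix J J O)) (τ := τ) W.ok W.lev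
  obtain ⟨k, hk⟩ := ex_bd fi X.trD fun j q => z j q.1 q.2
  obtain ⟨f, hf, e⟩ := h D _ (nsmul_mem hz (p ^ k)) fun q hq j => hk j q hq
  obtain ⟨f', hf', rfl⟩ := Av_lift W.mu ((p : O) ^ k • LinearMap.id : D →ₗ[O] D)
    (fun x => X.div _ (hp k) x) hf
  refine ⟨z - d1 T O f', k, by rw [sub_sub_cancel]; exact ⟨f', hf', rfl⟩, ?_⟩
  rw [smul_sub, ← e, ← map_nsmul, ← Nat.cast_smul_eq_nsmul O _ f', Nat.cast_pow]
  exact sub_self _

/-- the kernel is Eisenstein -/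
theorem W2.ker (k : ℕ) : ∀ᶠ i in A.F, ∃ n : ℕ, ∀ z ∈ Zw D T 1 U τ, p ^ k • z = 0 → GW S z 0 →
    tj (RR G0 G O D) A i n z ∈ Bw D T 1 U τ := by
  obtain ⟨U', s⟩ := W.ex_sm k
  filter_upwards [X.ker U' s.nl k, W.ax.lev U W.lev, W.ax.lev U' s.nl.1] with i ⟨n, hn⟩ h1 h2
  refine ⟨n + 1, fun z hz h0 h => ?_⟩
  choose f h3 _ h4 using fun j => hn _ (s.z1 hz h0 j) (congrFun h0 j) (h j)
  have e : d1 T O f = tj (RR G0 G O D) A i n z := (dw_one f).trans (funext fun j => (h4 j).symm)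
  have h5 : ∀ j, f j ∈ Fv (rr G O D) U' := fun j => Fv_rr.2 (h3 j)
  refine ⟨tj (rr G O D) A i 1 f, mem_Av.2 fun u hu => ?_, by rw [tj_dw, e, tj_succ n]⟩
  rw [← tj_am 1 (h1.2.2 u hu) _ fun j => Fv_le h2 (h5 j), ← sub_eq_zero, ← map_sub]
  have e' : d1 T O (am (τ u) (rr G O D u) f - f) = 0 := by
    rw [map_sub, dw_am, e, ← tj_am n (h1.2.2 u hu) _ fun j => Fv_le h2 (s.fv hz.1 h0 j),
      mem_Av.1 hz.1 u hu, sub_self]
  rw [dw_one] at e'
  exact funext fun j => tt_eis W.ax h2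
    (sub_mem (am_mem (fun j => Fv_tr (s.nm u hu) (h5 j)) _ j) (h5 j)) (congrFun e' j)

/-- the cokernel is Eisenstein -/
theorem W2.sur (k : ℕ) : ∀ᶠ i in A.F, ∃ n : ℕ, ∀ φ ∈ Av b U τ, p ^ k • φ = 0 →
    ∃ z ∈ Zw D T 1 U τ, p ^ k • z = 0 ∧ GW S z (tj b A i n φ) := by
  obtain ⟨U', s⟩ := W.ex_sm k
  filter_upwards [X.ker U' s.nl k, W.ax.lev U W.lev, W.ax.lev U' s.nl.1] with i ⟨n, hn⟩ h1 h2
  refine ⟨n + 1, fun φ hφ h0 => ?_⟩
  choose z hz hb h using fun j => X.sur U' s.nl k _ (s.fv hφ h0 j) (congrFun h0 j)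
  have hb' : p ^ k • z = 0 := funext hb
  have zf := fun j => (mem_Z1.1 (hz j)).1
  have zc := fun j => (mem_Z1.1 (hz j)).2
  have key : ∀ u : U, ∃ f : J → G → D, (∀ j, f j ∈ Fv (rr G O D) U') ∧ p ^ k • f = 0 ∧
      d1 T O f = am (τ u) (RR G0 G O D u) (tj (RR G0 G O D) A i n z) -
        tj (RR G0 G O D) A i n z := fun u => by
    have g := (GW.am X h (τ u) u).sub h
    rw [mem_Av.1 hφ u u.2, sub_self] at g
    have b0 : p ^ k • (am (τ u) (RR G0 G O D u) z - z) = 0 := by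
      rw [smul_sub, ← map_nsmul, hb', map_zero, sub_self]
    choose f h3 h4 h5 using fun j => hn _ (sub_mem (mem_Z1.2
      ⟨am_mem (fun j => Fv_tr (s.nm u u.2) (zf j)) _ j, am_mem (fun j => Co_RR _ (zc j)) _ j⟩)
      (hz j)) (congrFun b0 j) (g j)
    refine ⟨f, fun j => Fv_rr.2 (h3 j), funext h4, ?_⟩
    rw [← tj_am n (h1.2.2 u u.2) _ fun j => Fv_le h2 (zf j), ← map_sub, dw_one]
    exact funext fun j => (h5 j).symm
  choose f h3 h4 h5 using key
  have kil : ∀ g : J → G → D, (∀ j, g j ∈ Fv (rr G O D) U') → d1 T O g = 0 →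
      tj (rr G O D) A i 1 g = 0 := fun g h6 h7 =>
    funext fun j => tt_eis W.ax h2 (h6 j) (congrFun ((dw_one g).symm.trans h7) j)
  have co : ∀ u v : U, tj (rr G O D) A i 1 (f (u * v)) =
      am (τ u) (rr G O D u) (tj (rr G O D) A i 1 (f v)) + tj (rr G O D) A i 1 (f u) := fun u v => by
    rw [← tj_am 1 (h1.2.2 u u.2) _ fun j => Fv_le h2 (h3 v j), ← map_add, ← sub_eq_zero, ← map_sub]
    refine kil _ (fun j => sub_mem (h3 _ j) (add_mem
      (am_mem (fun j => Fv_tr (s.nm u u.2) (h3 v j)) _ j) (h3 u j))) ?_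
    rw [map_sub, map_add, dw_am, h5, h5, h5, Subgroup.coe_mul, W.mu _ u.2 _ v.2, map_mul, am_mul,
      map_sub, Module.End.mul_apply]
    abel
  let g : J → G → D := fun j x => -tj (rr G O D) A i 1 (f ⟨_, out_mk_mem U x⟩) j x
  have gb : p ^ k • g = 0 := funext fun j => funext fun x => by
    have := congrFun (congrFun ((map_nsmul (tj (rr G O D) A i 1) _ _).symm.trans
      ((congrArg _ (h4 ⟨_, out_mk_mem U x⟩)).trans (map_zero _))) j) x
    exact (smul_neg (p ^ k) (tj (rr G O D) A i 1 (f ⟨_, out_mk_mem U x⟩) j x)).trans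
      (neg_eq_zero.2 this)
  have gu : ∀ u : U, am (τ u) (rr G O D u) g = g + tj (rr G O D) A i 1 (f u) := fun u =>
    funext fun j => funext fun x => by
      have e : (⟨_, out_mk_mem U x⟩ : U) = u * ⟨_, out_mk_mem U (x * u)⟩ :=
        Subtype.ext (by simp [QuotientGroup.mk_mul_of_mem x u.2, mul_assoc])
      have := congrFun (congrFun (co u ⟨_, out_mk_mem U (x * u)⟩) j) x
      rw [← e, Pi.add_apply, Pi.add_apply, sum_rr] at this
      simp only [sum_rr, Pi.add_apply, g, this, smul_neg, Finset.sum_neg_distrib]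
      abel
  have zf' : ∀ j, tj (RR G0 G O D) A i n z j ∈ Fv (RR G0 G O D) U' := fun j => tt_Fv h2 n (zf j)
  have gf : ∀ j, g j ∈ Fv (rr G O D) U' := fun j u hu => by
    rw [← am_cong (s.cg u hu) _ gb, gu ⟨u, s.le hu⟩, kil _ (h3 _), add_zero]
    rw [h5, sub_eq_zero]
    exact funext fun j => (am_cong (s.cg u hu) _ (by rw [← map_nsmul, hb', map_zero]) j).trans
      (zf' j u hu)
  have gc : ∀ j, d0 T O D (g j) ∈ Co T O D := fun j => d0_Co W.ok fun u hu x =>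
    Fv_rr.1 (gf j) x u ((sInf_le s.nl.1 : T.Z ≤ U') hu)
  refine ⟨tj (RR G0 G O D) A i (n + 1) z - d1 T O g, mem_Zw1.2 ⟨mem_Av.2 fun u hu => ?_, fun j =>
    sub_mem (Co_tt (n + 1) _ (zc j)) (dw_one (T := T) (O := O) g ▸ gc j)⟩, by
      rw [smul_sub, ← map_nsmul, ← map_nsmul, hb', gb, map_zero, map_zero, sub_self], ?_⟩
  · rw [map_sub, ← dw_am, gu ⟨u, hu⟩, map_add, tj_dw, h5, tj_succ n, map_sub,
      ← tj_am 1 (h1.2.2 u hu) _ fun j => Fv_le h2 (zf' j)]
    abel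
  · rw [← sub_zero (tj b A i (n + 1) φ), dw_one]
    refine (GW.tj X h _).sub fun j => ?_
    obtain ⟨x, hx⟩ := X.tot U' s.nl k _ (mem_Z1.2 ⟨fun u hu => by rw [← d0_rr, gf j u hu], gc j⟩)
      (by rw [← map_nsmul, show p ^ k • g j = 0 from congrFun gb j, map_zero])
    obtain rfl := X.cob U' s.nl k _ x (Fv_rr.1 (gf j)) (congrFun gb j) hx
    exact hx

/-- **the link** -/
theorem W2.lnk (hp : ∀ k, (p : O) ^ k ≠ 0) : (∀ o : O, o ≠ 0 → ∃ z, Eg D T 1 U τ F c z ∧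
    o • z ∉ Bw D T 1 U τ) ↔ Occ b U τ F c := by
  have unit : ∀ {M : Type} [AddCommGroup M] [Module O M] {Q : Submodule O M} {o : O} {x y : M},
      IsUnit o → y ∈ Q → y - o • x ∈ Q → x ∈ Q := fun h h1 h2 =>
    (Submodule.smul_mem_iff_of_isUnit _ h).1 (by simpa using sub_mem h1 h2)
  have bd : ∀ {k : ℕ} {z : J → G0 → G → D} (ω), p ^ k • z = 0 →
      p ^ k • (opL (RR G0 G O D) (F ω) z - c ω • z) = 0 := fun ω h => by
    rw [smul_sub, ← map_nsmul, smul_comm, h, map_zero, smul_zero, sub_self]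
  refine forall₂_congr fun o _ => ⟨fun ⟨z, hz, ne⟩ => ?_, fun ⟨φ, hφ, eig, ne⟩ => ?_⟩
  · obtain ⟨y, k, h1, h2⟩ := W.bd X hp hz.1
    have hy : y ∈ Zw D T 1 U τ := by simpa using sub_mem hz.1 (W.Bw_le h1)
    have ey : ∀ ω, opL (RR G0 G O D) (F ω) y - c ω • y ∈ Bw D T 1 U τ := fun ω => by
      convert sub_mem (hz.2 ω) (sub_mem ((W.gd ω).Bw W.mu h1) (Submodule.smul_mem _ (c ω) h1))
        using 1
      rw [map_sub, smul_sub]
      abel
    obtain ⟨φ, hφ, g⟩ := W.tot X hy h2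
    refine ⟨φ, hφ, fun ω => (opL_apply _ _ _).symm.trans (sub_eq_zero.1
      (W.zero X ((g.opL X _).sub (g.smul _)) (ey ω) (bd ω h2))), fun h0 => ne ?_⟩
    obtain ⟨i, ⟨ω, h3, h4⟩, n, hn⟩ := (W.nE.and_eventually (W.ker X k)).exists
    have := unit (h4.pow n) (hn _ (Submodule.smul_mem _ o hy) (by rw [smul_comm, h2, smul_zero])
      (h0 ▸ g.smul o)) (tj_eig (fun _ h => opL_Tg (a := RR G0 G O D) h3 ▸ (W.gd ω).Bw W.mu h) (by
        rw [← opL_Tg h3, map_smul, smul_comm, ← smul_sub]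
        exact Submodule.smul_mem _ o (ey ω)) n)
    simpa [smul_sub] using add_mem this (Submodule.smul_mem _ o h1)
  · obtain ⟨k, hk⟩ := ex_bd (Set.finite_singleton ()) X.trN fun j _ => φ j
    obtain ⟨i, ⟨ω, h3, h4⟩, ⟨n, hn⟩, m, hm⟩ :=
      (W.nE.and_eventually ((W.ker X k).and (W.sur X k))).exists
    obtain ⟨z, hz, zb, g⟩ := hm φ hφ (funext fun j => hk j () rfl)
    simp only [← opL_apply] at eig
    have e1 : ∀ n, tj b A i n φ = (c ω ^ 2 - ((A.l i : ℕ) + 1 : O) ^ 2) ^ n • φ := fun n =>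
      sub_eq_zero.1 (tj_eig (Q := ⊥) (fun _ h => by rw [h, map_zero]; rfl)
        (by rw [← opL_Tg h3, eig, sub_self]; rfl) n)
    have g' := g.tj X (i := i) n
    rw [e1] at g
    rw [e1, map_smul, e1] at g'
    have hy := tj_mem (fun _ h => opL_Tg (a := RR G0 G O D) h3 ▸ (W.gd ω).Zw W.mu h) n z hz
    have yb : p ^ k • tj (RR G0 G O D) A i n z = 0 := by rw [← map_nsmul, zb, map_zero]
    have zw : ∀ ω {z}, z ∈ Zw D T 1 U τ → opL (RR G0 G O D) (F ω) z - c ω • z ∈ Zw D T 1 U τ :=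
      fun ω _ h => sub_mem ((W.gd ω).Zw W.mu h) (Submodule.smul_mem _ _ h)
    refine ⟨_, ⟨hy, fun ω' => ?_⟩, fun h => ne ?_⟩
    · obtain ⟨i', ⟨ω₁, h5, h6⟩, ⟨n', hn'⟩, h7, h8, h9⟩ := (W.nE.and_eventually ((W.ker X k).and
        ((W.ax.lev U W.lev).and (W.aw.and
          ((Filter.eventually_all_finset (F ω').support).2 fun g _ => W.ax.int g))))).exists
      have e2 : TJ (RR G0 G O D) A i' (tj (RR G0 G O D) A i n z) - c ω₁ • tj (RR G0 G O D) A i n z ∈ Bw D T 1 U τ := by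
        rw [TJ_tj W.ax, ← map_smul, ← map_sub, ← opL_Tg h5]
        refine hn _ (zw ω₁ hz) (bd ω₁ zb) ?_
        have := (g.opL X (F ω₁)).sub (g.smul (c ω₁))
        rwa [map_smul, eig, smul_comm, sub_self] at this
      have fl : ∀ j, tj (RR G0 G O D) A i n z j ∈ (A.w i').Fl (RR G0 G O D) (VV A i') := by
        rintro j _ ⟨x, hx, rfl⟩
        have m := (h7.2.iff h7.1).2 hx
        rw [← am_one, ← h8 x m, mem_Av.1 hy.1 _ m]
      have e3 : TJ (RR G0 G O D) A i' (opL (RR G0 G O D) (F ω') (tj (RR G0 G O D) A i n z)) =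
          opL (RR G0 G O D) (F ω') (TJ (RR G0 G O D) A i' (tj (RR G0 G O D) A i n z)) := by
        simp only [opL, LinearMap.sum_apply, map_sum]
        exact Finset.sum_congr rfl fun g hg => funext fun j => by
          simp only [LinearMap.compLeft_apply (f := (A.w i').Tv _), Function.comp, am_apply,
            map_sum, map_smul, Tv_com (fl _) (h9 g hg)]
      refine unit (h6.pow n') (hn' _ (zw ω' hy) (bd ω' yb) ?_) (tj_eig
        (fun _ h => opL_Tg (a := RR G0 G O D) h5 ▸ (W.gd ω₁).Bw W.mu h) ?_ n')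
      · have := (g'.opL X (F ω')).sub (g'.smul (c ω'))
        rwa [map_smul, map_smul, eig, smul_comm (c ω'), smul_comm (c ω'), sub_self] at this
      · convert sub_mem ((W.gd ω').Bw W.mu e2) (Submodule.smul_mem _ (c ω') e2) using 1
        simp only [map_sub, map_smul, e3]
        module
    · have := W.zero X (g'.smul o) h (k := k) (by rw [smul_comm, yb, smul_zero])
      rwa [smul_comm o, smul_comm o, (h4.pow m).smul_eq_zero, (h4.pow n).smul_eq_zero] at this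

end Vale.Agent.P022K.Sh.Be
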