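import Vale.Agent.P022K.QT.Locc

/-!
# P022K, block QT, row BET: weighted cochains and the graph of the link (definitions)
-/

set_option autoImplicit false

open scoped MatrixGroups TensorProduct

noncomputable section

namespace Vale.Agent.P022K.Sh.Be

open Vale.Agent.P022 Vale.Agent.P022.H218.L3

variable {G0 G : Type} [Group G0] [Group G]

section

variable (Λ R : Type) [CommRing Λ] [AddCommGroup R] [Module Λ R]

variable (G) in
/-- right translation of functions -/
def rr : Representation Λ G (G → R) where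
  toFun g := LinearMap.funLeft Λ R (· * g)
  map_one' := LinearMap.ext fun f => funext fun x => congrArg f (mul_one x)
  map_mul' g h := LinearMap.ext fun f => funext fun x => congrArg f (mul_assoc x g h).symm

variable (G0 G) in
/-- right translation of cochains -/
def RR : Representation Λ G (G0 → G → R) where
  toFun g := (rr G Λ R g).compLeft G0
  map_one' := LinearMap.ext fun z => funext fun γ => funext fun x => congrArg (z γ) (mul_one x)
  map_mul' g h := LinearMap.ext fun z => funext fun γ => funext fun x =>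
    congrArg (z γ) (mul_assoc x g h).symm

variable {Λ R}

omit [Group G0] in
@[simp] theorem RR_apply (g : G) (z : G0 → G → R) (γ : G0) (x : G) :
    RR G0 G Λ R g z γ x = z γ (x * g) := rfl

@[simp] theorem rr_apply (g : G) (f : G → R) (x : G) : rr G Λ R g f x = f (x * g) := rfl

variable (R) {J : Type} [Fintype J] (T : Tw G0 G) (ρ : G0 → Matrix J J Λ) (U : Subgroup G)
  (τ : G → Matrix J J Λ)

/-- the coboundary -/
def dw : (J → G → R) →ₗ[Λ] (J → G0 → G → R) where
  toFun f := fun j γ x => ∑ i, ρ γ j i • f i ((T.j γ)⁻¹ * x) - f j x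
  map_add' f f' := by
    funext j γ x
    simp only [Pi.add_apply, smul_add, Finset.sum_add_distrib]
    abel
  map_smul' c f := by
    funext j γ x
    simp only [Pi.smul_apply, RingHom.id_apply, smul_sub, Finset.smul_sum, smul_comm c]

/-- weighted cocycles -/
def Zw : Submodule Λ (J → G0 → G → R) where
  carrier := {z | z ∈ Av (RR G0 G Λ R) U τ ∧
    (∀ j γ δ x, z j (γ * δ) x = z j γ x + ∑ i, ρ γ j i • z i δ ((T.j γ)⁻¹ * x)) ∧
    ∀ j, ∀ γ ∈ T.Z0, z j γ = 0}
  add_mem' {z w} h h' := ⟨add_mem h.1 h'.1, fun j γ δ x => by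
      simp only [Pi.add_apply, h.2.1, h'.2.1, smul_add, Finset.sum_add_distrib]
      abel,
    fun j γ hγ => by simp only [Pi.add_apply, h.2.2 j γ hγ, h'.2.2 j γ hγ, add_zero]⟩
  zero_mem' := ⟨zero_mem _, fun _ _ _ _ => by simp, fun _ _ _ => rfl⟩
  smul_mem' c z h := ⟨Submodule.smul_mem _ c h.1, fun j γ δ x => by
      simp only [Pi.smul_apply, h.2.1, smul_add, Finset.smul_sum, smul_comm c],
    fun j γ hγ => by simp only [Pi.smul_apply, h.2.2 j γ hγ, smul_zero]⟩

/-- weighted coboundaries -/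
def Bw : Submodule Λ (J → G0 → G → R) := (Av (rr G Λ R) U τ).map (dw R T ρ)

end

/-- `T_i ^ 2 - (l + 1) ^ 2` -/
def tt {T : Tw G0 G} (A : T.Ax) (i : A.I) {Λ M : Type} [CommRing Λ] [AddCommGroup M] [Module Λ M]
    (a : Representation Λ G M) : Module.End Λ M :=
  (A.w i).Tv a * (A.w i).Tv a - ((A.l i : ℕ) + 1) ^ 2 • (1 : Module.End Λ M)

/-- the graph of the map from bounded cocycles with values in `D` to the module `N` -/
structure Gr {T : Tw G0 G} (A : T.Ax) (p : ℕ) {O D N : Type} [CommRing O] [AddCommGroup D]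
    [Module O D] [AddCommGroup N] [Module O N] (b : Representation O G N)
    (S : Submodule O ((G0 → G → D) × N)) : Prop where
  div : ∀ o : O, o ≠ 0 → ∀ x : D, ∃ y, o • y = x
  nt : Nontrivial D
  trD : ∀ x : D, ∃ k, p ^ k • x = 0
  trN : ∀ v : N, ∃ k, p ^ k • v = 0
  eqv : ∀ g z v, (z, v) ∈ S → (RR G0 G O D g z, b g v) ∈ S
  tot : ∀ U ∈ T.Nl, ∀ k, ∀ z ∈ T.Z1 (Representation.trivial O G0 D) U, p ^ k • z = 0 →
    ∃ v, (z, v) ∈ S
  cob : ∀ U ∈ T.Nl, ∀ k (f : G → D) v, Inv U f → p ^ k • f = 0 →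
    ((fun γ x => f ((T.j γ)⁻¹ * x) - f x), v) ∈ S → v = 0
  sur : ∀ U ∈ T.Nl, ∀ k, ∀ v ∈ Fv b U, p ^ k • v = 0 →
    ∃ z ∈ T.Z1 (Representation.trivial O G0 D) U, p ^ k • z = 0 ∧ (z, v) ∈ S
  ker : ∀ U ∈ T.Nl, ∀ k, ∀ᶠ i in A.F, ∃ n : ℕ, ∀ z ∈ T.Z1 (Representation.trivial O G0 D) U,
    p ^ k • z = 0 → (z, 0) ∈ S → ∃ f : G → D, Inv U f ∧ p ^ k • f = 0 ∧
      (tt A i (RR G0 G O D) ^ n) z = fun γ x => f ((T.j γ)⁻¹ * x) - f x

/-- **GRX**: the graph exists -/
def GRX : Prop := ∀ (G0 G : Type) [Group G0] [Group G] (T : Tw G0 G) (A : T.Ax) (p : ℕ)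
  [Fact p.Prime] (H : Type) [Group H] [TopologicalSpace H] (th : H → (G → Mer) → G → Mer)
  (M : Type) [AddCommGroup M] (a : Representation ℤ G M) (g : Representation ℤ H M)
  (im : ∀ k U, T.Hn (p ^ k) U →+ M) (O : Type) [CommRing O] [IsDomain O]
  [IsDiscreteValuationRing O] [Finite (IsLocalRing.ResidueField O)], T.Ok0 → A.Ok →
  T.CC p a g → A.Lk p a g th im → (p : O) ∈ IsLocalRing.maximalIdeal O → (p : O) ≠ 0 →
  ∃ (D : Type) (_ : AddCommGroup D) (_ : Module O D)
    (S : Submodule O ((G0 → G → D) × (O ⊗[ℤ] M))), Gr A p (bc O a) S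

end Vale.Agent.P022K.Sh.Be
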