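import Vale.Agent.P022K.QT.BetC

/-!
# P022K, block QT, row BET: twisting; BET from the graph
-/

set_option autoImplicit false

open Matrix
open scoped MatrixGroups

noncomputable section

namespace Vale.Agent.P022K.Sh.Be

open Vale.Agent.P022 Vale.Agent.P022.H218.L3

variable {G0 G : Type} [Group G0] [Group G] {T : Tw G0 G} {J : Type} [Fintype J] [DecidableEq J]
  {C : Type} [Field C] {U : Subgroup G}

section

/-- twist of functions -/
def t0 (Φ : G → Matrix J J C) : (J → G → C) →ₗ[C] (J → G → C) where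
  toFun f := fun j x => (Φ x *ᵥ fun i => f i x) j
  map_add' _ _ := funext fun j => funext fun x => congrFun (mulVec_add (Φ x) _ _) j
  map_smul' c _ := funext fun j => funext fun x => congrFun (mulVec_smul (Φ x) c _) j

variable (G0) in
/-- twist of cochains -/
def t1 (Φ : G → Matrix J J C) : (J → G0 → G → C) →ₗ[C] (J → G0 → G → C) where
  toFun z := fun j γ => t0 Φ (fun i => z i γ) j
  map_add' _ _ := funext fun j => funext fun _ => congrFun (map_add (t0 Φ) _ _) j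
  map_smul' c _ := funext fun j => funext fun _ => congrFun (map_smul (t0 Φ) c _) j

variable {Φ Ψ : G → Matrix J J C}

omit [Group G] in
theorem t0_t0 (h : ∀ x, Ψ x * Φ x = 1) (f : J → G → C) : t0 Ψ (t0 Φ f) = f :=
  funext fun j => funext fun x => by
    show (Ψ x *ᵥ Φ x *ᵥ fun i => f i x) j = _
    rw [mulVec_mulVec, h, one_mulVec]

omit [Group G0] [Group G] in
theorem t1_t1 (h : ∀ x, Ψ x * Φ x = 1) (z : J → G0 → G → C) : t1 G0 Ψ (t1 G0 Φ z) = z :=
  funext fun j => funext fun γ => congrFun (t0_t0 h fun i => z i γ) j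

variable {Λ Λ' : Type} [CommRing Λ] [CommRing Λ'] [Algebra Λ C] [Algebra Λ' C]

omit [Group G] [DecidableEq J] in
theorem t0_am {B : Matrix J J Λ} {B' : Matrix J J Λ'} {e : G → G}
    (h : ∀ x, Φ x * B.map (algebraMap Λ C) = B'.map (algebraMap Λ' C) * Φ (e x)) (f : J → G → C) :
    t0 Φ (am B (LinearMap.funLeft Λ C e) f) = am B' (LinearMap.funLeft Λ' C e) (t0 Φ f) :=
  funext fun j => funext fun x => by
    have key : ∀ {Λ : Type} [CommRing Λ] [Algebra Λ C] (B : Matrix J J Λ) (f : J → G → C) j,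
        am B (LinearMap.funLeft Λ C e) f j x = (B.map (algebraMap Λ C) *ᵥ fun i => f i (e x)) j :=
      fun B f j => by
        rw [am_apply, Finset.sum_apply]
        exact Finset.sum_congr rfl fun i _ => Algebra.smul_def (B j i) (f i (e x))
    rw [key]
    show (Φ x *ᵥ fun i => am B _ f i x) j = (_ *ᵥ Φ (e x) *ᵥ fun i => f i (e x)) j
    rw [funext (key B f), mulVec_mulVec, mulVec_mulVec, h]

omit [DecidableEq J] in
theorem opL_sub {M : Type} [AddCommGroup M] [Module Λ M] (a : Representation Λ G M)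
    {F : G →₀ Matrix J J Λ} {s : Finset G} (h : F.support ⊆ s) :
    opL a F = ∑ g ∈ s, am (F g) (a g) := Finset.sum_subset h fun g _ hg =>
  LinearMap.ext fun φ => funext fun j => by simp [am_apply, Finsupp.notMem_support_iff.1 hg]

variable {Ω : Type} {ρ : G0 → Matrix J J Λ} {ρ' : G0 → Matrix J J Λ'} {τ : G → Matrix J J Λ}
  {τ' : G → Matrix J J Λ'} {F : Ω → G →₀ Matrix J J Λ} {F' : Ω → G →₀ Matrix J J Λ'}

variable (T U Φ ρ ρ' τ τ' F F') in
/-- `Φ` intertwines two models -/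
structure Ts : Prop where
  r : ∀ γ x, Φ x * (ρ γ).map (algebraMap Λ C) =
    (ρ' γ).map (algebraMap Λ' C) * Φ ((T.j γ)⁻¹ * x)
  t : ∀ u ∈ U, ∀ x, Φ x * (τ u).map (algebraMap Λ C) = (τ' u).map (algebraMap Λ' C) * Φ (x * u)
  f : ∀ ω g x, Φ x * (F ω g).map (algebraMap Λ C) = (F' ω g).map (algebraMap Λ' C) * Φ (x * g)

variable (h : Ts T U Φ ρ ρ' τ τ' F F')
include h

theorem Ts.symm (i : ∀ x, Ψ x * Φ x = 1) : Ts T U Ψ ρ' ρ τ' τ F' F := by
  have key : ∀ {x y : G} {B B' : Matrix J J C}, Φ x * B = B' * Φ y → Ψ x * B' = B * Ψ y :=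
    fun {x y B B'} e => by
      rw [← mul_one (Ψ x * B'), ← mul_eq_one_comm.1 (i y), ← mul_assoc, mul_assoc (Ψ x), ← e,
        ← mul_assoc, i, one_mul]
  exact ⟨fun γ x => key (h.r γ x), fun u hu x => key (h.t u hu x), fun ω g x => key (h.f ω g x)⟩

omit [DecidableEq J] in
section

theorem Ts.av {f : J → G → C} (hf : f ∈ Av (rr G Λ C) U τ) : t0 Φ f ∈ Av (rr G Λ' C) U τ' :=
  mem_Av.2 fun u hu => (t0_am (h.t u hu) f).symm.trans (congrArg _ (mem_Av.1 hf u hu))

theorem Ts.op0 (ω : Ω) (f : J → G → C) :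
    t0 Φ (opL (rr G Λ C) (F ω) f) = opL (rr G Λ' C) (F' ω) (t0 Φ f) := by
  classical
  rw [opL_sub _ (Finset.subset_union_left (s₂ := (F' ω).support)),
    opL_sub _ (Finset.subset_union_right (s₁ := (F ω).support)), LinearMap.sum_apply,
    LinearMap.sum_apply, map_sum]
  exact Finset.sum_congr rfl fun g _ => t0_am (h.f ω g) f

theorem Ts.op1 (ω : Ω) (z : J → G0 → G → C) :
    t1 G0 Φ (opL (RR G0 G Λ C) (F ω) z) = opL (RR G0 G Λ' C) (F' ω) (t1 G0 Φ z) :=
  ext_sl (Λ := Λ') fun γ => by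
    rw [sl_opL]
    exact (congrArg (t0 Φ) (sl_opL γ _ z)).trans (h.op0 ω _)

theorem Ts.zw {z : J → G0 → G → C} (hz : z ∈ Zw C T ρ U τ) : t1 G0 Φ z ∈ Zw C T ρ' U τ' := by
  obtain ⟨h1, h2, h3⟩ := mem_Zw.1 hz
  exact mem_Zw.2 ⟨fun γ => h.av (h1 γ), fun γ δ => (congrArg (t0 Φ) (h2 γ δ)).trans
    ((map_add _ _ _).trans (congrArg _ (t0_am (h.r γ) _))),
    fun γ hγ => (congrArg (t0 Φ) (h3 γ hγ)).trans (map_zero _)⟩

theorem Ts.bw {z : J → G0 → G → C} (hz : z ∈ Bw C T ρ U τ) : t1 G0 Φ z ∈ Bw C T ρ' U τ' := by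
  obtain ⟨f, hf, rfl⟩ := hz
  refine ⟨_, h.av hf, ext_sl (Λ := Λ') fun γ => ?_⟩
  rw [sl_dw]
  exact ((congrArg (t0 Φ) (sl_dw γ f)).trans ((map_sub _ _ _).trans
    (congrArg (· - _) (t0_am (h.r γ) _)))).symm

end

omit h in
variable (T U ρ τ F) in
/-- the system `x` occurs in the cohomology with coefficients in `C` -/
def Ec (x : Ω → C) : Prop := ∃ z ∈ Zw C T ρ U τ, z ∉ Bw C T ρ U τ ∧
  ∀ ω, opL (RR G0 G Λ C) (F ω) z - x ω • z ∈ Bw C T ρ U τ

theorem Ts.ec (i : ∀ x, Ψ x * Φ x = 1) {x : Ω → C} (e : Ec T U ρ τ F x) : Ec T U ρ' τ' F' x := by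
  obtain ⟨z, h1, h2, h3⟩ := e
  exact ⟨_, h.zw h1, fun m => h2 (t1_t1 i z ▸ (h.symm i).bw m), fun ω => by
    rw [← h.op1, ← map_smul, ← map_sub]
    exact h.bw (h3 ω)⟩

omit h [DecidableEq J] in
theorem ec_iff {c : Ω → Λ} : Ec T U ρ τ F (fun ω => algebraMap Λ C (c ω)) ↔
    ∃ z, Eg C T ρ U τ F c z ∧ z ∉ Bw C T ρ U τ := by
  simp only [Ec, Eg, algebraMap_smul]
  exact ⟨fun ⟨z, a, b, c⟩ => ⟨z, ⟨a, c⟩, b⟩, fun ⟨z, ⟨a, c⟩, b⟩ => ⟨z, a, b, c⟩⟩

end

/-! ## the model over an algebraically closed field -/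

section

variable {K Ω : Type} [Field K]

theorem baer_field {R : Type} [AddCommGroup R] [Module K R] : Module.Baer K R :=
  baer_of fun o h x => ⟨o⁻¹ • x, smul_inv_smul₀ h x⟩

omit [DecidableEq J] in
theorem ec_alg [IsAlgClosed K] [Algebra K C] {ρ : G0 → Matrix J J K} {τ : G → Matrix J J K}
    {F : Ω → G →₀ Matrix J J K} (k : T.Ok0) (hU : U ∈ T.Lev) (m : Mu U τ)
    (gd : ∀ ω, Gd ρ U τ (F ω)) {x : Ω → C} : Ec T U ρ τ F x ↔ ∃ c : Ω → K,
      (∀ ω, algebraMap K C (c ω) = x ω) ∧ ∃ z, Eg K T ρ U τ F c z ∧ z ∉ Bw K T ρ U τ := by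
  constructor
  · intro e
    have : ∀ ω, x ω ∈ (algebraMap K C).range := fun ω => by
      obtain ⟨z, h1, h2, h3⟩ := e
      refine minpoly.mem_range_of_degree_eq_one K _ (IsAlgClosed.degree_eq_one_of_irreducible K
        (minpoly.irreducible (isIntegral_of_smul_mem_submodule ((Cyc T ρ U τ).map (lc z))
          (fun h => h2 (Bw_of m baer_field fun l hl => (Submodule.eq_bot_iff _).1 h _ ⟨l, hl, rfl⟩))
          (fg_cyc k hU h1) _ ?_)))
      rintro _ ⟨l, hl, rfl⟩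
      obtain ⟨l', h4, h5⟩ := (gd ω).cyc m z hl
      have := Bw_kill (h3 ω) l hl
      rw [lc_sub, sub_eq_zero] at this
      exact ⟨l', h4, h5.trans (this.trans (lc_c1 (LinearMap.mulLeft K (x ω)) z l))⟩
    choose c hc using this
    obtain ⟨z, h1, h2⟩ := ec_iff.1 (funext hc ▸ e)
    obtain ⟨y, h3, h4⟩ := un_of m baer_field (baer_field (R := K))
      (fun o r h e => (smul_eq_zero.1 e).resolve_right h) h1 h2 (o := 1) (x := 1) (by simp)
    exact ⟨c, hc, y, h3, by simpa using h4⟩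
  · rintro ⟨c, hc, z, h1, h2⟩
    obtain ⟨y, h3, h4⟩ := un_of m baer_field (baer_field (R := C))
      (fun o r h e => (smul_eq_zero.1 e).resolve_right h) h1 h2 (o := 1) (x := 1) (by simp)
    exact funext hc ▸ ec_iff.2 ⟨y, h3, by simpa using h4⟩

variable (J) in
/-- scalar operators -/
def sc (f : G →₀ K) : G →₀ Matrix J J K := f.mapRange (· • 1) (zero_smul _ _)

theorem opL_sc (f : G →₀ K) (φ : J → G → K) (j : J) :
    opL (rr G K K) (sc J f) φ j = op f (φ j) := by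
  rw [opL_sub _ (F := sc J f) (s := f.support) Finsupp.support_mapRange,
    LinearMap.sum_apply, Finset.sum_apply]
  exact Finset.sum_congr rfl fun g _ => by
    simp only [am_apply, sc, Finsupp.mapRange_apply, Matrix.smul_apply, Matrix.one_apply,
      mul_ite, mul_zero, ite_smul, zero_smul, Finset.sum_ite_eq, Finset.mem_univ, if_true,
      smul_eq_mul, mul_one]
    rfl

theorem Av_one {φ : J → G → K} : φ ∈ Av (rr G K K) U (1 : G → Matrix J J K) ↔ ∀ j, Inv U (φ j) :=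
  mem_Av.trans ⟨fun h j x u hu => congrFun ((am_one _ _ j).symm.trans (congrFun (h u hu) j)) x,
    fun h u hu => funext fun j => (am_one _ _ j).trans (funext fun x => h j x u hu)⟩

variable {ρ : G0 →* Matrix J J K}

theorem B1_iff {z : G0 → G → J → K} :
    z ∈ T.B1 (mr ρ) U ↔ (fun j γ x => z γ x j) ∈ Bw K T ρ U 1 :=
  ⟨fun ⟨f, h1, h2⟩ => ⟨fun j x => f x j, Av_one.2 fun j x u hu => congrFun (h1 x u hu) j,
    funext fun j => funext fun γ => funext fun x => (congrFun (congrFun (h2 γ) x) j).symm⟩,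
    fun ⟨f, h1, h2⟩ => ⟨fun x j => f j x, fun x u hu => funext fun j => Av_one.1 h1 j x u hu,
      fun γ => funext fun x => funext fun j => (congrFun (congrFun (congrFun h2 j) γ) x).symm⟩⟩

theorem Z1_iff {z : G0 → G → J → K} :
    z ∈ T.Z1 (mr ρ) U ↔ (fun j γ x => z γ x j) ∈ Zw K T ρ U 1 :=
  ⟨fun h => ⟨Av_RR.2 fun γ => Av_one.2 fun j x u hu => congrFun (h.1 γ x u hu) j,
    fun j γ δ x => congrFun (congrFun (h.2.1 γ δ) x) j,
    fun j γ hγ => funext fun x => congrFun (congrFun (h.2.2 γ hγ) x) j⟩,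
    fun h => ⟨fun γ x u hu => funext fun j => Av_one.1 (Av_RR.1 h.1 γ) j x u hu,
      fun γ δ => funext fun x => funext fun j => h.2.1 j γ δ x,
      fun γ hγ => funext fun x => funext fun j => congrFun (h.2.2 j γ hγ) x⟩⟩

theorem Eig_iff {z : G0 → G → J → K} {f : G →₀ K} {c : K} : T.Eig (mr ρ) U z (op f) c ↔
    opL (RR G0 G K K) (sc J f) (fun j γ x => z γ x j) - c • (fun j γ x => z γ x j) ∈
      Bw K T ρ U 1 := by
  refine B1_iff.trans (Iff.of_eq (congrArg (· ∈ _) (funext fun j => funext fun γ =>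
    funext fun x => congrArg (· - c • z γ x j) (?_ : op f (z γ) x j = _))))
  rw [show opL (RR G0 G K K) (sc J f) _ j γ = _ from congrFun (sl_opL γ _ _) j, opL_sc]
  simp only [op, Finsupp.sum, Finset.sum_apply]
  rfl

end

/-- **BET** from the graph -/
theorem bet_of (gx : GRX) : BET := by
  intro G0 G _ _ T A p _ H _ _ th M _ a g im O _ _ _ _ _ J _ _ C Ω _ ι ψ ρ σ U τ f F c ok ax _ cc lk
    hp W
  let _ := ι.toAlgebra
  let _ := ψ.toAlgebra
  have : CharZero C := charZero_of_injective_ringHom ι.injective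
  have p0 : (p : O) ≠ 0 := fun e => (Nat.cast_ne_zero (R := C)).2 (Fact.out : p.Prime).ne_zero (by
    rw [← map_natCast ψ, e, map_zero])
  obtain ⟨D, _, _, S, X⟩ := gx G0 G T A p H th M a g im O ok ax cc lk hp p0
  obtain ⟨P, Q, pq, rat⟩ := W.rat
  have qp := mul_eq_one_comm.1 pq
  have mi : Function.Injective (ψ.mapMatrix (m := J)) := Matrix.map_injective W.inj
  have ti : ∀ u ∈ U, ψ.mapMatrix (τ u) = σ u := W.int
  have mu : Mu U τ := fun u hu v hv => mi (by
    rw [map_mul, ti u hu, ti v hv, ti _ (mul_mem hu hv), map_mul])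
  have m1 : Mu U (1 : G → Matrix J J Qb) := fun _ _ _ _ => (mul_one 1).symm
  have ts : Ts T U (fun x => σ x⁻¹ * P) ρ 1 1 τ (fun ω => sc J (f ω)) F :=
    ⟨fun γ x => by
      rw [Pi.one_apply, Matrix.map_one _ (map_zero _) (map_one _), one_mul, _root_.mul_inv_rev,
        inv_inv,
        map_mul, rat, mul_assoc _ _ P, mul_assoc _ Q, qp, mul_one, mul_assoc]
      rfl, fun u hu x => by
      rw [Pi.one_apply, Matrix.map_one _ (map_zero _) (map_one _), mul_one,
        show (τ u).map (algebraMap O C) = σ u from ti u hu, ← mul_assoc, ← map_mul,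
        _root_.mul_inv_rev,
        mul_inv_cancel_left], fun ω g x => by
      rw [show (F ω g).map (algebraMap O C) = _ from W.opi ω g, smul_mul_assoc, ← mul_assoc,
        ← map_mul, _root_.mul_inv_rev, mul_inv_cancel_left, show (sc J (f ω) g).map (algebraMap Qb C) =
          ι (f ω g) • 1 from Matrix.ext fun i j => by
            simp [sc, Matrix.one_apply, apply_ite ι, RingHom.algebraMap_toAlgebra],
        mul_smul_comm, mul_one]⟩
  have i1 : ∀ x, Q * σ x * (σ x⁻¹ * P) = 1 := fun x => by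
    rw [mul_assoc, ← mul_assoc (σ x), ← map_mul, mul_inv_cancel, map_one, one_mul, qp]
  have i2 := fun x => mul_eq_one_comm.1 (i1 x)
  have g1 : ∀ ω, Gd ρ U 1 (sc J (f ω)) := fun ω =>
    ⟨fun γ g => (Commute.one_right _).smul_right _,
      fun φ h => Av_one.2 fun j => opL_sc (f ω) φ j ▸ W.inv ω _ (Av_one.1 h j)⟩
  have W' : W2 A U τ p F c := ⟨ok, ax, W.lev, mu, fun u hu => Matrix.ext fun i j =>
    sub_eq_zero.1 (IsHausdorff.haus (inferInstance : IsHausdorff (IsLocalRing.maximalIdeal O) O) _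
      fun k => ?_), W.con, W.aw.mono fun i h g hg => mi (by rw [ti _ hg, h, map_one]),
    fun ω => ⟨fun _ _ => Commute.one_left _, fun φ h => Av_of (a' := rr G O C)
      (fun _ : Unit => (Algebra.linearMap O C).compLeft G) (fun _ _ _ => rfl)
      (fun _ _ e => funext fun x => W.inj (congrFun (e ()) x)) fun _ => ?_⟩,
    (W.nE.and_eventually W.aw).mono fun i ⟨⟨ω, h1, h2⟩, h3⟩ => ⟨ω, fun g => mi ?_, h2⟩⟩
  · have nt := X.nt
    have bC : Module.Baer O C := baer_of fun o h x => ⟨(ψ o)⁻¹ * x,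
      mul_inv_cancel_left₀ ((map_ne_zero_iff ψ W.inj).2 h) x⟩
    have bD := baer_of X.div
    refine Iff.trans ?_ (W'.lnk X fun k => pow_ne_zero k p0)
    refine Iff.trans (b := Ec T U ρ 1 (fun ω => sc J (f ω)) fun ω => ψ (c ω)) ?_
      (Iff.trans ⟨ts.ec i1, (ts.symm i1).ec i2⟩ (ec_iff.trans ⟨fun ⟨z, h1, h2⟩ o h => ?_,
        of_un ok W.lev mu bD bC⟩))
    · rw [ec_alg ok W.lev m1 g1]
      constructor
      · rintro ⟨z, h1, h2, h3⟩
        choose c₀ h4 h5 using h3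
        exact ⟨c₀, h4, _, ⟨Z1_iff.1 h1, fun ω => Eig_iff.1 (h5 ω)⟩, mt B1_iff.2 h2⟩
      · rintro ⟨c₀, h4, z, h1, h2⟩
        exact ⟨fun γ x j => z j γ x, Z1_iff.2 h1.1, mt B1_iff.1 h2,
          fun ω => ⟨_, h4 ω, Eig_iff.2 (h1.2 ω)⟩⟩
    · obtain ⟨x, hx⟩ := exists_ne (0 : D)
      obtain ⟨y, rfl⟩ := X.div o h x
      exact un_of mu bC bD (fun o r h e => (map_eq_zero_iff ψ W.inj).1
        ((mul_eq_zero.1 e).resolve_right h)) h1 h2 hx
  · obtain ⟨U', h1, h2⟩ := W.con k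
    obtain ⟨x, hx⟩ := h2 u ((sInf_le W.lev : T.Z ≤ U) hu) ((sInf_le h1 : T.Z ≤ U') hu) i j
    rw [SModEq.zero, smul_eq_mul, Ideal.mul_top, ← Matrix.sub_apply, hx]
    exact Ideal.mul_mem_right _ _ (Ideal.pow_mem_pow hp k)
  · rw [opL_co (a' := rr G O C) _ fun _ _ => rfl, ← t0_t0 i2 (opL _ _ _), (ts.symm i1).op0]
    exact ts.av (opL_Av m1 (g1 ω).av ((ts.symm i1).av (c0_Av _ h)))
  · have := (A.w i).fin
    let _ := Fintype.ofFinite (IsLocalRing.ResidueField ℤ_[A.l i])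
    classical
    rw [show ψ.mapMatrix (F ω g) = _ from W.opi ω g, h1, Tw.Lc.Tg, Tw.Lc.Tg,
      Finsupp.finsetSum_apply, Finsupp.finsetSum_apply, map_sum, Finset.sum_smul, Finset.sum_smul,
      map_sum]
    refine Finset.sum_congr rfl fun r _ => ?_
    rw [Finsupp.single_apply, Finsupp.single_apply]
    split_ifs with e
    · rw [← e, h3, map_one, one_smul, one_smul, map_one]
    · rw [map_zero, zero_smul, zero_smul, map_zero]

end Vale.Agent.P022K.Sh.Be
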