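import Vale.Agent.P022K.QT.CcF
import Vale.Agent.P022K.F0.Apx
import Vale.Agent.P022D.Loc2.Dec
import Vale.Agent.P022D.W.Tame
import Vale.Agent.P022.H916.Ram

/-!
# P022K, block QT: places whose decomposition group fixes the field have degree one
-/

set_option autoImplicit false

open NumberField IsDedekindDomain Filter
open scoped Pointwise

noncomputable section

namespace Vale.Agent.P022K.Sh

open Vale.Agent.P022 Vale.Agent.P022.H218.L3 Vale.Agent.P022D.W Vale.Agent.P022D.Loc2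

namespace Dg

section

open IsDedekindDomain.HeightOneSpectrum

variable {F C : Type} [Field F] [NumberField F] [NormedField C] [IsUltrametricDist C]
  (f : F →+* C)

omit [NumberField F] in
theorem norm_int_le (a : 𝓞 F) : ‖f a‖ ≤ 1 := by
  have h : IsIntegral ℤ (f a) := a.isIntegral_coe.map f.toIntAlgHom
  let v : Valuation C NNReal := NormedField.valuation
  have hv := Valuation.integer.integers v
  have h1 : IsIntegral v.integer (f a) := h.tower_top
  exact hv.mem_of_integral h1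

/-- the prime of an embedding -/
def prm : Ideal (𝓞 F) where
  carrier := {x | ‖f x‖ < 1}
  add_mem' {a b} ha hb := by
    change ‖f ((a : F) + b)‖ < 1
    rw [map_add]
    exact (IsUltrametricDist.norm_add_le_max _ _).trans_lt (max_lt ha hb)
  zero_mem' := by simp
  smul_mem' c x hx := by
    change ‖f ((c : F) * x)‖ < 1
    rw [map_mul, norm_mul]
    exact mul_lt_one_of_nonneg_of_lt_one_right (norm_int_le f c) (norm_nonneg _) hx

omit [NumberField F] in
theorem mem_prm {x : 𝓞 F} : x ∈ prm f ↔ ‖f x‖ < 1 := Iff.rfl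

omit [NumberField F] in
theorem prm_prime : (prm f).IsPrime := by
  refine ⟨fun h => ?_, fun {a b} h => ?_⟩
  · have h1 : (1 : 𝓞 F) ∈ prm f := h ▸ Submodule.mem_top
    simp [mem_prm] at h1
  · by_contra hc
    simp only [mem_prm, not_or, not_lt] at hc
    change ‖f ((a : F) * b)‖ < 1 at h
    rw [map_mul, norm_mul] at h
    exact h.not_ge (one_le_mul_of_one_le_of_one_le hc.1 hc.2)

variable {f} {w : Pl F}

theorem norm_le_iff (h : prm f = w.asIdeal) (x : F) : ‖f x‖ ≤ 1 ↔ w.valuation F x ≤ 1 := by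
  have key : ∀ y : F, w.valuation F y ≤ 1 → ∃ n : 𝓞 F, ‖f y‖ = ‖f n‖ ∧
      w.valuation F y = w.valuation F n := fun y hy => by
    obtain ⟨n, d, e⟩ := w.exists_primeCompl_mul_eq_of_integer y hy
    have hd : (d : 𝓞 F) ∉ w.asIdeal := d.2
    have h1 : ‖f (d : 𝓞 F)‖ = 1 :=
      le_antisymm (norm_int_le f _) (not_lt.1 fun h1 => hd (h.le ((mem_prm f).2 h1)))
    refine ⟨n, ?_, ?_⟩
    · rw [show ((n : 𝓞 F) : F) = y * (d : 𝓞 F) from e.symm, map_mul, norm_mul, h1, mul_one]
    · rw [show ((n : 𝓞 F) : F) = y * algebraMap _ F (d : 𝓞 F) from e.symm, map_mul,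
        (w.valuation_eq_one_iff_notMem (K := F)).2 hd, mul_one]
  refine ⟨fun hx => ?_, fun hx => ?_⟩
  · by_contra hc
    have h0 : x ≠ 0 := by
      rintro rfl
      simp at hc
    have h1 : w.valuation F x⁻¹ < 1 := by
      rw [map_inv₀]
      exact inv_lt_one_of_one_lt₀ (not_le.1 hc)
    obtain ⟨n, h2, h3⟩ := key _ h1.le
    have h4 : ‖f n‖ < 1 := (mem_prm f).1 (h ▸ (w.valuation_lt_one_iff_mem (K := F) n).1 (h3 ▸ h1))
    rw [← h2, map_inv₀, norm_inv] at h4
    exact h4.not_ge ((one_le_inv₀ (norm_pos_iff.2 ((map_ne_zero f).2 h0))).2 hx)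
  · obtain ⟨n, h2, -⟩ := key x hx
    exact h2 ▸ norm_int_le f n

/-- the extension to the completion -/
theorem exists_ext [CompleteSpace C] (h : prm f = w.asIdeal) : ∃ E : Fw w →+* C, Continuous E ∧
    (∀ x, E (algebraMap F _ x) = f x) ∧ ∀ c, ‖E c‖ ≤ 1 ↔ c ∈ Ow w := by
  let f' : WithVal (w.valuation F) →+* C := f.comp (WithVal.equiv _).toRingHom
  obtain ⟨p, p0, hp⟩ := exists_nat_lt w
  rw [v_nat, intValuation_lt_one_iff_mem, ← h, mem_prm,
    show ((p : 𝓞 F) : F) = p from rfl] at hp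
  have hp1 : 0 < ‖f p‖ := norm_pos_iff.2 ((map_ne_zero f).2 (Nat.cast_ne_zero.2 p0.ne'))
  rw [map_natCast] at hp hp1
  have hc : Continuous f' := by
    refine continuous_of_continuousAt_zero f' (Metric.tendsto_nhds.2 fun ε hε => ?_)
    obtain ⟨n, hn⟩ := exists_pow_lt_of_lt_one hε hp
    have ho := (Valued.isOpen_valuationSubring (WithVal (w.valuation F))).preimage
      (continuous_mul_const ((p : WithVal (w.valuation F)) ^ n)⁻¹)
    filter_upwards [ho.mem_nhds (by simp)] with x hx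
    have h1 : ‖f' (x * ((p : WithVal (w.valuation F)) ^ n)⁻¹)‖ ≤ 1 := (norm_le_iff h _).2 hx
    rw [map_mul, map_inv₀, map_pow, map_natCast, norm_mul, norm_inv, norm_pow,
      mul_inv_le_iff₀ (pow_pos hp1 n), one_mul] at h1
    rw [map_zero, dist_zero_right]
    exact h1.trans_lt hn
  let E : Fw w →+* C := (UniformSpace.Completion.extensionHom f' hc).comp
    (HeightOneSpectrum.adicCompletion.equiv F w).toRingHom
  have hE : Continuous E := UniformSpace.Completion.continuous_extension.comp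
    (HeightOneSpectrum.adicCompletion.continuous_toCompletion F w)
  have hx : ∀ x, E (algebraMap F _ x) = f x := fun x =>
    UniformSpace.Completion.extensionHom_coe f' hc (WithVal.toVal _ x)
  refine ⟨E, hE, hx, fun c => ?_⟩
  have hA : IsClopen {c : Fw w | ‖E c‖ ≤ 1} := by
    simp only [← mem_closedBall_zero_iff]
    exact (IsUltrametricDist.isClopen_closedBall (0 : C) one_ne_zero).preimage hE
  have hB : IsClopen {c : Fw w | c ∈ Ow w} := Valued.isClopen_valuationSubring (Fw w)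
  refine (w.denseRange_algebraMap F).induction_on c ?_ fun x => ?_
  · have := (hA.inter hB).union (hA.compl.inter hB.compl)
    convert this.isClosed using 1
    ext c
    simp only [Set.mem_ofPred_eq, Set.mem_union, Set.mem_inter_iff, Set.mem_compl_iff]
    tauto
  · rw [hx, norm_le_iff h, ← w.valuedAdicCompletion_eq_valuation' x]
    rfl

end

variable {l : ℕ} [hl : Fact l.Prime] {P : Ideal (𝓞 Qb)}

theorem below_rat (hP : P.IsPrime) (h : (l : 𝓞 Qb) ∈ P) (x : 𝓞 ℚ) :
    x ∈ below (algebraMap ℚ Qb) P ↔ (l : ℤ) ∣ Rat.ringOfIntegersEquiv x := by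
  obtain ⟨z, rfl⟩ := Rat.ringOfIntegersEquiv.symm.surjective x
  rw [RingEquiv.apply_symm_apply, eq_intCast]
  show RingOfIntegers.mapRingHom _ (z : 𝓞 ℚ) ∈ P ↔ _
  rw [map_intCast]
  refine ⟨H20.dvd_of_mem hl.out hP h, fun ⟨k, hk⟩ => ?_⟩
  rw [hk, Int.cast_mul, Int.cast_natCast]
  exact Ideal.mul_mem_right _ _ h

/-- an embedding that induces `P` -/
theorem ex_emb (hP : P.IsPrime) (h : (l : 𝓞 Qb) ∈ P) : ∃ ι : Qb →+* PadicAlgCl l,
    (∀ x : 𝓞 Qb, x ∈ P ↔ ‖ι x‖ < 1) ∧ ∀ z, (∀ g ∈ dec P, g z = z) →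
      ι z ∈ Set.range (algebraMap ℚ_[l] (PadicAlgCl l)) := by
  obtain ⟨⟨g, -⟩, rfl⟩ := H916.exists_smul (algebraMap ℚ Qb) (PP_prime l) hP (Ideal.ext fun x =>
    (below_rat (PP_prime l) (p_mem_PP l) x).trans (below_rat hP h x).symm)
  refine ⟨(io l).toRingHom.comp (g⁻¹ : GQ).toRingEquiv.toRingHom, fun x => ?_, fun z hz => ?_⟩
  · rw [Ideal.mem_pointwise_smul_iff_inv_smul_mem]
    rfl
  · refine (InfiniteGalois.mem_range_algebraMap_iff_fixed (k := ℚ_[l]) _).2 fun σ => ?_
    have h1 := hz (g * jj l σ * g⁻¹) fun x => by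
      simp only [Ideal.mem_pointwise_smul_iff_inv_smul_mem]
      rw [mul_smul, mul_smul, inv_smul_smul]
      exact (range_jj l _).2 ⟨σ, rfl⟩ _
    have h2 : jj l σ (g⁻¹ z) = g⁻¹ z := by
      conv_rhs => rw [← h1, ← AlgEquiv.mul_apply, mul_assoc, inv_mul_cancel_left]
      rfl
    exact (io_jj l σ _).symm.trans (congrArg (io l) h2)

variable {F : Type} [Field F] [NumberField F] {w : Pl F}

theorem surj (E : Fw w →+* ℚ_[l]) (hc : Continuous E) (h : ∀ c, ‖E c‖ ≤ 1 ↔ c ∈ Ow w) :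
    Function.Surjective E := by
  have hi : Topology.IsInducing E := by
    rw [IsTopologicalAddGroup.isInducing_iff_nhds_zero]
    refine le_antisymm (hc.tendsto' 0 0 (map_zero E)).le_comap fun s hs => ?_
    obtain ⟨γ, hγ⟩ := Valued.mem_nhds_zero.1 hs
    obtain ⟨N, N0, hN⟩ := exists_nat_le w
      (γ := MonoidWithZeroHom.ValueGroup₀.embedding γ.1) (by simp)
    have n0 : 0 < ‖(N : ℚ_[l])‖ := norm_pos_iff.2 (Nat.cast_ne_zero.2 N0.ne')
    refine ⟨_, Metric.ball_mem_nhds _ n0, fun c k => hγ ?_⟩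
    rw [Set.mem_ofPred_eq, Valuation.restrict_lt_iff_lt_embedding]
    refine lt_trans ?_ hN
    rcases eq_or_ne c 0 with rfl | c0
    · simpa [pos_iff_ne_zero] using v_nat_ne w N0
    by_contra k'
    have h1 : (N : Fw w) / c ∈ Ow w := mem_Ow.2 (by
      rw [map_div₀]
      exact div_le_one_of_le₀ (not_lt.1 k') zero_le)
    rw [← h, map_div₀, map_natCast, norm_div,
      div_le_one (norm_pos_iff.2 ((map_ne_zero E).2 c0))] at h1
    exact h1.not_gt (mem_ball_zero_iff.1 k)
  have hcl : IsClosed (Set.range E) :=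
    (AddMonoidHom.isUniformInducing_of_isInducing hi).isComplete_range.isClosed
  exact fun y => (Padic.denseRange_ratCast l).induction_on y hcl fun q => ⟨q, map_ratCast E q⟩

end Dg

namespace QD

variable {F : Type} [Field F] [NumberField F] {j : F →+* Qb} {w : Pl F} {l : ℕ}
  {P : Ideal (𝓞 Qb)}

/-- **DEG1** -/
theorem dg1 [Fact l.Prime] (hP : P.IsPrime) (h : (l : 𝓞 Qb) ∈ P) (hd : dec P ≤ GK j)
    (hw : below j P = w.asIdeal) : Dg1 w l := by
  obtain ⟨ι, h1, h2⟩ := Dg.ex_emb hP h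
  choose f hf using fun x : F => h2 (j x) fun g hg => hd hg x
  have inj := (algebraMap ℚ_[l] (PadicAlgCl l)).injective
  let φ : F →+* ℚ_[l] :=
    { toFun := f
      map_one' := inj (by simp only [hf, map_one])
      map_mul' := fun x y => inj (by simp only [hf, map_mul])
      map_zero' := inj (by simp only [hf, map_zero])
      map_add' := fun x y => inj (by simp only [hf, map_add]) }
  obtain ⟨E, c, -, hE⟩ := Dg.exists_ext (f := φ) (w := w) (Ideal.ext fun x => by
    rw [← hw, Dg.mem_prm, ← PadicAlgCl.norm_extends]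
    exact (congrArg (‖·‖ < 1) (hf x)).to_iff.trans (h1 (RingOfIntegers.mapRingHom j x)).symm)
  refine ⟨RingEquiv.ofBijective E ⟨E.injective, Dg.surj E c hE⟩, fun x => (hE x).symm.trans ?_⟩
  exact ⟨fun k => ⟨⟨_, k⟩, rfl⟩, fun ⟨y, k⟩ => k ▸ y.2⟩

theorem Dg1.norm [Fact l.Prime] (d : Dg1 w l) : Ideal.absNorm w.asIdeal = l :=
  d.elim fun _ he => (LocA.Cp.qq_eq ⟨Subtype.val_injective, he⟩).symm.trans (qq_padic l)

/-- good places of degree one are auxiliary places -/
theorem ex_axI (X : QD F) [h : Fact l.Prime] (d : Dg1 w l) (hw : 2 * X.a * X.b ∉ w.asIdeal) :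
    ∃ i : X.AxI, i.1 = w ∧ (X.ax.l i : ℕ) = l :=
  ⟨⟨w, hw, ⟨l, h.out⟩, d⟩, rfl, (X.ax_norm _).symm.trans d.norm⟩

end QD

end Vale.Agent.P022K.Sh
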