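import Vale.Agent.P022K.QT.Locm
import Vale.Agent.P022K.QT.TkF
import Vale.Agent.P022K.F0.Sha
import Mathlib.Topology.Instances.AddCircle.Real

/-! P022K, block QT, row CCY (part 0): commuting operators on finite modules, the Eisenstein
classes `Ei` and their complement `Ne`. -/

set_option autoImplicit false

open Module

noncomputable section

namespace Vale.Agent.P022K.Sh

open Fre

namespace Cy

section

variable {Λ V I : Type} [CommRing Λ] [AddCommGroup V] [Module Λ V]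

theorem ex_P {E : Set (End Λ V)} (hE : E.Finite) (cm : ∀ e ∈ E, ∀ e' ∈ E, Commute e e')
    (id : ∀ e ∈ E, e * e = e) :
    ∃ P : End Λ V, (∀ e ∈ E, P * e = 0) ∧ ∀ x, (∀ e ∈ E, e x = 0) → P x = x := by
  induction E, hE using Set.Finite.induction_on with
  | empty => exact ⟨1, by simp, fun _ _ => rfl⟩
  | @insert e E _ _ ih =>
    obtain ⟨P, h1, h2⟩ := ih (fun a ha b hb => cm a (.inr ha) b (.inr hb)) fun a ha => id a (.inr ha)
    refine ⟨P * (1 - e), ?_, fun x hx => ?_⟩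
    · rintro a (rfl | ha)
      · rw [mul_assoc, sub_mul, one_mul, id a (.inl rfl), sub_self, mul_zero]
      · rw [mul_assoc, sub_mul, one_mul, (cm e (.inl rfl) a (.inr ha)).eq, mul_sub, ← mul_assoc,
          h1 a ha, zero_mul, sub_self]
    · rw [End.mul_apply, LinearMap.sub_apply, hx e (.inl rfl), sub_zero]
      exact h2 x fun a ha => hx a (.inr ha)

theorem ex_b {E : Set (End Λ V)} (hE : E.Finite) (cm : ∀ e ∈ E, ∀ e' ∈ E, Commute e e')
    (id : ∀ e ∈ E, e * e = e) {V₀ W : AddSubgroup V}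
    (h : ∀ e ∈ E, ∀ x ∈ V₀, e x ∈ V₀ ∧ e x ∈ W) {b : V} (hb : b ∈ V₀) :
    ∃ c ∈ V₀, b - c ∈ W ∧ ∀ e ∈ E, e c = 0 := by
  induction E, hE using Set.Finite.induction_on with
  | empty => exact ⟨b, hb, by simp, by simp⟩
  | @insert e E _ _ ih =>
    obtain ⟨c, h1, h2, h3⟩ := ih (fun a ha b hb => cm a (.inr ha) b (.inr hb))
      (fun a ha => id a (.inr ha)) fun a ha => h a (.inr ha)
    obtain ⟨h4, h5⟩ := h e (.inl rfl) c h1
    refine ⟨c - e c, sub_mem h1 h4, by convert add_mem h2 h5 using 1; abel, ?_⟩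
    rintro a (rfl | ha)
    · rw [map_sub, ← End.mul_apply, id a (.inl rfl), sub_self]
    · rw [map_sub, ← End.mul_apply, (cm a (.inr ha) e (.inl rfl)).eq, End.mul_apply, h3 a ha,
        map_zero, sub_self]

theorem pow_zero_of_le {t : End Λ V} {x : V} {n m : ℕ} (h : (t ^ n) x = 0) (le : n ≤ m) :
    (t ^ m) x = 0 := by
  obtain ⟨k, rfl⟩ := Nat.exists_eq_add_of_le' le
  rw [pow_add, End.mul_apply, h, map_zero]

theorem ex_N [Finite V] (t : End Λ V) :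
    ∃ N, 0 < N ∧ t ^ N * t ^ N = t ^ N ∧ ∀ n, ∃ m, t ^ N = t ^ (n + m) := by
  have : Finite (End Λ V) := Finite.of_injective _ DFunLike.coe_injective
  obtain ⟨N, h0, h⟩ := exists_idem t
  have h1 := h 1 one_pos
  rw [mul_one] at h1
  refine ⟨N, h0, h1, fun n => ?_⟩
  obtain ⟨m, hm⟩ : ∃ m, N * (n + 1) = n + m := Nat.exists_eq_add_of_le (by nlinarith)
  exact ⟨m, by rw [← hm, pow_mul, IsIdempotentElem.pow_succ_eq n h1]⟩

theorem fit_nil [Finite V] {t : End Λ V} {x : V} (h : x ∈ Fit t) {n : ℕ} (h' : (t ^ n) x = 0) :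
    x = 0 := by
  obtain ⟨N, h0, h1, h2⟩ := ex_N t
  obtain ⟨m, e⟩ := h2 n
  rw [← (mem_Fit h0 h1).1 h, e]
  exact pow_zero_of_le h' (Nat.le_add_right _ _)

variable [Finite V] {t : I → End Λ V} (cm : ∀ i k, Commute (t i) (t k)) (s : Set I)
include cm

theorem disj {x : V} (h : x ∈ ⨆ i ∈ s, Fit (t i)) (h' : ∀ i ∈ s, ∃ n, (t i ^ n) x = 0) : x = 0 := by
  have : Finite (End Λ V) := Finite.of_injective _ DFunLike.coe_injective
  choose N h0 h1 h2 using fun i => ex_N (t i)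
  obtain ⟨P, p1, p2⟩ := ex_P (((fun i => t i ^ N i) '' s).toFinite)
    (by rintro _ ⟨i, -, rfl⟩ _ ⟨k, -, rfl⟩; exact (cm i k).pow_pow _ _)
    (by rintro _ ⟨i, -, rfl⟩; exact h1 i)
  have e : P x = x := p2 x (by
    rintro _ ⟨i, hi, rfl⟩
    obtain ⟨n, hn⟩ := h' i hi
    obtain ⟨m, e⟩ := h2 i n
    exact (LinearMap.congr_fun e x).trans (pow_zero_of_le hn (Nat.le_add_right _ _)))
  have le : ⨆ i ∈ s, Fit (t i) ≤ LinearMap.ker P := iSup₂_le fun i hi y hy => by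
    rw [LinearMap.mem_ker, ← (mem_Fit (h0 i) (h1 i)).1 hy, ← End.mul_apply, p1 _ ⟨i, hi, rfl⟩]
    rfl
  exact e.symm.trans (le h)

theorem split {V₀ W : AddSubgroup V}
    (h : ∀ i ∈ s, ∀ x ∈ V₀, t i x ∈ V₀ ∧ ∃ n, ∀ m, (t i ^ (n + m)) x ∈ W) {b : V} (hb : b ∈ V₀) :
    ∃ y ∈ W, ∀ i ∈ s, ∃ n, (t i ^ n) (b - y) = 0 := by
  have : Finite (End Λ V) := Finite.of_injective _ DFunLike.coe_injective
  choose N h0 h1 h2 using fun i => ex_N (t i)
  obtain ⟨c, -, c2, c3⟩ := ex_b (((fun i => t i ^ N i) '' s).toFinite)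
    (by rintro _ ⟨i, -, rfl⟩ _ ⟨k, -, rfl⟩; exact (cm i k).pow_pow _ _)
    (by rintro _ ⟨i, -, rfl⟩; exact h1 i) (V₀ := V₀) (W := W) (by
      rintro _ ⟨i, hi, rfl⟩ x hx
      obtain ⟨n, hn⟩ := (h i hi x hx).2
      obtain ⟨m, e⟩ := h2 i n
      beta_reduce
      refine ⟨?_, e ▸ hn m⟩
      generalize N i = k
      induction k with
      | zero => exact hx
      | succ k ih => rw [pow_succ', End.mul_apply]; exact (h i hi _ ih).1) hb
  exact ⟨_, c2, fun i hi => ⟨N i, by rw [sub_sub_cancel]; exact c3 _ ⟨i, hi, rfl⟩⟩⟩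

end

/-! ### the group `ℝ / ℤ` -/

/-- the coefficients -/
abbrev Bz : Type := UnitAddCircle

/-- `ℤ / n → ℝ / ℤ` -/
abbrev ee (n : ℕ) [NeZero n] : ZMod n →+ Bz := ZMod.toAddCircle

theorem ee_inj (n : ℕ) [NeZero n] : Function.Injective (ee n) := ZMod.toAddCircle_injective n

theorem ee_tor (n : ℕ) [NeZero n] (x : ZMod n) : n • ee n x = 0 := by
  rw [← map_nsmul, nsmul_eq_mul, ZMod.natCast_self, zero_mul, map_zero]

theorem ee_onto (n : ℕ) [NeZero n] {x : Bz} (h : n • x = 0) : ∃ y, ee n y = x := by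
  induction x using QuotientAddGroup.induction_on with
  | H r =>
    rw [← AddCircle.coe_nsmul, AddCircle.coe_eq_zero_iff] at h
    obtain ⟨j, hj⟩ := h
    refine ⟨j, (ZMod.toAddCircle_intCast j).trans (congrArg _ ?_)⟩
    have : (n : ℝ) ≠ 0 := Nat.cast_ne_zero.2 (NeZero.ne n)
    rw [div_eq_iff this, mul_comm]
    simpa using hj

theorem bz_div (n : ℕ) [NeZero n] (x : Bz) : ∃ y, n • y = x := by
  induction x using QuotientAddGroup.induction_on with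
  | H r =>
    have : (n : ℝ) ≠ 0 := Nat.cast_ne_zero.2 (NeZero.ne n)
    exact ⟨(r / n : ℝ), by rw [← AddCircle.coe_nsmul, nsmul_eq_mul, mul_div_cancel₀ _ this]⟩

theorem zmod_ext {n : ℕ} {B : Type} [AddCommGroup B] {f g : ZMod n →+ B} (h : f 1 = g 1)
    (x : ZMod n) : f x = g x := by
  obtain ⟨j, rfl⟩ := ZMod.intCast_surjective x
  rw [← mul_one (j : ZMod n), ← zsmul_eq_mul, map_zsmul, map_zsmul, h]

theorem ee_mul (n m : ℕ) [NeZero n] [NeZero (n * m)] : m • ee (n * m) 1 = ee n 1 := by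
  have h1 := ZMod.toAddCircle_natCast (N := n * m) 1
  have h2 := ZMod.toAddCircle_natCast (N := n) 1
  rw [Nat.cast_one] at h1 h2
  have : (m : ℝ) ≠ 0 := Nat.cast_ne_zero.2 fun e => NeZero.ne (n * m) (by rw [e, mul_zero])
  rw [h1, h2, ← AddCircle.coe_nsmul, nsmul_eq_mul]
  congr 1
  push_cast
  field_simp

theorem ee_pow (p k k' : ℕ) [NeZero p] : p ^ k' • ee (p ^ (k + k')) 1 = ee (p ^ k) 1 := by
  have : NeZero (p ^ k * p ^ k') := pow_add p k k' ▸ inferInstance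
  have h := ee_mul (p ^ k) (p ^ k')
  have e : ∀ (a b : ℕ) [NeZero a] [NeZero b], a = b → ee a 1 = ee b 1 := by
    rintro a b _ _ rfl; rfl
  rw [e _ _ (pow_add p k k'), h]

/-! ### operators on functions -/

variable {G0 G : Type} [Group G0] [Group G] {T : Tw G0 G} {U U' : Subgroup G} {Q : Set G}

open Tw

scoped instance finR (l : ℕ) [Fact l.Prime] : Fintype (IsLocalRing.ResidueField ℤ_[l]) :=
  Fintype.ofEquiv (ZMod l) (PadicInt.residueField (p := l)).symm.toEquiv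

/-- a normal sublevel -/
theorem ex_nm (k : T.Ok0) (hU : U ∈ T.Lev) {W : Subgroup G} (hW : W ∈ T.Lev) :
    ∃ N ∈ T.Lev, N ≤ U ∧ N ≤ W ∧ ∀ u ∈ U, cj u N = N := by
  classical
  have hV := k.inf U hU W hW
  have c := cor_tr (inf_le_left : U ⊓ W ≤ U) (k.fi _ hV U hU)
  have key : ∀ S : Finset (G ⧸ (U ⊓ W)), ∃ N ∈ T.Lev, ∀ y, y ∈ N ↔
      y ∈ U ⊓ W ∧ ∀ s ∈ S, s.out⁻¹ * y * s.out ∈ U ⊓ W := fun S => by
    induction S using Finset.induction_on with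
    | empty => exact ⟨_, hV, by simp⟩
    | insert a S _ ih =>
      obtain ⟨N, n1, n2⟩ := ih
      refine ⟨_, k.inf N n1 _ (k.conj _ hV a.out), fun y => ?_⟩
      rw [Subgroup.mem_inf, n2, mem_cj, Finset.forall_mem_insert]
      tauto
  obtain ⟨N, n1, n2⟩ := key c.fin.toFinset
  have n3 : ∀ y, y ∈ N ↔ ∀ v ∈ U, v⁻¹ * y * v ∈ U ⊓ W := fun y => by
    rw [n2]
    refine ⟨fun h v hv => ?_, fun h => ⟨by simpa using h 1 (one_mem U),
      fun s hs => h _ (c.rep.mem s hs)⟩⟩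
    obtain ⟨s, hs, e⟩ := c.rep.sur v hv
    convert mul_mem (mul_mem (inv_mem e) (h.2 s hs)) e using 1
    group
  refine ⟨N, n1, fun y hy => ((n2 y).1 hy).1.1, fun y hy => ((n2 y).1 hy).1.2, fun u hu => ?_⟩
  ext y
  rw [mem_cj, n3, n3]
  refine ⟨fun h v hv => ?_, fun h v hv => ?_⟩
  · convert h _ (mul_mem (inv_mem hu) hv) using 1
    group
  · convert h _ (mul_mem hu hv) using 1
    group

theorem neat_cj (h : T.Neat U) (x : G) : T.Neat (cj x U) := fun y γ hγ =>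
  h (y * x) γ (T.mem_Gam.2 (by simpa [mul_assoc] using mem_cj.1 (T.mem_Gam.1 hγ)))

theorem cor_cj (U : Subgroup G) (x : G) : Cor (cj x U) {y | x⁻¹ * y ∈ U} U :=
  ⟨fun v hv y hy => by
    have := U.mul_mem (mem_cj.1 hv) hy
    simpa [mul_assoc] using this, (rep_one x).right, (rep_one x).fin⟩

theorem hk_sum {B : Type} [AddCommGroup B] (c : Cor U' Q U) (f : G → B) :
    hk Q U f = ∑ q ∈ c.fin.toFinset, rt q.out f := funext fun x => by
  rw [hk_eq c, Finset.sum_apply]; rfl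

section

variable {O K : Type} [CommRing O] [IsDomain O] [IsDiscreteValuationRing O] [Field K]
  [Algebra O K] {w : T.Lc O K} [Fintype (IsLocalRing.ResidueField O)] {B B' : Type}
  [AddCommGroup B] [AddCommGroup B']

theorem tf_kil (sa : w.SA) (h : U ∈ w.L0) {f : G → B} (hf : Inv U f)
    (hγ : ∀ γ x, f ((T.j γ)⁻¹ * x) = f x) : w.tf B f = 0 := by
  have := T.pi0_of _ _ w sa U h.1 h.2 B f (mem_H0.2 ⟨hf, hγ⟩)
  rw [h.2.hk_To h.1 (hk_inv (Lc.L0.cor w h) hf), h.2.hk_To h.1 hf] at this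
  rw [w.tf_apply, this, sub_self]

theorem inv_tf (h : U ∈ w.L0) {f : G → B} (hf : Inv U f) : Inv U (w.tf B f) := by
  have c := Lc.L0.cor w h
  rw [w.tf_apply]
  exact (h.2.inv_Tf h.1 c (h.2.inv_Tf h.1 c hf)).sub fun x u hu => by
    rw [Pi.smul_apply, Pi.smul_apply, hf x u hu]

theorem Tf_rt (h : U ∈ w.L0) {u : G} (hu : w.π u ∈ KK O K ⊔ Zl K) {f : G → B} (hf : Inv U f) :
    w.Tf B (rt u f) = rt u (w.Tf B f) := by
  have ha : w.ι (w.π u) ∈ U := (h.2.iff h.1).2 hu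
  have hy : w.π (u * (w.ι (w.π u))⁻¹) = 1 := by rw [map_mul, map_inv, w.πι, mul_inv_cancel]
  have e : u = u * (w.ι (w.π u))⁻¹ * w.ι (w.π u) := by group
  generalize u * (w.ι (w.π u))⁻¹ = y at hy e
  rw [e, rt_mul, rt_mul, hf.rt_eq ha, (h.2.inv_Tf h.1 (Lc.L0.cor w h) hf).rt_eq ha]
  funext x
  show ∑ i, f (x * w.ι (w.tr i) * y) = ∑ i, f (x * y * w.ι (w.tr i))
  simp only [mul_assoc, (w.com _ y hy).eq]

theorem tf_rt (h : U ∈ w.L0) {u : G} (hu : w.π u ∈ KK O K ⊔ Zl K) {f : G → B} (hf : Inv U f) :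
    w.tf B (rt u f) = rt u (w.tf B f) := by
  rw [w.tf_apply, w.tf_apply, Tf_rt h hu hf, Tf_rt h hu (h.2.inv_Tf h.1 (Lc.L0.cor w h) hf)]
  rfl

theorem tf_map (l : B →+ B') (f : G → B) (x : G) :
    w.tf B' (fun y => l (f y)) x = l (w.tf B f x) := by
  simp [Lc.tf_apply, Lc.Tf]

theorem tf_left (f : G → B) (y x : G) : w.tf B (fun x => f (y * x)) x = w.tf B f (y * x) := by
  simp [Lc.tf_apply, Lc.Tf, mul_assoc]

variable {O' K' : Type} [CommRing O'] [IsDomain O'] [IsDiscreteValuationRing O'] [Field K']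
  [Algebra O' K'] {w' : T.Lc O' K'} [Fintype (IsLocalRing.ResidueField O')]

theorem Tf_comm (h : w.Ne w') (f : G → B) : w.Tf B (w'.Tf B f) = w'.Tf B (w.Tf B f) := by
  funext x
  show ∑ i, ∑ k, f (x * w.ι (w.tr i) * w'.ι (w'.tr k)) =
    ∑ k, ∑ i, f (x * w'.ι (w'.tr k) * w.ι (w.tr i))
  rw [Finset.sum_comm]
  simp only [mul_assoc, (w.com _ _ (h.1 _)).eq]

theorem tf_comm (h : w.Ne w') (f : G → B) : w.tf B (w'.tf B f) = w'.tf B (w.tf B f) := by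
  simp only [Lc.tf_apply, map_sub, map_nsmul, Tf_comm h, smul_sub, smul_smul,
    mul_comm ((qq O + 1) ^ 2)]
  abel

end

/-! ### Eisenstein classes -/

variable (A : T.Ax) (Λ B : Type) [CommRing Λ] [AddCommGroup B] [Module Λ B]

open Classical in
/-- the operator `T_i ^ 2 - (l_i + 1) ^ 2` -/
def tc (U : Subgroup G) (i : A.I) : End Λ (T.Hc Λ B U) :=
  if h : U ∈ (A.w i).L0 then (A.w i).tt (Representation.trivial Λ G0 B) (Lc.L0.cor _ h) else 0

/-- the Eisenstein classes -/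
def Ei (U : Subgroup G) : AddSubgroup (T.Hc Λ B U) where
  carrier := {b | ∀ᶠ i in A.F, ∃ n, (tc A Λ B U i ^ n) b = 0}
  add_mem' h h' := (h.and h').mono fun i ⟨⟨n, e⟩, m, e'⟩ => ⟨n + m, by
    rw [map_add, pow_zero_of_le e (Nat.le_add_right _ _), pow_zero_of_le e' (Nat.le_add_left _ _),
      add_zero]⟩
  zero_mem' := .of_forall fun _ => ⟨0, map_zero _⟩
  neg_mem' h := h.mono fun i ⟨n, e⟩ => ⟨n, by rw [map_neg, e, neg_zero]⟩

variable {A Λ B} {Λ' B' : Type} [CommRing Λ'] [AddCommGroup B'] [Module Λ' B'] {i : A.I}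

theorem tc_eq (h : U ∈ (A.w i).L0) :
    tc A Λ B U i = (A.w i).tt (Representation.trivial Λ G0 B) (Lc.L0.cor _ h) := dif_pos h

theorem tc_ne (h : U ∉ (A.w i).L0) : tc A Λ B U i = 0 := dif_neg h

theorem ind_tc (h : U ∈ (A.w i).L0) : Ind (tc A Λ B U i) ((A.w i).tf B) :=
  tc_eq (Λ := Λ) (B := B) h ▸ h.2.ind_t h.1 _

theorem tc_comm (hA : A.Ok) (i k : A.I) : Commute (tc A Λ B U i) (tc A Λ B U k) := by
  by_cases e : i = k
  · rw [e]
  by_cases h : U ∈ (A.w i).L0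
  · by_cases h' : U ∈ (A.w k).L0
    · exact LinearMap.ext (((ind_tc h).comp (ind_tc h')).ext
        (((ind_tc h').comp (ind_tc h)).congr fun f _ => (tf_comm (hA.ne i k e) f).symm))
    · rw [tc_ne h']
      exact Commute.zero_right _
  · rw [tc_ne h]
    exact Commute.zero_left _

theorem tc_hC (hA : A.Ok) (hU : U ∈ T.Lev) (hU' : U' ∈ T.Lev) (c : Cor U' Q U) :
    ∀ᶠ i in A.F, ∀ a, T.hC Λ B c (tc A Λ B U i a) = tc A Λ B U' i (T.hC Λ B c a) := by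
  filter_upwards [hA.lev U hU, hA.lev U' hU', (Filter.eventually_all_finset c.fin.toFinset).2
    fun q _ => hA.int q.out] with i h h' hq
  refine ((ind_hH c).comp (ind_tc h)).ext (((ind_tc h').comp (ind_hH c)).congr fun f hf => ?_)
  rw [hk_sum c, hk_sum c, map_sum]
  exact Finset.sum_congr rfl fun q m => tf_rt h (hq q m) hf

theorem tc_co (l : B →+ B') (i : A.I) (a : T.Hc Λ B U) :
    T.co U Λ Λ' l (tc A Λ B U i a) = tc A Λ' B' U i (T.co U Λ Λ' l a) := by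
  by_cases h : U ∈ (A.w i).L0
  · simp only [tc_eq h, LinearMap.sub_apply, LinearMap.comp_apply, LinearMap.smul_apply,
      End.one_apply, map_sub, map_nsmul, co_hC]
  · simp only [tc_ne h, LinearMap.zero_apply, map_zero]

theorem ei_hC (hA : A.Ok) (hU : U ∈ T.Lev) (hU' : U' ∈ T.Lev) (c : Cor U' Q U) {a : T.Hc Λ B U}
    (h : a ∈ Ei A Λ B U) : T.hC Λ B c a ∈ Ei A Λ B U' :=
  ((tc_hC (Λ := Λ) (B := B) hA hU hU' c).and h).mono fun i ⟨e, n, hn⟩ => ⟨n, by rw [← pow_comm e, hn, map_zero]⟩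

theorem ei_co (l : B →+ B') {a : T.Hc Λ B U} (h : a ∈ Ei A Λ B U) :
    T.co U Λ Λ' l a ∈ Ei A Λ' B' U :=
  h.mono fun i ⟨n, hn⟩ => ⟨n, by rw [← pow_comm (tc_co l i), hn, map_zero]⟩

theorem ei_tc (hA : A.Ok) (i : A.I) {a : T.Hc Λ B U} (h : a ∈ Ei A Λ B U) :
    tc A Λ B U i a ∈ Ei A Λ B U :=
  h.mono fun k ⟨n, hn⟩ => ⟨n, by
    rw [← End.mul_apply, ((tc_comm hA k i).pow_left n).eq, End.mul_apply, hn, map_zero]⟩

theorem ker_res (k : T.Ok0) (hA : A.Ok) (h : U ∈ (A.w i).L0) (h' : U' ∈ (A.w i).L0) (le : U' ≤ U)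
    (nm : ∀ u ∈ U, cj u U' = U') {a : T.Hc Λ B U} (e : T.hC Λ B (cor_res le) a = 0) :
    tc A Λ B U i a = 0 := by
  rw [tc_eq h]
  exact k.toCtr.ker_res h.1 h'.1 le nm h.2 h'.2 (T.pi0_of _ _ _ (hA.sa i) U' h'.1 h'.2) _
    (Lc.L0.cor _ h') _ a e

theorem ei_of_res (k : T.Ok0) (hA : A.Ok) (hU : U ∈ T.Lev) (hU' : U' ∈ T.Lev) (le : U' ≤ U)
    (nm : ∀ u ∈ U, cj u U' = U') {a : T.Hc Λ B U} (e : T.hC Λ B (cor_res le) a ∈ Ei A Λ B U') :
    a ∈ Ei A Λ B U := by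
  filter_upwards [hA.lev U hU, hA.lev U' hU', tc_hC (Λ := Λ) (B := B) hA hU hU' (cor_res le), e]
    with i h h' h1 ⟨n, hn⟩
  refine ⟨n + 1, ?_⟩
  rw [pow_succ', End.mul_apply]
  exact ker_res k hA h h' le nm ((pow_comm h1 n a).trans hn)

theorem ker_ee (hA : A.Ok) (h : U ∈ (A.w i).L0) {n : ℕ} [NeZero n] {a : T.Hn n U}
    (e : T.co U (ZMod n) ℤ (ee n) a = 0) : tc A (ZMod n) (ZMod n) U i a = 0 := by
  obtain ⟨z, rfl⟩ := mh_surj a
  obtain ⟨f, h1, h2⟩ := mem_Bc.1 (mh_eq_zero.1 ((co_mh _ z).symm.trans e))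
  change ∀ γ x, ee n (z.1 γ x) = _ at h2
  have h3 := tf_kil (hA.sa i) h (f := n • f) (fun x u hu => by simp only [Pi.smul_apply, h1 x u hu])
    fun γ x => by rw [Pi.smul_apply, Pi.smul_apply, ← sub_eq_zero, ← smul_sub, ← h2, ee_tor]
  rw [map_nsmul] at h3
  choose g hg using fun x => ee_onto n (congrFun h3 x)
  obtain ⟨y, h4, h5⟩ := ind_tc (Λ := ZMod n) h z
  refine h4.trans (mh_eq_zero.2 (mem_Bc.2 ⟨g, fun x u hu => ee_inj n ?_, fun γ x => ee_inj n ?_⟩))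
  · rw [hg, hg, inv_tf h h1 x u hu]
  · rw [map_sub, hg, hg, h5, ← tf_map, ← tf_left, ← Pi.sub_apply, ← map_sub]
    exact congrArg (fun f => (A.w i).tf Bz f x) (funext (h2 γ))

theorem ei_of_ee (hA : A.Ok) (hU : U ∈ T.Lev) {n : ℕ} [NeZero n] {a : T.Hn n U}
    (e : T.co U (ZMod n) ℤ (ee n) a ∈ Ei A ℤ Bz U) : a ∈ Ei A (ZMod n) (ZMod n) U := by
  filter_upwards [hA.lev U hU, e] with i h ⟨m, hm⟩
  refine ⟨m + 1, ?_⟩
  rw [pow_succ', End.mul_apply]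
  exact ker_ee hA h ((pow_comm (tc_co _ i) m a).trans hm)

theorem ei_unif [Finite (T.Hc Λ B U)] :
    ∀ᶠ i in A.F, ∃ n, ∀ y ∈ Ei A Λ B U, (tc A Λ B U i ^ n) y = 0 := by
  filter_upwards [(Filter.eventually_all_finite (Set.toFinite (Ei A Λ B U : Set _))
    (p := fun y i => ∃ n, (tc A Λ B U i ^ n) y = 0)).2 fun y hy => hy] with i h
  obtain ⟨N, -, -, h2⟩ := ex_N (tc A Λ B U i)
  refine ⟨N, fun y hy => ?_⟩
  obtain ⟨n, hn⟩ := h y hy
  obtain ⟨m, e⟩ := h2 n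
  exact e ▸ pow_zero_of_le hn (Nat.le_add_right _ _)

theorem Ns_eq (n : ℕ) (s : Set A.I) : A.Ns n U s = ⨆ i ∈ s, Fit (tc A (ZMod n) (ZMod n) U i) := by
  refine iSup_congr fun i => iSup_congr fun _ => ?_
  by_cases h : U ∈ (A.w i).L0
  · rw [iSup_pos h, tc_eq h]
    rfl
  · rw [iSup_neg h, tc_ne h]
    exact (le_bot_iff.1 ((iInf_le _ 1).trans (by simp))).symm

variable {n : ℕ} [Finite (T.Hn n U)]

theorem ne_ei (hA : A.Ok) {x : T.Hn n U} (h : x ∈ A.Ne n U) (h' : x ∈ Ei A (ZMod n) (ZMod n) U) :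
    x = 0 := disj (tc_comm hA) _ (Ns_eq (A := A) n _ ▸ Ax.Ne_le h' h) fun _ h => h

theorem ex_ne (hA : A.Ok) (x : T.Hn n U) :
    ∃ y ∈ A.Ne n U, x - y ∈ Ei A (ZMod n) (ZMod n) U := by
  obtain ⟨s, h0, h1⟩ := A.Ne_eq n U
  obtain ⟨y, h2, h3⟩ := split (tc_comm hA) s (V₀ := ⊤) (W := (A.Ne n U).toAddSubgroup)
    (fun i hi x _ => ⟨trivial, by
      obtain ⟨N, n0, n1, -⟩ := ex_N (tc A (ZMod n) (ZMod n) U i)
      refine ⟨N, fun m => (h1 s h0 subset_rfl).le ?_⟩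
      rw [Ns_eq]
      exact (le_iSup₂_of_le i hi le_rfl : Fit (tc A (ZMod n) (ZMod n) U i) ≤ _)
        ((Fit_eq n0 n1).ge ⟨_, by rw [pow_add, End.mul_apply]⟩)⟩) (b := x) trivial
  exact ⟨y, h2, Filter.mem_of_superset h0 h3⟩

end Cy

end Vale.Agent.P022K.Sh
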