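import Vale.Agent.P022K.QT.Ccy0

/-! P022K, block QT, row CCY (part 1): the module and the maps from finite level. -/

set_option autoImplicit false

open Module

noncomputable section

namespace Vale.Agent.P022K.Sh.Cy

open Fre Tw

theorem ex_rep {Γ M : Type} [Monoid Γ] [AddCommGroup M] (φ : Γ → M →+ M) (h1 : ∀ v, φ 1 v = v)
    (h2 : ∀ x y v, φ (x * y) v = φ x (φ y v)) : ∃ a : Representation ℤ Γ M, ∀ x v, a x v = φ x v :=
  ⟨{ toFun := fun x => (φ x).toIntLinearMap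
     map_one' := LinearMap.ext h1
     map_mul' := fun x y => LinearMap.ext (h2 x y) }, fun _ _ => rfl⟩

variable {G0 G : Type} [Group G0] [Group G] {T : Tw G0 G} {U U' : Subgroup G} {Q : Set G}

section

variable {Λ B : Type} [CommRing Λ] [AddCommGroup B] [Module Λ B]

theorem zc_mono (le : U' ≤ U) {z : G0 → G → B} (h : z ∈ T.Zc U Λ B) : z ∈ T.Zc U' Λ B :=
  ⟨fun γ => (h.1 γ).mono le, h.2⟩

theorem res_mh (le : U' ≤ U) (z : T.Zc U Λ B) :
    T.hC Λ B (cor_res le) (T.mh z) = T.mh ⟨z.1, zc_mono le z.2⟩ :=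
  congrArg T.mh (Subtype.ext (funext fun γ => hk_self (z.2.1 γ)))

theorem zc_rt (x : G) {z : G0 → G → B} (h : z ∈ T.Zc U Λ B) :
    (fun γ => rt x (z γ)) ∈ T.Zc (cj x U) Λ B := by
  convert (T.hZ _ (cor_cj U x) ⟨z, h⟩).2 using 1
  exact funext fun γ => (hk_one x (h.1 γ)).symm

theorem dia_mh (x : G) (z : T.Zc U Λ B) :
    T.hC Λ B (cor_cj U x) (T.mh z) = T.mh ⟨fun γ => rt x (z.1 γ), zc_rt x z.2⟩ :=
  congrArg T.mh (Subtype.ext (funext fun γ => hk_one x (z.2.1 γ)))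

theorem bc_le (k : T.Ok0) (hU : U ∈ T.Lev) : T.Bc U Λ B ≤ T.Zc U Λ B := fun z hz => by
  obtain ⟨f, h1, h2⟩ := mem_Bc.1 hz
  refine mem_Zc.2 ⟨fun γ x u hu => ?_, fun γ δ x => ?_, fun γ hγ x => ?_⟩
  · rw [h2, h2, ← mul_assoc, h1 _ u hu, h1 _ u hu]
  · simp [h2, mul_assoc]
  · rw [h2, sub_eq_zero]
    exact congrFun (k.toCtr.lt_Z0 (ρ := Representation.trivial Λ G0 B) hU hγ rfl h1) x

end

theorem ex_lift {n : ℕ} [NeZero n] {y : G0 → G → Bz} (h : y ∈ T.Zc U ℤ Bz) (hn : n • y = 0) :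
    ∃ z : T.Zc U (ZMod n) (ZMod n), ∀ γ x, ee n (z.1 γ x) = y γ x := by
  choose z hz using fun γ x => ee_onto n (congrFun (congrFun hn γ) x)
  obtain ⟨h1, h2, h3⟩ := mem_Zc.1 h
  exact ⟨⟨z, mem_Zc.2 ⟨fun γ x u hu => ee_inj n (by rw [hz, hz]; exact h1 γ x u hu),
    fun γ δ x => ee_inj n (by rw [map_add, hz, hz, hz]; exact h2 γ δ x),
    fun γ hγ x => ee_inj n (by rw [hz, map_zero]; exact h3 γ hγ x)⟩⟩, hz⟩

variable (k : T.Ok0) {A : T.Ax} (hA : A.Ok) (p : ℕ)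

/-- the cocycles of some level that are killed by a power of `p` -/
def Zs : AddSubgroup (G0 → G → Bz) where
  carrier := {z | (∃ U ∈ T.Lev, z ∈ T.Zc U ℤ Bz) ∧ ∃ m, p ^ m • z = 0}
  add_mem' := fun ⟨⟨U, h, z⟩, m, e⟩ ⟨⟨U', h', z'⟩, m', e'⟩ => ⟨⟨_, k.inf U h U' h',
    add_mem (zc_mono inf_le_left z) (zc_mono inf_le_right z')⟩, m + m', by
      rw [smul_add, pow_add, mul_smul, mul_smul, e', smul_comm, e]; simp⟩
  zero_mem' := ⟨k.neat.imp fun _ h => ⟨h.1, zero_mem _⟩, 0, smul_zero _⟩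
  neg_mem' := fun ⟨⟨U, h, z⟩, m, e⟩ => ⟨⟨U, h, neg_mem z⟩, m, by rw [smul_neg, e, neg_zero]⟩

/-- the Eisenstein cocycles -/
def Es : AddSubgroup (G0 → G → Bz) where
  carrier := {z | ∃ U ∈ T.Lev, ∃ h : z ∈ T.Zc U ℤ Bz, T.mh ⟨z, h⟩ ∈ Ei A ℤ Bz U}
  add_mem' := fun ⟨U, h, z, e⟩ ⟨U', h', z', e'⟩ => ⟨_, k.inf U h U' h',
    add_mem (zc_mono inf_le_left z) (zc_mono inf_le_right z'), by
      have e1 := ei_hC hA h (k.inf U h U' h') (cor_res inf_le_left) e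
      have e2 := ei_hC hA h' (k.inf U h U' h') (cor_res inf_le_right) e'
      rw [res_mh inf_le_left] at e1
      rw [res_mh inf_le_right] at e2
      exact add_mem e1 e2⟩
  zero_mem' := k.neat.imp fun _ h => ⟨h.1, zero_mem _, zero_mem _⟩
  neg_mem' := fun ⟨U, h, z, e⟩ => ⟨U, h, neg_mem z, neg_mem e⟩

theorem mem_Es (hU : U ∈ T.Lev) (z : T.Zc U ℤ Bz) : z.1 ∈ Es k hA ↔ T.mh z ∈ Ei A ℤ Bz U := by
  refine ⟨fun ⟨W, hW, h, e⟩ => ?_, fun h => ⟨U, hU, z.2, h⟩⟩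
  obtain ⟨N, n1, n2, n3, n4⟩ := ex_nm k hU hW
  have e1 := ei_hC hA hW n1 (cor_res n3) e
  rw [res_mh n3] at e1
  exact ei_of_res k hA hU n1 n2 n4 (res_mh n2 z ▸ e1)

/-- the module -/
def MM : Type := Zs k p ⧸ (Es k hA).addSubgroupOf (Zs k p)

instance : AddCommGroup (MM k hA p) := QuotientAddGroup.Quotient.addCommGroup _

/-- the class of a cocycle -/
def mk : Zs k p →+ MM k hA p := QuotientAddGroup.mk' _

theorem mk_surj : Function.Surjective (mk k hA p) := QuotientAddGroup.mk'_surjective _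

theorem mk_zero {z : Zs k p} : mk k hA p z = 0 ↔ z.1 ∈ Es k hA := QuotientAddGroup.eq_zero_iff z

/-- right translation -/
def rz (x : G) : Zs k p →+ Zs k p where
  toFun z := ⟨fun γ => rt x (z.1 γ), by
    obtain ⟨⟨U, h, e⟩, m, e'⟩ := z.2
    exact ⟨⟨_, k.conj U h x, zc_rt x e⟩, m, funext fun γ => funext fun y =>
      congrFun (congrFun e' γ) (y * x)⟩⟩
  map_zero' := rfl
  map_add' _ _ := rfl

theorem ex_act : ∃ a : Representation ℤ G (MM k hA p),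
    ∀ x z, a x (mk k hA p z) = mk k hA p (rz k p x z) := by
  obtain ⟨a, ha⟩ := ex_rep (M := MM k hA p) (fun x => QuotientAddGroup.map _ _ (rz k p x) (by
    rintro z ⟨U, h, e, e'⟩
    exact ⟨_, k.conj U h x, zc_rt x e, dia_mh x ⟨_, e⟩ ▸ ei_hC hA h (k.conj U h x) _ e'⟩))
    (fun v => by
      obtain ⟨z, rfl⟩ := mk_surj k hA p v
      exact congrArg (mk k hA p) (Subtype.ext (funext fun γ => funext fun y =>
        congrArg (z.1 γ) (mul_one y))))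
    fun x y v => by
      obtain ⟨z, rfl⟩ := mk_surj k hA p v
      exact congrArg (mk k hA p) (Subtype.ext (funext fun γ => rt_mul x y _))
  exact ⟨a, fun x z => ha x _⟩

variable [NeZero p]

/-- cocycles modulo `p ^ m` -/
def jz (hU : U ∈ T.Lev) (m : ℕ) : T.Zc U (ZMod (p ^ m)) (ZMod (p ^ m)) →+ Zs k p where
  toFun z := ⟨fun γ x => ee (p ^ m) (z.1 γ x), ⟨U, hU, (T.coZ U _ ℤ (ee (p ^ m)) z).2⟩, m,
    funext fun _ => funext fun _ => ee_tor _ _⟩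
  map_zero' := Subtype.ext (funext fun _ => funext fun _ => map_zero _)
  map_add' _ _ := Subtype.ext (funext fun _ => funext fun _ => map_add _ _ _)

theorem mk_jz (hU : U ∈ T.Lev) (m : ℕ) (z : T.Zc U (ZMod (p ^ m)) (ZMod (p ^ m))) :
    mk k hA p (jz k p hU m z) = 0 ↔ T.mh z ∈ Ei A _ _ U :=
  (mk_zero k hA p).trans ((mem_Es k hA hU (T.coZ U _ ℤ (ee (p ^ m)) z)).trans
    ⟨fun h => ei_of_ee hA hU (co_mh (Λ' := ℤ) (ee (p ^ m)) z ▸ h),
      fun h => co_mh (Λ' := ℤ) (ee (p ^ m)) z ▸ ei_co _ h⟩)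

/-- the map from finite level -/
def im0 (hU : U ∈ T.Lev) (m : ℕ) : T.Hn (p ^ m) U →+ MM k hA p :=
  QuotientAddGroup.lift ((T.Bc U (ZMod (p ^ m)) (ZMod (p ^ m))).submoduleOf
    (T.Zc U (ZMod (p ^ m)) (ZMod (p ^ m)))).toAddSubgroup ((mk k hA p).comp (jz k p hU m))
    fun z hz => (mk_jz k hA p hU m z).2 (by rw [mh_eq_zero.2 hz]; exact zero_mem _)

open Classical in
/-- the map from finite level -/
def im (m : ℕ) (U : Subgroup G) : T.Hn (p ^ m) U →+ MM k hA p :=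
  if hU : U ∈ T.Lev then im0 k hA p hU m else 0

theorem im_mh (hU : U ∈ T.Lev) (m : ℕ) (z : T.Zc U (ZMod (p ^ m)) (ZMod (p ^ m))) :
    im k hA p m U (T.mh z) = mk k hA p (jz k p hU m z) := by
  rw [im, dif_pos hU]
  rfl

variable (A) in
/-- the properties of the module without the Galois action -/
structure Pre {M : Type} [AddCommGroup M] (a : Representation ℤ G M)
    (im : ∀ m U, T.Hn (p ^ m) U →+ M) : Prop where
  ker : ∀ U ∈ T.Lev, ∀ m b, im m U b = 0 ↔ b ∈ Ei A _ _ U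
  all : ∀ v, ∃ U ∈ T.Lev, ∃ m b, im m U b = v
  fix : ∀ U ∈ T.Lev, ∀ m b, im m U b ∈ Fv a U
  cor : ∀ U ∈ T.Lev, ∀ U' ∈ T.Lev, ∀ Q (c : Cor U' Q U) m b,
    im m U' (T.hN (p ^ m) c b) = hv a Q U (im m U b)
  up : ∀ U ∈ T.Lev, ∀ m m' (n : ℕ) (l : ZMod (p ^ m) →+ ZMod (p ^ m')) b b',
    n • ee (p ^ m') (l 1) = ee (p ^ m) 1 → T.IsCo U l b b' → n • im m' U b' = im m U b
  dn : ∀ U ∈ T.Lev, ∀ m m' (n : ℕ) (l : ZMod (p ^ m) →+ ZMod (p ^ m')) b b',
    ee (p ^ m') (l 1) = n • ee (p ^ m) 1 → T.IsCo U l b b' → im m' U b' = n • im m U b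
  trs : ∀ U ∈ T.Lev, ∀ m n b, p ^ n • b = 0 → ∃ c, im n U c = im m U b

theorem ex_pre : ∃ a, Pre A p a (im k hA p) := by
  obtain ⟨a, ha⟩ := ex_act k hA p
  refine ⟨a, fun U hU m b => ?_, fun v => ?_, fun U hU m b u hu => ?_,
    fun U hU U' hU' Q c m b => ?_, ?_, ?_, fun U hU m n b hb => ?_⟩
  · obtain ⟨z, rfl⟩ := mh_surj b
    rw [im_mh k hA p hU, mk_jz]
  · obtain ⟨⟨z, ⟨U, hU, h⟩, m, hm⟩, rfl⟩ := mk_surj k hA p v
    obtain ⟨y, hy⟩ := ex_lift h hm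
    exact ⟨U, hU, m, T.mh y, (im_mh k hA p hU m y).trans
      (congrArg _ (Subtype.ext (funext fun γ => funext (hy γ))))⟩
  · obtain ⟨z, rfl⟩ := mh_surj b
    rw [im_mh k hA p hU, ha]
    exact congrArg _ (Subtype.ext (funext fun γ => funext fun x =>
      congrArg (ee _) (z.2.1 γ x u hu)))
  · obtain ⟨z, rfl⟩ := mh_surj b
    rw [hC_mh, im_mh k hA p hU', im_mh k hA p hU, hv, hk_eq c]
    simp only [ha, one_mul, ← map_sum]
    refine congrArg _ (Subtype.ext (funext fun γ => funext fun x => ?_))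
    show ee _ (hk Q U (z.1 γ) x) = _
    rw [hk_eq c, map_sum, AddSubmonoidClass.coe_finsetSum, Finset.sum_apply, Finset.sum_apply]
    rfl
  · rintro U hU m m' n l _ _ h ⟨z, z', rfl, rfl, e⟩
    rw [im_mh k hA p hU, im_mh k hA p hU, ← map_nsmul]
    refine congrArg _ (Subtype.ext (funext fun γ => funext fun x => ?_))
    exact (congrArg (fun y => n • ee _ y) (e γ x)).trans
      (zmod_ext (f := n • (ee _).comp l) (g := ee _) h _)
  · rintro U hU m m' n l _ _ h ⟨z, z', rfl, rfl, e⟩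
    rw [im_mh k hA p hU, im_mh k hA p hU, ← map_nsmul]
    refine congrArg _ (Subtype.ext (funext fun γ => funext fun x => ?_))
    exact (congrArg (ee _) (e γ x)).trans (zmod_ext (f := (ee _).comp l) (g := n • ee _) h _)
  · obtain ⟨z, rfl⟩ := mh_surj b
    obtain ⟨f, h1, h2⟩ := mem_Bc.1 (mh_eq_zero.1 (show T.mh (p ^ n • z) = 0 from
      (map_nsmul (Submodule.mkQ _) _ z).trans hb))
    choose d hd using bz_div (p ^ n)
    have hB : (fun γ x => d (ee _ (f ((T.j γ)⁻¹ * x))) - d (ee _ (f x))) ∈ T.Bc U ℤ Bz :=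
      mem_Bc.2 ⟨fun x => d (ee _ (f x)), fun x u hu => by simp only [h1 x u hu], fun _ _ => rfl⟩
    obtain ⟨y, hy⟩ := ex_lift (n := p ^ n) (sub_mem (T.coZ U _ ℤ (ee (p ^ m)) z).2 (bc_le k hU hB))
      (funext fun γ => funext fun x => by
        show p ^ n • (ee _ (z.1 γ x) - (d _ - d _)) = 0
        rw [smul_sub, smul_sub, hd, hd, ← map_sub, ← h2, ← map_nsmul]
        exact sub_self _)
    refine ⟨T.mh y, ?_⟩
    rw [im_mh k hA p hU, im_mh k hA p hU, eq_comm, ← sub_eq_zero, ← map_sub, mk_zero]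
    convert (mem_Es k hA hU ⟨_, bc_le k hU hB⟩).2 (by
      rw [(mh_eq_zero (z := ⟨_, bc_le k hU hB⟩)).2 hB]; exact zero_mem _) using 1
    exact funext fun γ => funext fun x => (congrArg (ee _ (z.1 γ x) - ·) (hy γ x)).trans
      (sub_sub_cancel _ _)

end Vale.Agent.P022K.Sh.Cy
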