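import Vale.Agent.P022K.FI.Fac
import Vale.Agent.P022K.WB.YFcu

/-!
# P022K, block QT: the unit part of a Laurent series and the coefficients of its logarithm
-/

set_option linter.all false

noncomputable section

open PowerSeries LaurentSeries P025H746

namespace Vale.Agent.P022K.QT.Cu

open FI WB

section ser

variable {A B : Type} [Field A] [Field B]

/-- a homomorphism applied to the coefficients -/
def mp (σ : A →+* B) : A⸨X⸩ →+* B⸨X⸩ where
  toFun x := x.map σ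
  map_one' := HahnSeries.map_one σ.toMonoidWithZeroHom
  map_zero' := HahnSeries.map_zero σ.toAddMonoidHom.toZeroHom
  map_add' _ _ := HahnSeries.map_add σ.toAddMonoidHom
  map_mul' _ _ := HahnSeries.map_mul σ.toNonUnitalRingHom

theorem coeff_mp (σ : A →+* B) (x : A⸨X⸩) (k : ℤ) : (mp σ x).coeff k = σ (x.coeff k) := rfl

theorem mp_am (σ : A →+* B) (f : A⟦X⟧) : mp σ (am A f) = am B (PowerSeries.map σ f) := by
  ext k
  rw [coeff_mp]
  rcases lt_or_ge k 0 with h | h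
  · rw [coeff_am_neg _ h, coeff_am_neg _ h, map_zero]
  · obtain ⟨n, rfl⟩ := Int.eq_ofNat_of_zero_le h
    rw [coeff_am, coeff_am, coeff_map]

theorem mp_C (σ : A →+* B) (c : A) :
    mp σ (algebraMap A A⸨X⸩ c) = algebraMap B B⸨X⸩ (σ c) := by
  rw [← am_C, mp_am, map_C, am_C]

/-- `X ↦ X ^ N` -/
def ex (N : ℕ) (hN : 0 < N) : A⸨X⸩ →+* A⸨X⸩ :=
  HahnSeries.embDomainRingHom (AddMonoidHom.mulLeft (N : ℤ))
    (mul_right_injective₀ (by exact_mod_cast hN.ne'))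
    fun _ _ => mul_le_mul_iff_right₀ (by exact_mod_cast hN)

theorem coeff_ex {N : ℕ} (hN : 0 < N) (z : A⸨X⸩) (n : ℤ) :
    (ex N hN z).coeff (N * n) = z.coeff n :=
  HahnSeries.embDomain_coeff (a := n)

theorem coeff_ex' {N : ℕ} (hN : 0 < N) (z : A⸨X⸩) {n : ℤ} (h : ¬ (N : ℤ) ∣ n) :
    (ex N hN z).coeff n = 0 :=
  HahnSeries.embDomain_of_notMem_range fun ⟨m, hm⟩ => h ⟨m, hm.symm⟩

theorem ex_am {N : ℕ} (hN : 0 < N) (f : A⟦X⟧) :
    ex N hN (am A f) = am A (expand N hN.ne' f) := by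
  ext k
  have h0 : (0 : ℤ) < N := by exact_mod_cast hN
  by_cases h : (N : ℤ) ∣ k
  · obtain ⟨k, rfl⟩ := h
    rw [coeff_ex]
    rcases lt_or_ge k 0 with h | h
    · rw [coeff_am_neg _ h, coeff_am_neg _ (mul_neg_of_pos_of_neg h0 h)]
    · obtain ⟨n, rfl⟩ := Int.eq_ofNat_of_zero_le h
      rw [← Nat.cast_mul, coeff_am, coeff_am, coeff_expand_mul]
  · rw [coeff_ex' _ _ h]
    rcases lt_or_ge k 0 with h1 | h1
    · rw [coeff_am_neg _ h1]
    · obtain ⟨n, rfl⟩ := Int.eq_ofNat_of_zero_le h1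
      rw [coeff_am, coeff_expand_of_not_dvd _ _ _ fun e => h (Int.natCast_dvd_natCast.2 e)]

theorem mp_ex (σ : A →+* B) {N : ℕ} (hN : 0 < N) (z : A⸨X⸩) :
    mp σ (ex N hN z) = ex N hN (mp σ z) := by
  ext k
  by_cases h : (N : ℤ) ∣ k
  · obtain ⟨k, rfl⟩ := h
    rw [coeff_mp, coeff_ex, coeff_ex, coeff_mp]
  · rw [coeff_mp, coeff_ex' _ _ h, coeff_ex' _ _ h, map_zero]

/-- a coefficientwise multiplication -/
def cw (c : ℤ → A) (z : A⸨X⸩) : A⸨X⸩ where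
  coeff n := c n * z.coeff n
  isPWO_support' := z.isPWO_support.mono fun n hn h => hn (by simp [h])

theorem coeff_cw (c : ℤ → A) (z : A⸨X⸩) (n : ℤ) : (cw c z).coeff n = c n * z.coeff n := rfl

theorem supp_cw {c : ℤ → A} (hc : ∀ n, c n ≠ 0) (z : A⸨X⸩) : (cw c z).support = z.support := by
  ext n
  simp [coeff_cw, hc n]

/-- `X ↦ ξ X` -/
def rs (ξ : A) (h0 : ξ ≠ 0) : A⸨X⸩ →+* A⸨X⸩ where
  toFun := cw fun n => ξ ^ n
  map_one' := by
    ext n
    by_cases h : n = 0 <;> simp [coeff_cw, h]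
  map_zero' := by
    ext n
    simp [coeff_cw]
  map_add' x y := by
    ext n
    simp [coeff_cw, mul_add]
  map_mul' x y := by
    ext n
    have h := supp_cw (c := fun n : ℤ => ξ ^ n) fun n => zpow_ne_zero n h0
    rw [HahnSeries.coeff_mul_left' x.isPWO_support (h x).le, coeff_cw,
      HahnSeries.coeff_mul_right' (cw (fun n : ℤ => ξ ^ n) y).isPWO_support (h y).ge,
      Finset.mul_sum]
    refine Finset.sum_congr rfl fun ij hij => ?_
    rw [← (Finset.mem_antidiagonal.1 hij).2.2, coeff_cw, coeff_cw, zpow_add₀ h0]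
    ring

theorem coeff_rs {ξ : A} (h0 : ξ ≠ 0) (z : A⸨X⸩) (n : ℤ) :
    (rs ξ h0 z).coeff n = ξ ^ n * z.coeff n := rfl

theorem rs_am {ξ : A} (h0 : ξ ≠ 0) (f : A⟦X⟧) : rs ξ h0 (am A f) = am A (rescale ξ f) := by
  ext k
  rw [coeff_rs]
  rcases lt_or_ge k 0 with h | h
  · rw [coeff_am_neg _ h, coeff_am_neg _ h, mul_zero]
  · obtain ⟨n, rfl⟩ := Int.eq_ofNat_of_zero_le h
    rw [coeff_am, coeff_am, coeff_rescale, zpow_natCast]

theorem mp_rs (σ : A →+* B) {ξ : A} (h0 : ξ ≠ 0) (z : A⸨X⸩) :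
    mp σ (rs ξ h0 z) = rs (σ ξ) ((_root_.map_ne_zero σ).2 h0) (mp σ z) := by
  ext k
  rw [coeff_mp, coeff_rs, coeff_rs, coeff_mp, map_mul, map_zpow₀]

end ser

variable {C : Type} [NontriviallyNormedField C] [IsUltrametricDist C]

/-- `u` is the unit part of `x` -/
def UP (x : C⸨X⸩) (u : C⟦X⟧) : Prop := Un u ∧ ∃ (c : C) (D : C →₀ ℤ), c ≠ 0 ∧
  (∀ a ∈ D.support, ‖a‖ < 1) ∧ x = algebraMap C C⸨X⸩ c * am C u * pr D

/-- `x` has a unit part -/
def Hf (x : C⸨X⸩) : Prop := ∃ u, UP x u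

variable {x y : C⸨X⸩} {u v : C⟦X⟧}

theorem hf_iff : Hf x ↔ ∃ c D, Fac x c D :=
  ⟨fun ⟨u, h, c, D, h1, h2, h3⟩ => ⟨c, D, h1, h2, u, h, h3⟩,
    fun ⟨c, D, h1, h2, u, h, h3⟩ => ⟨u, h, c, D, h1, h2, h3⟩⟩

theorem un0 (h : Un u) : coeff 0 u ≠ 0 := norm_ne_zero_iff.1 (h.2 ▸ one_ne_zero)

theorem UP.mul (h : UP x u) (h' : UP y v) : UP (x * y) (u * v) := by
  obtain ⟨h1, c, D, h2, h3, rfl⟩ := h
  obtain ⟨h1', c', D', h2', h3', rfl⟩ := h'
  refine ⟨h1.mul h1', c * c', D + D', mul_ne_zero h2 h2', ((fac_pr h3).mul (fac_pr h3')).2.1, ?_⟩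
  rw [pr_add, map_mul, map_mul]
  ring

theorem up_const {c : C} (h : c ≠ 0) : UP (algebraMap C C⸨X⸩ c) 1 :=
  ⟨un_one, c, 0, h, by simp, by simp [pr_zero]⟩

theorem up_one : UP (1 : C⸨X⸩) 1 := by simpa using up_const (one_ne_zero (α := C))

theorem up_am (h : Un u) : UP (am C u) u := ⟨h, 1, 0, one_ne_zero, by simp, by simp [pr_zero]⟩

theorem up_pr {D : C →₀ ℤ} (h : ∀ a ∈ D.support, ‖a‖ < 1) : UP (pr D) 1 :=
  ⟨un_one, 1, D, one_ne_zero, h, by simp⟩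

theorem UP.inv1 (h : UP x 1) : UP x⁻¹ 1 := by
  obtain ⟨-, c, D, h2, h3, rfl⟩ := h
  refine ⟨un_one, c⁻¹, -D, inv_ne_zero h2, by rwa [Finsupp.support_neg], ?_⟩
  rw [← zero_sub D, pr_sub, pr_zero, map_inv₀, map_one, mul_one, mul_one, mul_inv, one_div]

theorem UP.mul1 (h : UP x 1) (h' : UP y 1) : UP (x * y) 1 := by simpa using h.mul h'

theorem UP.zpow1 (h : UP x 1) (n : ℤ) : UP (x ^ n) 1 := by
  have k : ∀ m : ℕ, UP (x ^ m) 1 := fun m => by
    induction m with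
    | zero => simpa using up_one
    | succ m ih => rw [pow_succ]; exact ih.mul1 h
  rcases Int.eq_nat_or_neg n with ⟨m, rfl | rfl⟩
  · simpa using k m
  · simpa using (k m).inv1

theorem up_prod {ι : Type} {s : Finset ι} {f : ι → C⸨X⸩} (h : ∀ i ∈ s, UP (f i) 1) :
    UP (∏ i ∈ s, f i) 1 :=
  Finset.prod_induction f (UP · 1) (fun _ _ => UP.mul1) up_one h

theorem UP.hom (τ : C⸨X⸩ →+* C⸨X⸩) {u' : C⟦X⟧} (h : UP x u) (h1 : τ (am C u) = am C u')
    (h2 : Un u') (hc : ∀ c, c ≠ 0 → UP (τ (algebraMap C C⸨X⸩ c)) 1)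
    (hl : ∀ a : C, ‖a‖ < 1 → UP (τ (am C (X - PowerSeries.C a))) 1) : UP (τ x) u' := by
  obtain ⟨-, c, D, h3, h4, rfl⟩ := h
  rw [map_mul, map_mul, h1]
  have := ((hc c h3).mul (up_am h2)).mul (show UP (τ (pr D)) 1 by
    rw [pr, Finsupp.prod, map_prod]
    exact up_prod fun a ha => by rw [map_zpow₀]; exact (hl a (h4 a ha)).zpow1 _)
  rwa [one_mul, mul_one] at this

theorem Hf.mul (h : Hf x) (h' : Hf y) : Hf (x * y) := ⟨_, h.choose_spec.mul h'.choose_spec⟩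

theorem Hf.ne (h : Hf x) : x ≠ 0 := by
  obtain ⟨c, D, h⟩ := hf_iff.1 h
  exact h.ne

theorem Hf.inv (h : Hf x) : Hf x⁻¹ := by
  obtain ⟨c, D, h⟩ := hf_iff.1 h
  exact hf_iff.2 ⟨_, _, h.inv⟩

theorem Hf.pow (h : Hf x) (n : ℕ) : Hf (x ^ n) := by
  obtain ⟨c, D, h⟩ := hf_iff.1 h
  exact hf_iff.2 ⟨_, _, h.pow n⟩

variable [CompleteSpace C] [IsAlgClosed C]

theorem up_poly {P : Polynomial C} (h0 : P ≠ 0) (h : ∀ a, P.IsRoot a → ‖a‖ < 1) :
    UP (am C P) 1 := by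
  refine ⟨un_one, P.leadingCoeff, dv P.roots, Polynomial.leadingCoeff_ne_zero.2 h0, fun a ha =>
    h a ((Polynomial.mem_roots h0).1 (dv_ne (Finsupp.mem_support_iff.1 ha))), ?_⟩
  rw [pr_dv, map_one, mul_one, ← am_C, ← map_mul, ← coe_prod, ← Polynomial.coe_C,
    ← Polynomial.coe_mul, ← (IsAlgClosed.splits P).eq_prod_roots]

theorem UP.dl_eq (h : UP x u) (h' : UP x v) : dl0 u = dl0 v := by
  obtain ⟨h1, c, D, h2, h3, e⟩ := h
  obtain ⟨h1', c', D', h2', h3', e'⟩ := h'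
  obtain rfl : D = D' := (Fac.unique (x := x) ⟨h2, h3, u, h1, e⟩ ⟨h2', h3', v, h1', e'⟩).2
  have e1 : PowerSeries.C c * u = PowerSeries.C c' * v := am_inj (by
    rw [map_mul, map_mul, am_C, am_C]
    exact mul_right_cancel₀ (pr_ne D) (e.symm.trans e'))
  have := congrArg dl0 e1
  rwa [Cu.dl0_mul (by simpa using h2) (un0 h1), Cu.dl0_mul (by simpa using h2') (un0 h1'),
    Cu.dl0_C, Cu.dl0_C, zero_add, zero_add] at this

open Classical in
/-- the logarithmic derivative of the unit part -/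
def Lg (x : C⸨X⸩) : C⟦X⟧ := if h : Hf x then dl0 h.choose else 0

theorem UP.lg (h : UP x u) : Lg x = dl0 u := by
  have h1 : Hf x := ⟨u, h⟩
  rw [Lg, dif_pos h1]
  exact h1.choose_spec.dl_eq h

theorem Lg_zero (x : C⸨X⸩) : coeff 0 (Lg x) = 0 := by
  rw [Lg]
  split_ifs
  · rw [dl0, mul_assoc, coeff_zero_X_mul]
  · rfl

theorem Lg_mul (h : Hf x) (h' : Hf y) : Lg (x * y) = Lg x + Lg y := by
  obtain ⟨u, h⟩ := h
  obtain ⟨v, h'⟩ := h'
  rw [(h.mul h').lg, h.lg, h'.lg, Cu.dl0_mul (un0 h.1) (un0 h'.1)]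

theorem UP.lg1 (h : UP x 1) : Lg x = 0 := by simpa using h.lg.trans (Cu.dl0_C (1 : C))

theorem UP.ex (h : UP x u) {N : ℕ} (hN : 0 < N) : UP (ex N hN x) (expand N hN.ne' u) := by
  refine h.hom _ (ex_am hN u) ⟨fun n => ?_, by simpa using h.1.2⟩ (fun c hc => ?_) fun a ha => ?_
  · rw [coeff_expand]
    split_ifs
    exacts [h.1.1 _, by simp]
  · rw [← am_C, ex_am, expand_C, am_C]
    exact up_const hc
  · rw [ex_am, map_sub, expand_X, expand_C, ← Polynomial.coe_X, ← Polynomial.coe_C,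
      ← Polynomial.coe_pow, ← Polynomial.coe_sub]
    refine up_poly (Polynomial.X_pow_sub_C_ne_zero hN a) fun b hb => ?_
    have e : b ^ N = a := by simpa [sub_eq_zero] using hb
    rw [← e, norm_pow] at ha
    exact lt_of_pow_lt_pow_left₀ N zero_le_one (by rwa [one_pow])

theorem UP.rs (h : UP x u) {ξ : C} (h0 : ξ ≠ 0) (h1 : ‖ξ‖ = 1) :
    UP (rs ξ h0 x) (rescale ξ u) := by
  refine h.hom _ (rs_am h0 u) ⟨fun n => ?_, by simpa using h.1.2⟩ (fun c hc => ?_) fun a ha => ?_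
  · rw [coeff_rescale, norm_mul, norm_pow, h1, one_pow, one_mul]
    exact h.1.1 _
  · have : rescale ξ (PowerSeries.C c) = PowerSeries.C c := by
      ext n
      rw [coeff_rescale, coeff_C]
      split_ifs with e <;> simp [e]
    rw [← am_C, rs_am, this, am_C]
    exact up_const hc
  · have : rescale ξ (X - PowerSeries.C a) = PowerSeries.C ξ * (X - PowerSeries.C (a / ξ)) := by
      ext n
      rw [coeff_rescale, coeff_C_mul, map_sub, map_sub, coeff_C, coeff_C, coeff_X]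
      by_cases e : n = 1
      · simp [e]
      · by_cases e' : n = 0
        · simp [e', mul_div_cancel₀ _ h0]
        · simp [e, e']
    rw [rs_am, this, map_mul, am_C]
    refine (up_const h0).mul1 ?_
    have := up_pr (D := Finsupp.single (a / ξ) 1) fun b hb => by
      rwa [Finset.mem_singleton.1 (Finsupp.support_single_subset hb), norm_div, h1, div_one]
    rwa [pr_single, zpow_one] at this

theorem UP.mp (h : UP x u) (σ : C →+* C) (h1 : ∀ a, ‖σ a‖ = ‖a‖) :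
    UP (mp σ x) (PowerSeries.map σ u) := by
  refine h.hom _ (mp_am σ u) ⟨fun n => ?_, by rw [coeff_map, h1]; exact h.1.2⟩ (fun c hc => ?_)
    fun a ha => ?_
  · rw [coeff_map, h1]
    exact h.1.1 _
  · rw [mp_C]
    exact up_const ((_root_.map_ne_zero σ).2 hc)
  · have := up_pr (D := Finsupp.single (σ a) 1) fun b hb => by
      rwa [Finset.mem_singleton.1 (Finsupp.support_single_subset hb), h1]
    rwa [mp_am, map_sub, map_X, map_C, ← zpow_one (am C _), ← pr_single]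

/-- the coefficient of `X ^ t` in the logarithm of the unit part -/
def cT (x : C⸨X⸩) (t : ℚ) : C := if t.den = 1 then coeff t.num.toNat (Lg x) / t else 0

theorem cT_nat (x : C⸨X⸩) (k : ℕ) : cT x k = coeff k (Lg x) / k := by simp [cT]

theorem cT_eq_zero (x : C⸨X⸩) {t : ℚ} (h : ∀ k : ℕ, t ≠ k) : cT x t = 0 := by
  rw [cT]
  split_ifs with e
  · rcases le_or_gt t.num 0 with k | k
    · rw [Int.toNat_of_nonpos k, Lg_zero, zero_div]
    · refine absurd ?_ (h t.num.toNat)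
      rw [← Int.cast_natCast, Int.toNat_of_nonneg k.le]
      exact ((Rat.den_eq_one_iff t).1 e).symm
  · rfl

theorem cT_mul (h : Hf x) (h' : Hf y) (t : ℚ) : cT (x * y) t = cT x t + cT y t := by
  simp only [cT, Lg_mul h h', map_add, add_div]
  split_ifs <;> simp

theorem UP.cT1 (h : UP x 1) (t : ℚ) : cT x t = 0 := by simp [cT, h.lg1]

variable [CharZero C]

theorem cT_ex (h : Hf x) {N : ℕ} (hN : 0 < N) (t : ℚ) : cT (ex N hN x) (t * N) = cT x t := by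
  obtain ⟨u, h⟩ := h
  have N0 : (N : ℚ) ≠ 0 := by exact_mod_cast hN.ne'
  have N1 : (N : C) ≠ 0 := by exact_mod_cast hN.ne'
  by_cases e : ∃ k : ℕ, t = k
  · obtain ⟨k, rfl⟩ := e
    rw [← Nat.cast_mul, cT_nat, cT_nat, (h.ex hN).lg, h.lg, Cu.dl0_expand _ _ (un0 h.1),
      coeff_C_mul, mul_comm k, coeff_expand_mul, Nat.cast_mul, mul_div_mul_left _ _ N1]
  · rw [cT_eq_zero x (not_exists.1 e)]
    by_cases e' : ∃ k : ℕ, t * N = k
    · obtain ⟨k, hk⟩ := e'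
      rw [hk, cT_nat, (h.ex hN).lg, Cu.dl0_expand _ _ (un0 h.1), coeff_C_mul,
        coeff_expand_of_not_dvd, mul_zero, zero_div]
      rintro ⟨m, rfl⟩
      exact e ⟨m, mul_right_cancel₀ N0 (by rw [hk, Nat.cast_mul, mul_comm])⟩
    · exact cT_eq_zero _ (not_exists.1 e')

theorem cT_rs (h : Hf x) {ξ : C} (h0 : ξ ≠ 0) (h1 : ‖ξ‖ = 1) (k : ℕ) :
    cT (rs ξ h0 x) k = ξ ^ k * cT x k := by
  obtain ⟨u, h⟩ := h
  rw [cT_nat, cT_nat, (h.rs h0 h1).lg, h.lg, Cu.dl0_rescale (un0 h.1), coeff_rescale,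
    mul_div_assoc]

theorem cT_mp (h : Hf x) (σ : C →+* C) (h1 : ∀ a, ‖σ a‖ = ‖a‖) (t : ℚ) :
    cT (mp σ x) t = σ (cT x t) := by
  obtain ⟨u, h⟩ := h
  simp only [cT, (h.mp σ h1).lg, h.lg, Cu.dl0_map, coeff_map]
  split_ifs
  · rw [map_div₀, map_ratCast]
  · rw [map_zero]

variable {p : ℕ} [hp : Fact p.Prime]

/-- the slices -/
theorem cT_cu (h : UP x u) (n : ℕ) {d : ℕ} (hd : ¬ p ∣ d) (i : ℤ) :
    cu p n d u i = d * cT x (d * (p : ℚ) ^ (i + n)) := by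
  have p0 : (p : ℚ) ≠ 0 := Nat.cast_ne_zero.2 hp.out.ne_zero
  have d0 : (d : C) ≠ 0 := Nat.cast_ne_zero.2 fun e => hd (e ▸ dvd_zero p)
  rw [cu, lev_apply]
  split_ifs with k
  · obtain ⟨m, hm⟩ := Int.eq_ofNat_of_zero_le k
    rw [hm, zpow_natCast, show (d : ℚ) * (p : ℚ) ^ m = (d * p ^ m : ℕ) by push_cast; rfl, cT_nat,
      h.lg, Int.toNat_natCast, Nat.cast_mul, Nat.cast_pow, ← mul_div_assoc,
      mul_div_mul_left _ _ d0]
  · rw [cT_eq_zero, mul_zero]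
    intro j e
    obtain ⟨m, hm⟩ : ∃ m : ℕ, i + n = -((m + 1 : ℕ) : ℤ) := ⟨(-(i + n) - 1).toNat, by omega⟩
    rw [hm, zpow_neg, zpow_natCast, mul_inv_eq_iff_eq_mul₀ (pow_ne_zero _ p0)] at e
    refine hd ⟨j * p ^ m, ?_⟩
    have : (d : ℚ) = (p * (j * p ^ m) : ℕ) := by rw [e]; push_cast; ring
    exact_mod_cast this

omit [CompleteSpace C] [IsAlgClosed C] in
theorem ex_ghs (c : ℕ → C) : ∃ b, ghs p b = c := by
  letI : Invertible (p : C) := invertibleOfNonzero (Nat.cast_ne_zero.2 hp.out.ne_zero)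
  obtain ⟨w, hw⟩ := (WittVector.ghostMap.bijective_of_invertible p C).2 c
  refine ⟨w.coeff, funext fun i => ?_⟩
  rw [← hw, WittVector.ghostMap_apply, WittVector.ghostComponent_apply, aeval_wittPolynomial]
  simp [ghs]

omit [CompleteSpace C] [IsAlgClosed C] in
theorem mem_BW_of_mul (np : ‖(p : C)‖ < 1) {d : ℕ} (hd : ¬ p ∣ d) {l : ℤ → C}
    (h : d • l ∈ BW p C) : l ∈ BW p C := by
  obtain ⟨n, c, hc, e⟩ := h
  have d0 : (d : C) ≠ 0 := Nat.cast_ne_zero.2 fun e => hd (e ▸ dvd_zero p)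
  obtain ⟨b, hb⟩ := ex_ghs (p := p) fun i => (d : C)⁻¹ * c i
  have e1 : (d : ℕ → C) * ghs p b = c := funext fun i => by
    rw [Pi.mul_apply, hb, Pi.natCast_apply, mul_inv_cancel_left₀ d0]
  refine ⟨n, ghs p b, Cu.ghs_mem (Cu.int_of_mem np hd (e1 ▸ hc)), funext fun i => ?_⟩
  have := congrFun e i
  rw [← e1, ← nsmul_eq_mul, map_nsmul, Pi.smul_apply, Pi.smul_apply, nsmul_eq_mul,
    nsmul_eq_mul] at this
  exact mul_left_cancel₀ d0 this

end Vale.Agent.P022K.QT.Cu
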