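import Vale.Agent.P022K.QT.CuSt
import Vale.Agent.P022K.QT.Cu2a
import Vale.Agent.P022K.WB.Nrd
import Vale.Agent.P027M.G.Cuspm
import Vale.Agent.P027M.G.Winf

/-!
# P022K, block QT: flat modular functions are near `p`-th powers at the cusp
-/

set_option linter.all false

noncomputable section

open PowerSeries LaurentSeries P025H746
open scoped MatrixGroups IntermediateField

namespace Vale.Agent.P022K.QT.Cu

open FI WB Vale.Agent.P022 Vale.Agent.P027M.M Vale.Agent.P022.H236.L3 Vale.Agent.P019P P025H492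
open Vale.Agent.P022.H542.L3 (LS sb Wok)
open Vale.Agent.P027M.G (AV Qv Inf Prm QP QU)
open Vale.Agent.P027M.G.Exp (Rp)

section ser

variable {C : Type} [NontriviallyNormedField C] [IsUltrametricDist C] (e : Qb →+* C)
  (E : IntermediateField ℚ Qb)

/-- bounded series with coefficients in `E` -/
def RE : Subring Qb⸨X⸩ where
  carrier := {a | (∀ n, a.coeff n ∈ E) ∧ ∃ B : ℝ, ∀ n, ‖e (a.coeff n)‖ ≤ B}
  mul_mem' := fun {a b} ⟨a1, A, a2⟩ ⟨b1, B, b2⟩ => ⟨fun n => by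
      rw [HahnSeries.coeff_mul]
      exact sum_mem fun _ _ => mul_mem (a1 _) (b1 _), A * B, fun n => by
    have a0 := (norm_nonneg _).trans (a2 0)
    rw [HahnSeries.coeff_mul, map_sum]
    refine IsUltrametricDist.norm_sum_le_of_forall_le_of_nonneg
      (mul_nonneg a0 ((norm_nonneg _).trans (b2 0))) fun i _ => ?_
    rw [map_mul, norm_mul]
    exact mul_le_mul (a2 _) (b2 _) (norm_nonneg _) a0⟩
  one_mem' := ⟨fun n => by rw [HahnSeries.coeff_one]; split_ifs; exacts [one_mem _, zero_mem _],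
    1, fun n => by rw [HahnSeries.coeff_one]; split_ifs <;> simp⟩
  add_mem' := fun {a b} ⟨a1, A, a2⟩ ⟨b1, B, b2⟩ => ⟨fun n => add_mem (a1 n) (b1 n), A + B,
    fun n => by
      rw [HahnSeries.coeff_add, map_add]
      exact norm_add_le_of_le (a2 n) (b2 n)⟩
  zero_mem' := ⟨fun _ => zero_mem _, 0, fun n => by simp⟩
  neg_mem' := fun {a} ⟨a1, A, a2⟩ => ⟨fun n => neg_mem (a1 n), A, fun n => by simpa using a2 n⟩

/-- quotients of bounded series -/
def ME : Subfield Qb⸨X⸩ := Subfield.closure (RE e E)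

/-- primitive series -/
def Pm (z : Qb⸨X⸩) : Prop := (∀ n, ‖e (z.coeff n)‖ ≤ 1) ∧ ∃ n, z.coeff n = 1

variable {e E} {E' : IntermediateField ℚ Qb} {a s : Qb⸨X⸩} {c : Qb}

theorem RE_mono (h : E ≤ E') : RE e E ≤ RE e E' := fun _ ha => ⟨fun n => h (ha.1 n), ha.2⟩

theorem ME_mono (h : E ≤ E') : ME e E ≤ ME e E' := Subfield.closure_mono (RE_mono h)

theorem RE_le (h : a ∈ RE e E) : a ∈ ME e E := Subfield.subset_closure h

theorem mem_ME (h : s ∈ ME e E) : ∃ a ∈ RE e E, ∃ b ∈ RE e E, a / b = s := by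
  simpa only [Subring.closure_eq] using Subfield.mem_closure_iff.1 h

theorem single_mem (n : ℤ) (h : c ∈ E) : HahnSeries.single n c ∈ RE e E :=
  ⟨fun m => by rw [HahnSeries.coeff_single]; split_ifs; exacts [h, zero_mem _], ‖e c‖,
    fun m => by rw [HahnSeries.coeff_single]; split_ifs <;> simp⟩

theorem alg_eq (c : Qb) : algebraMap Qb Qb⸨X⸩ c = HahnSeries.single 0 c :=
  HahnSeries.ofPowerSeries_C c

theorem C_mem (h : c ∈ E) : algebraMap Qb Qb⸨X⸩ c ∈ RE e E := alg_eq c ▸ single_mem 0 h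

theorem ex_RE (h : Prim.Bd (ioL a)) :
    ∃ E : IntermediateField ℚ Qb, FiniteDimensional ℚ E ∧ a ∈ RE e E := by
  obtain ⟨-, M, f, m⟩ := h
  obtain ⟨T, hT, h1⟩ := (Submodule.fg_span_iff_fg_span_finset_subset (Set.range (ioL a).coeff)).1
    (f.of_le (Submodule.span_le.2 (Set.range_subset_iff.2 m)))
  choose k hk using fun t : T => hT t.2
  obtain ⟨B, hB⟩ := (Set.finite_range fun t => ‖e (a.coeff (k t))‖).bddAbove
  have key : ∀ y ∈ Submodule.span ℤ (T : Set ℂ), ∃ c ∈ IntermediateField.adjoin ℚ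
      (Set.range fun t => a.coeff (k t)), P027M.M.io c = y ∧ ‖e c‖ ≤ max B 0 := fun y hy => by
    induction hy using Submodule.span_induction with
    | mem x hx => exact ⟨_, IntermediateField.subset_adjoin _ _ ⟨⟨x, hx⟩, rfl⟩, hk ⟨x, hx⟩,
        le_max_of_le_left (hB ⟨_, rfl⟩)⟩
    | zero => exact ⟨0, zero_mem _, map_zero _, by simp⟩
    | add x y _ _ hx hy =>
      obtain ⟨c, c1, rfl, c2⟩ := hx
      obtain ⟨d, d1, rfl, d2⟩ := hy
      exact ⟨c + d, add_mem c1 d1, map_add _ _ _, by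
        rw [map_add]; exact (IsUltrametricDist.norm_add_le_max _ _).trans (max_le c2 d2)⟩
    | smul n x _ hx =>
      obtain ⟨c, c1, rfl, c2⟩ := hx
      exact ⟨n • c, zsmul_mem c1 n, map_zsmul _ _ _, by
        rw [map_zsmul]; exact (IsUltrametricDist.norm_zsmul_le _ _).trans c2⟩
  have key' := fun n => key _ (h1 ▸ Submodule.subset_span (Set.mem_range_self n))
  refine ⟨IntermediateField.adjoin ℚ (Set.range fun t => a.coeff (k t)),
    IntermediateField.finiteDimensional_adjoin fun x _ =>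
    ((AlgebraicClosure.isAlgebraic ℚ).isAlgebraic x).isIntegral, fun n => ?_, max B 0, fun n => ?_⟩
  all_goals
    obtain ⟨c, c1, c2, c3⟩ := key' n
    obtain rfl : c = a.coeff n := io_inj c2
    assumption

theorem ex_ME (X : Mdl) {N : ℕ} {f : FF} (hN : 0 < N) (h : Ex N f s) :
    ∃ E : IntermediateField ℚ Qb, FiniteDimensional ℚ E ∧ s ∈ ME e E := by
  obtain ⟨M, hM, hx⟩ := (x_galx X).2.2.2.2.1 f
  obtain ⟨s', e', q'⟩ := Prim.level X ser0 hM hx
  have e1 := exM_period hM.pos hN.ne' h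
  have e2 := exM_period hN hM.pos.ne' e'
  rw [mul_comm] at e2
  have q : Prim.QB (sb M hM.pos (ioL s)) := by
    rw [e1.unique (Nat.mul_pos hN hM.pos).ne' e2]
    exact q'.sb N hN
  obtain ⟨a, b, ha, hb, b0, e3⟩ := q.desc
  obtain ⟨a, rfl⟩ := alg_iff.1 ha.1
  obtain ⟨b, rfl⟩ := alg_iff.1 hb.1
  obtain ⟨E, _, h1⟩ := ex_RE (e := e) ha
  obtain ⟨E', _, h2⟩ := ex_RE (e := e) hb
  refine ⟨E ⊔ E', inferInstance, ?_⟩
  rw [eq_div_of_mul_eq ((map_ne_zero ioL).1 b0) (ioL.injective ((map_mul _ _ _).trans e3))]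
  exact div_mem (RE_le (RE_mono le_sup_left h1)) (RE_le (RE_mono le_sup_right h2))

theorem ex_all (t : Finset Qb⸨X⸩)
    (h : ∀ s ∈ t, ∃ E : IntermediateField ℚ Qb, FiniteDimensional ℚ E ∧ s ∈ ME e E) :
    ∃ E : IntermediateField ℚ Qb, FiniteDimensional ℚ E ∧ ∀ s ∈ t, s ∈ ME e E := by
  classical
  induction t using Finset.induction_on with
  | empty => exact ⟨⊥, inferInstance, by simp⟩
  | insert a t _ ih =>
    obtain ⟨E, _, h1⟩ := h a (Finset.mem_insert_self _ _)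
    obtain ⟨E', _, h2⟩ := ih fun s hs => h s (Finset.mem_insert_of_mem hs)
    exact ⟨E ⊔ E', inferInstance, (Finset.forall_mem_insert _ _ _).2 ⟨ME_mono le_sup_left h1,
      fun s hs => ME_mono le_sup_right (h2 s hs)⟩⟩

variable [CharZero C] {p : ℕ} [hp : Fact p.Prime] (np : ‖(p : C)‖ < 1) [FiniteDimensional ℚ E]

include np

theorem fin_E {r : ℝ} (hr : 0 < r) (B : ℝ) : {t | r ≤ t ∧ t ≤ B ∧ ∃ c ∈ E, ‖e c‖ = t}.Finite :=
  (disc np (Module.finrank ℚ E) hr B).subset fun t ⟨h1, h2, c, h3, h4⟩ =>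
    ⟨h1, h2, e c, h4, minpoly ℚ (⟨c, h3⟩ : E), minpoly.ne_zero (.of_finite ℚ _),
      minpoly.natDegree_le _, (Polynomial.aeval_algHom_apply
        (e.comp (E.val : E →+* Qb)).toRatAlgHom ⟨c, h3⟩ _).trans (by rw [minpoly.aeval, map_zero])⟩

theorem RE_nrm (h : a ∈ RE e E) (h0 : a ≠ 0) :
    ∃ c ∈ E, c ≠ 0 ∧ ∃ z, Pm e z ∧ a = algebraMap Qb _ c * z := by
  obtain ⟨h1, B, h2⟩ := h
  have n0 : 0 < ‖e (a.coeff a.order)‖ :=
    norm_pos_iff.2 ((_root_.map_ne_zero e).2 (HahnSeries.coeff_order_eq_zero.not.2 h0))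
  obtain ⟨_, ⟨h3, k, rfl⟩, hm⟩ := Set.exists_max_image
    {t | ‖e (a.coeff a.order)‖ ≤ t ∧ ∃ n, ‖e (a.coeff n)‖ = t} id
    ((fin_E (E := E) np n0 B).subset fun t ⟨h3, k, h4⟩ => ⟨h3, h4 ▸ h2 k, _, h1 k, h4⟩) ⟨_, le_rfl, _, rfl⟩
  have k0 := n0.trans_le h3
  have k1 : a.coeff k ≠ 0 := (_root_.map_ne_zero e).1 (norm_pos_iff.1 k0)
  have co : ∀ n, (algebraMap Qb Qb⸨X⸩ (a.coeff k)⁻¹ * a).coeff n = (a.coeff k)⁻¹ * a.coeff n :=
    fun n => by rw [alg_eq, HahnSeries.coeff_single_zero_mul]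
  refine ⟨_, h1 k, k1, algebraMap Qb _ (a.coeff k)⁻¹ * a, ⟨fun n => ?_, k, ?_⟩, ?_⟩
  · rw [co, map_mul, map_inv₀, norm_mul, norm_inv, inv_mul_le_one₀ k0]
    exact (le_total _ _).elim (fun h => h.trans h3) fun h => hm _ ⟨h, n, rfl⟩
  · rw [co, inv_mul_cancel₀ k1]
  · rw [← mul_assoc, ← map_mul, mul_inv_cancel₀ k1, map_one, one_mul]

theorem ME_nrm (h : s ∈ ME e E) (h0 : s ≠ 0) :
    ∃ c ∈ E, c ≠ 0 ∧ ∃ a b, Pm e a ∧ Pm e b ∧ s = algebraMap Qb _ c * (a / b) := by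
  obtain ⟨a, ha, b, hb, rfl⟩ := mem_ME h
  obtain ⟨a0, b0⟩ := div_ne_zero_iff.1 h0
  obtain ⟨c, c1, c2, a, a1, rfl⟩ := RE_nrm np ha a0
  obtain ⟨d, d1, d2, b, b1, rfl⟩ := RE_nrm np hb b0
  exact ⟨c / d, div_mem c1 d1, div_ne_zero c2 d2, a, b, a1, b1, by rw [map_div₀, mul_div_mul_comm]⟩

/-- **the root is a quotient of bounded series over a number field** -/
theorem root_ME [CompleteSpace C] [IsAlgClosed C] (h : s ∈ ME e E) {y : C⸨X⸩} {γ : C} {D : C →₀ ℤ}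
    (hy : Fac y γ D) (e1 : y ^ p = mp e s) :
    ∃ E' : IntermediateField ℚ Qb, FiniteDimensional ℚ E' ∧ ∃ y₀ ∈ ME e E', y₀ ^ p = s := by
  have p0 := hp.out.ne_zero
  obtain ⟨a, ha, b, hb, rfl⟩ := mem_ME h
  have b0 : b ≠ 0 := fun e => pow_ne_zero p hy.ne (by rw [e1, e, div_zero, map_zero])
  obtain ⟨d, -, d0, z, hz, e2⟩ := RE_nrm np hb b0
  obtain ⟨D', h1⟩ := hf_int (z := mp e z) hz.1 (hz.2.imp fun n h => by rw [coeff_mp, h, map_one])
  have h2 := hy.mul (h1.smul ((_root_.map_ne_zero e).2 d0))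
  rw [← mp_C, ← map_mul, ← e2] at h2
  obtain ⟨g, hg⟩ : ∃ g, g = y * mp e b := ⟨_, rfl⟩
  rw [← hg] at h2
  have h3 : g ^ p = mp e (a * b ^ (p - 1)) := by
    rw [hg, mul_pow, e1, ← map_pow, ← map_mul, ← Nat.sub_add_cancel hp.out.one_le, pow_succ',
      Nat.add_sub_cancel, ← mul_assoc, div_mul_cancel₀ _ b0]
  obtain ⟨k1, B, k2⟩ := mul_mem ha (pow_mem hb (p - 1))
  have h4 : am C g.powerSeriesPart = HahnSeries.single (-g.order) 1 * g :=
    ofPowerSeries_powerSeriesPart g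
  have h5 : ∀ n : ℕ, coeff n (g.powerSeriesPart ^ p) =
      e ((a * b ^ (p - 1)).coeff (n + p * g.order)) := fun n => by
    rw [← coeff_am, map_pow, h4, mul_pow, HahnSeries.single_pow, h3, one_pow,
      show (n : ℤ) = n + p * g.order + p • -g.order by simp, HahnSeries.coeff_single_mul_add,
      one_mul, coeff_mp]
    simp
  have h6 := ((fac_lin (a := (0 : C)) (by simp)).zpow (-g.order)).mul h2
  rw [map_zero, sub_zero, show am C X = HahnSeries.single 1 1 from HahnSeries.ofPowerSeries_X,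
    ← RatFunc.single_zpow, ← h4] at h6
  have h7 := bdd_root h6 fun n => (h5 n) ▸ k2 _
  have g0 : coeff 0 g.powerSeriesPart ≠ 0 := by
    simpa using HahnSeries.coeff_order_eq_zero.not.2 h2.ne
  obtain ⟨c, hc⟩ : ∃ c, e c = coeff 0 g.powerSeriesPart := by
    letI := e.toAlgebra
    refine (IsAlgClosed.algebraMap_bijective_of_isIntegral (k := Qb)
      (K := integralClosure Qb C)).2 ⟨_, IsIntegral.of_pow hp.out.pos ?_⟩ |>.imp
      fun _ h => congrArg Subtype.val h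
    rw [coeff_zero_eq_constantCoeff_apply, ← map_pow, ← coeff_zero_eq_constantCoeff_apply, h5]
    exact isIntegral_algebraMap
  have : FiniteDimensional ℚ ℚ⟮c⟯ := IntermediateField.adjoin.finiteDimensional
    ((AlgebraicClosure.isAlgebraic ℚ).isAlgebraic c).isIntegral
  choose G m1 m2 using root_mem ((E ⊔ ℚ⟮c⟯).toSubfield.map e) p0 g0
    ⟨c, (le_sup_right : ℚ⟮c⟯ ≤ _) (IntermediateField.mem_adjoin_simple_self ℚ c), hc⟩
    fun n => ⟨_, (le_sup_left : E ≤ _) (k1 _), (h5 n).symm⟩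
  have m3 : am Qb (mk G) ∈ RE e (E ⊔ ℚ⟮c⟯) := by
    refine ⟨fun n => ?_, ‖1 ^ (-g.order) * (γ * (e d * 1))‖, fun n => ?_⟩ <;>
      rcases lt_or_ge n 0 with hn | hn
    · rw [coeff_am_neg _ hn]
      exact zero_mem _
    · lift n to ℕ using hn
      rw [coeff_am, coeff_mk]
      exact m1 n
    · rw [coeff_am_neg _ hn, map_zero, norm_zero]
      exact norm_nonneg _
    · lift n to ℕ using hn
      rw [coeff_am, coeff_mk, m2]
      exact h7 n
  refine ⟨E ⊔ ℚ⟮c⟯, inferInstance, HahnSeries.single g.order 1 * am Qb (mk G) / b,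
    div_mem (RE_le (mul_mem (single_mem _ (one_mem _)) m3)) (RE_le (RE_mono le_sup_left hb)),
    (mp e).injective ?_⟩
  have m4 : mp e (HahnSeries.single g.order 1) = HahnSeries.single g.order 1 := by
    ext n
    rw [coeff_mp, HahnSeries.coeff_single, HahnSeries.coeff_single]
    split_ifs <;> simp
  rw [← e1, map_pow, map_div₀, map_mul, m4, mp_am, show PowerSeries.map e (mk G) =
    g.powerSeriesPart from PowerSeries.ext fun n => by rw [coeff_map, coeff_mk, m2],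
    show _ * am C _ = g from single_order_mul_powerSeriesPart g, hg,
    mul_div_cancel_right₀ _ ((_root_.map_ne_zero _).2 b0)]

end ser

section val

open Vale.Agent.P027M.G.Wi (cle cle2 prim_val)

variable {C : Type} [NontriviallyNormedField C] [IsUltrametricDist C] [CharZero C] {e : Qb →+* C}
  {E : IntermediateField ℚ Qb} [FiniteDimensional ℚ E] {p : ℕ} [hp : Fact p.Prime]
  {A : AV} {O : ValuationSubring ℂ} {W : ValuationSubring LS} {s : Qb⸨X⸩}

theorem rp_eq (hW : Wok O W) {z : LS} {t t' : (IsLocalRing.ResidueField O)⸨X⸩} (h : Rp O z t)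
    (h' : Rp O z t') : t = t' :=
  sub_eq_zero.1 (((h.sub h').lt_iff hW).1 (by rw [sub_self, map_zero]; exact zero_lt_one))

variable (np : ‖(p : C)‖ < 1) (hA : A.On O) (hW : Wok O W) (he : ∀ c, A.a c ≤ 1 ↔ ‖e c‖ ≤ 1)

include hA he in
theorem Pm.prm (h : Pm e s) : (∀ n, (ioL s).coeff n ∈ O) ∧ ∃ n, (ioL s).coeff n = 1 :=
  ⟨fun n => (hA _).2 ((he _).2 (h.1 n)), h.2.imp fun _ h =>
    (congrArg P027M.M.io h).trans (map_one _)⟩

include np hA hW he

theorem val_ME (h : s ∈ ME e E) :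
    ∃ c ∈ E, W.valuation (ioL (algebraMap Qb _ c)) = W.valuation (ioL s) := by
  by_cases h0 : s = 0
  · exact ⟨0, zero_mem _, by rw [h0, map_zero]⟩
  obtain ⟨c, c1, -, a, b, ha, hb, rfl⟩ := ME_nrm np h h0
  exact ⟨c, c1, by rw [map_mul, map_mul, map_div₀, map_div₀, prim_val hW (ha.prm hA he).1
    (ha.prm hA he).2, prim_val hW (hb.prm hA he).1 (hb.prm hA he).2, div_one, mul_one]⟩

theorem rp_ME (h : s ∈ ME e E) (h1 : W.valuation (ioL s) ≤ 1) : ∃ t, Rp O (ioL s) t := by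
  by_cases h0 : s = 0
  · exact ⟨0, by rw [h0, map_zero]; exact Rp.zero⟩
  obtain ⟨c, -, -, a, b, ha, hb, rfl⟩ := ME_nrm np h h0
  have a1 := ha.prm hA he
  have b1 := hb.prm hA he
  rw [map_mul, map_mul, map_div₀, map_div₀, prim_val hW a1.1 a1.2, prim_val hW b1.1 b1.2, div_one,
    mul_one, ioL_C, cle hA hW, ← hA] at h1
  obtain ⟨t, -, ht⟩ := P027M.G.Exp.of_QP (z := ioL a / ioL b)
    ⟨_, _, ⟨a1.1, a1.2.imp fun _ h => by rw [h, map_one]⟩,
      ⟨b1.1, b1.2.imp fun _ h => by rw [h, map_one]⟩, div_mul_cancel₀ _ fun e => by simp [e] at b1⟩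
  rw [map_mul, map_div₀, ioL_C]
  exact ⟨_, (Rp.const ⟨_, h1⟩).mul ht⟩

theorem fin_ME {l : Qb} (hl : l ≠ 0) : {g | W.valuation (ioL (algebraMap Qb _ l)) < g ∧ g < 1 ∧
    ∃ u ∈ ME e E, W.valuation (ioL u) = g}.Finite := by
  classical
  have cmp : ∀ c d : Qb, d ≠ 0 → (W.valuation (ioL (algebraMap Qb _ c)) ≤
      W.valuation (ioL (algebraMap Qb _ d)) ↔ ‖e c‖ ≤ ‖e d‖) := fun c d hd => by
    rw [ioL_C, ioL_C, cle2 hA hW, ← div_le_one (A.a.pos hd), ← map_div₀, he, map_div₀, norm_div,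
      div_le_one (norm_pos_iff.2 ((_root_.map_ne_zero e).2 hd))]
  refine ((fin_E (e := e) (E := E) np (norm_pos_iff.2 ((_root_.map_ne_zero e).2 hl)) 1).image fun t =>
    if h : ∃ c, ‖e c‖ = t then W.valuation (ioL (algebraMap Qb _ h.choose)) else 0).subset ?_
  rintro _ ⟨h1, h2, u, hu, rfl⟩
  obtain ⟨c, c1, c2⟩ := val_ME np hA hW he hu
  rw [← c2] at h1 h2 ⊢
  have c0 : c ≠ 0 := fun e => by simp [e] at h1
  have h3 : ∃ d, ‖e d‖ = ‖e c‖ := ⟨c, rfl⟩
  have h4 := h3.choose_spec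
  refine ⟨_, ⟨(cmp _ _ c0).1 h1.le, ?_, c, c1, rfl⟩, (dif_pos h3).trans (le_antisymm
    ((cmp _ _ c0).2 h4.le) ((cmp _ _ fun h5 => c0 (by
      rw [h5] at h4
      simpa using h4.symm)).2 h4.ge))⟩
  simpa using (cmp c 1 one_ne_zero).1 (by simpa using h2.le)

end val

theorem ex_th {Γ : Subgroup SL(2, ℤ)} (h : ModularGroup.T ∈ Γ) {N : ℕ} (hN : 0 < N) :
    ∃ θ : L Γ →+* Qb⸨X⸩, ∀ x : L Γ, Ex N x (θ x) := by
  have key : ∀ x : L Γ, ∃ s, Ex N x s := fun x => by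
    obtain ⟨s, h1, -⟩ := P027M.M.exp.2.2.1 N x hN (x.2 _ (pow_mem h N))
    exact (ex_of hN h1).imp fun _ h => h.2
  choose θ hθ using key
  exact ⟨{ toFun := θ
           map_one' := (hθ 1).unique hN (by simpa using ex_const N 1)
           map_mul' := fun x y => (hθ _).unique hN ((hθ x).mul (hθ y))
           map_zero' := (hθ 0).unique hN (by simpa using ex_const N 0)
           map_add' := fun x y => (hθ _).unique hN ((hθ x).add (hθ y)) }, hθ⟩

/-- the expansion of a flat function is a power -/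
theorem ex_root (X : Mdl) {p : ℕ} [hp : Fact p.Prime] (e : Qb →+* CS p) {Γ : Subgroup SL(2, ℤ)}
    [CFF Qb (L Γ)] {N : ℕ} (hN : 0 < N) {θ : L Γ →+* Qb⸨X⸩} (hθ : ∀ x : L Γ, Ex N x (θ x))
    {f : L Γ} (f0 : f ≠ 0) (hf : ∀ P : Plk Qb (L Γ), (p : ℤ) ∣ ord P f) (hF : Flt X p e f) :
    ∃ y γ D, Fac y γ D ∧ y ^ p = mp e (θ f) := by
  have ne : ∀ {x : L Γ}, x ≠ 0 → (x : FF) ≠ 0 := fun h e => h (Subtype.ext e)
  have fc : ∀ {x : L Γ}, x ≠ 0 → ∃ c D, Fac (mp e (θ x)) c D := fun h =>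
    hf_iff.1 ((hθ _).hf e hN (ne h))
  obtain ⟨u, hu⟩ := (hθ f).hf e hN (ne f0)
  obtain ⟨c', w, hw, e1⟩ := injc p (CS p) (CS.norm_p_lt p) 0 1 u hu.1 fun d hd => by
    have d0 : 0 < d := Nat.pos_of_ne_zero fun e => hd (e ▸ dvd_zero p)
    have hA : 0 < (!![(N : ℤ), 0; 0, (d : ℤ)] : M2).det := by
      rw [Matrix.det_fin_two_of, mul_zero, sub_zero]; exact_mod_cast Nat.mul_pos hN d0
    obtain ⟨l, hl, e2⟩ := hF _ hA
    have e3 : lg e p f (1 * d / N) = p • l := funext fun i => by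
      rw [← e2, lg1, lg_pb e p X (ne f0) 0 hN d0 hA]
      simp [E_zero]
    exact ⟨d • l, nsmul_mem hl d, by
      rw [(hθ f).cu e hN (ne f0) hu hd 0 (r := 1 * d / N) (by field_simp), e3, pow_one, smul_comm]⟩
  obtain ⟨h1, c, D, c0, h2, h3⟩ := hu
  have h4 : Fac (mp e (θ f)) c D := fac_iff.2 ⟨c0, h2, u, h1, h3⟩
  have h5 : ∀ a, (p : ℤ) ∣ D a := fun a => by
    by_cases ha : ‖a‖ < 1
    · obtain ⟨r, a1, a2, a3, -⟩ := exists_r ha ha
      have mm : ∀ {x : L Γ}, x ≠ 0 → mp e (θ x) ∈ MM (CS p) r := fun h =>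
        (fc h).elim fun _ h => h.elim fun _ h => h.mem a1 a2
      have nn : ∀ {x : L Γ}, x ≠ 0 → mp e (θ x) ≠ 0 := fun h => by simpa using h
      rw [← h4.od a1 a2 a3]
      refine dvd_of_val (k := Qb) (fun x => od r a (mp e (θ x))) (fun x y hx hy => ?_)
        (fun x y hx hy h => ?_) (fun b => ?_) f0 hf
      · rw [map_mul, map_mul, od_mul a1 a3 (mm hx) (mm hy) (nn hx) (nn hy)]
      · rw [map_add, map_add]
        exact od_add a1 a3 (mm hx) (mm hy) (by rw [← map_add, ← map_add]; exact nn h)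
      · rw [(hθ _).unique hN (ex_const N b), mp_C, od_const a1 a3]
    · rw [h4.out ha]
      exact dvd_zero _
  obtain ⟨D, rfl⟩ : ∃ D', D = p • D' := ⟨D.mapRange (· / p) (by simp), Finsupp.ext fun a => by
    simp [Int.mul_ediv_cancel' (h5 a)]⟩
  obtain ⟨γ, hγ⟩ := IsAlgClosed.exists_pow_nat_eq (c * c') hp.out.pos
  have e2 : (algebraMap _ _ γ * am _ w * pr D) ^ p = mp e (θ f) := by
    rw [h3, e1, mul_pow, mul_pow, ← map_pow, hγ, pr_nsmul, map_mul, map_mul, am_C, map_pow, pow_one,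
      mul_assoc (algebraMap _ _ c)]
  refine ⟨_, γ, D, fac_iff.2 ⟨fun e => h4.ne ?_, fun a ha => h2 a ?_, w, hw, rfl⟩, e2⟩
  · rw [← e2, e, map_zero, zero_mul, zero_mul, zero_pow hp.out.ne_zero]
  · simpa [hp.out.ne_zero] using ha

theorem fg_gen {k κ : Type*} [Field k] [Field κ] [Algebra k κ] (x : κ)
    [FiniteDimensional k⟮x⟯ κ] : ∃ t : Finset κ, IntermediateField.adjoin k (t : Set κ) = ⊤ := by
  classical
  obtain ⟨t, ht⟩ := IntermediateField.fg_of_noetherian (⊤ : IntermediateField k⟮x⟯ κ)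
  replace ht := congrArg (IntermediateField.restrictScalars k) ht
  rw [IntermediateField.adjoin_adjoin_left, IntermediateField.restrictScalars_top] at ht
  exact ⟨insert x t, by rw [Finset.coe_insert]; exact ht⟩

open P027M.J.Igu WB.Nv in
theorem nrq0 (X : Mdl) : NRQ X := by
  intro p hp p2 e A O w hA hI he ζ hζ N H hL hn _ f f0 hf hF
  obtain ⟨hT, hM, -⟩ := (grp N hL).2.2.2.2.2.2.2 H
  have np := CS.norm_p_lt p
  obtain ⟨W, hW⟩ := H619.L3.chev O
  obtain ⟨θ, hθ⟩ := ex_th hT four_pos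
  obtain ⟨η, hη⟩ : ∃ η, η = side w AlgEquiv.refl (GH N H) := ⟨_, rfl⟩
  rw [← hη]
  have h1 : ∀ x, η x ≤ 1 ↔ W.valuation (ioL (θ x)) ≤ 1 := fun x => by
    rw [W.valuation_le_one_iff, hη]
    exact (hI W hW 4 x _ four_pos (hθ x)).1
  have h2 : ∀ x, η x < 1 ↔ W.valuation (ioL (θ x)) < 1 := fun x => by
    rw [hη]
    exact (hI W hW 4 x _ four_pos (hθ x)).2
  have cst : ∀ c : Qv A, θ (algebraMap _ _ c) = algebraMap Qb _ c := fun c =>
    (hθ _).unique four_pos (ex_const 4 c)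
  have cst' : ∀ c : Qv A, ioL (θ (algebraMap _ _ c)) = HahnSeries.C (P027M.M.io c) := fun c =>
    (congrArg ioL (cst c)).trans (ioL_C c)
  have me := fun x => ex_ME (e := e) X four_pos (hθ x)
  obtain ⟨ρ, hρ⟩ : ∃ ρ : kap η →+* (IsLocalRing.ResidueField O)⸨X⸩,
      ∀ x, η x ≤ 1 → Rp O (ioL (θ x)) (ρ (η.red x)) := by
    choose φ hφ using fun x (hx : η x ≤ 1) => (me x).elim fun E h =>
      have := h.1; rp_ME np hA hW he h.2 ((h1 x).1 hx)
    let ψ : η.ring →+* (IsLocalRing.ResidueField O)⸨X⸩ :=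
      { toFun := fun x => φ x x.2
        map_one' := rp_eq hW (hφ _ _) (by simpa using Rp.one)
        map_mul' := fun x y => rp_eq hW (hφ _ _) (by simpa using (hφ _ x.2).mul (hφ _ y.2))
        map_zero' := rp_eq hW (hφ _ _) (by simpa using Rp.zero)
        map_add' := fun x y => rp_eq hW (hφ _ _) (by simpa using (hφ _ x.2).add (hφ _ y.2)) }
    haveI : IsLocalHom ψ := ⟨fun x hx => isUnit_ring_iff.2 (le_antisymm x.2 (not_lt.1 fun e =>
      hx.ne_zero (((hφ _ x.2).lt_iff hW).1 ((h2 _).1 e))))⟩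
    refine ⟨IsLocalRing.ResidueField.lift ψ, fun x hx => ?_⟩
    rw [NV.red_of hx, IsLocalRing.ResidueField.lift_residue_apply]
    exact hφ x hx
  obtain ⟨T, t1, t2⟩ : ∃ T, η T ≤ 1 ∧ (ρ (η.red T)).order = 4 := by
    obtain ⟨s, s1, s2⟩ := X.tex0 4 ⟨four_pos, dvd_rfl⟩ 1 (by simp)
    rw [inv_one, map_one] at s2
    have h4 : ((4 : ℕ) : ℂ)⁻¹ ∈ O := by
      rw [← map_natCast P027M.M.io, ← map_inv₀, hA, he, map_inv₀, map_natCast, norm_inv,
        WB.Cu.norm_nat np (d := 4) fun d => p2 ((Nat.prime_dvd_prime_iff_eq hp.out Nat.prime_two).1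
          (hp.out.dvd_of_dvd_pow (n := 2) d)), inv_one]
    obtain ⟨t, -, a1, a2⟩ := P027M.G.Exp.of_QU
      (P027M.G.Cuspm.qu ((good 4 four_pos).2.2.2.1 O h4) s1)
    have e1 : ioL (θ (X.tL (hM hn).hi - 2)) = s := by
      rw [map_sub, map_sub, ExM.unique four_ne_zero (hθ (X.tL (hM hn).hi)) s2, map_ofNat, map_ofNat,
        add_sub_cancel_left]
    rw [← e1] at a1
    have a3 := (h1 _).2 ((W.valuation_le_one_iff _).2 (a1.mem hW))
    exact ⟨_, a3, by rw [rp_eq hW (hρ _ a3) a1, a2, s1.ord]; rfl⟩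
  have h4 : Transcendental (kC (Qv A)) (η.red T) := fun ha => by
    obtain ⟨b, hb⟩ := (IsAlgClosed.algebraMap_bijective_of_isIntegral (k := kC (Qv A))
      (K := integralClosure (kC (Qv A)) (kap η))).2 ⟨_, ha.isIntegral⟩
    obtain ⟨b, hb1, rfl⟩ := cred_surj b
    have e1 : η.red T = η.red (algebraMap _ _ b) := by
      rw [NV.red_algebraMap hb1]; exact (congrArg Subtype.val hb).symm
    have e2 := hρ (algebraMap _ _ b) (by rwa [η.ext'])
    rw [cst'] at e2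
    rw [e1, rp_eq hW e2 (Rp.const ⟨_, (hA b).2 hb1⟩), HahnSeries.order_C] at t2
    exact absurd t2 (by norm_num)
  have h5 := P027M.G.overG_of_transc t1 h4
  haveI := (finite_of_notMem (k := Qv A) (x := T)
    fun a e => h5.transc (e ▸ isAlgebraic_algebraMap a)).2
  haveI := h5.cff
  haveI := h5.finite
  have p0 : (p : kap η) = 0 := by
    rw [← (red_natCast (w := η) p).2]
    exact NV.red_of_lt (by rw [P025H992.nv_natCast]; exact hζ.lt)
  haveI : CharP (kap η) p := (CharP.charP_iff_prime_eq_zero hp.out).2 p0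
  haveI := charP_of_injective_ringHom ρ.injective p
  obtain ⟨t, ht⟩ := fg_gen (k := kC (Qv A)) (η.red T)
  choose g g1 g2 using NV.red_surj (w := η)
  obtain ⟨y, γ, D, hy, e1⟩ := ex_root X e four_pos hθ f0 hf hF
  obtain ⟨E₀, _, a1⟩ := me f
  obtain ⟨E₁, _, y₀, a2, a3⟩ := root_ME np a1 hy e1
  classical
  obtain ⟨E, _, a4⟩ := ex_all (e := e) (insert y₀ (t.image fun a => θ (g a)))
    ((Finset.forall_mem_insert _ _ _).2 ⟨⟨E₁, inferInstance, a2⟩,
      Finset.forall_mem_image.2 fun a _ => me _⟩)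
  obtain ⟨a5, a6⟩ := (Finset.forall_mem_insert _ _ _).1 a4
  let F : Subfield (kap η) :=
    { carrier := {α | ∃ x, θ x ∈ ME e E ∧ η x ≤ 1 ∧ η.red x = α}
      mul_mem' := by
        rintro _ _ ⟨x, x1, x2, rfl⟩ ⟨y, y1, y2, rfl⟩
        exact ⟨x * y, map_mul θ x y ▸ mul_mem x1 y1, NV.mul_le_one x2 y2, NV.red_mul x2 y2⟩
      one_mem' := ⟨1, map_one θ ▸ one_mem _, by simp, NV.red_one⟩
      add_mem' := by
        rintro _ _ ⟨x, x1, x2, rfl⟩ ⟨y, y1, y2, rfl⟩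
        exact ⟨x + y, map_add θ x y ▸ add_mem x1 y1, NV.add_le x2 y2, NV.red_add x2 y2⟩
      zero_mem' := ⟨0, map_zero θ ▸ zero_mem _, by simp, NV.red_zero⟩
      neg_mem' := by
        rintro _ ⟨x, x1, x2, rfl⟩
        exact ⟨-x, map_neg θ x ▸ neg_mem x1, by rwa [NV.map_neg'], NV.red_neg x2⟩
      inv_mem' := by
        rintro _ ⟨x, x1, x2, rfl⟩
        rcases x2.eq_or_lt with h | h
        · exact ⟨x⁻¹, map_inv₀ θ x ▸ inv_mem x1, by simp [h], NV.red_inv h⟩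
        · exact ⟨x, x1, x2, by rw [NV.red_of_lt h, inv_zero]⟩ }
  obtain ⟨l, hl0⟩ : ∃ l : Qb, l = (ζ - 1 : Qv A) := ⟨_, rfl⟩
  have l0 : l ≠ 0 := hl0 ▸ sub_ne_zero.2 (hζ.prim.ne_one hp.out.one_lt)
  have hl : W.valuation (ioL (algebraMap Qb _ l)) ^ (p - 1) = W.valuation (ioL p) := by
    rw [← map_pow, ← map_pow, ← map_pow, ← map_natCast (algebraMap Qb Qb⸨X⸩), ioL_C, ioL_C]
    have : A.a (l ^ (p - 1)) = A.a p := (map_pow A.a _ _).trans (hl0 ▸ hζ.pow_eq)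
    exact le_antisymm ((P027M.G.Wi.cle2 hA hW _ _).2 this.le) ((P027M.G.Wi.cle2 hA hW _ _).2 this.ge)
  obtain ⟨_, ⟨-, z, rfl⟩, b1, b2⟩ := iter (W.valuation.comap ioL) hp.out
    (K := ME e E ⊓ θ.fieldRange) (M := ME e E) inf_le_left hl
    (fun u hu => (val_ME np hA hW he hu).elim fun c h =>
      ⟨_, ⟨RE_le (C_mem h.1), _, cst c⟩, h.2⟩) (fin_ME np hA hW he l0)
    (by
      rintro u hu u1 _ ⟨x1, x, rfl⟩ x2
      obtain ⟨a, ha⟩ := rp_ME np hA hW he hu u1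
      have x3 : η x ≤ 1 := (h1 x).2 (by
        rw [← sub_sub_cancel (u ^ p) (θ x)]
        exact (W.valuation.comap ioL).map_sub_le (map_pow (W.valuation.comap ioL) u p ▸
          pow_le_one₀ zero_le u1) x2.le)
      have x4 := (((ha.pow p).sub (hρ x x3)).lt_iff hW).1 (by rwa [← map_pow, ← map_sub])
      obtain ⟨α, hα⟩ := Nrd.pow_of (kC (Qv A)) hp.out p0 ρ (t := η.red T) ⟨a, sub_eq_zero.1 x4⟩
        fun y hy => p2 ((Nat.prime_dvd_prime_iff_eq hp.out Nat.prime_two).1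
          (hp.out.dvd_of_dvd_pow (n := 2) (Int.natCast_dvd_natCast.1 ⟨y.order, by
            rw [← order_zpow, zpow_natCast, hy, t2]; rfl⟩)))
      obtain ⟨x', y1, y2, y3⟩ := desc (tr_kC fun c hc => by
          have k : ∀ c : Qb, A.a c < 1 ↔ ‖e c‖ < 1 := fun c => by
            by_cases c0 : c = 0
            · simp [c0]
            rw [← not_le, ← not_le, ← inv_le_one₀ (A.a.pos c0), ← map_inv₀, he, map_inv₀, norm_inv,
              inv_le_one₀ (norm_pos_iff.2 ((_root_.map_ne_zero e).2 c0))]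
          obtain ⟨n, n0, hn⟩ := CS.tor p (e c) (le_antisymm ((he c).1 hc.le)
            (not_lt.1 fun h => ((k c).2 h).ne hc))
          exact ⟨n, n0, (k (c ^ n - 1 : Qv A)).2 (by
            have k2 : ∀ d : Qb, e (d ^ n - 1) = e d ^ n - 1 := fun d => by simp
            exact (congrArg (‖·‖) (k2 c)).trans_lt hn)⟩) F ht
        (fun a ha => ⟨g a, a6 _ (Finset.mem_image_of_mem _ ha), g1 a, g2 a⟩)
        (α := α) ⟨x, x1, x3, hα.symm⟩
      refine ⟨_, ⟨y1, x', rfl⟩, ?_⟩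
      have x5 := (ha.sub (hρ x' y2)).lt_iff hW
      rw [← map_sub] at x5
      exact x5.2 (pow_eq_zero_iff hp.out.ne_zero |>.1 (by
        rw [sub_pow_char, ← map_pow, y3, hα, x4])))
    a5 (fun e => f0 (θ.injective (by rw [← a3, e, map_zero, zero_pow hp.out.ne_zero])))
    (a3 ▸ ⟨a3 ▸ pow_mem a5 p, f, rfl⟩)
  obtain ⟨r, hr⟩ := exists_add_pow_prime_eq hp.out
    (⟨y₀ * θ z - 1, b1.le⟩ : (W.valuation.comap ioL).integer) 1
  have hr' : θ (f * z ^ p - 1) = (y₀ * θ z - 1) ^ p + p * (y₀ * θ z - 1) * r := by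
    have := congrArg Subtype.val hr
    simp only [SubmonoidClass.coe_pow, Subring.coe_add, Subring.coe_mul, Subring.coe_natCast,
      OneMemClass.coe_one, one_pow, mul_one, sub_add_cancel] at this
    rw [map_sub, map_mul, map_pow, map_one, ← a3, ← mul_pow, this]
    ring
  have v0 : 0 < (W.valuation.comap ioL) (algebraMap Qb _ l) :=
    (Valuation.pos_iff _).2 ((_root_.map_ne_zero _).2 l0)
  have b3 := (h1 ((f * z ^ p - 1) / algebraMap _ _ (ζ - 1) ^ p)).2 (by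
    change (W.valuation.comap ioL) _ ≤ 1
    rw [map_div₀, map_div₀, map_pow, map_pow, cst, ← hl0, div_le_one₀ (pow_pos v0 p), hr']
    refine Valuation.map_add_le _ (by rw [map_pow]; exact pow_le_pow_left₀ zero_le b2 p) ?_
    rw [map_mul, map_mul, ← Nat.sub_add_cancel hp.out.one_le, pow_succ, Nat.sub_add_cancel hp.out.one_le]
    exact (mul_le_of_le_one_right' r.2).trans (mul_le_mul' hl.ge b2))
  rw [map_div₀, map_pow, η.ext', div_le_one hζ.pos'] at b3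
  exact ⟨z, b3⟩

end Vale.Agent.P022K.QT.Cu

/-- **NRQ** -/
theorem Vale.Agent.P022K.QT.nrq (X : Vale.Agent.P027M.M.Mdl) : Vale.Agent.P022K.QT.NRQ X :=
  Vale.Agent.P022K.QT.Cu.nrq0 X
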