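import Vale.Agent.P022K.QT.Gq1

/-!
# P022K, block QT: the Galois side of the modular tower from the Hecke dictionary
-/

set_option autoImplicit false

open scoped MatrixGroups NumberField

noncomputable section

namespace Vale.Agent.P022K.QT

open Vale.Agent.P022 Vale.Agent.P022K.Sh Vale.Agent.P022.H218.L3 Vale.Agent.P022.H231.L3 Sh.Tw
open Vale.Agent.P027M Vale.Agent.P019P P025H816 P025H492
open Vale.Agent.P027M.M (GH FS FF L cv Mdl Act Lv)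
open Vale.Agent.P027M.TW (HA)
open Vale.Agent.P022.H853 (cyc cyc_spec)
open Vale.Agent.P022.H443 (inP)
open Vale.Agent.P022E.GW (Ov Fb)

/-- the Hecke operator on the components -/
def HT : Prop := ∀ (E : ℕ) [NeZero E] (l : Pr), ¬ l.1 ∣ E → ∃ lam : Zhˣ,
  (ru E lam : ZMod E) = l.1 ∧ ∀ d, IsDel 1 E l.1 d → ∀ η : G, ev l η = 1 →
    ∀ φ ∈ TQ.RU (cj η (UH E)), ∀ e : Zhˣ,
      hp ((lc l).To (cj η (UH E))) (cj η (UH E)) φ (dE (lam * e) * η⁻¹) =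
        ∏ i, pbz (al 1 l.1 d i) (al_pos l.2.pos d i) (φ (dE e * η⁻¹))

/-- cofinal levels -/
def LVQ : Prop := ∀ U ∈ TQ.Lev, (∃ E η, 0 < E ∧ 4 ∣ E ∧ cj η (UH E) ≤ U) ∧ ∀ l : Pr, l.1 ≠ 2 →
  ((lc l).At (Kl l) U → ∃ E η, 0 < E ∧ 4 ∣ E ∧ ¬ l.1 ∣ E ∧ ev l η = 1 ∧ cj η (UH E) ≤ U ∧
    (lc l).At (Kl l) (cj η (UH E))) ∧
  ((lc l).At (Iw1 ℤ_[l] ℚ_[l]) U → ∃ M η, 0 < M ∧ 4 ∣ M ∧ ¬ l.1 ∣ M ∧ ev l η = 1 ∧
    cj η (UH (M * l.1)) ≤ U ∧ (lc l).At (Iw1 ℤ_[l] ℚ_[l]) (cj η (UH (M * l.1))))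

theorem ex_dat (X : Mdl) {E : ℕ} (hL : Lv E) {n : ℕ} (hn : 0 < n) :
    ∃ (_ : CFF Qb (L (GE E))) (_ : Act X E (H2 E) n), ∃ κ, Th.Kap (GE E) n κ := by
  have hX := J.j_min X
  have m := P022D.I12.mid hX.grp hL neg_H2
  have : CFF Qb (L (GE E)) := hX.cffs _ m.hi (P022D.I12.fidx hX.grp hL neg_H2)
  obtain ⟨A⟩ := hX.act E _ hL neg_H2 n
  exact ⟨this, A, Th.kap0 E _ m _ hn⟩

theorem cyc_in {E : ℕ} [NeZero E] {l : ℕ} {P : Ideal (𝓞 Qb)} (hP : Ov l P) (h : ¬ l ∣ E) {s : GQ}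
    (hs : s ∈ inP P) : cyc E s = 1 := by
  have hE : (E : 𝓞 Qb) ∉ P := fun e => hP.2.1.ne_top (P.eq_top_iff_one.2 (by
    obtain ⟨a, b, hab⟩ := Nat.isCoprime_iff_coprime.2 (hP.1.coprime_iff_not_dvd.2 h)
    have := congrArg (Int.cast : ℤ → 𝓞 Qb) hab
    push_cast at this
    exact this ▸ P.add_mem (P.mul_mem_left _ hP.2.2) (P.mul_mem_left _ e)))
  have := H853.cyc_of_pow (m := E) dvd_rfl hP.2.1 hE (q := 1) (g := s) fun x => by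
    rw [pow_one]
    exact hs x
  refine Units.ext ?_
  rw [← ZMod.natCast_zmod_val (cyc E s : ZMod E), (ZMod.natCast_eq_natCast_iff _ _ _).2 this,
    Nat.cast_one, Units.val_one]

theorem split_H2 {M q : ℕ} (h : M.Coprime q) : TW.Split M q (H2 (M * q)) := fun x hx u h1 h2 => by
  have key : ∀ N (hd : N ∣ M * q), ZMod.unitsMap hd (u ^ 2) = 1 →
      (ZMod.cast ((u ^ 2 : (ZMod (M * q))ˣ) : ZMod (M * q)) : ZMod N) = 1 := fun N hd e => by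
    rw [← ZMod.unitsMap_val hd, e, Units.val_one]
  refine mem_H2.2 (Units.ext ((ZMod.chineseRemainder h).injective ?_))
  rw [Units.val_one, map_one]
  exact Prod.ext ((Prod.fst_zmod_cast _).trans
    (key _ (dvd_mul_right M q) (by rw [map_pow, h1, one_pow]))) ((Prod.snd_zmod_cast _).trans
    (key _ (dvd_mul_left q M) (by rw [map_pow, h2, ← map_pow, mem_H2.1 hx, map_one])))

theorem tw_mem {M : ℕ} [NeZero M] {l : Pr} {η : G} (hη : ev l η = 1) {s : GQ} (h : cyc M s = 1) :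
    (io l (dO ℚ_[l] (chi l s)))⁻¹ * (η * dE (ch s) * η⁻¹) ∈ cj η (UH (M * l.1)) := by
  rw [mem_cj, show η⁻¹ * ((io l (dO ℚ_[l] (chi l s)))⁻¹ * (η * dE (ch s) * η⁻¹)) * η =
    (io l (dO ℚ_[l] (chi l s)) * η)⁻¹ * η * dE (ch s) by group, (io_com l _ η hη).eq,
    _root_.mul_inv_rev, inv_mul_cancel_right]
  refine mem_PU.2 fun q => ?_
  rw [map_mul, map_inv]
  by_cases e : q = l
  · subst e
    rw [ev_io, ev_dE, show Units.map (pz q).toMonoidHom (ch s) = chi q s from Units.ext rfl,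
      inv_mul_cancel]
    exact one_mem _
  · rw [ev_io_ne e, inv_one, one_mul, Nat.factorization_mul (NeZero.ne M) l.2.ne_zero,
      l.2.factorization, Finsupp.add_apply, Finsupp.single_eq_of_ne fun h => e (Subtype.ext h),
      add_zero]
    exact mem_PU.1 (dE_UH.2 ((ru_ch s).trans h)) q

section

variable {X : Mdl} (hT : THM X) {E : ℕ} [NeZero E] (hL : Lv E) {η : G} {n : ℕ} (hn : 0 < n)
  {a : TQ.Hn n (UE E η)} (ha : ParC n (UE E η) a)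

include hT hL hn ha

theorem ga_ex (s : GQ) : ∃ a', TQ.Ga (th X s) n (UE E η) a a' := by
  obtain ⟨_, A, κ, k⟩ := ex_dat X hL hn
  obtain ⟨c, h⟩ := ex_kc hn k A ha
  exact (h.ga hn k hT A s).imp fun _ e => e.1

theorem ga_fix : ∃ V : Subgroup GQ, IsOpen (V : Set GQ) ∧
    (∀ s ∈ V, TQ.Ga (th X s) n (UE E η) a a) ∧
    ∀ l P, Ov l P → ¬ l ∣ E → ¬ l ∣ n → inP P ≤ V := by
  obtain ⟨_, A, κ, k⟩ := ex_dat X hL hn
  obtain ⟨c, h⟩ := ex_kc hn k A ha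
  refine ⟨⟨⟨⟨{s | A.act s = 1}, fun h h' => by
      rw [Set.mem_ofPred_eq] at *
      rw [map_mul, h, h', mul_one]⟩, map_one _⟩, fun {s} h => by
      rw [Set.mem_ofPred_eq] at *
      rw [← mul_one (A.act s⁻¹), ← h, ← map_mul, inv_mul_cancel, map_one, h]⟩ ⊓ (cyc E).ker,
    ((J.j_min X).opn E _ hL neg_H2 n A hn.ne').inter (H853.isOpen_cyc E), fun s hs => ?_,
    fun l P hP h1 h2 s hs => ⟨(J.j_min X).unr E _ hL neg_H2 n A l hP.1 h1 h2 s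
      ⟨P, hP.2.1, hP.2.2, hs⟩, cyc_in hP h1 hs⟩⟩
  obtain ⟨a', g, h'⟩ := h.ga hn k hT A s
  have h1 : A.act s = 1 := hs.1
  have h2 : cyc E s = 1 := hs.2
  rwa [h'.inj hn h fun e => by
    rw [h1]
    exact h.congr hn A (by rw [map_mul, map_inv, ru_ch, h2, inv_one, one_mul])] at g

theorem ga_es (ht : HT) {l : Pr} {P : Ideal (𝓞 Qb)} (hP : Ov l P) (h1 : ¬ l.1 ∣ E) (h2 : ¬ l.1 ∣ n)
    (hη : ev l η = 1) {φ : GQ} (hφ : Fb l P φ)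
    (t : Cor (UE E η) ((lc l).To (UE E η)) (UE E η)) :
    ∃ a₁ a₂, TQ.Ga (th X φ) n (UE E η) a a₁ ∧ TQ.Ga (th X φ) n (UE E η) a₁ a₂ ∧
      a₂ - TQ.hN n t a₁ + l.1 • a = 0 := by
  obtain ⟨_, A, κ, k⟩ := ex_dat X hL hn
  obtain ⟨c, h⟩ := ex_kc hn k A ha
  obtain ⟨a₁, g1, k1⟩ := h.ga hn k hT A φ
  obtain ⟨a₂, g2, k2⟩ := k1.ga hn k hT A φ
  obtain ⟨lam, hl, ht⟩ := ht E l h1
  obtain ⟨d, hd⟩ := IsDel.exists 1 E l.1 (by
    rw [one_mul]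
    exact Nat.isCoprime_iff_coprime.2 (l.2.coprime_iff_not_dvd.2 h1))
  have fr : IsFrob l φ := ⟨P, hP.2.1, hP.2.2, hφ⟩
  have e1 : ru E (ch φ) = ru E lam :=
    Units.ext (by rw [ru_ch, hl, H853.cyc_frob l.2 h1 fr])
  have k3 : Kc η (TQ.hN n t a₁) fun e => A.T l (A.act φ (c ((ch φ)⁻¹ * (lam⁻¹ * e)))) := by
    obtain ⟨ψ, p, q⟩ := k1
    refine ⟨_, p.hp hn t, fun e => (q (lam⁻¹ * e)).rep (A.T_rep l l.2 h1 d hd) fun f hf => ?_⟩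
    have := ht d hd η hη ψ (p.mem hn) (lam⁻¹ * e)
    rw [mul_inv_cancel_left] at this
    rw [this, ← hf]
    exact (map_prod cv _ _).trans (Finset.prod_congr rfl fun i _ => X.pb_coe _ _ _)
  refine ⟨a₁, a₂, g1, g2, ?_⟩
  rw [sub_add_eq_add_sub, sub_eq_zero]
  refine (k2.add hn (h.nsmul hn l)).inj hn k3 fun e => ?_
  have cm := ((J.j_min X).comm E _ hL neg_H2 n A).2.2.2.1 (ru E lam) φ
  have e2 : A.dia (ru E lam) (A.act φ (c ((ch φ)⁻¹ * ((ch φ)⁻¹ * e)))) = A.act φ (c e) := by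
    rw [h.dia hn A (e := (ch φ)⁻¹ * ((ch φ)⁻¹ * e)) (e' := e) (u := ru E lam) (by
      rw [map_mul, map_mul, map_inv, e1]
      group)]
    exact DFunLike.congr_fun cm.eq _
  rw [h.congr hn A (e' := (ch φ)⁻¹ * (lam⁻¹ * e)) (e := (ch φ)⁻¹ * ((ch φ)⁻¹ * e))
    (by simp only [map_mul, map_inv, e1]),
    (J.j_min X).es E _ hL neg_H2 n A l l.2 h1 h2 φ fr _ hl, e2,
    show A.act φ⁻¹ (A.act φ (c e)) = (A.act φ⁻¹ * A.act φ) (c e) from rfl, ← map_mul,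
    inv_mul_cancel, map_one]
  rfl

end

theorem quad_add {B : Type} [AddCommGroup B] {f g : AddMonoid.End B} {y : B}
    (h : f (f y - y) = g (f y - y)) (c : g (f y) = f (g y)) : f (f y) + g y = f (g y) + f y := by
  rwa [map_sub, map_sub, c, sub_eq_sub_iff_add_eq_add] at h

theorem ga_tw {X : Mdl} (hT : THM X) {M : ℕ} (hL : Lv M) {l : Pr} {η : G} {n : ℕ} (hn : 0 < n)
    {a : TQ.Hn n (UE (M * l.1) η)} (ha : ParC n (UE (M * l.1) η) a) {P : Ideal (𝓞 Qb)}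
    (hP : Ov l P) (h1 : ¬ l.1 ∣ M) (h2 : ¬ l.1 ∣ n) (hη : ev l η = 1) {s : GQ} (hs : s ∈ inP P)
    (d : Cor (UE (M * l.1) η) (dc (UE (M * l.1) η) (io l (dO ℚ_[l] (chi l s))) (UE (M * l.1) η))
      (UE (M * l.1) η))
    (d' : Cor (UE (M * l.1) η) (dc (UE (M * l.1) η) (io l (dO ℚ_[l] (chi l s)⁻¹))
      (UE (M * l.1) η)) (UE (M * l.1) η)) :
    ∃ a₁ a₂, TQ.Ga (th X s) n (UE (M * l.1) η) a a₁ ∧ TQ.Ga (th X s) n (UE (M * l.1) η) a₁ a₂ ∧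
      a₂ - (TQ.hN n d a₁ + TQ.hN n d' a₁) + a = 0 := by
  have hL' := P022D.I12.lv_mul hL l.2.pos
  have : NeZero M := ⟨hL.pos.ne'⟩
  have : NeZero (M * l.1) := ⟨hL'.pos.ne'⟩
  obtain ⟨_, A, κ, k⟩ := ex_dat X hL' hn
  obtain ⟨c, h⟩ := ex_kc hn k A ha
  obtain ⟨a₁, g1, k1⟩ := h.ga hn k hT A s
  obtain ⟨a₂, g2, k2⟩ := k1.ga hn k hT A s
  refine ⟨a₁, a₂, g1, g2, ?_⟩
  rw [sub_add_eq_add_sub, sub_eq_zero]
  refine (k2.add hn h).inj hn ((k1.rt hn d (tw_mem hη (cyc_in hP h1 hs))).add hn (k1.rt hn d'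
    (e₀ := ch s⁻¹) (map_inv (chi l) s ▸ tw_mem hη (cyc_in hP h1 (inv_mem hs))))) fun e => ?_
  have e1 := h.dia hn A (e := (ch s)⁻¹ * ((ch s)⁻¹ * e)) (e' := e) (u := cyc _ s) (by
    rw [map_mul, map_mul, map_inv, ru_ch]
    group)
  have e2 := P022D.I12.iguf X M l n _ hL neg_H2 l.2 h1 h2
    (split_H2 (l.2.coprime_iff_not_dvd.2 h1).symm) A P hP.2.1 hP.2.2 s hs _
    (fun ζ h => cyc_spec s h) (c ((ch s)⁻¹ * ((ch s)⁻¹ * e))) _ rfl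
  have cm : ∀ y, A.dia (cyc _ s) (A.act s y) = A.act s (A.dia (cyc _ s) y) :=
    DFunLike.congr_fun (((J.j_min X).comm _ _ hL' neg_H2 n A).2.2.2.1 (cyc _ s) s).eq
  rw [mul_comm e, inv_mul_cancel_left, map_inv, mul_comm e, e1]
  exact quad_add (B := HA Qb (L (GE (M * l.1))) n) e2 (cm _)

/-- **GALQ** from the dictionary -/
theorem galq_ht (X : Mdl) (hT : THM X) (ht : HT) (lv : LVQ) : GALQ := by
  have fo := for_of hT
  have nl : ∀ U ∈ TQ.Nl, ∀ (E : ℕ) [NeZero E] η, UE E η ≤ U → UE E η ∈ TQ.Nl :=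
    fun U hU E _ η le => ⟨UE_mem, fun x γ h => hU.2 x γ (TQ.mem_Gam.2 (le (TQ.mem_Gam.1 h)))⟩
  refine ⟨th X, fun p hp => ?_⟩
  have p0 : ∀ k, 0 < p ^ k := pow_pos hp.pos
  refine ⟨⟨fun U hU => ?_, fun U hU k => (fo _ (p0 k) U hU.1).1,
    fun U hU k => (fo _ (p0 k) U hU.1).2.1, fun U hU k => (fo _ (p0 k) U hU.1).2.2.1,
    fun U hU U' hU' Q c k => (fo _ (p0 k) U hU.1).2.2.2.1 U' hU'.1 Q c,
    fun U hU k => (fo _ (p0 k) U hU.1).2.2.2.2 _ p (pow_succ' p k) hp.pos⟩,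
    fun l P h2 hl hP => ?_⟩
  · obtain ⟨E, η, h0, h4, le⟩ := (lv U hU.1).1
    have : NeZero E := ⟨h0.ne'⟩
    refine ⟨_, nl U hU E η le, le, fun k a ha => ?_⟩
    have pa := parq _ UE_mem _ (p0 k) a ha
    exact ⟨ga_ex hT ⟨h0, h4⟩ (p0 k) pa,
      (ga_fix hT ⟨h0, h4⟩ (p0 k) pa).imp fun _ h => ⟨h.1, h.2.1⟩⟩
  · have nd : ∀ k, ¬ l.1 ∣ p ^ k := fun k h =>
      hl ((Nat.prime_dvd_prime_iff_eq l.2 hp).1 (l.2.dvd_of_dvd_pow h))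
    refine ⟨fun s hs => ⟨fun U hU h => ?_, fun U hU h _ => ?_⟩, fun φ hφ U hU h => ?_⟩
    · obtain ⟨E, η, h0, h4, hN, -, le, -⟩ := ((lv U hU.1).2 l h2).1 h
      have : NeZero E := ⟨h0.ne'⟩
      refine ⟨_, nl U hU E η le, le, fun k a ha => ?_⟩
      obtain ⟨V, -, h5, h6⟩ := ga_fix hT ⟨h0, h4⟩ (p0 k) (parq _ UE_mem _ (p0 k) a ha)
      exact h5 s (h6 l P hP hN (nd k) hs)
    · obtain ⟨M, η, h0, h4, hN, hη, le, h5⟩ := ((lv U hU.1).2 l h2).2 h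
      have : NeZero (M * l.1) := ⟨(Nat.mul_pos h0 l.2.pos).ne'⟩
      exact ⟨_, nl U hU _ η le, le, fun d d' k => ⟨h5, fun a ha => ga_tw hT ⟨h0, h4⟩ (p0 k)
        (parq _ UE_mem _ (p0 k) a ha) hP hN (nd k) hη hs d d'⟩⟩
    · obtain ⟨E, η, h0, h4, hN, hη, le, h5⟩ := ((lv U hU.1).2 l h2).1 h
      have : NeZero E := ⟨h0.ne'⟩
      refine ⟨_, nl U hU E η le, le, h5, fun c k a ha => ?_⟩
      rw [qq_eq]
      exact ga_es hT ⟨h0, h4⟩ (p0 k) (parq _ UE_mem _ (p0 k) a ha) ht hP hN (nd k) hη hφ c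

end Vale.Agent.P022K.QT
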