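import Vale.Agent.P022K.QT.CuSt
import Vale.Agent.P022K.QT.Gq2
import Vale.Agent.P022K.WB.Nv2

/-!
# P022K, block QT: inertia at `p` on the classes which are etale at the cusps (helper50)
-/

set_option autoImplicit false
set_option linter.all false

noncomputable section

open IntermediateField Vale.Agent.P019P P025H746 P025H492 P025H816 Module

namespace Vale.Agent.P022K.WB.Nv

open Vale.Agent.P027M.I Vale.Agent.P027M.I.I1b Vale.Agent.P022K.FI.X0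

variable {C : Type} [NontriviallyNormedField C] [IsUltrametricDist C] [IsAlgClosed C] [CharZero C]
  {p : ℕ} {ζ : C} {K₀ K : Type} [Field K₀] [Algebra C K₀] [CFF C K₀] [Field K] [Algebra C K]
  [CFF C K] [Algebra K₀ K] [IsScalarTower C K₀ K] [FiniteDimensional K₀ K] [IsGalois K₀ K] {T : K₀}
  [FiniteDimensional C⟮T⟯ K₀] {w : Fin 2 → NV C K} {σ : K ≃+* K}

/-- an inertia element which is trivial on both sides -/
theorem oneP (h : PZ p ζ) {v : Fin 2 → WW C T} {S : Finset (Br C T)}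
    (hd : ((finrank K₀ K : ℕ) : kC C) ≠ 0) (hu : IsUnr C K₀ K) (hcy : IsCyclic (K ≃ₐ[K₀] K))
    (hF : Full C T) (hS : Nodal C T S) (hall : ∀ w, ∃ i, w = v i)
    (hw : ∀ i y, w i (algebraMap K₀ K y) = (v i).1 y) (hI : Inr' C w σ (1 : K ≃ₐ[K₀] K))
    {s : C ≃+* C} (hσ : Semi C σ s) {c : ℕ} (hs : s ζ = ζ ^ c) {f : K}
    (hf : ∀ P : Plk C K, (p : ℤ) ∣ ord P f) (hn : ∀ i (g : K ≃ₐ[K₀] K), Nr p ζ (w i) (g f)) :
    ∃ z : K, z ≠ 0 ∧ σ f = f ^ c * z ^ p := by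
  have : FiniteDimensional C⟮algebraMap K₀ K T⟯ K := finite_adjoin_map
  obtain ⟨hF', -, S', hS', -⟩ := cov' C K₀ K T hF S hS hu hd fun u => cyc hcy u.1
  have key : ∀ u : WW C (algebraMap K₀ K T), ((∀ y, u.1 (σ y) = u.1 y) ∧
      ∀ y, u.1 y ≤ 1 → u.1 (σ y - y) < 1) ∧ Nr p ζ u.1 f := fun u => by
    obtain ⟨i, hi⟩ := hall ⟨u.1.comap K₀, u.2.comap⟩
    have h1 : ∀ y, u.1 (algebraMap K₀ K y) = w i (algebraMap K₀ K y) := fun y => by
      rw [hw, ← hi]; rfl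
    obtain ⟨g, hg⟩ := exists_conj h1
    refine ⟨?_, by simpa using (hn i g).map g.symm fun y => by rw [hg, g.apply_symm_apply]⟩
    fin_cases i
    exacts [side0' hI h1, side1' (comm_of_cyc hcy) hI h1]
  exact nodeE h hF' hS' hσ hs (fun u => (key u).1.1)
    (fun b _ => tw_self b (key _).1.1 (key _).1.2) hf fun u => Or.inr ⟨(key u).2, (key u).1.2⟩

end Vale.Agent.P022K.WB.Nv

namespace Vale.Agent.P022K.QT

open NumberField Vale.Agent.P022 Vale.Agent.P027M Vale.Agent.P027M.M Vale.Agent.P027M.G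
  Vale.Agent.P027M.J Vale.Agent.P027M.J.Igu Vale.Agent.P027M.TW P025H373 FI WB
open Vale.Agent.P022.H853 (cyc cyc_spec cyc_mod zt zt_prim)

/-- the norms attached to an embedding -/
theorem dic_ab {q : ℕ} [hq : Fact q.Prime] {e : Qb →+* CS q} {P : Ideal (𝓞 Qb)} (hA : Ab e P) :
    ∃ A O w, Dic q P A O w ∧ ∀ c, A.a c ≤ 1 ↔ ‖e c‖ ≤ 1 := by
  have hq := hq.out
  obtain ⟨-, hP, h⟩ := hA.ov
  obtain ⟨O, hO, -, hv, -⟩ := D.over_ok q P hq hP h
  obtain ⟨A, O', hA', hAO⟩ := ave O q hq hv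
  obtain ⟨w, hw⟩ := g_winf A O' hA'
  have lt : A.a (q : Qb) < 1 := (Atlm.lt_iff hAO _).2 hv
  have inv : ∀ n : ℕ, ¬ q ∣ n → (n : ℂ)⁻¹ ∈ O' := fun n hn => by
    have := (hA' (n : Qb)⁻¹).2 ((hAO _).2 (Keym.inv_mem_of O hq hv hn))
    rwa [map_inv₀, map_natCast] at this
  have pw : ∀ (g : GQ) (n : ℕ), (∀ x : 𝓞 Qb, g • x - x ^ n ∈ P) →
      ∀ c, A.a c ≤ 1 → A.a (g c - c ^ n) < 1 := fun g n hg c hc =>
    (Atlm.lt_iff hAO _).2 (val_pow hP hO hg ((hAO c).1 hc))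
  have one : ∀ s : 𝓞 Qb, s ∉ P ↔ ‖e s‖ = 1 := fun s => by
    rw [hA, not_lt]
    exact ⟨le_antisymm (CS.norm_le_one q e s), fun h => h.ge⟩
  refine ⟨A, O', w, ⟨hA', hw, lt, ?_, inv, ?_, fun n hn => ?_, fun g hg => ?_,
    fun g hg => ⟨iso_of A hq.ne_zero (pw g q hg), pw g q hg⟩, S.Loc.frob hP hq h⟩, fun c => ?_⟩
  · rw [Keym.val_lt _ (Nat.cast_ne_zero.2 hq.ne_zero)]
    intro h1
    have h2 := (hA' (q : Qb)⁻¹).1 (by rwa [map_inv₀, map_natCast])
    rw [map_inv₀, inv_le_one₀ (A.a.pos (Nat.cast_ne_zero.2 hq.ne_zero))] at h2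
    exact absurd lt (not_lt.2 h2)
  · rw [← cred_nat, cred_eq_zero (IsUltrametricDist.norm_natCast_le_one _ q)]
    exact lt
  · have h0 : n ≠ 0 := by rintro rfl; exact hn (dvd_zero q)
    rw [← cred_nat, Ne, cred_eq_zero (IsUltrametricDist.norm_natCast_le_one _ n),
      Modg.norm_nat hA' h0 (inv n hn)]
    exact lt_irrefl _
  · have h1 := pw g 1 fun x => by rw [pow_one]; exact hg x
    exact ⟨iso_of A one_ne_zero h1, fun c hc => by simpa using h1 c hc⟩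
  · rw [hAO, hO]
    refine ⟨fun ⟨s, t, h1, h2⟩ => ?_, fun hc => ?_⟩
    · have := CS.norm_le_one q e t
      rwa [← show (s : Qb) * c = t from h2, map_mul, norm_mul, (one s).1 h1, one_mul] at this
    · obtain ⟨s, t, h1, h2 | h2⟩ := D.Ov.dich hP hq.ne_zero h c
      · exact ⟨s, t, h1, h2⟩
      · refine ⟨t, s, fun ht => ?_, (mul_comm _ _).trans h2⟩
        have := (one s).1 h1
        rw [← show c * (t : Qb) = s from h2, map_mul, norm_mul] at this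
        exact (mul_lt_one_of_nonneg_of_lt_one_right hc (norm_nonneg _) ((hA t).1 ht)).ne this

theorem Flt.pb {X : Mdl} {p : ℕ} [Fact p.Prime] {e : Qb →+* CS p} {f : FF} (h : Flt X p e f)
    {A : M2} (hA : 0 < A.det) : Flt X p e (X.pb A hA f) := fun B hB => by
  rw [← Dp.pb_mul X hA hB (by rw [Matrix.det_mul]; exact mul_pos hA hB)]
  exact h _ _

/-- **ODDF** -/
theorem oddf_of (X : Mdl) (hN : NRQ X) : ODDF X := by
  intro q hp h2 e P hA s hσ hcy M hL hM _ f hf fl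
  have hq := hp.out
  have hX := j_min X
  obtain ⟨-, hP, hl⟩ := hA.ov
  have h := P022D.I12.lv_mul hL hq.pos
  have : NeZero (M * q) := ⟨h.pos.ne'⟩
  have hn : -1 ∈ H2 (M * q) := neg_H2
  have hs := split_H2 (hq.coprime_iff_not_dvd.2 hM).symm
  obtain ⟨B, O, w, hD, hB⟩ := dic_ab hA
  obtain ⟨γ, hγ, hγ1⟩ := exists_AL (M := M) (q := q)
    (Nat.isCoprime_iff_coprime.2 (hq.coprime_iff_not_dvd.2 hM).symm)
  have h' := neg_up (P022D.I12.neg_low hn) q
  haveI : CFF Qb (L (GH (M * q) (up (low (H2 (M * q))) q))) :=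
    hX.cffs _ (P022D.I12.mid hX.grp h h').hi (P022D.I12.fidx hX.grp h h')
  obtain ⟨T, fT, v, S, hT, a1, a2, -, a4, -, a6, a7⟩ := P022D.I12.nod_of hX (j_krm X) I.n0'
    M q hq _ hL (P022D.I12.neg_low hn) hM P B O w hD γ hγ hγ1
  letI := algL (le_up (H2 (M * q)))
  haveI := towerV B (le_up (H2 (M * q)))
  obtain ⟨fd, ga, c1, c2, c3, -, c5⟩ := P022D.I12.cover hX hL hn hq hM hs
  have cy : IsCy (M * q) s (cyc _ s) := fun ζ h => cyc_spec s h
  obtain ⟨δ, hδ⟩ := In.ex_dm h.pos.ne' (cyc (M * q) s)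
  have mδ : δ ∈ GE (M * q) := hδ.mem.2 (hs _ hn _ (cy_low hL.pos hq hM hP hl hσ cy) (Units.ext (by
    rw [um_coe (dvd_mul_left q M) (u := -1) (a := -1) (by simp), ZMod.unitsMap_val,
      ← ZMod.natCast_val, (ZMod.natCast_eq_natCast_iff _ _ _).2 (cyc_mod _ (dvd_mul_left q M) s),
      ZMod.natCast_zmod_val, hcy]
    simp)))
  have i := P022D.I12.inr hX P027M.M.exp cf2 (x_shim X) (g_wgal X) h hn hq hM hP hl hD hγ
    (T := algebraMap _ _ T) hT (fun g => (c5 g).imp fun ε (e : _ ∧ _) => And.intro e.1.1 e.2) hσ cy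
    hδ (s := 1) fun x => (In.pg_fix X mδ x.2).symm
  have z : Nv.PZ q (B.e (zt q)) := ⟨hq, hD.lt, zt_prim q⟩
  have nr : ∀ g : L (GE (M * q)) ≃ₐ[Qv B] L (GE (M * q)),
      Flt X q e (g f : L (GE (M * q))) → Nv.Nr q (B.e (zt q)) (side w AlgEquiv.refl _) (g f) :=
    fun g => hN q h2 e B O w hD.on hD.inf hB _ z _ _ h hn _ ((map_ne_zero g).2 f.ne_zero)
      ((I.Semi.of_alg g).dvd_ord hf)
  obtain ⟨y, -, e1⟩ := Nv.oneP (T := T)
    (w := ![side w AlgEquiv.refl _, side w (Wq X hq.pos γ) _]) z (v := v) (hD.ne _ fun d =>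
    absurd (Nat.le_of_dvd (Nat.sub_pos_of_lt hq.one_lt) (d.trans c1))
      (not_le.2 (Nat.sub_lt hq.pos one_pos))) c2 c3 a1 a2 a4
    (Fin.forall_fin_two.2 ⟨fun y => (a6 y).symm, fun y => (a7 y).symm⟩)
    ⟨i.semi, i.com, i.n0, i.t0, i.n1, i.t1⟩ (s := (s : Qb ≃+* Qb))
    ⟨fun c => Subtype.ext (hX.galx.2.1 s c), (hD.ine s hσ).1⟩
    (cyc_spec s (zt_prim q).pow_eq_one) (f := f) hf (Fin.forall_fin_two.2 ⟨fun g => by
      obtain ⟨ε, -, e2⟩ := c5 g
      exact nr (g.restrictScalars _) (e2 f ▸ fl.pb _), fun g => by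
      obtain ⟨ε, -, e2⟩ := c5 g
      let W := resA B (Wq X hq.pos γ) (Wq_mem_iff X hq.pos hγ hs)
      have := (nr ((g.restrictScalars _).trans W)
        (show Flt X q e (Wq X hq.pos γ (g f : L _)) from e2 f ▸ (fl.pb _).pb _)).map W.symm
        (w' := side w (Wq X hq.pos γ) _) fun y => congrArg (side w AlgEquiv.refl _)
          (W.apply_symm_apply y)
      simpa using this⟩)
  have : (cyc q s : ZMod q).val + 1 = q := by
    rw [hcy, Units.val_neg, Units.val_one, ZMod.neg_val, if_neg one_ne_zero, ZMod.val_one,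
      Nat.sub_add_cancel hq.one_le]
  have e2 : X.gal s f.1.1 = f.1.1 ^ (cyc q s : ZMod q).val * y.1 ^ q := congrArg Subtype.val e1
  refine ⟨f.1.1 * y.1, mul_mem f.1.2 y.2, ?_⟩
  rw [e2, mul_right_comm, ← pow_succ, this, mul_pow]

end Vale.Agent.P022K.QT
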