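import Vale.Agent.P022K.QT.Wq
import Vale.Agent.P022K.Top.Wnx

/-!
# P022K, block QT: the cusp functional on the site of the modular tower
-/

set_option autoImplicit false
set_option linter.all false

noncomputable section

namespace Vale.Agent.P022K.QT

open Vale.Agent.P022 Vale.Agent.P022K.Sh WB FI Top Vale.Agent.P022.H218.L3
open Vale.Agent.P027M.M (Mdl FF cv)

variable {p : ℕ} [hp : Fact p.Prime] {X : Mdl} {D : SQ p}

theorem kk (h : D.Ok) (e : D.th = th X) :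
    D.s0.ax.Kk p (fun s : GK jQ => th X s) D.a D.g D.im :=
  e ▸ ⟨hp.out, h.ok.ok.ok, h.ok.ax, h.ok.gc, h.ok.ok.cc, h.ok.lk⟩

/-- Kummer functions with algebraic values -/
theorem ex_kdS (h : D.Ok) (e : D.th = th X) (v : D.M) (s : GK jQ) {U₀ : Subgroup G}
    (h0 : U₀ ∈ TQ.Lev) {k : ℕ} (hk : p ^ k • v = 0) : ∃ U ≤ U₀, ∃ φ, FV φ ∧
      D.s0.ax.Kd D.im U k φ v ∧ D.s0.ax.Kd D.im U k (th X s φ) (D.g s v) :=
  ex_kd (p := ⟨p, hp.out⟩) (kk h e) v s h0 hk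

/-- **W-GLUE for the modular tower** -/
theorem wq (hT : THM X) (h : D.Ok) (e : D.th = th X) (E : D.s0.int.Pl ()) {ψ : ℚ_[p] → CS p}
    {lg : FF → ℤ → CS p} (L : Lq X p E.e ψ lg) {v : D.M}
    (hv : v ∈ D.s0.int.Kw (ok0 p) () E.d) {U : Subgroup G} {k : ℕ} {φ : G → Mer}
    (h1 : D.s0.ax.Kd D.im U k φ v) (h2 : FV φ) {x : G} {f : FF} (h3 : cv f = φ x) :
    ∃ l ∈ BW p (CS p), lg f = p ^ k • l :=
  Lq.zero (p := ⟨p, hp.out⟩) L (kk h e) (d := E.d) (act := MonoidHom.id _) (χ := chi0 p) E.he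
    (fun s => by rw [E.hd]; exact chi_rs E.e s) hT L.psi.og (ok0 p)
    (fun W w x => by simpa only [map_one, Module.End.one_apply] using hv W w x 1) h1 h2 h3

end Vale.Agent.P022K.QT
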