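import Vale.Agent.P022K.QT.CuSt
import Vale.Agent.P022K.QT.Galq
import Vale.Agent.P022K.QT.WqS
import Vale.Agent.P022K.Top.SiQ
import Vale.Agent.P022K.Top.Wnq

/-!
# P022K, block QT: the geometry at an odd prime on the modular tower
-/

set_option autoImplicit false

noncomputable section

namespace Vale.Agent.P022K.QT

open Vale.Agent.P022 Vale.Agent.P022K.Sh Sh.Tw WB CH Vale.Agent.P022K.Top
open Vale.Agent.P027M Vale.Agent.P019P P025H816 P025H492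
open Vale.Agent.P027M.M (FF L cv Mdl Lv)
open Vale.Agent.P022.H853 (cyc)

variable {p : ℕ} [hp : Fact p.Prime]

theorem iw_I1 {g : G2 p} (h : g ∈ Iw1 ℤ_[p] ℚ_[p]) : ∃ a, dd a a * g ∈ I1 p := by
  obtain ⟨k, ⟨h1, h2⟩, rfl⟩ := h
  have e : ∀ x : ℤ_[p], IsLocalRing.residue ℤ_[p] x = 0 ↔ ‖(x : ℚ_[p])‖ < 1 := fun x => by
    rw [IsLocalRing.residue_eq_zero_iff]
    exact PadicInt.mem_nonunits
  have h1 : IsLocalRing.residue ℤ_[p] (k 1 0) = 0 := h1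
  have h2 : IsLocalRing.residue ℤ_[p] (k 0 0) = IsLocalRing.residue ℤ_[p] (k 1 1) := h2
  have n : ‖(k 0 0 : ℚ_[p])‖ = 1 := le_antisymm (k 0 0).2 (not_lt.1 fun h => by
    have := ((IsLocalRing.residue ℤ_[p]).isUnit_map k.det.isUnit).ne_zero
    rw [Matrix.GeneralLinearGroup.val_det_apply, Matrix.det_fin_two, map_sub, map_mul, map_mul, h1,
      (e _).2 h] at this
    simp at this)
  have a0 : (k 0 0 : ℚ_[p]) ≠ 0 := norm_pos_iff.1 (one_pos.trans_eq n.symm)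
  have v : ∀ i j, gK ℚ_[p] k i j = (k i j : ℚ_[p]) := fun _ _ => rfl
  rw [eq_comm, ← sub_eq_zero, ← map_sub, e, PadicInt.coe_sub] at h2
  refine ⟨(Units.mk0 _ a0)⁻¹, mem_I1.2 ?_⟩
  simp only [mul_ap, v]
  refine ⟨by simp [a0], by simpa [n] using (k 0 1).2, by simpa [n] using (e _).1 h1, ?_⟩
  simpa [← inv_mul_cancel₀ a0, ← mul_sub, n] using h2

/-- **the geometry at an odd prime** -/
theorem geo_q {X : Mdl} (od : ODDF X) {D : SQ p} (ok : D.Ok) (e : D.th = th X)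
    (E : D.s0.int.Pl ()) : D.s0.int.Geo (ok0 p) () E.d E.P := by
  let q : Pr := ⟨p, hp.out⟩
  have cc := ok.ok.ok.cc
  have lk := ok.ok.lk
  obtain ⟨s, hs, hχ⟩ := ez_surj E.ovp (-1)
  have hχ : chi q s = -1 := hχ
  refine Si.geo_of _ _ _ _ ⟨fun _ => ⟨⟨s, mem_jQ s⟩, -1, ?_, fun v hv => ?_⟩,
    fun h => (ok.two.2 h).elim, fun h => (ok.two.2 h).elim⟩
  · exact ⟨0, (congrArg (fun x : ℤ_[p]ˣ => (x : ℤ_[p]) + 1) hχ).trans (by simp)⟩
  obtain ⟨U₀, h0, n0⟩ := ex_neat q ok.two.2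
  obtain ⟨U, hU, h3, -, h5⟩ := cc.ex_at okq h0 n0 (Km_le_Up (Bu _)) (Up_le _) (v := v) (by
    rintro _ ⟨g, hg, rfl⟩
    obtain ⟨a, ha⟩ := iw_I1 hg
    have := hv.2.2 _ ha
    rwa [rho_mul, show D.s0.int.ap () (dd a a) = 1 from cc.z _ ((lc q).cen _
      (Subgroup.mem_center_iff.2 fun g => (dd_comm a g).symm))] at this)
  obtain ⟨M, η, h0, h4, hN, hη, le, h6⟩ := lv_I hU.1 q ok.two.2 h3
  have hL := P022D.I12.lv_mul ⟨h0, h4⟩ q.2.pos
  have : NeZero M := ⟨h0.ne'⟩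
  have : NeZero (M * q.1) := ⟨hL.pos.ne'⟩
  have nl : UE (M * q.1) η ∈ TQ.Nl := ⟨UE_mem, hU.2.of_le le⟩
  have fv : v ∈ Fv D.a (UE (M * q.1) η) := fun u hu => h5 u (le hu)
  obtain ⟨b, hb, rfl⟩ := (lk.bij _ nl 1).surjOn ⟨fv, by rw [pow_one]; exact hv.2.1⟩
  have hn : 0 < p ^ 1 := pow_pos hp.out.pos 1
  obtain ⟨_, A, κ, k⟩ := ex_dat X hL hn
  obtain ⟨c, h⟩ := ex_kc hn k A (parq _ UE_mem _ hn b (axS_le D.S _ _ hb))
  obtain ⟨b', g1, k1⟩ := h.ga hn k (thm0 X) A s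
  have d : Cor (UE (M * q.1) η) (dc (UE (M * q.1) η) (io q (dO ℚ_[q] (chi q s))) (UE (M * q.1) η))
    (UE (M * q.1) η) := cor_dc (okq.fi _ (okq.conj _ nl.1 _) _ nl.1)
  have sq : ru (M * q.1) (ch s) * ru (M * q.1) (ch s) = 1 := by
    have := tw_mem (η := 1) (l := q) (map_one _) (cyc_in E.ovp hN (mul_mem hs hs))
    rw [map_mul, hχ, neg_mul_neg, one_mul, dO_one, map_one, cj_one, inv_one, one_mul, one_mul,
      mul_one, dE_UH, map_mul, map_mul] at this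
    exact this
  have cy : cyc p s = -1 := by
    rw [← ru_ch]
    refine Units.ext ?_
    rw [ru_val, Units.val_neg, Units.val_one, ← map_one (rz p), ← map_neg, rz_eq]
    intro r
    by_cases e : r = q
    · subst e
      exact ⟨0, (congrArg (fun x : ℤ_[p]ˣ => (x : ℤ_[p]) - -1) hχ).trans (by simp)⟩
    · rw [Nat.factorization_eq_zero_of_not_dvd fun h => e (Subtype.ext
        ((Nat.prime_dvd_prime_iff_eq r.2 hp.out).1 h)), pow_zero]
      exact one_dvd _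
  have key : ∀ x, A.act s (c x) + c x = 0 := fun x => by
    obtain ⟨φ, ⟨z, r, e1, e2, e3⟩, h⟩ := h
    have m : φ ∈ TQ.RU (UE (M * q.1) η) := e3 ▸ e2.pow_mem hn
    obtain ⟨f, hf, e4, e5⟩ := h x
    obtain ⟨y, hy, e6, e7⟩ := A.act_rep s f hf
    obtain ⟨w, hw, e8⟩ := od p ok.two.2 E.e E.P E.hP s hs cy M ⟨h0, h4⟩ hN f
      (by simpa only [pow_one] using hf) fun B hB => by
        simpa only [pow_one] using wq (thm0 X) ok e E (lq X E.e) hv.1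
          ⟨nl, z, r, e1 ▸ hb, e1 ▸ rfl, e2, e3⟩ (fv_pt X m fun e => (h e).fs)
          (x := TQ.j (gz B hB)⁻¹ * (dE x * η⁻¹) * 1) (by rw [RU_val m _ _ (one_mem _), act_gz, X.pb_coe, e4])
    have e9 : ((y * f : (L _)ˣ) : L _) = ⟨w, hw⟩ ^ p := Subtype.ext (by rw [← e6] at e8; exact e8)
    rw [← e5]
    refine (congrArg (· + _) e7).trans ((TW.cl_eq_zero (mul_mem hy hf)).2 ?_)
    exact ⟨Units.mk0 ⟨w, hw⟩ fun h => (y * f).ne_zero (by rw [e9, h, zero_pow hp.out.ne_zero]),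
      Units.ext ((congrArg (_ ^ ·) (pow_one p)).trans e9.symm)⟩
  have e1 := congrArg (D.im 1 _) (((k1.add hn (h.rt hn d (tw_mem hη (cyc_in E.ovp hN hs)))).inj hn
    (h.nsmul hn 0) fun x => by
      rw [h.congr hn A (e' := x * ch s) (e := (ch s)⁻¹ * x) (by
        rw [map_mul, map_mul, map_inv, inv_eq_of_mul_eq_one_right sq]
        exact mul_comm _ _), key]
      exact (zero_nsmul (c x)).symm))
  rw [zero_smul, map_zero, map_add, lk.gal _ nl 1 ⟨s, mem_jQ s⟩ b b' (by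
    show TQ.Ga (D.th s) _ _ _ _
    rwa [e]), lk.cor _ nl _ nl _ d, ← lc_ι, h6.dc_eq nl.1 fun _ => dO_norm _, hv_one fv, hχ,
    show dO ℚ_[q] (-1) = dd (-1) 1 from G2_ext (by simp [dO, dg_val])] at e1
  rw [Units.val_neg, Units.val_one, neg_one_smul]
  exact eq_neg_of_add_eq_zero_left e1

/-- **GEQ1** from the geometry of the modular curves -/
theorem geq_of {X : Mdl} (gal : GalQ (th X)) (od : ODDF X) : GEQ1 :=
  ⟨th X, gal, fun _ _ _ ok e k => (ok.ok.ok.ok1.pl k).elim fun E => ⟨E, geo_q od ok e E⟩⟩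

end Vale.Agent.P022K.QT
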