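import Vale.Agent.P022K.QT.Dic
import Vale.Agent.P022K.QT.ThK
import Vale.Agent.P022K.F0.FreeB
import Vale.Agent.P022D.I.I1f
import Vale.Agent.P027M.Th.All
import Vale.Agent.P022.H853.L3.Cyc

/-!
# P022K, block QT: classes on the modular tower and Kummer classes of the fields of level `Γ_H(E)`
-/

set_option autoImplicit false

open scoped MatrixGroups

noncomputable section

namespace Vale.Agent.P022K.QT

open Vale.Agent.P022 Vale.Agent.P022K.Sh Vale.Agent.P022.H218.L3 Vale.Agent.P022.H231.L3 Sh.Tw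
open Vale.Agent.P027M Vale.Agent.P019P P025H816 P025H492
open Vale.Agent.P027M.M (GH FS FF L cv mkF cv_mem cv_inj Mdl Act Lv ze)
open Vale.Agent.P027M.TW (HA cl cl_eq cl_mul cl_pow cl_one cl_surj)
open Vale.Agent.P022.H853 (cyc cyc_spec)

/-! ## Kummer classes of functions -/

section

variable {Γ : Subgroup SL(2, ℤ)} [CFF Qb (L Γ)] {n : ℕ} {x x' : Mer} {y y' : HA Qb (L Γ) n}

/-- `y` is the Kummer class of `x` -/
def Cm (x : Mer) (y : HA Qb (L Γ) n) : Prop :=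
  ∃ (f : (L Γ)ˣ) (hf : f ∈ divU Qb (L Γ) n), cv ((f : L Γ) : FF) = x ∧ cl f hf = y

theorem Cm.fs (h : Cm x y) : x ∈ FS := by
  obtain ⟨f, -, rfl, -⟩ := h
  exact cv_mem _

theorem Cm.mul (h : Cm x y) (h' : Cm x' y') : Cm (x * x') (y + y') := by
  obtain ⟨f, hf, rfl, rfl⟩ := h
  obtain ⟨g, hg, rfl, rfl⟩ := h'
  exact ⟨f * g, mul_mem hf hg, map_mul cv _ _, rfl⟩

theorem cm_one : Cm 1 (0 : HA Qb (L Γ) n) := ⟨1, one_mem _, map_one cv, rfl⟩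

theorem Cm.pow (h : Cm x y) (m : ℕ) : Cm (x ^ m) (m • y) := by
  induction m with
  | zero => simpa using cm_one
  | succ m ih => rw [pow_succ, succ_nsmul]; exact ih.mul h

theorem Cm.unique (h : Cm x y) (h' : Cm x y') : y = y' := by
  obtain ⟨f, hf, rfl, rfl⟩ := h
  obtain ⟨g, hg, e, rfl⟩ := h'
  obtain rfl : g = f := Units.ext (Subtype.ext (cv_inj e))
  rfl

theorem Cm.rep (h : Cm x y) {ψ : FF → FF} {F : HA Qb (L Γ) n →+ HA Qb (L Γ) n} (r : M.Rep ψ F)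
    (e : ∀ f, cv f = x → cv (ψ f) = x') : Cm x' (F y) := by
  obtain ⟨f, hf, e1, rfl⟩ := h
  obtain ⟨g, hg, e2, e3⟩ := r f hf
  exact ⟨g, hg, by rw [e2, e _ e1], e3.symm⟩

theorem Cm.eq (h : Cm x y) (h' : Cm x' y) : ∃ v ∈ L Γ, x = x' * cv v ^ n := by
  obtain ⟨f, hf, rfl, rfl⟩ := h
  obtain ⟨g, hg, rfl, e⟩ := h'
  obtain ⟨v, hv⟩ := mem_powU.1 ((cl_eq hf hg).1 e.symm)
  refine ⟨(v : L Γ), (v : L Γ).2, ?_⟩
  rw [← map_pow, ← map_mul, show f = g * v ^ n by rw [hv, mul_div_cancel]]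
  rfl

variable {κ : HA Qb (L Γ) n →+ SL(2, ℤ) → ZMod n} (k : Th.Kap Γ n κ)

include k

theorem Cm.root (h : Cm x y) : ∃ r : Mer, r ≠ 0 ∧ r ^ n = x := by
  obtain ⟨f, hf, rfl, -⟩ := h
  obtain ⟨r, h1, h2, -⟩ := k.rep ⟨f, hf⟩
  exact ⟨r, h1, h2⟩

theorem ex_cm {c : SL(2, ℤ) → ZMod n} (h : Th.Par Γ c) : ∃ r : Mer, r ≠ 0 ∧
    (∃ y : HA Qb (L Γ) n, Cm (r ^ n) y) ∧ ∀ g ∈ Γ, H218.L3.act g⁻¹ r = eM n (c g) * r := by
  obtain ⟨y, rfl⟩ := k.onto c h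
  obtain ⟨f, hf, rfl⟩ := cl_surj y
  obtain ⟨r, h1, h2, h3⟩ := k.rep ⟨f, hf⟩
  refine ⟨r, h1, ⟨_, f, hf, h2.symm, rfl⟩, fun g hg => (h3 g hg).trans ?_⟩
  rw [ze, Int.cast_natCast]
  rfl

end

/-! ## the points -/

variable {E : ℕ} [NeZero E] {η : G} {e e' : Zhˣ}

/-- the group of the components -/
abbrev GE (E : ℕ) : Subgroup SL(2, ℤ) := GH E (H2 E)

/-- the levels -/
abbrev UE (E : ℕ) (η : G) : Subgroup G := cj η (UH E)

omit [NeZero E] in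
theorem neg_H2 : -1 ∈ H2 E := mem_H2.2 neg_one_sq

theorem UE_mem : UE E η ∈ TQ.Lev := okq.conj _ UH_mem η

omit [NeZero E] in
theorem mem_pt {x : G} :
    (dE e * η⁻¹)⁻¹ * x * (dE e' * η⁻¹) ∈ UE E η ↔ (dE e)⁻¹ * x * dE e' ∈ UH E := by
  rw [mem_cj]
  exact iff_of_eq (congrArg (· ∈ UH E) (by group))

theorem rel_pt (x : G) : ∃ e, TQ.Rel (UE E η) x (dE e * η⁻¹) := by
  obtain ⟨e, γ, u, hu, h⟩ := ex_dE (E := E) (x * η)
  refine ⟨e, Rel.symm ⟨γ, η * u * η⁻¹, mem_cj.2 (by simpa [mul_assoc] using hu), ?_⟩⟩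
  rw [eq_mul_inv_of_mul_eq h]
  group

theorem gam_pt {g : SL(2, ℤ)} : iZ g ∈ TQ.Gam (UE E η) (dE e * η⁻¹) ↔ g ∈ GE E := by
  rw [mem_Gam, mem_pt, ← mem_Gam, gam_iZ]

theorem gam_ex {γ : G0} (h : γ ∈ TQ.Gam (UE E η) (dE e * η⁻¹)) :
    ∃ g ∈ GE E, ∃ ζ ∈ TQ.Z0, γ = iZ g * ζ := by
  obtain ⟨g, ζ, h1, h2, h3⟩ := ex_iZ (mem_pt.1 (TQ.mem_Gam.1 h))
  exact ⟨g, gam_iZ.1 (TQ.mem_Gam.2 h3), ζ, h1, h2⟩

omit [NeZero E] in
theorem val_pt {φ : G → Mer} (hφ : φ ∈ TQ.RU (UE E η)) {g : SL(2, ℤ)}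
    (h : (dE e)⁻¹ * TQ.j (iZ g) * dE e' ∈ UH E) :
    φ (dE e' * η⁻¹) = H218.L3.act g⁻¹ (φ (dE e * η⁻¹)) := by
  rw [← act_iZ, ← RU_val hφ _ _ (mem_pt.2 h), map_inv, map_inv]
  congr 1
  group

theorem fs_act (X : Mdl) (γ : G0) {x : Mer} (h : x ∈ FS) : TQ.act γ x ∈ FS := by
  obtain ⟨d, hd⟩ := IsLocalization.exist_integer_multiples_of_finite (nonZeroDivisors ℤ)
    fun p : Fin 2 × Fin 2 => (γ⁻¹ : G0).1.val p.1 p.2
  choose a ha using hd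
  have d0 : ((d : ℤ) : ℚ) ≠ 0 := Int.cast_ne_zero.2 (nonZeroDivisors.coe_ne_zero d)
  have e : (Matrix.of fun i k => a (i, k)).map (Int.cast : ℤ → ℚ) =
      ((d : ℤ) : ℚ) • (γ⁻¹ : G0).1.val := by
    ext i k
    simpa using ha (i, k)
  have hA : 0 < (Matrix.of fun i k => a (i, k)).det := by
    have : (0 : ℚ) < ((Matrix.of fun i k => a (i, k)).det : ℤ) := by
      rw [Int.cast_det, e, Matrix.det_smul]
      exact mul_pos (by simp; positivity) (mem_G0.1 (γ⁻¹ : G0).2)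
    exact_mod_cast this
  have hz : gz _ hA * γ ∈ TQ.Z0 := mem_Z0.2 (by
    have : (gz _ hA * γ).1 = Matrix.GeneralLinearGroup.scalar _ (Units.mk0 _ d0) := Units.ext (by
      show (gz _ hA).1.val * γ.1.val = _
      rw [gz_val, e, smul_mul_assoc, show (γ⁻¹ : G0).1.val * γ.1.val = 1 from γ.1.inv_mul,
        Matrix.smul_one_eq_diagonal]
      rfl)
    exact this ▸ scalar_mem _)
  rw [← inv_mul_cancel_left (gz _ hA) γ, act_mul, act_Z0 hz, act_gz, ← M.cv_mkF x h, ← X.pb_coe]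
  exact cv_mem _

/-! ## the cyclotomic character -/

/-- the cyclotomic character -/
def ch : GQ →* Zhˣ :=
  (MulEquiv.piUnits (M := fun p : Pr => ℤ_[p])).symm.toMonoidHom.comp (MonoidHom.pi chi)

theorem dl_eq (s : GQ) : dl s = dE (ch s)⁻¹ := G_ext fun q => by
  rw [ev_dE]
  exact congrArg (dO ℚ_[q]) (Units.ext rfl)

theorem ru_ch (s : GQ) : ru E (ch s) = cyc E s := by
  refine Units.ext ?_
  rw [ru_val, ← ZMod.natCast_zmod_val (cyc E s : ZMod E), ← map_natCast (rz E), rz_eq]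
  intro q
  have : NeZero (q.1 ^ E.factorization q) := ⟨pow_ne_zero _ q.2.ne_zero⟩
  have hp := H853.zt_prim (q.1 ^ E.factorization q)
  have h1 := cyclotomicCharacter.spec q.1 s.toRingEquiv _ hp.pow_eq_one
  have h2 := cyc_spec (m := E) s ((hp.pow_eq_one_iff_dvd E).2 (Nat.ordProj_dvd E q))
  have h3 := h1.symm.trans h2
  rw [(hp.isOfFinOrder this.ne).pow_eq_pow_iff_modEq, ← hp.eq_orderOf, ← ZMod.natCast_eq_natCast_iff,
    ZMod.natCast_zmod_val] at h3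
  rw [← Ideal.mem_span_singleton, ← PadicInt.ker_toZModPow, RingHom.mem_ker, map_sub, sub_eq_zero]
  exact h3.trans (map_natCast _ _).symm

/-! ## classes -/

variable [CFF Qb (L (GE E))] {n : ℕ} {a a' : TQ.Hn n (UE E η)}
  {c c' : Zhˣ → HA Qb (L (GE E)) n} {X : Mdl} {φ : G → Mer}

/-- the class `a` has the Kummer classes `c e` on the components -/
def Kc (η : G) (a : TQ.Hn n (UE E η)) (c : Zhˣ → HA Qb (L (GE E)) n) : Prop :=
  ∃ φ, TQ.Kf n (UE E η) a φ ∧ ∀ e, Cm (φ (dE e * η⁻¹)) (c e)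

theorem Cm.dia (A : Act X E (H2 E) n) (hφ : φ ∈ TQ.RU (UE E η)) {y : HA Qb (L (GE E)) n}
    (h : Cm (φ (dE e * η⁻¹)) y) {u : (ZMod E)ˣ} (hu : ru E e' = u ^ 2 * ru E e) :
    Cm (φ (dE e' * η⁻¹)) (A.dia u y) := by
  obtain ⟨g, h1, h2⟩ := TW.In.ex_dm (NeZero.ne E) u
  exact h.rep (A.dia_rep u g h1 h2) fun f hf => by
    rw [TW.In.cv_pg, hf, val_pt hφ (conj_iZ.2 ⟨h1, u, h2, hu⟩)]

omit [CFF Qb (L (GE E))] in
theorem fv_pt (X : Mdl) (hφ : φ ∈ TQ.RU (UE E η)) (h : ∀ e, φ (dE e * η⁻¹) ∈ FS) : FV φ :=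
  fun x => by
  obtain ⟨e, r⟩ := rel_pt (E := E) (η := η) x
  obtain ⟨γ, u, hu, rfl⟩ := r.symm
  rw [RU_val hφ γ _ hu]
  exact fs_act X γ (h e)

variable (hn : 0 < n)

include hn

theorem Kc.dia (A : Act X E (H2 E) n) (h : Kc η a c) {u : (ZMod E)ˣ}
    (hu : ru E e' = u ^ 2 * ru E e) : c e' = A.dia u (c e) := by
  obtain ⟨φ, k, h⟩ := h
  exact (h e').unique ((h e).dia A (k.mem hn) hu)

theorem Kc.congr (A : Act X E (H2 E) n) (h : Kc η a c) (hu : ru E e' = ru E e) : c e' = c e :=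
  (h.dia hn A (e := e) (u := 1) (by rw [one_pow, one_mul, hu])).trans (by rw [map_one]; rfl)

theorem Kc.inj (h : Kc η a c) (h' : Kc η a' c') (e : ∀ x, c x = c' x) : a = a' := by
  obtain ⟨φ, k, h⟩ := h
  obtain ⟨φ', k', h'⟩ := h'
  refine k.eq_of_loc hn k' fun x => ?_
  obtain ⟨x', r⟩ := rel_pt (E := E) (η := η) x
  obtain ⟨v, hv, e⟩ := (h x').eq (e x' ▸ h' x')
  refine ⟨_, r, cv v, TQ.mem_KF.2 fun γ hγ => ?_, e⟩
  obtain ⟨g, hg, ζ, hζ, rfl⟩ := gam_ex hγ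
  rw [act_mul, act_Z0 hζ, act_iZ, hv g hg]

omit [NeZero E] in
theorem Kc.add (h : Kc η a c) (h' : Kc η a' c') : Kc η (a + a') fun e => c e + c' e := by
  obtain ⟨φ, k, h⟩ := h
  obtain ⟨φ', k', h'⟩ := h'
  exact ⟨_, k.mul hn k', fun e => (h e).mul (h' e)⟩

omit [NeZero E] in
theorem Kc.nsmul (h : Kc η a c) (m : ℕ) : Kc η (m • a) fun e => m • c e := by
  obtain ⟨φ, k, h⟩ := h
  exact ⟨_, k.pow hn m, fun e => (h e).pow m⟩

theorem Kc.rt (h : Kc η a c) {x : G} (d : Cor (UE E η) (dc (UE E η) x (UE E η)) (UE E η))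
    {e₀ : Zhˣ} (hx : x⁻¹ * (η * dE e₀ * η⁻¹) ∈ UE E η) :
    Kc η (TQ.hN n d a) fun e => c (e * e₀) := by
  obtain ⟨φ, k, h⟩ := h
  have nm : ∀ u ∈ UE E η, (η * dE e₀ * η⁻¹)⁻¹ * u * (η * dE e₀ * η⁻¹) ∈ UE E η := fun u hu => by
    have := mem_cj.1 ((cj_dE (E := E) e₀).ge (mem_cj.1 hu))
    exact mem_cj.2 (by simpa [mul_assoc] using this)
  have e : dc (UE E η) x (UE E η) = {y | (η * dE e₀ * η⁻¹)⁻¹ * y ∈ UE E η} := by
    ext y
    refine ⟨?_, fun hy => ⟨1, one_mem _, _, mul_mem hx hy, by group⟩⟩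
    rintro ⟨u, hu, v, hv, rfl⟩
    have := mul_mem (mul_mem (nm u hu) (inv_mem hx)) hv
    simpa [mul_assoc] using this
  refine ⟨_, k.hp hn d, fun e₁ => ?_⟩
  rw [e, (rep_one _).hp (k.mem hn).2, Finset.univ_unique, Finset.prod_singleton,
    show dE e₁ * η⁻¹ * (η * dE e₀ * η⁻¹) = dE (e₁ * e₀) * η⁻¹ by rw [map_mul]; group]
  exact h _

variable {κ : HA Qb (L (GE E)) n →+ SL(2, ℤ) → ZMod n} (k : Th.Kap (GE E) n κ)

include k

theorem Kc.ga (hT : THM X) (A : Act X E (H2 E) n) (h : Kc η a c) (s : GQ) :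
    ∃ a', TQ.Ga (th X s) n (UE E η) a a' ∧ Kc η a' fun e => A.act s (c ((ch s)⁻¹ * e)) := by
  obtain ⟨φ, k1, h⟩ := h
  have f : FV φ := fv_pt X (k1.mem hn) fun e => (h e).fs
  have h' : ∀ e, Cm (th X s φ (dE e * η⁻¹)) (A.act s (c ((ch s)⁻¹ * e))) := fun e =>
    (h _).rep (A.act_rep s) fun g hg => (th_val f (by
      rw [hg, dl_eq, map_mul, mul_assoc])).symm
  obtain ⟨a', k2⟩ := ex_kf_root okq UE_mem hn ((hT _ UE_mem).1 s φ (k1.mem hn) f).1 fun x =>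
    (rel_pt x).elim fun e r => ⟨_, r, (h' e).root k⟩
  exact ⟨a', (ga_iff hn).2 ⟨φ, f, k1, k2⟩, _, k2, h'⟩

theorem ex_kc (A : Act X E (H2 E) n) (h : ParC n (UE E η) a) : ∃ c, Kc η a c := by
  classical
  obtain ⟨z, rfl, hz⟩ := h
  obtain ⟨h, k1, h1⟩ := ex_kum_loc hn z.2
    (P := fun x r => ∃ e, x = dE e * η⁻¹ ∧ ∃ y : HA Qb (L (GE E)) n, Cm (r ^ n) y) fun x => by
    obtain ⟨e, r⟩ := rel_pt (E := E) (η := η) x
    obtain ⟨y, h1, h2, h3⟩ := ex_cm k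
      (c := fun g => if g ∈ GE E then z.1 (iZ g⁻¹) (dE e * η⁻¹) else 0)
      ⟨fun g hg g' hg' => by
        rw [if_pos hg, if_pos hg', if_pos (mul_mem hg hg'), mul_inv_rev, map_mul,
          coc_mul z.2 (gam_pt.2 (inv_mem hg')), add_comm],
      fun g t hg => by
        rw [if_pos hg]
        refine hz _ _ (gam_pt.2 (inv_mem hg)) ?_
        have := (pb_nq (-t)).conj (iZ g⁻¹)
        refine (congrArg Pb ?_).mp this
        rw [Th.pT, mul_inv_rev, mul_inv_rev, inv_inv, map_mul, map_mul, ← map_inv iZ, inv_inv,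
          mul_assoc, ← zpow_neg]
        congr 2
        refine Subtype.ext (Units.ext ?_)
        ext i j
        rw [iZ_apply, ModularGroup.coe_T_zpow]
        fin_cases i <;> fin_cases j <;> simp [nq, Tq.eU],
      by
        rw [(mem_Z1.1 z.2).2.2 _ (mem_Z0.2 (Subgroup.mem_center_iff.2 fun g => Units.ext (by
          have : (iZ (-1)⁻¹).1.val = -1 := by
            ext i j
            rw [iZ_apply]
            fin_cases i <;> fin_cases j <;> simp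
          rw [Units.val_mul, Units.val_mul, this, mul_neg_one, neg_one_mul]))), ite_self],
      fun g hg => if_neg hg⟩
    refine ⟨_, r, y, h1, ⟨e, rfl, h2⟩, fun γ hγ => ?_⟩
    obtain ⟨g, hg, ζ, hζ, rfl⟩ := gam_ex hγ
    have := h3 _ (inv_mem hg)
    rw [if_pos (inv_mem hg), inv_inv] at this
    rw [act_mul, act_Z0 hζ, act_iZ, coc_z0 z.2 _ hζ, this]
  have : ∀ e, ∃ y : HA Qb (L (GE E)) n, Cm ((h ^ n) (dE e * η⁻¹)) y := fun e => by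
    obtain ⟨_, r, e', rfl, y, h2⟩ := h1 (dE e * η⁻¹)
    obtain ⟨γ, u, hu, e1⟩ := r.symm
    obtain ⟨g, -, -, -, h3⟩ := ex_iZ (E := E) (e := e') (e' := e) (γ := γ⁻¹) (mem_pt (η := η).1 (by
      rw [e1, map_inv]
      simpa [mul_assoc] using hu))
    obtain ⟨-, v, -, h4⟩ := conj_iZ.1 h3
    exact ⟨_, Cm.dia A (k1.pow_mem hn) h2 h4⟩
  choose c hc using this
  exact ⟨c, _, ⟨z, h, rfl, k1, rfl⟩, hc⟩

end Vale.Agent.P022K.QT
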