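import Vale.Agent.P022K.QT.St
import Vale.Agent.P022K.QT.Par
import Vale.Agent.P022K.WB.YDefs

/-!
# P022K, block QT: logarithms of modular functions (definition)
-/

set_option autoImplicit false

noncomputable section

namespace Vale.Agent.P022K.QT

open Vale.Agent.P022 Vale.Agent.P022K.Sh WB
open Vale.Agent.P027M.M (Mdl FF cv M2)

theorem det_tp (p : ℕ) [h : Fact p.Prime] : 0 < (!![(p : ℤ), 0; 0, 1] : M2).det := by
  simpa using h.out.pos

/-- **a logarithm** on the modular functions -/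
structure Lq (X : Mdl) (p : ℕ) [Fact p.Prime] {C : Type} [NontriviallyNormedField C]
    [IsUltrametricDist C] [CharZero C] (e : Qb →+* C) (ψ : ℚ_[p] → C) (lg : FF → ℤ → C) :
    Prop where
  psi : Psi p ψ
  mem : ∀ f, f ≠ 0 → lg f ∈ BW p C
  mul : ∀ f g, f ≠ 0 → g ≠ 0 → lg (f * g) = lg f + lg g
  n : ∀ (m : ℤ) (k : ℕ) f g, f ≠ 0 → cv g = TQ.act (nq (m / p ^ k)) (cv f) →
    ∀ i, lg g i = ψ ((m / p ^ k : ℚ_[p]) * p ^ i) * lg f i
  t : ∀ f i, f ≠ 0 → lg (X.pb !![(p : ℤ), 0; 0, 1] (det_tp p) f) (i + 1) = lg f i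
  gal : ∀ (s : Iso C) (σ : GQ) f, f ≠ 0 → (∀ x, e (σ x) = s.1 (e x)) →
    ∀ i, lg (X.gal σ f) i = s.1 (lg f i)

end Vale.Agent.P022K.QT
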