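import Vale.Agent.P022K.QT.Cu1
import Vale.Agent.P022K.QT.WqSt
import Vale.Agent.P022K.QT.Gq1
import Vale.Agent.P022K.WB.Lo
import Vale.Agent.P022K.WB.Nv0
import Vale.Agent.P027M.J.IguA

/-!
# P022K, block QT: the logarithm on modular functions, flat functions
-/

set_option autoImplicit false

noncomputable section

namespace Vale.Agent.P022K.QT

open Vale.Agent.P022 Vale.Agent.P022K.Sh WB FI Vale.Agent.P027M Vale.Agent.P019P P025H816 P025H492
  P025H746
open Vale.Agent.P027M.M (Mdl FF cv cv_inj M2 L Lv GH)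
open Vale.Agent.P027M.G (AV Qv Inf)
open Vale.Agent.P027M.J.Igu (side)
open Vale.Agent.P022.H853 (cyc)
open Vale.Agent.P022.H443 (inP)

/-- the slice `1` of the logarithm -/
def lg1 {C : Type} [NontriviallyNormedField C] [IsUltrametricDist C] [CompleteSpace C]
    [IsAlgClosed C] (e : Qb →+* C) (p : ℕ) (f : FF) : ℤ → C := Cu.lg e p f 1

/-- **the logarithm** -/
theorem lq (X : Mdl) {p : ℕ} [hp : Fact p.Prime] (e : Qb →+* CS p) :
    Lq X p e (Cu.psi e) (lg1 e p) := by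
  have p0 : (p : ℚ) ≠ 0 := Nat.cast_ne_zero.2 hp.out.ne_zero
  refine ⟨Cu.psi_ok e, fun f h => Cu.lg_mem e p (CS.norm_p_lt p) h 1, fun f g h h' =>
    Cu.lg_mul e p h h' 1, fun m k f g h hg i => ?_, fun f i h => ?_,
    fun s σ f h hs i => Cu.lg_gal e p X h (s.1 : CS p →+* CS p) s.2 hs 1 i⟩
  · have k0 : 0 < p ^ k := pow_pos hp.out.pos k
    have hA : 0 < (!![((p ^ k : ℕ) : ℤ), -m; 0, ((p ^ k : ℕ) : ℤ)] : M2).det := by
      simpa using fun e => absurd e hp.out.ne_zero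
    have hz : gz _ hA * nq (m / p ^ k) ∈ TQ.Z0 := mem_Z0.2 (by
      have : (gz _ hA * nq (m / p ^ k)).1 =
          Matrix.GeneralLinearGroup.scalar _ (Units.mk0 _ (pow_ne_zero k p0)) := Units.ext (by
        show (gz _ hA).1.val * (nq (m / p ^ k)).1.val = _
        rw [gz_val]
        ext a b
        fin_cases a <;> fin_cases b <;> simp [nq, Tq.eU, Matrix.mul_apply, Fin.sum_univ_two]
        field_simp
        ring)
      exact this ▸ scalar_mem _)
    rw [← inv_mul_cancel_left (gz _ hA) (nq _), Tw.act_mul, Tw.act_Z0 hz, act_gz, ← X.pb_coe] at hg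
    rw [cv_inj hg, lg1, Cu.lg_pb e p X h (-m) k0 k0 hA, show ((m : ℚ_[p]) / p ^ k * p ^ i) =
      ((m / p ^ k * p ^ i : ℚ) : ℚ_[p]) by push_cast; rfl, Cu.psi_rat, lg1]
    · congr 3
      · push_cast
        ring
      · field_simp
    · rcases i with i | i
      · exact ⟨m * p ^ i, k, by simp; ring⟩
      · exact ⟨m, k + (i + 1), by simp [pow_add]; field_simp⟩
  · refine (Cu.lg_pb e p X h (a := p) (d := 1) 0 hp.out.pos one_pos (det_tp p) 1 (i + 1)).trans ?_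
    rw [← Cu.lg_shift, lg1]
    simp [Cu.E_zero, p0]

/-- **flat functions**: all translates have logarithm divisible by `p` -/
def Flt (X : Mdl) (p : ℕ) [Fact p.Prime] (e : Qb →+* CS p) (f : FF) : Prop :=
  ∀ (A : M2) (hA : 0 < A.det), ∃ l ∈ BW p (CS p), lg1 e p (X.pb A hA f) = p • l

instance {p : ℕ} [hp : Fact p.Prime] : NeZero p := ⟨hp.out.ne_zero⟩

/-- **ODDF**: inertia acts on flat Kummer classes of level `Γ1(p)` through the cyclotomic
character -/
def ODDF (X : Mdl) : Prop := ∀ (p : ℕ) [Fact p.Prime], p ≠ 2 → ∀ (e : Qb →+* CS p) P, Ab e P →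
  ∀ s ∈ inP P, cyc p s = -1 → ∀ M : ℕ, Lv M → ¬ p ∣ M → ∀ [CFF Qb (L (GE (M * p)))]
    (f : (L (GE (M * p)))ˣ), f ∈ divU Qb (L (GE (M * p))) p →
    Flt X p e ((f : L (GE (M * p))) : FF) → ∃ z ∈ L (GE (M * p)),
      X.gal s ((f : L (GE (M * p))) : FF) * ((f : L (GE (M * p))) : FF) = z ^ p

/-- **NRQ**: flat functions are near `p`-th powers for the norm of the expansions -/
def NRQ (X : Mdl) : Prop := ∀ (p : ℕ) [Fact p.Prime], p ≠ 2 → ∀ (e : Qb →+* CS p) (A : AV)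
  (O : ValuationSubring ℂ) (w : NV (Qv A) FF), A.On O → Inf O w → (∀ c, A.a c ≤ 1 ↔ ‖e c‖ ≤ 1) →
  ∀ ζ : Qv A, Nv.PZ p ζ → ∀ (N : ℕ) (H : Subgroup (ZMod N)ˣ), Lv N → -1 ∈ H →
  ∀ [CFF Qb (L (GH N H))] (f : L (GH N H)), f ≠ 0 →
    (∀ P : Plk Qb (L (GH N H)), (p : ℤ) ∣ ord P f) → Flt X p e (f : FF) →
    Nv.Nr p ζ (side w AlgEquiv.refl (GH N H)) f

end Vale.Agent.P022K.QT
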