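import Vale.Agent.P022K.QT.Galq
import Vale.Agent.P022K.Top.SiSt
import Vale.Agent.P022K.WB.Lo
import Vale.Agent.P027M.J.IguA

/-!
# P022K, block QT: the Galois action of a model is a Galois side; an inertial element of sign `-1`
-/

set_option autoImplicit false
set_option linter.all false

open scoped MatrixGroups NumberField

noncomputable section

namespace Vale.Agent.P022K.QT

open Vale.Agent.P022 Vale.Agent.P022K.Sh Vale.Agent.P022.H218.L3 Vale.Agent.P022.H231.L3 Sh.Tw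
open Vale.Agent.P027M Vale.Agent.P019P P025H816 P025H492
open Vale.Agent.P027M.M (GH FS FF L cv Mdl Act Lv)
open Vale.Agent.P022.H853 (cyc cyc_spec)
open Vale.Agent.P022.H443 (inP)
open Vale.Agent.P022E.GW (Ov Fb)

/-- every unit mod `p` is the cyclotomic character of an inertial element -/
theorem ex_in {p : ℕ} [NeZero p] {P : Ideal (𝓞 Qb)} (h : Ov p P) (u : (ZMod p)ˣ) :
    ∃ s ∈ inP P, cyc p s = u := by
  obtain ⟨s, h1, h2⟩ := TW.ram p h.1 P h.2.1 h.2.2 u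
  exact ⟨s, h1, J.Igu.cy_eq h.1.pos (fun ζ e => cyc_spec s e) h2⟩

/-- an inertial element which inverts the `p`-th roots of unity -/
theorem ex_s {p : ℕ} [Fact p.Prime] {e : Qb →+* FI.CS p} {P : Ideal (𝓞 Qb)} (h : WB.Ab e P) :
    ∃ s ∈ inP P, cyc p s = -1 := ex_in h.ov _

/-- **GALQ** for the action of a model -/
theorem galQ_th (X : Mdl) : Top.GalQ (th X) := by
  have hT := thm0 X
  have lv := lvq
  have fo := for_of hT
  have nl : ∀ U ∈ TQ.Nl, ∀ (E : ℕ) [NeZero E] η, UE E η ≤ U → UE E η ∈ TQ.Nl :=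
    fun U hU E _ η le => ⟨UE_mem, fun x γ h => hU.2 x γ (TQ.mem_Gam.2 (le (TQ.mem_Gam.1 h)))⟩
  intro p hp
  have p0 : ∀ k, 0 < p ^ k := pow_pos hp.pos
  refine ⟨⟨fun U hU => ?_, fun U hU k => (fo _ (p0 k) U hU.1).1,
    fun U hU k => (fo _ (p0 k) U hU.1).2.1, fun U hU k => (fo _ (p0 k) U hU.1).2.2.1,
    fun U hU U' hU' Q c k => (fo _ (p0 k) U hU.1).2.2.2.1 U' hU'.1 Q c,
    fun U hU k => (fo _ (p0 k) U hU.1).2.2.2.2 _ p (pow_succ' p k) hp.pos⟩,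
    fun l P h2 hl hP => ?_⟩
  · obtain ⟨E, η, h0, h4, le⟩ := (lv U hU.1).1
    have : NeZero E := ⟨h0.ne'⟩
    refine ⟨_, nl U hU E η le, le, fun k a ha => ?_⟩
    have pa := parq _ UE_mem _ (p0 k) a ha
    exact ⟨ga_ex hT ⟨h0, h4⟩ (p0 k) pa,
      (ga_fix hT ⟨h0, h4⟩ (p0 k) pa).imp fun _ h => ⟨h.1, h.2.1⟩⟩
  · have nd : ∀ k, ¬ l.1 ∣ p ^ k := fun k h =>
      hl ((Nat.prime_dvd_prime_iff_eq l.2 hp).1 (l.2.dvd_of_dvd_pow h))
    refine ⟨fun s hs => ⟨fun U hU h => ?_, fun U hU h _ => ?_⟩, fun φ hφ U hU h => ?_⟩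
    · obtain ⟨E, η, h0, h4, hN, -, le, -⟩ := ((lv U hU.1).2 l h2).1 h
      have : NeZero E := ⟨h0.ne'⟩
      refine ⟨_, nl U hU E η le, le, fun k a ha => ?_⟩
      obtain ⟨V, -, h5, h6⟩ := ga_fix hT ⟨h0, h4⟩ (p0 k) (parq _ UE_mem _ (p0 k) a ha)
      exact h5 s (h6 l P hP hN (nd k) hs)
    · obtain ⟨M, η, h0, h4, hN, hη, le, h5⟩ := ((lv U hU.1).2 l h2).2 h
      have : NeZero (M * l.1) := ⟨(Nat.mul_pos h0 l.2.pos).ne'⟩
      exact ⟨_, nl U hU _ η le, le, fun d d' k => ⟨h5, fun a ha => ga_tw hT ⟨h0, h4⟩ (p0 k)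
        (parq _ UE_mem _ (p0 k) a ha) hP hN (nd k) hη hs d d'⟩⟩
    · obtain ⟨E, η, h0, h4, hN, hη, le, h5⟩ := ((lv U hU.1).2 l h2).1 h
      have : NeZero E := ⟨h0.ne'⟩
      refine ⟨_, nl U hU E η le, le, h5, fun c k a ha => ?_⟩
      rw [qq_eq]
      exact ga_es hT ⟨h0, h4⟩ (p0 k) (parq _ UE_mem _ (p0 k) a ha) ht hP hN (nd k) hη hφ c

end Vale.Agent.P022K.QT
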