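import Vale.Agent.P022K.QT.Par
import Vale.Agent.P022K.QT.Locc
import Vale.Agent.P027M.M.Step
import Vale.Agent.P027M.Th.KDefs

/-!
# P022K, block QT: the level `Γ₀(N)` and the classical Hecke operators on homomorphisms
-/

set_option autoImplicit false

open scoped MatrixGroups TensorProduct

noncomputable section

namespace Vale.Agent.P022K.QT

open Vale.Agent.P022K.Sh Matrix
open Vale.Agent.P022.H231.L3 (IsDel al det_al)
open Vale.Agent.P027M.M (GH)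

/-! ## classical representatives of `T_l` -/

theorem l_pos (l : Pr) : (0 : ℤ) < (l : ℕ) * 1 := by simpa using l.2.pos

theorem l_pos' (l : Pr) : (0 : ℤ) < 1 * (l : ℕ) := by simpa using l.2.pos

/-- the adjugates of the classical representatives -/
def bl (l : Pr) (d : SL(2, ℤ)) : Option (Fin l) → G0
  | some j => bq (l : ℕ) (-(j.1 : ℤ)) 1 (l_pos l)
  | none => bq 1 0 (l : ℕ) (l_pos' l) * (iZ d)⁻¹

theorem bl_val (l : Pr) (d : SL(2, ℤ)) (i : Option (Fin l)) (a b : Fin 2) :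
    (bl l d i).1.val a b = ((al 1 l d i).adjugate a b : ℤ) := by
  cases i with
  | some j => fin_cases a <;> fin_cases b <;> simp [bl, bq_val, al, Matrix.adjugate_fin_two]
  | none =>
    rw [bl, ← map_inv, al, Matrix.adjugate_mul_distrib, ← Matrix.SpecialLinearGroup.coe_inv]
    generalize d⁻¹ = c
    fin_cases a <;> fin_cases b <;>
      simp [bq_val, iZ_apply, Matrix.mul_apply, Fin.sum_univ_two, Matrix.adjugate_fin_two]

theorem bl_step (l : Pr) {d γ g : SL(2, ℤ)} {i k : Option (Fin l)}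
    (h : al 1 l d i * (γ : Matrix (Fin 2) (Fin 2) ℤ) = (g : Matrix (Fin 2) (Fin 2) ℤ) * al 1 l d k) :
    bl l d i * iZ g = iZ γ * bl l d k := by
  have e := congrArg Matrix.adjugate h
  rw [Matrix.adjugate_mul_distrib, Matrix.adjugate_mul_distrib,
    ← Matrix.SpecialLinearGroup.coe_inv, ← Matrix.SpecialLinearGroup.coe_inv] at e
  rw [← mul_inv_eq_iff_eq_mul, mul_assoc, ← eq_inv_mul_iff_mul_eq, mul_inv_eq_iff_eq_mul, mul_assoc,
    eq_inv_mul_iff_mul_eq, ← inv_mul_eq_iff_eq_mul, ← mul_assoc, ← eq_mul_inv_iff_mul_eq,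
    ← map_inv, ← map_inv]
  refine Subtype.ext (Units.ext (Matrix.ext fun a b => ?_))
  have := congrArg (Int.cast : ℤ → ℚ) (congrFun (congrFun e a) b)
  simpa only [Subgroup.coe_mul, Units.val_mul, Matrix.mul_apply, Fin.sum_univ_two, bl_val, iZ_apply,
    Int.cast_add, Int.cast_mul] using this

theorem ex_equiv (l : Pr) : ∃ e : Fin l ≃ IsLocalRing.ResidueField ℤ_[l], ∀ j,
    ((-(j.1 : ℤ) : ℤ) : ℤ_[l]) - (e j).out ∈ IsLocalRing.maximalIdeal ℤ_[l] := by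
  have hb : Function.Bijective fun j : Fin l =>
      IsLocalRing.residue ℤ_[l] ((-(j.1 : ℤ) : ℤ) : ℤ_[l]) := by
    refine (Nat.bijective_iff_injective_and_card _).2 ⟨fun j k e => ?_, by
      rw [← qq, qq_eq, Nat.card_eq_fintype_card, Fintype.card_fin]⟩
    have := congrArg (PadicInt.residueField (p := l)) e
    simp only [Int.cast_neg, Int.cast_natCast, map_neg, map_natCast, neg_inj,
      ZMod.natCast_eq_natCast_iff', Nat.mod_eq_of_lt j.2, Nat.mod_eq_of_lt k.2] at this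
    exact Fin.ext this
  exact ⟨Equiv.ofBijective _ hb, fun j => Ideal.Quotient.eq.1 (Quotient.out_eq _).symm⟩

/-- **the Hecke operator with the classical representatives** -/
theorem hk_bl {U : Subgroup G} (hU : U ∈ TQ.Lev) (l : Pr) (hl : (lc l).At (Kl l) U)
    (d : SL(2, ℤ)) {x : G} (hx : ev l x ∈ Kl l ⊔ Zl ℚ_[l]) {B : Type} [AddCommMonoid B]
    {f : G → B} (hf : Inv U f) :
    hk ((lc l).To U) U f x = ∑ i, f (io l (jl l (bl l d i).1) * x) := by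
  have := Fintype.ofFinite (IsLocalRing.ResidueField ℤ_[l])
  obtain ⟨e, he⟩ := ex_equiv l
  rw [hl.hk_left hU hx (a := fun i => jl l (bl l d (e.optionCongr.symm i)).1) (fun i => ?_) hf]
  · exact e.optionCongr.symm.sum_comp fun i => f (io l (jl l (bl l d i).1) * x)
  obtain ⟨i, rfl⟩ := e.optionCongr.surjective i
  rw [Equiv.symm_apply_apply]
  cases i with
  | some j => exact tr_some l _ (he j) (l_pos l)
  | none =>
    rw [bl, Subgroup.coe_mul, map_mul, ← mul_assoc]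
    exact mul_mem (tr_none l _) (Subgroup.mem_sup_left
      (mem_K1.1 (j_K1.2 (inv_mem (⟨d, rfl⟩ : iZ d ∈ iZ.range))) l))

theorem jl_entry (q : Pr) {γ : G0} {A : Matrix (Fin 2) (Fin 2) ℤ} (e : ∀ i k, γ.1.val i k = A i k)
    (i k : Fin 2) : (jl q γ.1).val i k = (A i k : ℚ_[q]) := by
  change algebraMap ℚ ℚ_[q] (γ.1.val i k) = _
  rw [e, map_intCast]

theorem jl_Kl (q : Pr) {γ : G0} {A : Matrix (Fin 2) (Fin 2) ℤ} (e : ∀ i k, γ.1.val i k = A i k)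
    (hd : ¬ ((q : ℕ) : ℤ) ∣ A.det) : jl q γ.1 ∈ Kl q := by
  have u : IsUnit ((Int.castRingHom ℤ_[q]).mapMatrix A) := by
    rw [Matrix.isUnit_iff_isUnit_det, ← RingHom.map_det, PadicInt.isUnit_iff, eq_intCast]
    exact le_antisymm (PadicInt.norm_le_one _) (not_lt.1 fun h =>
      hd (PadicInt.norm_int_lt_one_iff_dvd _ |>.1 h))
  exact ⟨u.unit, Units.ext (Matrix.ext fun i k => (jl_entry q e i k).symm ▸ by simp)⟩

theorem away_PU (l : Pr) {V : ∀ p, Subgroup (Gl p)} {γ : G0} (h : ∀ q, q ≠ l → jl q γ.1 ∈ V q) :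
    (io l (jl l γ.1))⁻¹ * TQ.j γ ∈ PU V := mem_PU.2 fun q => by
  rw [map_mul, map_inv]
  by_cases e : q = l
  · subst e
    rw [ev_io]
    exact (inv_mul_cancel (jl q γ.1)).symm ▸ one_mem _
  · rw [ev_io_ne e, inv_one, one_mul]
    exact h q e

/-- the components are represented by the diagonal units -/
theorem gen_dU (x : G) {N : ℕ} (hN : 0 < N) : ∃ γ c, (TQ.j γ * dU c)⁻¹ * x ∈ KN N := by
  obtain ⟨γ, hγ⟩ := gen x
  choose k hk using mem_K1.1 hγ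
  have m : dU (fun p => (k p).det) ∈ KN 1 := mem_K1.2 fun p => dO_mem _
  obtain ⟨g, hg⟩ := dens_Z (mul_mem hγ (inv_mem m)) (fun p => by
    rw [map_mul, map_inv, map_mul, map_inv, ← hk, ev_dU, dO, det_dg, GeneralLinearGroup.map_det,
      mul_inv_eq_one]
    rfl) hN
  refine ⟨γ * iZ g, fun p => (k p).det, ?_⟩
  simpa [mul_assoc] using conj_KN m hN hg

/-! ## the level `Γ₀(N)` -/

/-- the local level `c ≡ 0` modulo `p ^ m` -/
def K0l (p : Pr) (m : ℕ) : Subgroup (Gl p) where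
  carrier := {g | g ∈ Kl p ∧ ‖g 1 0‖ ≤ (p : ℝ) ^ (-m : ℤ)}
  mul_mem' {a b} ha hb := by
    refine ⟨mul_mem ha.1 hb.1, ?_⟩
    rw [Units.val_mul, Matrix.mul_apply, Fin.sum_univ_two]
    refine (Padic.nonarchimedean _ _).trans (max_le ?_ ?_) <;> rw [norm_mul]
    · exact (mul_le_of_le_one_right (norm_nonneg _) ((mem_Kl.1 hb.1).1 0 0)).trans ha.2
    · exact (mul_le_of_le_one_left (norm_nonneg _) ((mem_Kl.1 ha.1).1 1 1)).trans hb.2
  one_mem' := ⟨one_mem _, by simp⟩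
  inv_mem' {a} ha := by
    refine ⟨inv_mem ha.1, ?_⟩
    rw [Matrix.coe_units_inv, Matrix.inv_def, Matrix.adjugate_fin_two]
    simpa [norm_det ha.1] using ha.2

theorem mem_K0l {p : Pr} {m : ℕ} {g : Gl p} :
    g ∈ K0l p m ↔ g ∈ Kl p ∧ ‖g 1 0‖ ≤ (p : ℝ) ^ (-m : ℤ) := Iff.rfl

theorem Km_le_K0l (p : Pr) (m : ℕ) : Km ℤ_[p] ℚ_[p] m ≤ K0l p m := fun _ hg =>
  ⟨(mem_Km.1 hg).1, by simpa using (mem_Km.1 hg).2 1 0⟩

theorem K0l_le (p : Pr) (m : ℕ) : K0l p m ≤ Kl p := fun _ h => h.1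

theorem K0l_zero (p : Pr) : K0l p 0 = Kl p :=
  le_antisymm (K0l_le p 0) (Km_zero.ge.trans (Km_le_K0l p 0))

theorem K0l_sup {p : Pr} {m : ℕ} {g : Gl p} (h : g ∈ Kl p) :
    g ∈ K0l p m ⊔ Zl ℚ_[p] ↔ g ∈ K0l p m := by
  refine ⟨fun h' => ?_, Subgroup.mem_sup_left⟩
  obtain ⟨k, hk, z, hz, rfl⟩ := Subgroup.mem_sup_of_normal_right.1 h'
  refine mul_mem hk ⟨(Subgroup.mul_mem_cancel_left _ hk.1).1 h, ?_⟩
  obtain ⟨c, rfl⟩ := scalar_of_mem hz
  simp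

/-- the level `Γ₀(N)` (with the centre) -/
def U0 (N : ℕ) : Subgroup G := PU fun p => K0l p (N.factorization p) ⊔ Zl ℚ_[p]

theorem UN_le_U0 (N : ℕ) : UN N ≤ U0 N := PU_mono fun p => sup_le_sup_right (Km_le_K0l p _) _

theorem U0_mem {N : ℕ} (hN : 0 < N) : U0 N ∈ TQ.Lev :=
  ⟨⟨N, hN, UN_le_U0 N⟩, 1, fun _ hx => mem_cj.2 (by
    simpa using mem_UN_one.2 fun p => sup_le_sup_right (K0l_le p _) _ (mem_PU.1 hx p))⟩

theorem at_U0 (p : Pr) {N : ℕ} (h : ¬ (p : ℕ) ∣ N) : (lc p).At (Kl p) (U0 N) :=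
  at_PU _ p (by rw [Nat.factorization_eq_zero_of_not_dvd h, K0l_zero])

theorem neat_U0 {N : ℕ} (hN : 0 < N) (h : 4 ∣ N) : TQ.Neat (U0 N) := by
  refine neat_K0 (U0_mem hN) fun u hu => ?_
  obtain ⟨_, ⟨⟨k, rfl⟩, hk⟩, z, hz, e⟩ := Subgroup.mem_sup_of_normal_right.1 (mem_PU.1 hu p2)
  refine ⟨k, z, hz, ?_, e⟩
  have := Ideal.mem_span_singleton.1 ((PadicInt.norm_le_pow_iff_mem_span_pow (k 1 0) _).1 hk)
  refine Dvd.dvd.trans ?_ ((pow_dvd_pow _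
    ((Nat.prime_two.pow_dvd_iff_le_factorization (k := 2) hN.ne').1 h)).trans this)
  exact dvd_of_eq (by norm_num [p2])

theorem dU_mem (c : ∀ p : Pr, ℤ_[p]ˣ) (N : ℕ) : dU c ∈ U0 N := mem_PU.2 fun p =>
  Subgroup.mem_sup_left ⟨dO_mem _, by simp [ev_dU, dO, dg_val]⟩

theorem gen_U0 {N : ℕ} (hN : 0 < N) (x : G) : ∃ γ, (TQ.j γ)⁻¹ * x ∈ U0 N := by
  obtain ⟨γ, c, h⟩ := gen_dU x hN
  exact ⟨γ, by simpa [mul_assoc] using mul_mem (dU_mem c N) (UN_le_U0 N (KN_le N h))⟩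

theorem dvd_iff_norm {N : ℕ} (hN : 0 < N) {a : ℤ} :
    (N : ℤ) ∣ a ↔ ∀ p : Pr, ‖(a : ℚ_[p])‖ ≤ (p : ℝ) ^ (-(N.factorization p : ℤ)) := by
  rw [← TP.int_mem_iff hN, TP.mem_Zn]
  exact forall_congr' fun p : Pr => by
    rw [map_intCast, Tq.norm_nat p hN, Tq.norm_pow_l, Nat.factorization_def _ p.2]

theorem mem_GH_top {N : ℕ} {g : SL(2, ℤ)} : g ∈ GH N ⊤ ↔ (N : ℤ) ∣ g 1 0 := by
  refine ⟨fun h => h.1, fun h => ⟨h, ⟨g 1 1, g 0 0, ?_, ?_⟩, trivial, rfl⟩⟩ <;>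
  · have := congrArg (Int.cast : ℤ → ZMod N) g.det_coe
    rw [Matrix.det_fin_two] at this
    push_cast at this
    rw [(ZMod.intCast_zmod_eq_zero_iff_dvd _ _).2 h] at this
    linear_combination this

theorem j_U0 {N : ℕ} (hN : 0 < N) {g : SL(2, ℤ)} : TQ.j (iZ g) ∈ U0 N ↔ g ∈ GH N ⊤ := by
  rw [mem_GH_top, dvd_iff_norm hN, U0, mem_PU]
  refine forall_congr' fun p => ?_
  have h := mem_K1.1 (j_K1.2 ⟨g, rfl⟩) p
  rw [K0l_sup h, mem_K0l, and_iff_right h, ← jl_entry p (iZ_apply g)]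
  rfl

theorem gam_U0 {N : ℕ} (hN : 0 < N) {g : SL(2, ℤ)} : iZ g ∈ TQ.Gam (U0 N) 1 ↔ g ∈ GH N ⊤ := by
  rw [Tw.mem_Gam, inv_one, one_mul, mul_one, j_U0 hN]

theorem gam_U0' {N : ℕ} (hN : 0 < N) {γ : G0} (h : γ ∈ TQ.Gam (U0 N) 1) :
    ∃ g ∈ GH N ⊤, ∃ ζ ∈ TQ.Z0, γ = iZ g * ζ := by
  obtain ⟨g, hg⟩ := mnq.split (γ := γ) (mem_UN_one.2 fun p => by
    have := mem_PU.1 (TQ.mem_Gam.1 h) p
    rw [inv_one, one_mul, mul_one] at this
    exact sup_le_sup_right (K0l_le p _) _ this)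
  refine ⟨g, (gam_U0 hN).1 ?_, _, hg, (mul_inv_cancel_left _ _).symm⟩
  simpa using mul_mem h (inv_mem (z0_le (U0_mem hN) 1 hg))

theorem bl_U0 {N : ℕ} (hN : 0 < N) (l : Pr) {d : SL(2, ℤ)} (hd : IsDel 1 N l d)
    (i : Option (Fin l)) : (io l (jl l (bl l d i).1))⁻¹ * TQ.j (bl l d i) ∈ U0 N := by
  refine away_PU l fun q hq => Subgroup.mem_sup_left ⟨jl_Kl q (bl_val l d i) ?_, ?_⟩
  · rw [Matrix.det_adjugate, det_al, Fintype.card_fin, Nat.add_one_sub_one, pow_one,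
      Int.natCast_dvd_natCast, Nat.prime_dvd_prime_iff_eq q.2 l.2]
    exact fun e => hq (Subtype.ext e)
  · rw [jl_entry q (bl_val l d i)]
    exact (dvd_iff_norm hN).1 (P022.H231.L3.RR.al hd i).adj.h10 q

variable {Λ B : Type} [CommRing Λ] [AddCommGroup B] [Module Λ B]

/-- **the dictionary**: `T_l` on cocycles of level `U0 N` is the classical operator -/
theorem hk_U0 {N : ℕ} (hN : 0 < N) (l : Pr) (hl : ¬ (l : ℕ) ∣ N) {d γ : SL(2, ℤ)}
    (hd : IsDel 1 N l d) {s : Equiv.Perm (Option (Fin l))} {g : Option (Fin l) → SL(2, ℤ)}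
    (hg : ∀ i, g i ∈ GH N ⊤) (e : ∀ i, al 1 l d i * (γ : Matrix (Fin 2) (Fin 2) ℤ) =
      (g i : Matrix (Fin 2) (Fin 2) ℤ) * al 1 l d (s i)) {z : G0 → G → B}
    (hz : z ∈ TQ.Z1 (Representation.trivial Λ G0 B) (U0 N)) :
    hk ((lc l).To (U0 N)) (U0 N) (z (iZ γ)) 1 = ∑ i, z (iZ (g i)) 1 := by
  rw [hk_bl (U0_mem hN) l (at_U0 l hl) d (by simp) (hz.1 _)]
  have k : ∀ i, z (iZ γ) (io l (jl l (bl l d i).1) * 1) = z (iZ (g i)) 1 +
      (z (bl l d i) (TQ.j (bl l d i)) - z (bl l d (s i)) (TQ.j (bl l d (s i)))) := fun i => by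
    rw [← hz.1 _ _ _ (bl_U0 hN l hd i), mul_one, mul_inv_cancel_left]
    have h1 := Tw.coc_pt hz (bl l d i) (iZ (g i)) (TQ.j (bl l d i))
    rw [bl_step l (e i), Tw.coc_pt hz, inv_mul_cancel,
      ← hz.1 _ ((TQ.j (iZ γ))⁻¹ * _) _ ((j_U0 hN).2 (hg i)), mul_assoc, ← map_mul, bl_step l (e i),
      map_mul, inv_mul_cancel_left] at h1
    simp only [Representation.trivial_apply] at h1
    rw [eq_sub_of_add_eq h1]
    abel
  rw [Finset.sum_congr rfl fun i _ => k i, Finset.sum_add_distrib, Finset.sum_sub_distrib,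
    Equiv.sum_comp s fun i => z (bl l d i) (TQ.j (bl l d i)), sub_self, add_zero]

theorem b1_U0 {N : ℕ} (hN : 0 < N) {z : G0 → G → B}
    (hz : z ∈ TQ.Z1 (Representation.trivial Λ G0 B) (U0 N)) :
    z ∈ TQ.B1 (Representation.trivial Λ G0 B) (U0 N) ↔ ∀ g ∈ GH N ⊤, z (iZ g) 1 = 0 := by
  constructor
  · rintro ⟨f, hf, e⟩ g hg
    rw [e, Pi.sub_apply, Tw.lt, Tw.gam_inv hf ((gam_U0 hN).2 hg), Representation.trivial_apply,
      sub_self]
  · refine fun h => Tw.B1_of hz (S := {1}) (fun x => ?_) ?_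
    · obtain ⟨γ, hγ⟩ := gen_U0 hN x
      exact ⟨1, rfl, γ, _, hγ, by group⟩
    · rintro _ rfl
      refine ⟨0, fun γ hγ => ?_⟩
      obtain ⟨g, hg, ζ, hζ, rfl⟩ := gam_U0' hN hγ
      rw [Tw.coc_z0 hz _ hζ, h g hg, map_zero, sub_self]

open Classical in
/-- the homomorphism on `Γ₀(N)` of a cocycle -/
def hm (N : ℕ) (z : G0 → G → B) (g : SL(2, ℤ)) : B := if g ∈ GH N ⊤ then z (iZ g) 1 else 0

theorem hm_apply {N : ℕ} (z : G0 → G → B) {g : SL(2, ℤ)} (h : g ∈ GH N ⊤) :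
    hm N z g = z (iZ g) 1 := if_pos h

theorem neg_one_z0 : iZ (-1) ∈ TQ.Z0 := mem_Z0.2
  (GeneralLinearGroup.mem_center_iff_val_mem_range_scalar.2 ⟨-1, by
    ext i k
    fin_cases i <;> fin_cases k <;> simp [iZ_apply]⟩)

theorem pb_pT (g : SL(2, ℤ)) (h : ℤ) : Pb (iZ (P027M.Th.pT g h)) := by
  have : Pb (iZ (ModularGroup.T ^ h)) := by
    rw [Pb, Matrix.trace_fin_two, Matrix.det_fin_two]
    simp only [iZ_apply, ModularGroup.coe_T_zpow]
    norm_num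
  simpa [P027M.Th.pT] using this.conj (iZ g)⁻¹

theorem hm_par {N : ℕ} (hN : 0 < N) {z : G0 → G → B}
    (hz : z ∈ TQ.Z1 (Representation.trivial Λ G0 B) (U0 N)) (hp : Par (U0 N) z) :
    P027M.Th.Par (GH N ⊤) (hm N z) where
  add γ hγ δ hδ := by
    rw [hm_apply z (mul_mem hγ hδ), hm_apply z hγ, hm_apply z hδ, map_mul,
      Tw.coc_mul hz ((gam_U0 hN).2 hγ)]
  par g h m := by rw [hm_apply z m, hp 1 _ ((gam_U0 hN).2 m) (pb_pT g h)]
  neg := by rw [hm_apply z (mem_GH_top.2 (by simp)), hz.2.2 _ neg_one_z0, Pi.zero_apply]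
  out γ h := if_neg h

/-- the classical data of `T_l` -/
theorem ex_step {N : ℕ} (hN : 0 < N) (l : Pr) (hl : ¬ (l : ℕ) ∣ N) : ∃ d, IsDel 1 N l d ∧
    ∀ γ ∈ GH N ⊤, ∃ (s : Equiv.Perm (Option (Fin l))) (g : Option (Fin l) → SL(2, ℤ)),
      (∀ i, g i ∈ GH N ⊤) ∧ (∀ i, al 1 l d i * (γ : Matrix (Fin 2) (Fin 2) ℤ) =
        (g i : Matrix (Fin 2) (Fin 2) ℤ) * al 1 l d (s i)) ∧
      ∀ (Λ B : Type) [CommRing Λ] [AddCommGroup B] [Module Λ B],
        ∀ z ∈ TQ.Z1 (Representation.trivial Λ G0 B) (U0 N),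
        ∑ i, hm N z (g i) = hm N (fun δ => hk ((lc l).To (U0 N)) (U0 N) (z δ)) γ := by
  obtain ⟨d, hd⟩ := IsDel.exists 1 N l (by
    rw [one_mul, Nat.isCoprime_iff_coprime]
    exact (Nat.Prime.coprime_iff_not_dvd l.2).2 hl)
  refine ⟨d, hd, fun γ hγ => ?_⟩
  obtain ⟨s, g, h⟩ := (P027M.M.step N l hN l.2).1 hl d hd γ hγ.1
  have hg := fun i => mem_GH_top.2 (h i).2.1
  refine ⟨s, g, hg, fun i => (h i).1, fun Λ B _ _ _ z hz => ?_⟩
  rw [hm_apply _ hγ, hk_U0 hN l hl hd hg (fun i => (h i).1) hz]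
  exact Finset.sum_congr rfl fun i _ => hm_apply z (hg i)

end Vale.Agent.P022K.QT
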