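import Vale.Agent.P022K.QT.Dic

/-!
# P022K, block QT: row LVQ (conjugates of the levels `UH E` are cofinal)
-/

set_option autoImplicit false

open scoped MatrixGroups

noncomputable section

namespace Vale.Agent.P022K.QT

open Vale.Agent.P022K.Sh Matrix

theorem dg_one' {K : Type} [Field K] : dg (1 : Kˣ) = 1 :=
  Units.ext (by simp [dg_val, Matrix.one_fin_two])

theorem cj_dg {K : Type} [Field K] (t : Kˣ) (u : GL (Fin 2) K) : (dg t * u * (dg t)⁻¹).val =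
    !![u 0 0, t * u 0 1; (t : K)⁻¹ * u 1 0, u 1 1] := by
  have e : (dg t)⁻¹ = dg t⁻¹ := inv_eq_of_mul_eq_one_right
    (Units.ext (by simp [dg_val, Matrix.one_fin_two]))
  rw [e, Units.val_mul, Units.val_mul, dg_val, dg_val]
  ext i k
  fin_cases i <;> fin_cases k <;>
    simp [Matrix.mul_apply, Fin.sum_univ_two, mul_comm, Matrix.vecMul, dotProduct]

theorem Kh_zero (p : Pr) : Kh p 0 = Kl p :=
  le_antisymm (Kh_le p 0) (Km_zero.ge.trans (Km_le_Kh p 0))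

theorem Kh_one (p : Pr) : Kh p 1 ⊔ Zl ℚ_[p] = Iw1 ℤ_[p] ℚ_[p] ⊔ Zl ℚ_[p] := by
  have key : ∀ k : GL (Fin 2) ℤ_[p], gK ℚ_[p] k ∈ Kh p 1 ⊔ Zl ℚ_[p] ↔
      GeneralLinearGroup.map (n := Fin 2) (IsLocalRing.residue ℤ_[p]) k ∈ Bu _ := fun k => by
    have e : ∀ x : ℤ_[p], (p : ℤ_[p]) ^ 1 ∣ x ↔ IsLocalRing.residue ℤ_[p] x = 0 := fun x => by
      rw [pow_one, IsLocalRing.residue_eq_zero_iff, PadicInt.maximalIdeal_eq_span_p,
        Ideal.mem_span_singleton]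
    rw [gK_mem_Kh, e, e, map_sub, sub_eq_zero]
    rfl
  refine le_antisymm (sup_le_sup_right (fun g hg => ?_) _) (sup_le ?_ le_sup_right)
  · obtain ⟨k, rfl⟩ := hg.1
    exact ⟨k, (key k).1 (Subgroup.mem_sup_left hg), rfl⟩
  · rintro _ ⟨k, hk, rfl⟩
    exact (key k).2 hk

/-- the local inclusion -/
theorem cj_Kh (p : Pr) (v : ℕ) :
    cj (dg ((lc p).ϖ ^ v)) (Kh p (2 * v) ⊔ Zl ℚ_[p]) ≤ U1 p v := by
  rcases v.eq_zero_or_pos with rfl | hv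
  · rw [pow_zero, dg_one', cj_one, Kh_zero, U1_zero]
  have hp : (1 : ℝ) < p := by exact_mod_cast p.2.one_lt
  have p0 : (p : ℝ) ≠ 0 := by positivity
  set t := (lc p).ϖ ^ v with ht
  have nt : ‖(t : ℚ_[p])‖ = (p : ℝ) ^ (-v : ℤ) := by
    rw [ht, Units.val_pow_eq_pow_val]
    exact Padic.norm_p_pow v
  have le : (p : ℝ) ^ (-v : ℤ) ≤ 1 := zpow_le_one_of_nonpos₀ hp.le (by omega)
  have b1 : ∀ u ∈ Kh p (2 * v), ‖t * u 0 1‖ ≤ (p : ℝ) ^ (-v : ℤ) := fun u hu => by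
    rw [norm_mul, nt]
    exact mul_le_of_le_one_right (by positivity) ((mem_Kl.1 hu.1).1 0 1)
  have b2 : ∀ u ∈ Kh p (2 * v), ‖(t : ℚ_[p])⁻¹ * u 1 0‖ ≤ (p : ℝ) ^ (-v : ℤ) := fun u hu => by
    rw [norm_mul, norm_inv, nt, inv_mul_le_iff₀ (by positivity), ← zpow_add₀ p0]
    refine hu.2.1.trans (le_of_eq ?_)
    congr 1
    push_cast
    ring
  have b3 : ∀ u ∈ Kh p (2 * v), ∀ i k, ‖(dg t * u * (dg t)⁻¹).val i k‖ ≤ 1 := fun u hu i k => by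
    rw [cj_dg]
    fin_cases i <;> fin_cases k
    exacts [(mem_Kl.1 hu.1).1 0 0, (b1 u hu).trans le, (b2 u hu).trans le, (mem_Kl.1 hu.1).1 1 1]
  intro y hy
  obtain ⟨u, hu, z, hz, e⟩ := Subgroup.mem_sup_of_normal_right.1 (mem_cj.1 hy)
  have e' : y = dg t * u * (dg t)⁻¹ * z := by
    rw [mul_assoc (dg t * u), Subgroup.mem_center_iff.1 hz, ← mul_assoc, mul_assoc (dg t), e]
    group
  have m : dg t * u * (dg t)⁻¹ ∈ Kl p := mem_Kl.2 ⟨b3 u hu, fun i k => by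
    rw [show (dg t * u * (dg t)⁻¹)⁻¹ = dg t * u⁻¹ * (dg t)⁻¹ by group]
    exact b3 _ (inv_mem hu) i k⟩
  have i1 := (mem_Kl.1 hu.1).1
  have le2 : (p : ℝ) ^ (-(2 * v : ℕ) : ℤ) ≤ (p : ℝ) ^ (-v : ℤ) :=
    zpow_le_zpow_right₀ hp.le (by omega)
  have na : ‖u 0 0‖ = 1 := by
    refine le_antisymm (i1 0 0) (not_lt.1 fun h => ?_)
    have d := norm_det hu.1
    rw [Matrix.det_fin_two, sub_eq_add_neg] at d
    refine (d.ge.trans (Padic.nonarchimedean _ _)).not_gt (max_lt ?_ ?_)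
    · rw [norm_mul]
      exact mul_lt_one_of_nonneg_of_lt_one_left (norm_nonneg _) h (i1 1 1)
    · rw [norm_neg, norm_mul]
      exact mul_lt_one_of_nonneg_of_lt_one_right (i1 0 1) (norm_nonneg _)
        ((hu.2.1.trans le2).trans_lt (zpow_lt_one_of_neg₀ hp (by omega)))
  have a0 : u 0 0 ≠ 0 := norm_ne_zero_iff.1 (by rw [na]; exact one_ne_zero)
  let c : ℚ_[p]ˣ := Units.mk0 _ a0
  have sc : ∀ c : ℚ_[p]ˣ, ‖(c : ℚ_[p])‖ = 1 → ∀ i k,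
      ‖(GeneralLinearGroup.scalar (Fin 2) c).val i k‖ ≤ 1 := fun c h i k => by
    by_cases e : i = k <;> simp [Matrix.diagonal, e, h]
  have mc : GeneralLinearGroup.scalar (Fin 2) c⁻¹ ∈ Kl p := mem_Kl.2 ⟨sc _ (by simp [c, na]), by
    rw [← map_inv, inv_inv]
    exact sc c na⟩
  rw [e']
  refine mul_mem ?_ (Subgroup.mem_sup_right hz)
  rw [← mul_mem_cancel_left (H := U1 p v) (Subgroup.mem_sup_right (scalar_mem c⁻¹))]
  refine Subgroup.mem_sup_left (mem_Km.2 ⟨mul_mem mc m, fun i k => ?_⟩)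
  have e2 : (GeneralLinearGroup.scalar (Fin 2) c⁻¹ * (dg t * u * (dg t)⁻¹)).val - 1 =
      (u 0 0)⁻¹ • !![0, t * u 0 1; (t : ℚ_[p])⁻¹ * u 1 0, -(u 0 0 - u 1 1)] := by
    rw [Units.val_mul, cj_dg, show (GeneralLinearGroup.scalar (Fin 2) c⁻¹).val =
      Matrix.scalar (Fin 2) (u 0 0)⁻¹ from rfl, Matrix.scalar_apply, ← Matrix.smul_eq_diagonal_mul]
    ext i k
    fin_cases i <;> fin_cases k <;> simp [mul_sub, a0]
  rw [e2, Matrix.smul_apply, smul_eq_mul, norm_mul, norm_inv, na, inv_one, one_mul]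
  fin_cases i <;> fin_cases k
  · exact norm_zero.le.trans (by positivity)
  · exact b1 u hu
  · exact b2 u hu
  · exact (norm_neg _).le.trans (hu.2.2.trans le2)

theorem et_one {F : ℕ} {p : Pr} (h : ¬ p.1 ∣ F) : dg ((lc p).ϖ ^ F.factorization p) = 1 := by
  rw [Nat.factorization_eq_zero_of_not_dvd h, pow_zero, dg_one']

/-- `diag (q ^ v, 1)` at `q`, `v` the exponent of `q` in `F` -/
def et (F : ℕ) (hF : 0 < F) : G := ⟨fun p => dg ((lc p).ϖ ^ F.factorization p),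
  show ∀ᶠ p : Pr in Filter.cofinite, dg ((lc p).ϖ ^ F.factorization p) ∈ Kl p from
    (fin_dvd hF).mono fun _ h => et_one h ▸ one_mem _⟩

theorem ev_et {F : ℕ} (hF : 0 < F) (p : Pr) :
    ev p (et F hF) = dg ((lc p).ϖ ^ F.factorization p) := rfl

theorem cj_PU (x : G) (V : ∀ p, Subgroup (Gl p)) :
    cj x (PU V) = PU fun p => cj (ev p x) (V p) := by
  ext y
  simp only [mem_cj, mem_PU, map_mul, map_inv]

theorem lv_any {U : Subgroup G} (hU : U ∈ TQ.Lev) :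
    ∃ E η, 0 < E ∧ 4 ∣ E ∧ cj η (UH E) ≤ U := by
  obtain ⟨N, hN, le⟩ := hU.1
  have hF : 0 < 2 * N := by omega
  refine ⟨(2 * N) ^ 2, et _ hF, pow_pos hF 2, ⟨N ^ 2, by ring⟩,
    le_trans ?_ ((UN_anti hF (dvd_mul_left _ _)).trans le)⟩
  rw [UH, cj_PU]
  refine PU_mono fun p => ?_
  rw [ev_et, Nat.factorization_pow, Finsupp.smul_apply, smul_eq_mul]
  exact cj_Kh p _

theorem lv_at {U : Subgroup G} (hU : U ∈ TQ.Lev) (l : Pr) (h2 : l.1 ≠ 2) {V : Subgroup (Gl l)}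
    (h : (lc l).At V U) (a : ℕ) (hV : Kh l a ⊔ Zl ℚ_[l] = V ⊔ Zl ℚ_[l]) :
    ∃ M η, 0 < M ∧ 4 ∣ M ∧ ¬ l.1 ∣ M ∧ ev l η = 1 ∧ cj η (UH (M * l.1 ^ a)) ≤ U ∧
      (lc l).At V (cj η (UH (M * l.1 ^ a))) := by
  obtain ⟨N, hN, le⟩ := hU.1
  obtain ⟨b, N', hl, rfl⟩ := Nat.exists_eq_pow_mul_and_not_dvd hN.ne' l.1 l.2.ne_one
  have h0 : 0 < N' := Nat.pos_of_mul_pos_left hN
  have hF : 0 < 2 * N' := by omega
  have nd : ¬ l.1 ∣ 2 * N' := fun d => (l.2.dvd_mul.1 d).elim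
    (fun d => h2 ((Nat.prime_dvd_prime_iff_eq l.2 Nat.prime_two).1 d)) hl
  have nd' : ¬ l.1 ∣ (2 * N') ^ 2 := fun d => nd (l.2.dvd_of_dvd_pow d)
  have e1 : ev l (et _ hF) = 1 := et_one nd
  have fa : ∀ {M : ℕ} (c : ℕ) (q : Pr), 0 < M → (M * l.1 ^ c).factorization q =
      M.factorization q + if l.1 = q.1 then c else 0 := fun c q hM => by
    rw [Nat.factorization_mul hM.ne' (pow_pos l.2.pos c).ne', l.2.factorization_pow,
      Finsupp.add_apply, Finsupp.single_apply]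
  have A : (lc l).At V (cj (et _ hF) (UH ((2 * N') ^ 2 * l.1 ^ a))) := by
    rw [UH, cj_PU]
    refine at_PU _ l ?_
    rw [e1, cj_one, fa a l (pow_pos hF 2), Nat.factorization_eq_zero_of_not_dvd nd', if_pos rfl,
      zero_add, hV]
  refine ⟨(2 * N') ^ 2, et _ hF, pow_pos hF 2, ⟨N' ^ 2, by ring⟩, nd', e1, fun y hy => ?_, A⟩
  rw [← mul_inv_cancel_left (io l (ev l y)) y]
  refine mul_mem ((h.iff hU).2 (A.2 y hy)) (le (mem_PU.2 fun q => ?_))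
  rw [map_mul, map_inv]
  by_cases e : q = l
  · subst e
    rw [ev_io, inv_mul_cancel]
    exact one_mem _
  · have ne : ¬ l.1 = q.1 := fun e' => e (Subtype.ext e'.symm)
    rw [UH, cj_PU] at hy
    have := mem_PU.1 hy q
    rw [ev_et, fa a q (pow_pos hF 2), if_neg ne, add_zero, Nat.factorization_pow,
      Finsupp.smul_apply, smul_eq_mul] at this
    rw [ev_io_ne e, inv_one, one_mul, mul_comm, fa b q h0, if_neg ne, add_zero]
    exact U1_anti q ((Nat.factorization_le_iff_dvd h0.ne' hF.ne').2 (dvd_mul_left _ _) q)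
      (cj_Kh q _ this)

theorem lv_K {U : Subgroup G} (hU : U ∈ TQ.Lev) (l : Pr) (h2 : l.1 ≠ 2)
    (h : (lc l).At (Kl l) U) : ∃ E η, 0 < E ∧ 4 ∣ E ∧ ¬ l.1 ∣ E ∧ ev l η = 1 ∧
      cj η (UH E) ≤ U ∧ (lc l).At (Kl l) (cj η (UH E)) := by
  simpa only [pow_zero, mul_one] using lv_at hU l h2 h 0 (by rw [Kh_zero])

theorem lv_I {U : Subgroup G} (hU : U ∈ TQ.Lev) (l : Pr) (h2 : l.1 ≠ 2)
    (h : (lc l).At (Iw1 ℤ_[l] ℚ_[l]) U) : ∃ M η, 0 < M ∧ 4 ∣ M ∧ ¬ l.1 ∣ M ∧ ev l η = 1 ∧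
      cj η (UH (M * l.1)) ≤ U ∧ (lc l).At (Iw1 ℤ_[l] ℚ_[l]) (cj η (UH (M * l.1))) := by
  simpa only [pow_one] using lv_at hU l h2 h 1 (Kh_one l)

end Vale.Agent.P022K.QT
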