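import Vale.Agent.P022K.QT.Gq2
import Vale.Agent.P022K.QT.Hom0
import Vale.Agent.P022K.QT.Lvq

/-!
# P022K, block QT: the Hecke operator on the components of the levels `UH E`
-/

set_option autoImplicit false

open scoped MatrixGroups

noncomputable section

namespace Vale.Agent.P022K.QT

open Vale.Agent.P022 Vale.Agent.P022K.Sh Vale.Agent.P022.H218.L3 Vale.Agent.P022.H231.L3 Sh.Tw

theorem rz_away {E : ℕ} [NeZero E] {l : Pr} (h : ¬ l.1 ∣ E) {x : Zh} {a : ℤ}
    (e : ∀ q, q ≠ l → x q = a) : rz E x = a := by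
  rw [← map_intCast (rz E), rz_eq]
  intro q
  by_cases hq : q = l
  · rw [hq, Nat.factorization_eq_zero_of_not_dvd h, pow_zero]
    exact one_dvd _
  · rw [e q hq]
    exact ⟨0, by simp⟩

theorem act_bl (l : Pr) (d : SL(2, ℤ)) (i : Option (Fin l)) (f : Mer) :
    TQ.act (bl l d i) f = pbz (al 1 l d i) (al_pos l.2.pos d i) f := by
  have hz : gz (al 1 l d i) (al_pos l.2.pos d i) * bl l d i ∈ TQ.Z0 := mem_Z0.2 (by
    have : (gz (al 1 l d i) (al_pos l.2.pos d i) * bl l d i).1 = Matrix.GeneralLinearGroup.scalar _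
        (Units.mk0 ((l : ℕ) : ℚ) (Nat.cast_ne_zero.2 l.2.ne_zero)) := Units.ext (by
      show (gz (al 1 l d i) (al_pos l.2.pos d i)).1.val * (bl l d i).1.val = _
      rw [gz_val, show (bl l d i).1.val = (al 1 l d i).adjugate.map (Int.cast : ℤ → ℚ) from
        Matrix.ext (bl_val l d i)]
      refine (Matrix.map_mul (f := Int.castRingHom ℚ)).symm.trans ?_
      rw [Matrix.mul_adjugate, det_al, Matrix.smul_one_eq_diagonal,
        Matrix.diagonal_map (map_zero _)]
      rfl)
    exact this ▸ scalar_mem _)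
  rw [← inv_mul_cancel_left (gz (al 1 l d i) (al_pos l.2.pos d i)) (bl l d i), act_mul, act_Z0 hz, act_gz]

/-- **HT** -/
theorem ht : HT := by
  intro E _ l h
  have : ∀ q : Pr, ∃ u : ℤ_[q]ˣ, q ≠ l → (u : ℤ_[q]) = ((l.1 : ℕ) : ℤ) := fun q => by
    by_cases hq : q = l
    · exact ⟨1, fun e => absurd hq e⟩
    · have : IsUnit (((l.1 : ℕ) : ℤ) : ℤ_[q]) := by
        rw [PadicInt.isUnit_iff]
        exact le_antisymm (PadicInt.norm_le_one _) (not_lt.1 fun e => hq (Subtype.ext
          ((Nat.prime_dvd_prime_iff_eq q.2 l.2).1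
            (Int.natCast_dvd_natCast.1 ((PadicInt.norm_int_lt_one_iff_dvd _).1 e)))))
      exact ⟨this.unit, fun _ => rfl⟩
  choose u hu using this
  have hl : (ru E (MulEquiv.piUnits.symm u) : ZMod E) = l.1 :=
    (rz_away h (x := (MulEquiv.piUnits.symm u : Zhˣ)) hu).trans (Int.cast_natCast _)
  refine ⟨_, hl, fun d hd η hη φ hφ e => ?_⟩
  generalize (MulEquiv.piUnits.symm u : Zhˣ) = lam at hl
  have at' : (lc l).At (Kl l) (cj η (UH E)) := by
    rw [UH, cj_PU]
    exact at_PU _ l (by rw [hη, cj_one, Nat.factorization_eq_zero_of_not_dvd h, Kh_zero])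
  have c := Lc.L0.cor (lc l) ⟨UE_mem, at'⟩
  have key := hk_bl UE_mem l at' d (x := dE (lam * e) * η⁻¹) (by
    rw [map_mul, map_inv, hη, inv_one, mul_one, ev_dE]
    exact Subgroup.mem_sup_left (dO_mem _)) (f := fun x => Additive.ofMul (φ x))
    fun x u hu => congrArg _ (hφ.2 x u hu)
  rw [hk_eq c, ← ofMul_prod, ← ofMul_prod] at key
  rw [hp_eq c, Finset.prod_apply]
  refine (Additive.ofMul.injective key).trans (Finset.prod_congr rfl fun i _ => ?_)
  obtain ⟨k, hk⟩ := ex_ka (x := (io l (jl l (bl l d i).1))⁻¹ * TQ.j (bl l d i)) (mem_K1.2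
    (mem_PU.1 (away_PU l fun q hq => jl_Kl q (bl_val l d i) fun e => hq (Subtype.ext (by
      rw [Matrix.det_adjugate, det_al, Fintype.card_fin, Nat.add_one_sub_one, pow_one] at e
      exact (Nat.prime_dvd_prime_iff_eq q.2 l.2).1 (Int.natCast_dvd_natCast.1 e))))))
  have e1 : ∀ a b, rz E (k a b) = ((al 1 l d i).adjugate a b : ℤ) := fun a b =>
    rz_away h fun q hq => Subtype.ext (by
      have := congrArg (fun x => (ev q x).val a b) hk
      simp only [map_mul, map_inv, ev_io_ne hq, inv_one, one_mul] at this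
      exact this.trans ((jl_entry q (bl_val l d i) a b).trans (PadicInt.coe_intCast _).symm))
  have m : (dE (lam * e))⁻¹ * ka k * dE e ∈ UH E := conj_UH.2 (by
    rw [e1, e1, e1, map_mul, Units.val_mul, hl, ← mul_assoc]
    have d0 := (ZMod.intCast_zmod_eq_zero_iff_dvd _ _).2 hd.1
    have d1 := (ZMod.intCast_zmod_eq_zero_iff_dvd _ _).2 hd.2.2
    have d2 := det_mod hd.1
    rw [Int.cast_sub, sub_eq_zero, Int.cast_natCast] at d1
    rw [d1] at d2
    cases i with
    | some j => simp [al, Matrix.adjugate_fin_two]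
    | none =>
      simp [al, Matrix.adjugate_fin_two, Matrix.mul_apply, Fin.sum_univ_two, d0, d1, d2])
  rw [← act_bl, ← RU_val hφ _ _ (inv_mem (mem_pt (η := η).2 m)), hk]
  congr 1
  group

theorem lvq : LVQ := fun _ hU => ⟨lv_any hU, fun l h2 => ⟨lv_K hU l h2, lv_I hU l h2⟩⟩

/-- **GALQ** from **THM** -/
theorem galq_thm (h : ∀ X, THM X) : GALQ :=
  P027M.M.mdl.elim fun X => galq_ht X (h X) ht lvq

end Vale.Agent.P022K.QT
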