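import Vale.Agent.P022K.QT.Wdq

/-!
# P022K, block QT: joint eigenclasses on a tower
-/

set_option autoImplicit false

noncomputable section

namespace Vale.Agent.P022K.Sh.Wq

open Vale.Agent.P022 Vale.Agent.P022.H218.L3 Tw Ap

/-- joint eigenvectors of a commuting family -/
theorem joint {K V I : Type} [Field K] [IsAlgClosed K] [AddCommGroup V] [Module K V]
    (f : I → V →ₗ[K] V) (n : ℕ) : ∀ (W : Submodule K V) [FiniteDimensional K W],
    Module.finrank K W = n → W ≠ ⊥ → (∀ i, ∀ v ∈ W, f i v ∈ W) →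
    (∀ i k, ∀ v ∈ W, f i (f k v) = f k (f i v)) →
    ∃ v ∈ W, v ≠ 0 ∧ ∀ i, ∃ c : K, f i v = c • v := by
  induction n using Nat.strong_induction_on with
  | _ n ih =>
  intro W _ hn h0 hW hc
  by_cases h : ∀ i, ∃ c : K, ∀ v ∈ W, f i v = c • v
  · obtain ⟨v, hv, hv0⟩ := (Submodule.ne_bot_iff W).1 h0
    exact ⟨v, hv, hv0, fun i => (h i).imp fun c hc => hc v hv⟩
  push Not at h
  obtain ⟨i, hi⟩ := h
  have : Nontrivial W := Submodule.nontrivial_iff_ne_bot.2 h0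
  obtain ⟨c, hc'⟩ := Module.End.exists_eigenvalue ((f i).restrict (hW i))
  obtain ⟨u, hu⟩ := hc'.exists_hasEigenvector
  have hu1 : f i u = c • (u : V) := congrArg Subtype.val hu.apply_eq_smul
  let W' : Submodule K V := W ⊓ LinearMap.ker (f i - c • LinearMap.id)
  have mem : ∀ v, v ∈ W' ↔ v ∈ W ∧ f i v = c • v := fun v => by
    simp [W', sub_eq_zero]
  have : FiniteDimensional K W' := Submodule.finiteDimensional_of_le inf_le_left
  have hlt : W' < W := lt_of_le_of_ne inf_le_left fun e => by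
    obtain ⟨v, hv, h1⟩ := hi c
    exact h1 ((mem v).1 (e ▸ hv)).2
  obtain ⟨v, hv, h1⟩ := ih _ (hn ▸ Submodule.finrank_lt_finrank_of_lt hlt) W' rfl
    ((Submodule.ne_bot_iff _).2 ⟨u, (mem _).2 ⟨u.2, hu1⟩, fun e => hu.2 (Subtype.ext e)⟩)
    (fun k v hv => (mem _).2 ⟨hW k v ((mem v).1 hv).1, by
      rw [hc i k v ((mem v).1 hv).1, ((mem v).1 hv).2, map_smul]⟩)
    fun a b v hv => hc a b v ((mem v).1 hv).1
  exact ⟨v, ((mem v).1 hv).1, h1⟩

variable {G0 G : Type} [Group G0] [Group G] {T : Tw G0 G} {U : Subgroup G}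
  {Λ B : Type} [Field Λ] [IsAlgClosed Λ] [AddCommGroup B] [Module Λ B]

/-- **joint eigenclasses**, for linear operators -/
theorem joint_lin (k : T.Ok0) (hU : U ∈ T.Lev) [Module.Finite Λ B] {ρ : Representation Λ G0 B}
    {Ω : Type} (A : Ω → (G → B) → G → B) (gd : ∀ ω, Good T U ρ (A ω))
    (sm : ∀ ω (c : Λ) φ, A ω (c • φ) = c • A ω φ)
    (com : ∀ ω ω' (φ : G → B), Inv U φ → A ω (A ω' φ) = A ω' (A ω φ)) {z : G0 → G → B}
    (hz : z ∈ T.Z1 ρ U) (h0 : z ∉ T.B1 ρ U) : ∃ z' ∈ T.Z1 ρ U, z' ∉ T.B1 ρ U ∧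
      (∀ ω, ∃ c, T.Eig ρ U z' (A ω) c) ∧ ∀ ω c, T.Eig ρ U z (A ω) c → T.Eig ρ U z' (A ω) c := by
  have := k.finH (ρ := ρ) hU
  let N := (T.B1 ρ U).submoduleOf (T.Z1 ρ U)
  let a : Ω → T.Z1 ρ U →ₗ[Λ] T.Z1 ρ U := fun ω =>
    { toFun := fun y => ⟨fun γ => A ω (y.1 γ), (gd ω).Z1 y.2⟩
      map_add' := fun _ _ => Subtype.ext (funext fun _ => (gd ω).add _ _)
      map_smul' := fun _ _ => Subtype.ext (funext fun _ => sm ω _ _) }
  let f : Ω → T.H1 ρ U →ₗ[Λ] T.H1 ρ U := fun ω => N.mapQ N (a ω) fun y hy => (gd ω).B1 hy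
  have eg : ∀ ω c (y : T.Z1 ρ U), T.Eig ρ U y.1 (A ω) c ↔ f ω (N.mkQ y) = c • N.mkQ y :=
    fun ω c y => (Submodule.Quotient.eq N (x := a ω y) (y := c • y)).symm
  have cm : ∀ ω ω' v, f ω (f ω' v) = f ω' (f ω v) := fun ω ω' v => by
    obtain ⟨y, rfl⟩ := N.mkQ_surjective v
    exact congrArg N.mkQ (Subtype.ext (funext fun γ => com ω ω' _ (y.2.1 γ)) :
      a ω (a ω' y) = a ω' (a ω y))
  let W : Submodule Λ (T.H1 ρ U) :=
    { carrier := {v | ∀ ω c, T.Eig ρ U z (A ω) c → f ω v = c • v}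
      add_mem' := fun h h' ω c e => by rw [map_add, h ω c e, h' ω c e, smul_add]
      zero_mem' := fun ω c _ => by rw [map_zero, smul_zero]
      smul_mem' := fun d v h ω c e => by rw [map_smul, h ω c e, smul_comm] }
  obtain ⟨v, hv, v0, ev⟩ := joint f _ W rfl ((Submodule.ne_bot_iff _).2
    ⟨N.mkQ ⟨z, hz⟩, fun ω c e => (eg ω c ⟨z, hz⟩).1 e, mt (Submodule.Quotient.mk_eq_zero _).1 h0⟩)
    (fun i v hv ω c e => by rw [cm, hv ω c e, map_smul]) fun _ _ v _ => cm _ _ v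
  obtain ⟨y, rfl⟩ := N.mkQ_surjective v
  exact ⟨y, y.2, fun n => v0 ((Submodule.Quotient.mk_eq_zero _).2 n),
    fun ω => (ev ω).imp fun c e => (eg ω c y).2 e, fun ω c e => (eg ω c y).2 (hv ω c e)⟩

omit [IsAlgClosed Λ] in
theorem op_sm (f : G →₀ Λ) (c : Λ) (φ : G → B) : op f (c • φ) = c • op f φ := funext fun x => by
  simp only [op_eq, Pi.smul_apply, Finset.smul_sum, smul_comm c]

/-- **joint eigenclasses** -/
theorem joint_cls (k : T.Ok0) (hU : U ∈ T.Lev) [Module.Finite Λ B] {ρ : Representation Λ G0 B}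
    {Ω : Type} (f : Ω → G →₀ Λ) (inv : ∀ ω (φ : G → B), Inv U φ → Inv U (op (f ω) φ))
    (com : ∀ ω ω' (φ : G → B), Inv U φ → op (f ω) (op (f ω') φ) = op (f ω') (op (f ω) φ))
    {z : G0 → G → B} (hz : z ∈ T.Z1 ρ U) (h0 : z ∉ T.B1 ρ U) :
    ∃ z' ∈ T.Z1 ρ U, z' ∉ T.B1 ρ U ∧ (∀ ω, ∃ c, T.Eig ρ U z' (op (f ω)) c) ∧
      ∀ ω c, T.Eig ρ U z (op (f ω)) c → T.Eig ρ U z' (op (f ω)) c :=
  joint_lin k hU _ (fun ω => good_op (inv ω)) (fun _ => op_sm _) com hz h0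

omit [IsAlgClosed Λ] in
/-- operators with commuting supports commute -/
theorem op_com {f f' : G →₀ Λ} (h : ∀ g ∈ f.support, ∀ g' ∈ f'.support, Commute g g')
    (φ : G → B) : op f (op f' φ) = op f' (op f φ) := by
  funext x
  simp only [op_eq, Finset.smul_sum]
  rw [Finset.sum_comm]
  refine Finset.sum_congr rfl fun i hi => Finset.sum_congr rfl fun j hj => ?_
  rw [smul_comm, mul_assoc, mul_assoc, (h j hj i hi).eq]

end Vale.Agent.P022K.Sh.Wq
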