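import Vale.Agent.P022K.QT.Locm

/-!
# P022K, block QT: the twist of completed cohomology by a quadratic character of the components
-/

set_option autoImplicit false

open scoped MatrixGroups

noncomputable section

namespace Vale.Agent.P022K.Sh

open Fre Vale.Agent.P022 Vale.Agent.P022.H218.L3

variable {G0 G : Type} [Group G0] [Group G]

/-- multiplication by a quadratic character -/
def nm {B : Type} [AddCommGroup B] (ν : G →* ℤˣ) (f : G → B) : G → B := fun x => ν x • f x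

section

variable {B : Type} [AddCommGroup B] {ν : G →* ℤˣ} {U U' : Subgroup G} {f : G → B}

theorem nm_nm (f : G → B) : nm ν (nm ν f) = f := funext fun x => by
  simp only [nm, smul_smul, Int.units_mul_self, one_smul]

theorem nm_add (f f' : G → B) : nm ν (f + f') = nm ν f + nm ν f' := funext fun _ => smul_add _ _ _

theorem nm_sub (f f' : G → B) : nm ν (f - f') = nm ν f - nm ν f' := funext fun _ => smul_sub _ _ _

theorem nm_zero : nm ν (0 : G → B) = 0 := funext fun _ => smul_zero _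

theorem nm_inv (hU : U ≤ ν.ker) (hf : Inv U f) : Inv U (nm ν f) := fun x u hu => by
  simp only [nm, map_mul, MonoidHom.mem_ker.1 (hU hu), mul_one, hf x u hu]

theorem rt_nm (g : G) (f : G → B) : rt g (nm ν f) = ν g • nm ν (rt g f) := funext fun x => by
  simp only [nm, rt, map_mul, Pi.smul_apply, smul_smul, mul_comm]

theorem hk_nm {Q : Set G} (c : Cor U' Q U) {ε : ℤˣ} (hQ : ∀ y ∈ Q, ν y = ε) (f : G → B) :
    hk Q U (nm ν f) = ε • nm ν (hk Q U f) := funext fun x => by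
  simp only [hk_eq c, nm, Pi.smul_apply, Finset.smul_sum, smul_smul, map_mul]
  exact Finset.sum_congr rfl fun y hy => by rw [hQ _ (c.fin.mem_toFinset.1 hy), mul_comm]

theorem dc_nu (hU : U ≤ ν.ker) (hU' : U' ≤ ν.ker) (g : G) : ∀ y ∈ dc U' g U, ν y = ν g := by
  rintro _ ⟨a, ha, b, hb, rfl⟩
  rw [map_mul, map_mul, MonoidHom.mem_ker.1 (hU' ha), MonoidHom.mem_ker.1 (hU hb), one_mul, mul_one]

end

namespace Tw

variable {T : Tw G0 G} {U U' : Subgroup G} {ν : G →* ℤˣ}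

section

variable {Λ B : Type} [CommRing Λ] [AddCommGroup B] [Module Λ B] (ρ : Representation Λ G0 B)
  (h0 : ∀ γ, ν (T.j γ) = 1)
include h0

theorem lt_nm (γ : G0) (f : G → B) : T.lt ρ γ (nm ν f) = nm ν (T.lt ρ γ f) := funext fun x => by
  simp only [lt, nm, map_mul, map_inv, h0, inv_one, one_mul, Units.smul_def, map_zsmul]

variable {ρ}

theorem Z1_nm (hU : U ≤ ν.ker) {z : G0 → G → B} (hz : z ∈ T.Z1 ρ U) :
    (fun γ => nm ν (z γ)) ∈ T.Z1 ρ U :=
  ⟨fun γ => nm_inv hU (hz.1 γ), fun γ δ => by simp only [hz.2.1, nm_add, lt_nm ρ h0],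
    fun γ hγ => by simp only [hz.2.2 γ hγ, nm_zero]⟩

theorem B1_nm (hU : U ≤ ν.ker) {z : G0 → G → B} (hz : z ∈ T.B1 ρ U) :
    (fun γ => nm ν (z γ)) ∈ T.B1 ρ U := by
  obtain ⟨f, h1, h2⟩ := hz
  exact ⟨nm ν f, nm_inv hU h1, fun γ => by simp only [h2, nm_sub, lt_nm ρ h0]⟩

variable (ρ)

/-- the twist on cocycles -/
def nZ (hU : U ≤ ν.ker) : T.Z1 ρ U →ₗ[Λ] T.Z1 ρ U where
  toFun z := ⟨_, Z1_nm h0 hU z.2⟩
  map_add' _ _ := Subtype.ext (funext fun _ => nm_add _ _)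
  map_smul' c z := Subtype.ext (funext fun γ => funext fun x => smul_comm (ν x) c (z.1 γ x))

/-- the twist on cohomology -/
def nH (hU : U ≤ ν.ker) : T.H1 ρ U →ₗ[Λ] T.H1 ρ U :=
  Submodule.mapQ _ _ (nZ ρ h0 hU) fun _ hz => B1_nm h0 hU hz

theorem nH_nH (hU : U ≤ ν.ker) (a : T.H1 ρ U) : nH ρ h0 hU (nH ρ h0 hU a) = a := by
  obtain ⟨z, rfl⟩ := Submodule.Quotient.mk_surjective _ a
  exact congrArg Submodule.Quotient.mk (Subtype.ext (funext fun γ => nm_nm _))

theorem hH_nH (hU : U ≤ ν.ker) (hU' : U' ≤ ν.ker) {Q : Set G} (c : Cor U' Q U) {ε : ℤˣ}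
    (hQ : ∀ y ∈ Q, ν y = ε) (a : T.H1 ρ U) :
    T.hH ρ c (nH ρ h0 hU a) = (ε : ℤ) • nH ρ h0 hU' (T.hH ρ c a) := by
  obtain ⟨z, rfl⟩ := Submodule.Quotient.mk_surjective _ a
  refine Eq.trans ?_ (map_zsmul (Submodule.mkQ _) _ _)
  exact congrArg Submodule.Quotient.mk (Subtype.ext (funext fun γ => hk_nm c hQ _))

end

/-- the twist modulo `n` -/
abbrev nN (n : ℕ) (h0 : ∀ γ, ν (T.j γ) = 1) (hU : U ≤ ν.ker) : T.Hn n U →ₗ[ZMod n] T.Hn n U :=
  nH (Representation.trivial (ZMod n) G0 (ZMod n)) h0 hU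

namespace Ax

variable {A : T.Ax} {p : ℕ} {M H : Type} [AddCommGroup M] [Group H]
  {a : Representation ℤ G M} {g : Representation ℤ H M} {th : H → (G → Mer) → G → Mer}
  {im : ∀ k U, T.Hn (p ^ k) U →+ M} (lk : A.Lk p a g th im)
include lk

theorem Lk.mem (hU : U ∈ T.Nl) (k : ℕ) (b : T.Hn (p ^ k) U) : im k U b ∈ Fv a U := by
  obtain ⟨b', h1, h2⟩ := lk.prj U hU k b
  exact h2 ▸ ((lk.bij U hU k).mapsTo h1).1

theorem Lk.res (hU : U ∈ T.Nl) (hU' : U' ∈ T.Nl) (c : Cor U' (U : Set G) U) (k : ℕ)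
    (b : T.Hn (p ^ k) U) : im k U' (T.hN (p ^ k) c b) = im k U b := by
  simp only [lk.cor U hU U' hU', hv, hk_self (inv_Fv (lk.mem hU k b)), map_one,
    Module.End.one_apply]

/-- the kernel of `im` is the Eisenstein part -/
theorem Lk.ker [NeZero p] (k0 : T.Ok0) (hA : A.Ok) (hU : U ∈ T.Nl) (k : ℕ) :
    ∃ s ∈ A.F, ∀ b, im k U b = 0 ↔ ∀ i ∈ s, ∀ h : U ∈ (A.w i).L0, ∃ n,
      ((T.hN (p ^ k) (Lc.L0.cor _ h) ∘ₗ T.hN (p ^ k) (Lc.L0.cor _ h) - (qq ℤ_[A.l i] + 1) ^ 2 •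
        (1 : Module.End (ZMod (p ^ k)) (T.Hn (p ^ k) U))) ^ n) b = 0 := by
  have := k0.finHn hU.1 (p ^ k)
  have : Finite (Module.End (ZMod (p ^ k)) (T.Hn (p ^ k) U)) :=
    Finite.of_injective _ DFunLike.coe_injective
  obtain ⟨s, hs, h1⟩ := A.Ne_eq (p ^ k) U
  replace h1 := h1 s hs subset_rfl
  let t : ∀ i, U ∈ (A.w i).L0 → Module.End (ZMod (p ^ k)) (T.Hn (p ^ k) U) := fun i h =>
    T.hN (p ^ k) (Lc.L0.cor _ h) ∘ₗ T.hN (p ^ k) (Lc.L0.cor _ h) - (qq ℤ_[A.l i] + 1) ^ 2 • 1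
  let t' : A.I → Module.End ℤ M := fun i =>
    (A.w i).Tv a * (A.w i).Tv a - (qq ℤ_[A.l i] + 1) ^ 2 • 1
  have e : ∀ i h b, im k U (t i h b) = t' i (im k U b) := fun i h b => by
    simp only [t, t', LinearMap.sub_apply, LinearMap.comp_apply, LinearMap.smul_apply,
      Module.End.one_apply, Module.End.mul_apply, map_sub, map_nsmul, lk.cor U hU U hU,
      Lc.L0.hv_To h (lk.mem hU k _)]
    rw [← Lc.L0.hv_To h (lk.mem hU k b), ← lk.cor U hU U hU _ (Lc.L0.cor _ h),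
      Lc.L0.hv_To h (lk.mem hU k _)]
  have cm : ∀ i i', Commute (t' i) (t' i') := fun i i' => by
    rcases eq_or_ne i i' with rfl | ne
    · exact Commute.refl _
    have c : Commute ((A.w i).Tv a) ((A.w i').Tv a) :=
      Commute.sum_left _ _ _ fun x _ => Commute.sum_right _ _ _ fun y _ =>
        ((A.w i).com _ _ ((hA.ne i i' ne).1 _)).map a
    have c' : ∀ x : Module.End ℤ M, ∀ n : ℕ, Commute x (n • 1) := fun x n =>
      (Commute.one_right x).smul_right n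
    exact (((c.mul_left c).mul_right (c.mul_left c)).sub_right (c' _ _)).sub_left (c' _ _).symm
  choose N N0 hN using fun i h => exists_idem (t i h)
  replace hN : ∀ i h, t i h ^ N i h * t i h ^ N i h = t i h ^ N i h := fun i h => by
    simpa only [mul_one] using hN i h 1 one_pos
  refine ⟨s, hs, fun b => ⟨fun hb i hi h => ⟨N i h, (lk.bij U hU k).injOn ?_ (zero_mem _) ?_⟩,
    fun hb => ?_⟩⟩
  · refine ((Ft_le hi h).trans h1.le) ((mem_Fit (N0 i h) (hN i h)).2 ?_)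
    rw [← Module.End.mul_apply, hN]
  · rw [pow_comm (e i h), hb, map_zero, map_zero]
  let P : Submonoid (Module.End ℤ M) :=
    Submonoid.closure {x | ∃ i ∈ s, ∃ h, x = 1 - t' i ^ N i h}
  have cP : ∀ x ∈ P, ∀ y ∈ P, Commute x y := fun x hx y hy =>
    Submonoid.closure_induction₂ (motive := fun x y _ _ => Commute x y) (by
      rintro _ _ ⟨i, -, h, rfl⟩ ⟨i', -, h', rfl⟩
      exact ((Commute.one_left _).sub_left ((Commute.one_right _).sub_right
        ((cm i i').pow_pow _ _)))) (fun x _ => Commute.one_left x) (fun x _ => Commute.one_right x)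
      (fun _ _ _ _ _ _ => Commute.mul_left) (fun _ _ _ _ _ _ => Commute.mul_right) hx hy
  have h2 : ∀ x ∈ P, x (im k U b) = im k U b := fun x hx =>
    Submonoid.closure_induction (motive := fun x _ => x (im k U b) = im k U b) (by
      rintro _ ⟨i, hi, h, rfl⟩
      obtain ⟨n, hn⟩ := hb i hi h
      have e1 : t i h ^ N i h = t i h ^ (N i h * (n + 1) - n) * t i h ^ n := by
        rw [← pow_add, Nat.sub_add_cancel (by nlinarith [N0 i h]), pow_mul,
          IsIdempotentElem.pow_succ_eq n (hN i h)]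
      rw [LinearMap.sub_apply, ← pow_comm (e i h), e1, Module.End.mul_apply,
        show (t i h ^ n) b = 0 from hn, map_zero, map_zero, sub_zero, Module.End.one_apply]) rfl
      (fun x y _ _ h h' => by rw [Module.End.mul_apply, h', h]) hx
  let W : Submodule (ZMod (p ^ k)) (T.Hn (p ^ k) U) :=
    { carrier := {b | ∃ x ∈ P, x (im k U b) = 0}
      zero_mem' := ⟨1, one_mem _, by simp⟩
      add_mem' := fun ⟨x, hx, e⟩ ⟨y, hy, e'⟩ => ⟨x * y, mul_mem hx hy, by
        rw [map_add, map_add, add_comm, Module.End.mul_apply, e', (cP x hx y hy).eq,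
          Module.End.mul_apply, e, map_zero, map_zero, add_zero]⟩
      smul_mem' := fun c _ ⟨x, hx, e⟩ => ⟨x, hx, by
        rw [← ZMod.natCast_zmod_val c, Nat.cast_smul_eq_nsmul, map_nsmul, map_nsmul, e,
          smul_zero]⟩ }
  have l : A.Ns (p ^ k) U s ≤ W := iSup₂_le fun i hi => iSup_le fun h x hx =>
    ⟨_, Submonoid.subset_closure ⟨i, hi, h, rfl⟩, by
      rw [LinearMap.sub_apply, ← pow_comm (e i h), (mem_Fit (N0 i h) (hN i h)).1 hx,
        Module.End.one_apply, sub_self]⟩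
  obtain ⟨b', h3, h4⟩ := lk.prj U hU k b
  obtain ⟨x, hx, h5⟩ := l (h1.ge h3)
  rw [← h2 x hx, ← h4, h5]

variable (h0 : ∀ γ, ν (T.j γ) = 1)
include h0

theorem Lk.ker_nH [NeZero p] (k0 : T.Ok0) (hA : A.Ok) (hU : U ∈ T.Nl) (le : U ≤ ν.ker) (k : ℕ)
    {b : T.Hn (p ^ k) U} (hb : im k U b = 0) : im k U (nN _ h0 le b) = 0 := by
  obtain ⟨s, -, hs⟩ := lk.ker k0 hA hU k
  refine (hs _).2 fun i hi h => ((hs b).1 hb i hi h).imp fun n hn => ?_
  refine (pow_comm (i := nN _ h0 le) (fun b => ?_) n b).symm.trans ((congrArg _ hn).trans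
    (map_zero _))
  have e := hH_nH (Representation.trivial (ZMod (p ^ k)) G0 (ZMod (p ^ k))) h0 le le
    (Lc.L0.cor _ h) (dc_nu le le _)
  simp only [LinearMap.sub_apply, LinearMap.comp_apply, LinearMap.smul_apply,
    Module.End.one_apply, map_sub, map_nsmul, e, map_zsmul, smul_smul, ← Units.val_mul,
    Int.units_mul_self, Units.val_one, one_smul]

/-- **the twist** -/
theorem Lk.twm [Fact p.Prime] [TopologicalSpace H] (k0 : T.Ok0) (hA : A.Ok) (cc : T.CC p a g)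
    (h1 : ∃ U ∈ T.Lev, U ≤ ν.ker) :
    ∃ m : Module.End ℤ M, m * m = 1 ∧ ∀ x, a x * m = ν x • (m * a x) := by
  let R : ℕ → Subgroup G → M → M → Prop := fun k U v v' => U ∈ T.Nl ∧ ∃ (le : U ≤ ν.ker)
    (b : T.Hn (p ^ k) U), im k U b = v ∧ im k U (nN _ h0 le b) = v'
  have up : ∀ {k U v v'} k', R k U v v' → R (k + k') U v v' := by
    rintro k U _ _ k' ⟨hU, le, b, rfl, rfl⟩
    obtain ⟨z, rfl⟩ := Submodule.Quotient.mk_surjective _ b
    let l : ZMod (p ^ k) →+ ZMod (p ^ (k + k')) :=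
      ZMod.lift _ ⟨zmultiplesHom _ (p ^ k' : ZMod (p ^ (k + k'))), by
        rw [zmultiplesHom_apply, natCast_zsmul, nsmul_eq_mul, ← Nat.cast_pow, ← Nat.cast_mul,
          ← pow_add, ZMod.natCast_self]⟩
    have hl : l 1 = p ^ k' := by
      rw [← Int.cast_one, ZMod.lift_coe]
      exact one_zsmul _
    let z' : T.Z1 (Representation.trivial (ZMod (p ^ (k + k'))) G0 (ZMod (p ^ (k + k')))) U :=
      ⟨fun γ x => l (z.1 γ x), fun γ x u hu => congrArg l (z.2.1 γ x u hu), fun γ δ =>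
        funext fun x => (congrArg l (congrFun (z.2.2.1 γ δ) x)).trans (map_add l _ _),
        fun γ hγ => funext fun x => (congrArg l (congrFun (z.2.2.2 γ hγ) x)).trans (map_zero l)⟩
    exact ⟨hU, le, Submodule.Quotient.mk z', lk.up U hU k k' _ _ l hl ⟨z, z', rfl, rfl,
      fun _ _ => rfl⟩, lk.up U hU k k' _ _ l hl ⟨nZ _ h0 le z, nZ _ h0 le z', rfl, rfl,
      fun γ x => (map_zsmul l _ _).symm⟩⟩
  have cor : ∀ {k U U' v v' Q} {ε : ℤˣ}, U' ∈ T.Nl → U' ≤ ν.ker → Cor U' Q U →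
      (∀ y ∈ Q, ν y = ε) → R k U v v' → R k U' (hv a Q U v) (ε • hv a Q U v') := by
    rintro k U U' _ _ Q ε hU' le' c hQ ⟨hU, le, b, rfl, rfl⟩
    refine ⟨hU', le', T.hN _ c b, lk.cor U hU U' hU' Q c k b, ?_⟩
    rw [← lk.cor U hU U' hU' Q c, hN, hC, hH_nH _ h0 le le' c hQ, map_zsmul, Units.smul_def,
      smul_smul, ← Units.val_mul, Int.units_mul_self, Units.val_one, one_smul]
  have fx : ∀ {k U v v'}, R k U v v' → v ∈ Fv a U ∧ v' ∈ Fv a U := by
    rintro k U _ _ ⟨hU, le, b, rfl, rfl⟩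
    exact ⟨lk.mem hU k _, lk.mem hU k _⟩
  have res : ∀ {k U U' v v'}, U' ∈ T.Lev → R k U v v' → R k (U ⊓ U') v v' := fun {k U U' v v'} hU' r => by
    have q := rep_one (U := U) 1
    have := cor (ε := ν 1) ⟨k0.inf U r.1.1 U' hU', r.1.2.of_le inf_le_left⟩
      (inf_le_left.trans r.2.1) ⟨fun u hu y hy => by simpa using U.mul_mem hu.1 (by simpa using hy),
        q.right, q.fin⟩ (fun y hy => by simpa using r.2.1 (by simpa using hy)) r
    simpa only [hv_one (fx r).1, hv_one (fx r).2, map_one, Module.End.one_apply, one_smul]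
      using this
  have two : ∀ {k k' U U' v v' w w'}, R k U v v' → R k' U' w w' →
      R (k + k') (U ⊓ U') (v - w) (v' - w') := fun {k k' U U' v v' w w'} r r' => by
    obtain ⟨hU, le, b, rfl, rfl⟩ := res r'.1.1 (up k' r)
    have := res r.1.1 (up k r')
    rw [add_comm, inf_comm] at this
    obtain ⟨-, -, b', rfl, rfl⟩ := this
    exact ⟨hU, le, b - b', map_sub _ _ _, by rw [map_sub, map_sub]⟩
  have uq : ∀ {k k' U U' v v' w'}, R k U v v' → R k' U' v w' → v' = w' := fun r r' => by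
    obtain ⟨hU, le, b, e, e'⟩ := two r r'
    rw [← sub_eq_zero, ← e', lk.ker_nH h0 k0 hA hU le _ (e.trans (sub_self _))]
  have ex : ∀ v, ∃ v' k U, R k U v v' := fun v => by
    obtain ⟨U, hU, hv⟩ := cc.sm v
    obtain ⟨U', hU', le⟩ := h1
    obtain ⟨k, hk⟩ := cc.tor v
    have n : U ⊓ U' ∈ T.Nl := ⟨k0.inf U hU.1 U' hU', hU.2.of_le inf_le_left⟩
    obtain ⟨b, -, e⟩ := (lk.bij _ n k).surjOn ⟨fun u hu => hv u hu.1, hk⟩
    exact ⟨_, k, _, n, inf_le_right.trans le, b, e, rfl⟩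
  choose m k U hm using ex
  refine ⟨(AddMonoidHom.ofMapSub m fun v w => uq (hm _) (two (hm v) (hm w))).toIntLinearMap,
    LinearMap.ext fun v => ?_, fun x => LinearMap.ext fun v => ?_⟩
  · obtain ⟨hU, le, b, e, e'⟩ := hm v
    exact uq (hm (m v)) ⟨hU, le, _, e', by rw [nH_nH, e]; rfl⟩
  · have r := hm v
    have q := rep_one (U := U v) x
    have := cor (U' := cj x (U v)) (ε := ν x) ⟨k0.conj _ r.1.1 x, fun y γ hγ => r.1.2 (y * x) γ
      (T.mem_Gam.2 (by simpa [mul_assoc] using mem_cj.1 (T.mem_Gam.1 hγ)))⟩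
      (fun y hy => by simpa [mul_right_comm _ (ν y)] using r.2.1 (mem_cj.1 hy))
      ⟨fun u hu y hy => by simpa [mul_assoc] using (U v).mul_mem (mem_cj.1 hu) hy, q.right, q.fin⟩
      (fun y hy => by
        have := r.2.1 hy
        rw [MonoidHom.mem_ker, map_mul, map_inv, inv_mul_eq_one] at this
        exact this.symm) r
    rw [hv_one (fx r).1, hv_one (fx r).2] at this
    show a x (m v) = ν x • m (a x v)
    rw [uq (hm _) this, smul_smul, Int.units_mul_self, one_smul]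

/-- the twist after base change -/
theorem Lk.twb [Fact p.Prime] [TopologicalSpace H] (k0 : T.Ok0) (hA : A.Ok) (cc : T.CC p a g)
    (h1 : ∃ U ∈ T.Lev, U ≤ ν.ker) (O : Type) [CommRing O] :
    ∃ m : Module.End O (TensorProduct ℤ O M), m * m = 1 ∧ ∀ x, Module.End.baseChangeHom ℤ O M (a x) *
      m = ν x • (m * Module.End.baseChangeHom ℤ O M (a x)) := by
  obtain ⟨m, h2, h3⟩ := lk.twm h0 k0 hA cc h1
  exact ⟨Module.End.baseChangeHom ℤ O M m, by rw [← map_mul, h2, map_one], fun x => by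
    rw [← map_mul, h3, Units.smul_def, map_zsmul, map_mul, Units.smul_def]⟩

end Ax

end Tw

end Vale.Agent.P022K.Sh
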