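import Vale.Agent.P022K.QT.If2
import Vale.Agent.P022K.QT.Locm
import Vale.Agent.P022K.F0.ApeA
import Vale.Agent.P022K.F0.ApeW

/-!
# P022K, block QT: number fields of eigenvalues, weights at one place, classes give vectors
-/

set_option autoImplicit false

open scoped MatrixGroups TensorProduct

noncomputable section

namespace Vale.Agent.P022K.Sh.Wq

open Vale.Agent.P022 Vale.Agent.P022.H218.L3 Tw Ap

variable {G0 G : Type} [Group G0] [Group G] {T : Tw G0 G} {U U' : Subgroup G}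

theorem exGen (k : T.Ok0) (hU : U ∈ T.Lev) : ∃ (I : Type) (_ : Fintype I) (g : I → G0)
    (c : I → T.DC U), Gen T U g c := by
  have : Finite (T.DC U) := by
    obtain ⟨S, hS⟩ := k.fin U hU
    refine Finite.of_surjective (fun s : S => T.cls U s) fun c => ?_
    obtain ⟨s, hs, e⟩ := hS (rq c)
    exact ⟨⟨s, hs⟩, (cls_eq.2 e).symm.trans (cls_rq c)⟩
  choose S hS using fun c : T.DC U => k.fg U hU (rq c)
  refine ⟨Σ c, S c, Fintype.ofFinite _, fun i => i.2, fun i => i.1, fun i => ?_,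
    fun x => ?_, fun c => ?_⟩
  · rw [hS]
    exact Subgroup.mem_sup_left (Subgroup.subset_closure i.2.2)
  · obtain ⟨_, h⟩ := k.fg U hU x
    exact h ▸ le_sup_right
  · rw [hS]
    refine sup_le_sup_right (Subgroup.closure_mono fun γ h => ?_) _
    exact ⟨⟨c, γ, h⟩, rfl, rfl⟩

section

variable {Λ B : Type} [CommRing Λ] [AddCommGroup B] [Module Λ B] {ρ : Representation Λ G0 B}

theorem op_eq (f : G →₀ Λ) (φ : G → B) (x : G) :
    op f φ x = ∑ g ∈ f.support, f g • φ (x * g) := Finset.sum_apply _ _ _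

theorem op_sum {I : Type} (s : Finset I) (r : I → G) (c : I → Λ) (φ : G → B) :
    op (∑ i ∈ s, Finsupp.single (r i) (c i)) φ = ∑ i ∈ s, c i • rt (r i) φ := by
  rw [op, ← Finsupp.sum_finsetSum_index (h := fun g c => c • rt g φ) (fun _ => zero_smul _ _)
    fun _ _ _ => add_smul _ _ _]
  exact Finset.sum_congr rfl fun i _ => Finsupp.sum_single_index (zero_smul _ _)

theorem good_op {f : G →₀ Λ} (h : ∀ φ : G → B, Inv U φ → Inv U (op f φ)) : Good T U ρ (op f) :=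
  ⟨fun φ φ' => funext fun x => by
    simp only [op_eq, Pi.sub_apply, smul_sub, Finset.sum_sub_distrib],
   fun γ φ => funext fun x => by simp only [op_eq, Tw.lt, map_sum, map_smul, mul_assoc], h⟩

/-- invariance may be tested on scalar functions -/
theorem inv_pi {n : Type} {f : G →₀ Λ} (h : ∀ φ : G → Λ, Inv U φ → Inv U (op f φ))
    (φ : G → n → Λ) (hφ : Inv U φ) : Inv U (op f φ) := fun x u hu => funext fun i => by
  simpa only [op_eq, Finset.sum_apply, Pi.smul_apply] using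
    h (fun y => φ y i) (fun y v hv => congrFun (hφ y v hv) i) x u hu

theorem Z1_anti (le : U' ≤ U) : T.Z1 ρ U ≤ T.Z1 ρ U' := fun _ h =>
  ⟨fun γ x u hu => h.1 γ x u (le hu), h.2⟩

theorem B1_anti (le : U' ≤ U) : T.B1 ρ U ≤ T.B1 ρ U' := fun _ ⟨f, h, e⟩ =>
  ⟨f, fun x u hu => h x u (le hu), e⟩

theorem eig_congr {z : G0 → G → B} {A A' : (G → B) → G → B} (h : ∀ γ, A (z γ) = A' (z γ)) {c : Λ}
    (e : T.Eig ρ U z A c) : T.Eig ρ U z A' c := by
  rwa [Eig, ← funext h]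

theorem eig_smul {z : G0 → G → B} {A : (G → B) → G → B} {c : Λ} (e : T.Eig ρ U z A c) (d : Λ) :
    T.Eig ρ U z (fun φ => d • A φ) (d * c) := by
  have := Submodule.smul_mem _ d e
  rwa [smul_sub, smul_smul] at this

section

variable {O K : Type} [CommRing O] [IsDomain O] [IsDiscreteValuationRing O] [Field K] [Algebra O K]
  {w : T.Lc O K}

theorem op_Tg (hU : U ∈ w.L0) {φ : G → B} (h : Inv U φ) : op (w.Tg Λ) φ = hk (w.To U) U φ := by
  have := w.fin
  let _ := Fintype.ofFinite (IsLocalRing.ResidueField O)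
  funext x
  rw [(hU.2.rep_To hU.1).hk h, Lc.Tg, op_sum, Finset.sum_apply]
  exact Finset.sum_congr rfl fun i _ => one_smul _ _

theorem inv_Tg (hU : U ∈ w.L0) (φ : G → B) (h : Inv U φ) : Inv U (op (w.Tg Λ) φ) :=
  op_Tg (Λ := Λ) hU h ▸ hk_inv (Lc.L0.cor w hU) h

theorem lev_inf (k : T.Ok0) (hU : U ∈ T.Lev) (n : ℕ) :
    U ⊓ (Km O K n ⊔ Zl K).comap w.π ∈ T.Lev :=
  k.mid _ (k.inf U hU _ (w.lev U hU n)) U hU _
    (inf_le_inf_left _ (w.at_set (Km O K n) U).2) inf_le_left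

end

end

/-- a class that dies on a smaller level is zero -/
theorem B1_of_le {Λ B : Type} [Field Λ] [CharZero Λ] [AddCommGroup B] [Module Λ B]
    {ρ : Representation Λ G0 B} (le : U' ≤ U) (fi : U'.relIndex U ≠ 0) {z : G0 → G → B}
    (hz : z ∈ T.Z1 ρ U) (h : z ∈ T.B1 ρ U') : z ∈ T.B1 ρ U := by
  have c : Cor U (dc U 1 U') U' := cor_dc (by
    rwa [show cj 1 U' = U' from Subgroup.ext fun _ => by simp [mem_cj]])
  have m : ∀ q ∈ c.fin.toFinset, q.out ∈ U := fun q hq => by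
    obtain ⟨a, ha, b, hb, e⟩ := c.fin.mem_toFinset.1 hq
    rw [e, mul_one]
    exact mul_mem ha (le hb)
  have n0 : (c.fin.toFinset.card : Λ) ≠ 0 := Nat.cast_ne_zero.2 (Finset.card_ne_zero.2 (by
    obtain ⟨i, hi, -⟩ := c.rep.sur 1 ⟨1, one_mem _, 1, one_mem _, by simp⟩
    exact ⟨i, hi⟩))
  obtain ⟨f, hf, e⟩ := h
  refine (Submodule.smul_mem_iff _ n0).1 ⟨hk (dc U 1 U') U' f, hk_inv c hf, fun γ => ?_⟩
  rw [← T.hk_lt ρ c]
  funext x
  rw [Pi.sub_apply, hk_eq c, hk_eq c, ← Finset.sum_sub_distrib,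
    Pi.smul_apply, Pi.smul_apply, Nat.cast_smul_eq_nsmul, ← Finset.sum_const]
  exact Finset.sum_congr rfl fun q hq => (hz.1 γ x _ (m q hq)).symm.trans (congrFun (e γ) _)

/-- **the eigenvalues of one class lie in a number field** -/
theorem nf (k : T.Ok0) (hU : U ∈ T.Lev) {n : Type} [Finite n] {ρ : Representation Qb G0 (n → Qb)}
    (h1 : ∀ (σ : Qb ≃ₐ[ℚ] Qb) γ v, σ ∘ ρ γ v = ρ γ (σ ∘ v)) {z : G0 → G → n → Qb}
    (hz : z ∈ T.Z1 ρ U) (h0 : z ∉ T.B1 ρ U) (A : Finset Qb) :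
    ∃ (K : IntermediateField ℚ Qb) (_ : FiniteDimensional ℚ K), (∀ x ∈ A, x ∈ K) ∧
      ∀ f : G →₀ Qb, (∀ g, f g ∈ K) → (∀ φ : G → Qb, Inv U φ → Inv U (op f φ)) →
        ∀ c, T.Eig ρ U z (op f) c → c ∈ K := by
  obtain ⟨I, _, g, c, hg⟩ := exGen k hU
  let X : Set Qb := A ∪ Set.range fun p : I × n => z (g p.1) (rq (c p.1)) p.2
  have : Finite X := (A.finite_toSet.union (Set.finite_range _)).to_subtype
  refine ⟨IntermediateField.adjoin ℚ X, IntermediateField.finiteDimensional_adjoin fun x _ =>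
    (Algebra.IsAlgebraic.isAlgebraic x).isIntegral,
    fun x hx => IntermediateField.subset_adjoin _ _ (Or.inl hx), fun f hf h a e => ?_⟩
  rw [← InfiniteGalois.fixedField_fixingSubgroup (IntermediateField.adjoin ℚ X)]
  rintro ⟨σ, hσ⟩
  let l : (n → Qb) →+ n → Qb := (σ : Qb →+* Qb).toAddMonoidHom.compLeft n
  have z1 := sub_mem (co_Z1 l (h1 σ) hz) hz
  have b1 : (fun γ x => l (z γ x)) - z ∈ T.B1 ρ U := by
    rw [hg.nz_zero z1 fun i => sub_eq_zero.2 (funext fun j =>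
      hσ ⟨_, IntermediateField.subset_adjoin _ _ (Or.inr ⟨(i, j), rfl⟩)⟩)]
    exact cob_mem fun x u hu => congrArg Neg.neg (fz_inv z1.1 x u hu)
  have e1 : T.Eig ρ U (fun γ x => l (z γ x)) (op f) (σ a) := by
    refine (congrArg (· ∈ T.B1 ρ U) (funext fun γ => funext fun x => ?_)).mp (co_B1 l (h1 σ) e)
    simp only [Pi.sub_apply, Pi.smul_apply, op_eq, map_sub, map_sum]
    congr 1
    · refine Finset.sum_congr rfl fun y _ => funext fun j => (map_mul σ _ _).trans ?_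
      rw [show σ (f y) = f y from hσ ⟨_, hf y⟩]
      rfl
    · funext j
      exact map_mul σ _ _
  have e2 := sub_mem ((good_op (inv_pi h)).eig b1 e) e1
  rw [sub_sub_sub_cancel_left, ← sub_smul] at e2
  by_contra hc
  have e3 := sub_mem (Submodule.smul_mem _ (σ a - a)⁻¹ e2) b1
  rw [inv_smul_smul₀ (sub_ne_zero.2 (show σ a ≠ a from hc)), sub_sub_cancel] at e3
  exact h0 e3

theorem tor_bc {O M : Type} [CommRing O] [AddCommGroup M] {p : ℕ} (h : ∀ v : M, ∃ k, p ^ k • v = 0)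
    (v : O ⊗[ℤ] M) : ∃ k, p ^ k • v = 0 := by
  induction v using TensorProduct.induction_on with
  | zero => exact ⟨0, smul_zero _⟩
  | tmul o v => exact (h v).imp fun k hk => by rw [← TensorProduct.tmul_smul, hk,
      TensorProduct.tmul_zero]
  | add a b ha hb =>
    obtain ⟨k, hk⟩ := ha
    obtain ⟨l, hl⟩ := hb
    exact ⟨k + l, by rw [smul_add, pow_add, mul_smul _ _ b, hl, mul_comm, mul_smul, hk, smul_zero,
      smul_zero, add_zero]⟩

section

variable {J O : Type} [Fintype J] [CommRing O]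

/-- the operator with matrix coefficients -/
def Fm (τ : G → Matrix J J O) (f : G →₀ O) : G →₀ Matrix J J O :=
  Finsupp.onFinset f.support (fun g => f g • τ g) fun _ h =>
    Finsupp.mem_support_iff.2 (left_ne_zero_of_smul h)

theorem opM_Fm {M : Type} [AddCommGroup M] [Module O M] (a : Representation O G M)
    (τ : G → Matrix J J O) (f : G →₀ O) (φ : J → M) (j : J) :
    opM a (Fm τ f) φ j = ∑ g ∈ f.support, f g • ∑ i, τ g j i • a g (φ i) := by
  rw [opM, Fm, Finsupp.onFinset_sum _ fun _ => by simp]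
  simp only [Matrix.smul_apply, smul_eq_mul, mul_smul, Finset.smul_sum]

end

/-! ## the weight at one place -/

/-- the indices -/
abbrev Ju (m : ℕ) : Type := Unit → Fin (2 * m + 1)

section

variable {p : ℕ} [Fact p.Prime] (x : T.Lc ℤ_[p] ℚ_[p]) {O C : Type} [CommRing O] [Field C]
  (χ : ℚ_[p] →+* C) (ψ : O →+* C) (m : ℕ)

/-- the weight as a representation of the adelic group -/
def sg : G →* Matrix (Ju m) (Ju m) C :=
  wm m fun _ => (Matrix.GeneralLinearGroup.map χ).comp x.π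

/-- its integral form -/
def ta (u : G) : Matrix (Ju m) (Ju m) O := fun i j => Function.invFun ψ (sg x χ m u i j)

variable {x χ ψ m} [Algebra ℤ_[p] O] (hψ : Function.Injective ψ)
  (hc : ∀ y : ℤ_[p], ψ (algebraMap _ O y) = χ y)
include hc

theorem sg_eq {k : GL (Fin 2) ℤ_[p]} {z : GL (Fin 2) ℚ_[p]} (hz : z ∈ Zl ℚ_[p]) {u : G}
    (e : gK ℚ_[p] k * z = x.π u) : sg x χ m u =
      (W m fun _ : Unit => Matrix.GeneralLinearGroup.map (algebraMap ℤ_[p] O) k).map ψ := by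
  rw [← W_map, sg, wm_eq]
  refine W_congr m fun _ => ?_
  rw [show Matrix.GeneralLinearGroup.map ψ (Matrix.GeneralLinearGroup.map (algebraMap ℤ_[p] O) k) =
    Matrix.GeneralLinearGroup.map χ (gK ℚ_[p] k) from Units.ext (Matrix.ext fun _ _ => hc _),
    MonoidHom.comp_apply, ← e, ← map_inv, ← map_mul, Subgroup.mem_center_iff.1 hz,
    mul_inv_cancel_right]
  exact (Matrix.GeneralLinearGroup.mem_center_iff_val_mem_range_scalar.1
    (Matrix.GeneralLinearGroup.map_center_le χ hz)).imp fun _ h => h.symm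

include hψ

theorem ta_eq {k : GL (Fin 2) ℤ_[p]} {z : GL (Fin 2) ℚ_[p]} (hz : z ∈ Zl ℚ_[p]) {u : G}
    (e : gK ℚ_[p] k * z = x.π u) : ta x χ ψ m u =
      W m fun _ : Unit => Matrix.GeneralLinearGroup.map (algebraMap ℤ_[p] O) k := by
  ext i j
  rw [ta, sg_eq hc hz e]
  exact Function.leftInverse_invFun hψ _

theorem ta_map {u : G} (h : x.π u ∈ KK ℤ_[p] ℚ_[p] ⊔ Zl ℚ_[p]) :
    (ta x χ ψ m u).map ψ = sg x χ m u := by
  obtain ⟨_, ⟨k, rfl⟩, z, hz, e⟩ := Subgroup.mem_sup_of_normal_right.1 h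
  rw [ta_eq hψ hc hz e, sg_eq hc hz e]

theorem ta_one {u : G} (h : x.π u = 1) : ta x χ ψ m u = 1 := by
  rw [ta_eq hψ hc (k := 1) (one_mem _) (by rw [h, map_one, mul_one]), map_one]
  exact map_one (W m)

theorem ta_con {n : ℕ} {u : G} (h : x.π u ∈ Km ℤ_[p] ℚ_[p] n ⊔ Zl ℚ_[p]) (i j : Ju m) :
    (p : O) ^ n ∣ (ta x χ ψ m u - 1) i j := by
  obtain ⟨_, ⟨k, hk, rfl⟩, z, hz, e⟩ := Subgroup.mem_sup_of_normal_right.1 h
  let q := Ideal.Quotient.mk (Ideal.span {(p : O) ^ n})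
  have e1 : Matrix.GeneralLinearGroup.map q
      (Matrix.GeneralLinearGroup.map (algebraMap ℤ_[p] O) k) = 1 := by
    ext a b
    have : k.val a b - (1 : Matrix (Fin 2) (Fin 2) ℤ_[p]) a b ∈
        IsLocalRing.maximalIdeal ℤ_[p] ^ n := Ideal.Quotient.eq.1
      ((congrArg (fun y : GL (Fin 2) _ => y.val a b) (MonoidHom.mem_ker.1 hk)).trans
        (congrFun (congrFun (map_one (Ideal.Quotient.mk _).mapMatrix) a) b).symm)
    rw [PadicInt.maximalIdeal_eq_span_p, Ideal.span_singleton_pow, Ideal.mem_span_singleton] at this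
    have := Ideal.Quotient.eq_zero_iff_mem.2
      (Ideal.mem_span_singleton.2 (map_dvd (algebraMap ℤ_[p] O) this))
    rw [map_pow, map_natCast, map_sub, map_sub, sub_eq_zero] at this
    exact this.trans (congrFun (congrFun (map_one (q.comp (algebraMap ℤ_[p] O)).mapMatrix) a) b)
  have e2 := W_map q m fun _ : Unit => Matrix.GeneralLinearGroup.map (algebraMap ℤ_[p] O) k
  rw [e1, ← ta_eq hψ hc hz e, show (fun _ : Unit => (1 : GL (Fin 2) _)) = 1 from rfl, map_one] at e2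
  exact Ideal.mem_span_singleton.1 (Ideal.Quotient.eq.1 ((congrFun (congrFun e2 i) j).symm.trans
    (congrFun (congrFun (map_one q.mapMatrix) i) j).symm))

/-- **the weight at one place** -/
theorem wd1 {A : T.Ax} {ι : Qb →+* C} {ρ : G0 →* GL (Fin 2) Qb}
    (hr : ∀ γ, Matrix.GeneralLinearGroup.map χ (x.π (T.j γ)) =
      Matrix.GeneralLinearGroup.map ι (ρ γ)) (hU : U ∈ T.Lev)
    (hx : ∀ u ∈ U, x.π u ∈ KK ℤ_[p] ℚ_[p] ⊔ Zl ℚ_[p])
    (aw : ∀ᶠ i in A.F, ∀ g, x.π ((A.w i).ι g) = 1) {Ω : Type} {f : Ω → G →₀ Qb} {f' : Ω → G →₀ O}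
    {c : Ω → O} (hf : ∀ ω g, ψ (f' ω g) = ι (f ω g))
    (hs : ∀ ω g, f ω g ≠ 0 → x.π g ∈ KK ℤ_[p] ℚ_[p] ⊔ Zl ℚ_[p])
    (inv : ∀ ω (φ : G → Qb), Inv U φ → Inv U (op (f ω) φ))
    (nE : ∃ᶠ i in A.F, ∃ ω, f ω = (A.w i).Tg Qb ∧ IsUnit (c ω ^ 2 - ((A.l i : ℕ) + 1 : O) ^ 2)) :
    A.Wd p ι ψ (wm m fun _ : Unit => ρ) (sg x χ m) U (ta x χ ψ m) f
      (fun ω => Fm (ta x χ ψ m) (f' ω)) c where
  inj := hψ
  lev := hU
  rat := ⟨1, 1, one_mul 1, fun γ => by
    rw [one_mul, mul_one, wm_eq, ← W_map, sg, wm_eq]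
    exact congrArg _ (funext fun _ => hr γ)⟩
  int u hu := ta_map hψ hc (hx u hu)
  con k := ⟨_, x.lev U hU k, fun u _ h => ta_con hψ hc ((x.at_set _ U).2 u h)⟩
  aw := aw.mono fun i h g => by
    rw [← ta_map hψ hc (h g ▸ one_mem _), ta_one hψ hc (h g), Matrix.map_one _ ψ.map_zero ψ.map_one]
  opi ω g := by
    by_cases h : f ω g = 0
    · rw [h, map_zero, zero_smul, show Fm (ta x χ ψ m) (f' ω) g = 0 from
        smul_eq_zero_of_left (hψ (by rw [hf, h, map_zero, map_zero])) _, Matrix.map_zero _ ψ.map_zero]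
    · rw [← ta_map hψ hc (hs ω g h), ← hf]
      exact Matrix.ext fun _ _ => map_mul ψ _ _
  inv := inv
  nE := nE

omit [Fact p.Prime] hc hψ in
theorem fix_of {J M : Type} [Fintype J] [DecidableEq J] [AddCommGroup M] [Module O M]
    {t : Matrix J J O} {n : ℕ} (h : ∀ i j, (p : O) ^ n ∣ (t - 1) i j) {φ : J → M} (h0 : ∀ i, p ^ n • φ i = 0) (j : J) :
    ∑ i, t j i • φ i = φ j := by
  rw [← sub_eq_zero, ← Finset.sum_ite_eq_of_mem Finset.univ j φ (Finset.mem_univ j),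
    ← Finset.sum_sub_distrib]
  refine Finset.sum_eq_zero fun i _ => ?_
  obtain ⟨c, hc⟩ := h j i
  rw [Matrix.sub_apply, Matrix.one_apply] at hc
  rw [← one_smul O (φ i), ← ite_zero_smul, one_smul, ← sub_smul, hc, mul_comm, mul_smul, ← Nat.cast_pow, Nat.cast_smul_eq_nsmul, h0, smul_zero]

/-- from weighted vectors to fixed vectors -/
theorem vec_of {M : Type} [AddCommGroup M] [Module O M] {a : Representation O G M}
    (tor : ∀ v : M, ∃ k, p ^ k • v = 0) {Ω : Type} {f : Ω → G →₀ O} {c : Ω → O}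
    (hs : ∀ ω g, f ω g ≠ 0 → x.π g = 1)
    (h : Occ a U (ta x χ ψ m) (fun ω => Fm (ta x χ ψ m) (f ω)) c) {o : O} (ho : o ≠ 0) :
    ∃ n, ∃ v ∈ Fv a (U ⊓ (Km ℤ_[p] ℚ_[p] n ⊔ Zl ℚ_[p]).comap x.π),
      (∀ ω, ∑ g ∈ (f ω).support, f ω g • a g v = c ω • v) ∧ o • v ≠ 0 := by
  obtain ⟨φ, h1, h2, h3⟩ := h o ho
  obtain ⟨j, hj⟩ := Function.ne_iff.1 h3
  obtain ⟨n, hn⟩ : ∃ n, ∀ i, p ^ n • φ i = 0 := by
    choose k hk using fun i => tor (φ i)
    exact ⟨∑ i, k i, fun i => by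
      rw [← Finset.add_sum_erase _ k (Finset.mem_univ i), pow_add, mul_comm, mul_smul, hk,
        smul_zero]⟩
  refine ⟨n, φ j, fun u hu => ?_, fun ω => ?_, hj⟩
  · exact (fix_of (φ := fun i => a u (φ i)) (ta_con hψ hc hu.2)
      (fun i => by rw [← map_nsmul, hn, map_zero]) j).symm.trans (h1 u hu.1 j)
  · rw [← Pi.smul_apply, ← h2 ω, opM_Fm]
    refine Finset.sum_congr rfl fun g hg => ?_
    simp only [ta_one hψ hc (hs ω g (Finsupp.mem_support_iff.1 hg)), Matrix.one_apply, ite_smul,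
      one_smul, zero_smul, Finset.sum_ite_eq, Finset.mem_univ, if_true]

end

end Vale.Agent.P022K.Sh.Wq
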