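import Vale.Agent.P022K.QT.WqSt
import Vale.Agent.P022K.QT.ThK
import Vale.Agent.P022K.QT.Dic
import Vale.Agent.P022K.WB.Wk
import Vale.Agent.P022K.WB.Wps
import Vale.Agent.P022K.Top.Gk0

/-!
# P022K, block QT: the cusp functional on completed cohomology
-/

set_option autoImplicit false
set_option linter.all false

open Filter

noncomputable section

namespace Vale.Agent.P022K.QT

open Vale.Agent.P022 Vale.Agent.P022K.Sh WB Vale.Agent.P022.H218.L3 Sh.Tw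
open Vale.Agent.P027M.M (Mdl FS FF cv mkF cv_inj M2)

theorem adm_loc {G0 G : Type} [Group G0] [Group G] {T : Tw G0 G} {p : ℕ} [Fact p.Prime]
    {Λ M H : Type} [CommRing Λ] [AddCommGroup M] [Module Λ M] [Group H] [TopologicalSpace H]
    {a : Representation Λ G M} {g : Representation Λ H M} (c : T.CC p a g)
    (w : T.Lc ℤ_[p] ℚ_[p]) (v : M) : ∃ P, Adm (p := p) (a.comp w.ι) P ∧ v ∈ P := by
  obtain ⟨U, hU, hv⟩ := c.sm v
  refine ⟨Fv a (U ⊓ w.π.ker), ⟨fun x v hv u hu => ?_, fun v _ => ?_, fun v _ => c.tor v,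
    (c.adm _ (w.lev U hU.1 1)).subset fun v hv =>
      ⟨(sup_le (sup_le hv.1 fun z hz => LinearMap.congr_fun (c.z z hz) v) (by
        rintro _ ⟨g, hg, rfl⟩
        exact hv.2.2 g (Kn_le_I1 one_pos ((Top.Gk.Km_eq 1).le hg))) : _ ≤ Top.Gk.Sb a v),
        hv.2.1⟩⟩, fun u hu => hv u hu.1⟩
  · exact (LinearMap.congr_fun ((w.com x u hu.2).map a).eq v).symm.trans
      (congrArg (a (w.ι x)) (hv u hu))
  · obtain ⟨U, hU, hv⟩ := c.sm v
    obtain ⟨m, hm⟩ := w.op U hU.1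
    exact ⟨m, fun g hg => hv _ (hm ((Top.Gk.Km_eq m).ge hg))⟩

/-! ## matrices -/

theorem nn_Km {l : Pr} {m : ℕ} {c : ℚ_[l]} (h : ‖c‖ ≤ ‖((l : ℕ) : ℚ_[l]) ^ m‖) :
    nn c ∈ Km ℤ_[l] ℚ_[l] m := (Top.Gk.Km_eq m).ge (nn_Kn (h.trans_eq (norm_pow_p m)))

theorem dO_Km {l : Pr} {m : ℕ} {c : ℤ_[l]ˣ} (h : PadicInt.toZModPow m (c : ℤ_[l]) = 1) :
    dO ℚ_[l] c ∈ Km ℤ_[l] ℚ_[l] m := by
  have e : ‖(c : ℤ_[l]) - 1‖ ≤ (l : ℝ) ^ (-m : ℤ) := by
    rw [PadicInt.norm_le_pow_iff_mem_span_pow, ← PadicInt.ker_toZModPow, RingHom.mem_ker, map_sub,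
      h, map_one, sub_self]
  refine mem_Km.2 ⟨dO_mem c, fun i k => ?_⟩
  fin_cases i <;> fin_cases k
  · exact e
  all_goals simp [dO, dg_val]

theorem dO_pow {l : Pr} (c : ℤ_[l]ˣ) (i : ℕ) : dO ℚ_[l] (c ^ i) = dO ℚ_[l] c ^ i := by
  induction i with
  | zero => rw [pow_zero, pow_zero, dO_one]
  | succ i ih => rw [pow_succ, pow_succ, dO_mul, ih]

theorem dd_dO {l : Pr} (c : ℤ_[l]ˣ) : dd (uq c) 1 = dO ℚ_[l] c := Units.ext rfl

theorem jl_nq (l : Pr) (b : ℚ) : ev l (TQ.j (nq b)) = nn (b : ℚ_[l]) := by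
  ext i k
  fin_cases i <;> fin_cases k <;> simp [TQ, nq, ev_jq, Tq.eU]

variable (p : Pr)

theorem unit_ne {l : Pr} (h : l ≠ p) : IsUnit ((p : ℕ) : ℤ_[l]) :=
  PadicInt.isUnit_iff.2 (PadicInt.norm_natCast_eq_one_iff.2
    ((Nat.coprime_primes l.2 p.2).2 fun e => h (Subtype.ext e)))

/-- `diag (p, 1)` away from `p` -/
def Dp : G := dU fun l => if h : l = p then 1 else (unit_ne p h).unit

/-- `diag (p, 1)` -/
def Jp : G0 := gz !![((p : ℕ) : ℤ), 0; 0, 1] (det_tp p)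

theorem ev_Dp : ev p (Dp p) = 1 := by rw [Dp, ev_dU, dif_pos rfl, dO_one]

theorem j_Jp : TQ.j (Jp p) = io p (tt p) * Dp p := G_ext fun l => by
  rw [map_mul]
  by_cases e : l = p
  · subst e
    rw [ev_io, ev_Dp, mul_one]
    ext i k
    fin_cases i <;> fin_cases k <;> simp [TQ, Jp, ev_jq, gz_val]
  · rw [ev_io_ne e, one_mul, Dp, ev_dU, dif_neg e]
    ext i k
    fin_cases i <;> fin_cases k <;> simp [TQ, Jp, ev_jq, gz_val, dO, dg_val]

theorem j_Jp_pow (i : ℕ) : TQ.j (Jp p) ^ i = io p (tt p ^ i) * Dp p ^ i := by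
  rw [j_Jp, (io_com p _ _ (ev_Dp p)).mul_pow, map_pow]

/-- the tame level `M` -/
def Tm (M : ℕ) : Subgroup G := KN M ⊓ (ev p).ker

theorem tame {M i : ℕ} (hM : 0 < M) {σ : GQ} (h : ∀ ζ : Qb, ζ ^ M = 1 → σ ζ = ζ ^ (p : ℕ) ^ i) :
    dl σ * io p (dO ℚ_[p] (chi p σ)) * Dp p ^ i ∈ Tm p M := by
  have e0 : ev p (dl σ * io p (dO ℚ_[p] (chi p σ)) * Dp p ^ i) = 1 := by
    rw [map_mul, map_mul, map_pow, ev_Dp, ev_io, dl, ev_dU, ← dO_mul, inv_mul_cancel, dO_one,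
      one_pow, mul_one]
  refine ⟨mem_PU.2 fun l => ?_, e0⟩
  by_cases e : l = p
  · subst e
    rw [e0]
    exact one_mem _
  rw [map_mul, map_mul, map_pow, ev_io_ne e, mul_one, dl, Dp, ev_dU, ev_dU, dif_neg e, ← dO_pow,
    ← dO_mul]
  have : ∀ i, HasEnoughRootsOfUnity Qb ((l : ℕ) ^ i) := fun i => by
    have : NeZero (((l : ℕ) ^ i : ℕ) : Qb) := ⟨by exact_mod_cast (NeZero.ne ((l : ℕ) ^ i))⟩
    infer_instance
  obtain ⟨ζ, hζ⟩ := HasEnoughRootsOfUnity.exists_primitiveRoot Qb ((l : ℕ) ^ M.factorization l)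
  have e1 := (h ζ (hζ.pow_eq_one_iff_dvd M |>.2 (Nat.ordProj_dvd M l))).symm.trans
    (cyclotomicCharacter.spec l σ.toRingEquiv ζ hζ.pow_eq_one)
  rw [(hζ.isOfFinOrder (pow_pos l.2.pos _).ne').pow_eq_pow_iff_modEq, ← hζ.eq_orderOf,
    ← ZMod.natCast_eq_natCast_iff, ZMod.natCast_zmod_val] at e1
  refine dO_Km ?_
  rw [Units.val_mul, Units.val_pow_eq_pow_val, IsUnit.unit_spec, map_mul, ← Nat.cast_pow,
    map_natCast, e1, ← map_mul]
  exact (congrArg _ (chi l σ).inv_mul).trans (map_one _)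

theorem ev_Tm {U : Subgroup G} (hU : U ∈ TQ.Lev) :
    ∀ᶠ j : ℕ in atTop, Tm p ((p : ℕ) ^ (j + 1).factorial - 1) ≤ U := by
  obtain ⟨⟨N, hN, le⟩, -⟩ := hU
  have co := Nat.coprime_ordCompl p.2 hN.ne'
  filter_upwards [eventually_ge_atTop (ordCompl[(p : ℕ)] N).totient] with j hj x hx
  obtain ⟨t, ht⟩ := Nat.dvd_factorial (Nat.totient_pos.2 (Nat.ordCompl_pos p hN.ne'))
    (hj.trans j.le_succ)
  have h1 := (Nat.ModEq.pow_totient co).pow t
  rw [← pow_mul, ← ht, one_pow] at h1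
  have h2 := KN_anti (Hon.N_pos (Nat.factorial_pos _))
    ((Nat.modEq_iff_dvd' (Nat.one_le_pow _ _ p.2.pos)).1 h1.symm) hx.1
  refine le (KN_le N (mem_PU.2 fun l => ?_))
  by_cases e : l = p
  · subst e
    rw [show ev l x = 1 from hx.2]
    exact one_mem _
  · have := mem_PU.1 h2 l
    rwa [Nat.factorization_ordCompl, Finsupp.erase_ne fun k => e (Subtype.ext k)] at this

theorem ex_frac (b : ℚ_[p]) (n : ℕ) :
    ∃ (m : ℤ) (k : ℕ), ‖b - m / (p : ℕ) ^ k‖ ≤ ‖((p : ℕ) : ℚ_[p]) ^ n‖ := by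
  obtain ⟨k, hk⟩ := pow_unbounded_of_one_lt ‖b‖ (show (1 : ℝ) < (p : ℕ) by exact_mod_cast p.2.one_lt)
  have p0 : ((p : ℕ) : ℚ_[p]) ^ k ≠ 0 := pow_ne_zero _ (p_ne p)
  obtain ⟨y, hy⟩ := exists_nat_near (x := b * ((p : ℕ) : ℚ_[p]) ^ k) (by
    rw [norm_mul, norm_pow, Padic.norm_p, inv_pow, mul_inv_le_iff₀ (by have := p.2.pos; positivity),
      one_mul]
    exact hk.le) (n + k)
  refine ⟨(y : ℕ), k, ?_⟩
  generalize (y : ℕ) = t at hy
  rw [← norm_pow_p, pow_add, norm_mul, ← div_le_iff₀ (norm_pos_iff.2 p0), ← norm_div, sub_div,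
    mul_div_cancel_right₀ _ p0] at hy
  rwa [Int.cast_natCast]

theorem ex_nq (b : ℚ_[p]) {U : Subgroup G} (hU : U ∈ TQ.Lev) (n : ℕ) : ∃ (m : ℤ) (k : ℕ),
    ‖b - m / (p : ℕ) ^ k‖ ≤ ‖((p : ℕ) : ℚ_[p]) ^ n‖ ∧
      (TQ.j (nq (m / (p : ℕ) ^ k)))⁻¹ * io p (nn b) ∈ U := by
  obtain ⟨⟨N, hN, le⟩, -⟩ := hU
  have N0 : (N : ℚ_[p]) ≠ 0 := Nat.cast_ne_zero.2 hN.ne'
  have nN : ∀ l : Pr, ‖(N : ℚ_[l])‖ ≤ ‖((l : ℕ) : ℚ_[l]) ^ N.factorization l‖ := fun l => by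
    obtain ⟨c, hc⟩ := Nat.ordProj_dvd N l
    conv_lhs => rw [hc, Nat.cast_mul, Nat.cast_pow, norm_mul]
    exact mul_le_of_le_one_right (norm_nonneg _) (norm_nat c)
  obtain ⟨m, k, h⟩ := ex_frac p (b / N) n
  have e : b - ((N * m : ℤ) : ℚ_[p]) / (p : ℕ) ^ k = N * (b / N - m / (p : ℕ) ^ k) := by
    push_cast
    field_simp
  have h1 := h.trans ((norm_pow_p n).trans_le (rad_le_one n))
  refine ⟨N * m, k, ?_, le (KN_le N (mem_PU.2 fun l => ?_))⟩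
  · rw [e]
    exact nmul1 (norm_nat N) h
  · rw [map_mul, map_inv, jl_nq, ← nn_neg]
    by_cases e1 : l = p
    · subst e1
      rw [ev_io, ← nn_add]
      refine nn_Km ?_
      rw [neg_add_eq_sub, Rat.cast_div, Rat.cast_intCast, Rat.cast_pow, Rat.cast_natCast, e]
      exact nmul2 (nN l) h1
    · rw [ev_io_ne e1, mul_one]
      refine nn_Km ?_
      have h2 : ‖((p : ℕ) : ℚ_[l])‖ = 1 := PadicInt.isUnit_iff.1 (unit_ne p e1)
      rw [norm_neg, Rat.cast_div, Rat.cast_intCast, Rat.cast_pow, Rat.cast_natCast, norm_div,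
        norm_pow, h2, one_pow, div_one, Int.cast_mul, Int.cast_natCast]
      exact nmul2 (nN l) (Padic.norm_int_le_one m)

/-! ## the functional -/

variable {p} {X : Mdl} {A : TQ.Ax} {H : Type} [Group H] [TopologicalSpace H] {u : H → GQ}
  {M : Type} [AddCommGroup M] {a : Representation ℤ G M} {g : Representation ℤ H M}
  {im : ∀ k U, TQ.Hn ((p : ℕ) ^ k) U →+ M} {C : Type} [NontriviallyNormedField C]
  [IsUltrametricDist C] [CharZero C] {e : Qb →+* C} {ψ ψ' : ℚ_[p] → C} {lg : FF → ℤ → C}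

open Classical in
/-- the logarithm of the value at `1` -/
def La (lg : FF → ℤ → C) (φ : G → Mer) : ℤ → C := if h : φ 1 ∈ FS then lg (mkF _ h) else 0

theorem La_eq {φ : G → Mer} {f : FF} (h : cv f = φ 1) : La lg φ = lg f := by
  rw [La, dif_pos (h ▸ P027M.M.cv_mem f)]
  exact congrArg lg (cv_inj h.symm)

theorem ne_of_cv {f : FF} {y : Mer} (h : cv f = y) (h0 : y ≠ 0) : f ≠ 0 := fun e =>
  h0 (by rw [← h, e, map_zero])

theorem Lq.kl (L : Lq X p e ψ lg) (hT : THM X) : WB.Kl TQ p (fun s => th X (u s)) FV (La lg) where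
  gal U _ φ _ s h := fv_of fun e => h 1 (congrFun e 1)
  root U hU φ _ y hy k h0 f f' := (hT U hU.1).2 _ (pow_pos p.2.pos k) y hy fun x => by
    have := mul_mem (f.inv x) (f' x)
    rwa [Pi.inv_apply, Pi.mul_apply, inv_mul_cancel_left₀ (h0 x)] at this
  mul U _ φ _ φ' _ h h' f f' := ⟨f.mul f', by
    rw [La_eq (f := mkF _ (f 1) * mkF _ (f' 1)) (map_mul cv _ _), La_eq (f := mkF _ (f 1)) rfl,
      La_eq (f := mkF _ (f' 1)) rfl, L.mul _ _ (ne_of_cv rfl (h 1)) (ne_of_cv rfl (h' 1))]⟩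
  mem U _ φ _ h f := by
    rw [La_eq (f := mkF _ (f 1)) rfl]
    exact L.mem _ (ne_of_cv rfl (h 1))

/-- Kummer functions with algebraic values -/
theorem ex_kd (K : A.Kk p (fun s => th X (u s)) a g im) (v : M) (s : H) {U₀ : Subgroup G}
    (h0 : U₀ ∈ TQ.Lev) {k : ℕ} (hk : (p : ℕ) ^ k • v = 0) :
    ∃ U ≤ U₀, ∃ φ, FV φ ∧ A.Kd im U k φ v ∧ A.Kd im U k (th X (u s) φ) (g s v) := by
  obtain ⟨U, le, φ, d, d'⟩ := K.ex v s h0 hk
  exact ⟨U, le, φ, fv_of fun e => d'.ne 1 (congrFun e 1), d, d'⟩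

variable (A im lg) in
/-- the cusp functional -/
def Cf (W : M →+ Y p C) : Prop := ∀ U k φ v x f, A.Kd im U k φ v → FV φ → cv f = φ x →
  W (a x v) = cl p k (lg f)

variable (L : Lq X p e ψ lg) (K : A.Kk p (fun s => th X (u s)) a g im) {W : M →+ Y p C}

include L K

theorem Lq.exW (hT : THM X) : ∃ W, Cf A im lg (a := a) W := by
  obtain ⟨W, h⟩ := (L.kl hT).exW K
  exact ⟨W, fun U k φ v x f d f' e => (h _ k _ _ (d.rt K x) (f'.rt x)).trans
    (congrArg _ (La_eq (e.trans (congrArg φ (one_mul x).symm))))⟩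

omit L in
theorem Cf.ex (c : Cf A im lg (a := a) W) (v : M) (s : H) : ∃ U k φ f, FV φ ∧ A.Kd im U k φ v ∧
    A.Kd im U k (th X (u s) φ) (g s v) ∧ f ≠ 0 ∧ cv f = φ 1 ∧ W v = cl p k (lg f) := by
  obtain ⟨k, hk⟩ := K.cc.tor v
  obtain ⟨U, -, φ, f, d, d'⟩ := ex_kd K v s (UN_mem one_pos) hk
  exact ⟨U, k, φ, mkF _ (f 1), f, d, d', ne_of_cv rfl (d.ne 1), rfl,
    (congrArg W (LinearMap.congr_fun (map_one a) v)).symm.trans (c U k φ v 1 _ d f rfl)⟩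

omit L in
theorem Cf.rat (c : Cf A im lg (a := a) W) (v : M) (γ : G0) : ∃ k f f', f ≠ 0 ∧ f' ≠ 0 ∧
    cv f' = TQ.act γ (cv f) ∧ W v = cl p k (lg f) ∧ W (a (TQ.j γ) v) = cl p k (lg f') := by
  obtain ⟨U, k, φ, f, h1, d, -, h2, h3, h4⟩ := c.ex K v 1
  refine ⟨k, f, mkF _ (h1 (TQ.j γ)), h2, ne_of_cv rfl (d.ne _), ?_, h4, c U k φ v _ _ d h1 rfl⟩
  rw [h3, ← RU_val (d.mem K) γ 1 (one_mem U), mul_one, mul_one]
  rfl

theorem Cf.n (c : Cf A im lg (a := a) W) (b : ℚ_[p]) (v : M) :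
    W (a (io p (nn b)) v) = L.psi.n b (W v) := by
  obtain ⟨U, k, φ, f, -, d, -, h1, -, h2⟩ := c.ex K v 1
  obtain ⟨n, z, -, hz⟩ := L.mem f h1
  obtain ⟨m, r, h3, h4⟩ := ex_nq p b d.1.1 n
  obtain ⟨k', f₁, f₂, h5, -, h6, h7, h8⟩ := c.rat K v (nq (m / (p : ℕ) ^ r))
  have e1 : W (a (TQ.j (nq (m / (p : ℕ) ^ r))) v) = L.psi.n (m / (p : ℕ) ^ r) (W v) := by
    rw [h7, h8, cl, cl, Psi.n_mk]
    congr 1
    funext i
    rw [Pi.smul_apply, Pi.smul_apply, L.n m r f₁ f₂ h5 h6, smul_eq_mul, smul_eq_mul, mul_left_comm]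
  have e2 : L.psi.n (b - m / (p : ℕ) ^ r) (W v) = W v := by
    rw [h2, cl, Psi.n_mk]
    congr 1
    funext i
    rcases lt_or_ge (i + n) 0 with h | h
    · rw [Pi.smul_apply, hz, lev_neg _ _ _ h, smul_zero, mul_zero]
    · rw [(L.psi.ker _).2, one_mul]
      obtain ⟨t, ht⟩ := Int.eq_ofNat_of_zero_le h
      refine (nmul h3 le_rfl).trans ?_
      rw [← norm_mul, ← zpow_natCast, ← zpow_add₀ (p_ne p), add_comm, ht, zpow_natCast, norm_pow_p]
      exact rad_le_one t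
  rw [← mul_inv_cancel_left (TQ.j (nq (m / (p : ℕ) ^ r))) (io p (nn b)), map_mul,
    Module.End.mul_apply, (d.fv K).1 _ h4, e1]
  conv_lhs => rw [← e2, ← Psi.n_add, add_sub_cancel]

theorem Cf.t (c : Cf A im lg (a := a) W) (i : ℕ) (v : M) :
    W (a (TQ.j (Jp p) ^ i) v) = (Y.phi p C)^[i] (W v) := by
  induction i with
  | zero => rw [pow_zero, map_one]; rfl
  | succ i ih =>
    obtain ⟨k, f, f', -, h1, h2, h3, h4⟩ := c.rat K (a (TQ.j (Jp p) ^ i) v) (Jp p)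
    obtain rfl : f = X.pb _ (det_tp p) f' := cv_inj (by
      rw [X.pb_coe, ← act_gz, h2, ← act_mul, ← Jp, inv_mul_cancel, act_one])
    rw [pow_succ', map_mul, Module.End.mul_apply, h4, Function.iterate_succ_apply', ← ih, h3, cl,
      cl, Y.phi_mk]
    congr 1
    funext j
    rw [Pi.smul_apply, Pi.smul_apply, L.t f' j h1]

theorem Cf.s (c : Cf A im lg (a := a) W) (σ : Iso C) (s : H) (h : ∀ x, e (u s x) = σ.1 (e x))
    (v : M) : W (g s v) = Y.gal σ (W (a (dl (u s)) v)) := by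
  obtain ⟨U, k, φ, -, h1, d, d', -⟩ := c.ex K v s
  have e1 := c U k _ _ 1 _ d' th_fv (th_apply h1 1).symm
  rw [map_one, Module.End.one_apply] at e1
  rw [e1, c U k φ v _ (mkF _ (h1 (dl (u s) * 1))) d h1 (congrArg φ (mul_one _)), cl, cl, Y.gal_mk]
  congr 1
  funext i
  rw [Pi.smul_apply, Pi.smul_apply, L.gal σ _ _ (ne_of_cv rfl (d.ne _)) h, smul_eq_mul,
    smul_eq_mul, map_mul, map_inv₀, map_pow, map_natCast]

variable {Γ : Type} [Group Γ] {act : Γ →* Iso C} {χ : Γ →* ℤ_[p]ˣ} {d : Γ → H} [IsAlgClosed C]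
  (hd : ∀ s x, e (u (d s) x) = (act s).1 (e x)) (hχ : ∀ s, chi p (u (d s)) = χ s)

include hd hχ

/-- the cusp functional is periodic -/
theorem Cf.pg (c : Cf A im lg (a := a) W) (ok : Og ψ act χ) {q : ℕ} (hq : 0 < q) :
    Hon.Pg (p := p) ok (a.comp (io p)) (fun s => g (d s)) (Fv a (Tm p ((p : ℕ) ^ q - 1))) q W := by
  refine ⟨fun b v _ => c.n L K b v, fun v hv => ?_, fun s => ?_⟩
  · have := tame p (i := q) (Hon.N_pos hq) (σ := 1) fun ζ h => by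
      rw [← Nat.sub_add_cancel (Nat.one_le_pow q _ p.2.pos), pow_succ, h, one_mul]
      rfl
    rw [dl_one, map_one, dO_one, map_one, one_mul, one_mul] at this
    rw [← c.t L K, j_Jp_pow, map_mul, Module.End.mul_apply, hv _ this]
    rfl
  · obtain ⟨i, hi⟩ := Hon.exists_frob ok.np (act s) hq
    refine ⟨i, hi, fun v hv => ?_⟩
    have h1 := tame p (i := i) (Hon.N_pos hq) (σ := u (d s)) fun ζ h => e.injective (by
      rw [hd, hi _ (by rw [← map_pow, h, map_one]), map_pow])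
    have h2 : TQ.j (Jp p) ^ i * io p ((tt p)⁻¹ ^ i * dd (uq (χ s)) 1) =
        io p (dO ℚ_[p] (chi p (u (d s)))) * Dp p ^ i := by
      have h3 : ev p (Dp p ^ i) = 1 := by rw [map_pow, ev_Dp, one_pow]
      rw [j_Jp_pow, mul_assoc, ← (io_com p _ _ h3).eq, ← mul_assoc, ← map_mul, inv_pow,
        mul_inv_cancel_left, dd_dO, hχ]
    rw [← c.t L K]
    show _ = W (a _ (a _ (g (d s) v)))
    rw [← Module.End.mul_apply, ← map_mul, h2, ← Module.End.mul_apply, (K.cc.com _ _).eq,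
      Module.End.mul_apply, c.s L K _ _ (hd s), ← Module.End.mul_apply, ← map_mul, ← mul_assoc,
      hv _ h1]

/-- **the common kernel of the functionals** -/
theorem Lq.zero [CompleteSpace C] (hT : THM X) (ok : Og ψ act χ) (ok' : Og ψ' act χ) {v : M}
    (h0 : ∀ W, Wg (p := p) ok' (a.comp (io p)) (fun s => g (d s)) ⊤ W → ∀ x, W (a x v) = 0)
    {U : Subgroup G} {k : ℕ} {φ : G → Mer} (h1 : A.Kd im U k φ v) (h2 : FV φ) {x : G} {f : FF}
    (h3 : cv f = φ x) : ∃ l ∈ BW p C, lg f = (p : ℕ) ^ k • l := by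
  obtain ⟨W, c⟩ := L.exW K hT
  have com : ∀ s y w, g (d s) (a (io p y) w) = a (io p y) (g (d s) w) := fun s y w =>
    (LinearMap.congr_fun (K.cc.com _ _).eq w).symm
  obtain ⟨y, hy⟩ := Wg.of_psi (p := p) (ρ := a.comp (io p)) ok ok' com
  rw [← cl_eq_zero, ← c U k φ v x f h1 h2 h3]
  refine pg_zero (p := p) (adm_loc K.cc (lc p)) (fun z w => LinearMap.congr_fun (K.cc.z _
    ((lc p).cen _ (Subgroup.mem_center_iff.2 fun g => (dd_comm z g).symm))) w)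
    (fun j => Nat.factorial_pos (j + 1)) (fun j => c.pg L K hd hχ ok (Nat.factorial_pos _))
    (fun j y w hw z hz => ?_) (fun j s w hw z hz => ?_) com (fun w => ?_) (K.cc.tor _)
    fun W' h => ?_
  · exact (LinearMap.congr_fun ((io_com p y z hz.2).map a).eq w).symm.trans
      (congrArg (a (io p y)) (hw z hz))
  · exact (LinearMap.congr_fun (K.cc.com _ _).eq w).trans (congrArg (g (d s)) (hw z hz))
  · obtain ⟨U, hU, hw⟩ := K.cc.sm w
    exact (ev_Tm p hU.1).mono fun j le z hz => hw z (le hz)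
  · rw [← h0 _ (hy ⊤ W' (fun _ _ _ => trivial) h) ((io p y)⁻¹ * x)]
    show _ = W' (a _ (a _ v))
    rw [← Module.End.mul_apply, ← map_mul, mul_inv_cancel_left]

end Vale.Agent.P022K.QT
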